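import Mathlib

/-!
# P157: nested log-Laplace recursions

`nest γ μ H d z` is the level `k - d` value: level `k` integrates the leaf variable, and passing from
level `j` to `j - 1` integrates coordinate `j - 1` of `z` (the field of level `j`) with parameter
`lev k j = j / (k + 1)`.  `nestCond` is the matching conditional expectation.
-/

open MeasureTheory Real

namespace Vale.Agent.P157.Rsb

/-- The parameter of level `l` on the grid with `k` levels. -/
noncomputable def lev (k l : ℕ) : ℝ := l / (k + 1)

/-- The mass of each branch level. -/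
noncomputable def mass (k : ℕ) : ℝ := 1 / (k + 1)

variable {k : ℕ} {Z X : Type} [MeasurableSpace Z] [MeasurableSpace X]

/-- Replace the coordinate with number `i`. -/
def put (z : Fin k → Z) (i : ℕ) (y : Z) : Fin k → Z := fun a => if (a : ℕ) = i then y else z a

/-- Nested log-Laplace transform; `d` counts the levels already integrated. -/
noncomputable def nest (γ : Measure Z) (μ : Measure X) (H : (Fin k → Z) → X → ℝ) :
    ℕ → (Fin k → Z) → ℝ
  | 0, z => log (∫ x, exp (H z x) ∂μ)
  | d + 1, z =>
    log (∫ y, exp (lev k (k - d) * nest γ μ H d (put z (k - d - 1) y)) ∂γ) / lev k (k - d)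

/-- The value at level `j`. -/
noncomputable def val (γ : Measure Z) (μ : Measure X) (H : (Fin k → Z) → X → ℝ) (j : ℕ) :
    (Fin k → Z) → ℝ :=
  nest γ μ H (k - j)

/-- Conditional expectation after `d` integrated levels. -/
noncomputable def nestCond (γ : Measure Z) (μ : Measure X) (H φ : (Fin k → Z) → X → ℝ) :
    ℕ → (Fin k → Z) → ℝ
  | 0, z => (∫ x, φ z x * exp (H z x) ∂μ) / ∫ x, exp (H z x) ∂μ
  | d + 1, z =>
    (∫ y, nestCond γ μ H φ d (put z (k - d - 1) y) *
        exp (lev k (k - d) * nest γ μ H d (put z (k - d - 1) y)) ∂γ) /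
      ∫ y, exp (lev k (k - d) * nest γ μ H d (put z (k - d - 1) y)) ∂γ

/-- The conditional expectation given the levels up to `j`. -/
noncomputable def cnd (γ : Measure Z) (μ : Measure X) (H φ : (Fin k → Z) → X → ℝ) (j : ℕ) :
    (Fin k → Z) → ℝ :=
  nestCond γ μ H φ (k - j)

/-- Two leaves that branch after level `j`. -/
noncomputable def pairCnd (γ : Measure Z) (μ : Measure X) (H : (Fin k → Z) → X → ℝ)
    (ψ : (Fin k → Z) → X → (Fin k → Z) → X → ℝ) (j : ℕ) (z : Fin k → Z) : ℝ :=
  cnd γ μ H (fun z₁ x₁ => cnd γ μ H (ψ z₁ x₁) j z) j z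

end Vale.Agent.P157.Rsb
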