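import Vale.Agent.P157.Defs
import Vale.Agent.P157.Rsb.Nest

/-!
# P157: perturbed systems, overlap paths and the variational formula
-/

open MeasureTheory ProbabilityTheory Real

namespace Vale.Agent.P157.Rsb

/-- The standard Gaussian measure on finite families. -/
noncomputable def stdG (ι : Type) [Fintype ι] : Measure (ι → ℝ) :=
  Measure.pi fun _ => gaussianReal 0 1

instance stdG_isProb (ι : Type) [Fintype ι] : IsProbabilityMeasure (stdG ι) := by
  unfold stdG; infer_instance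

/-- A scalar product on families. -/
def sdot {n : ℕ} (a b : Fin n → ℝ) : ℝ := ∑ i, a i * b i

/-- The leaf space of a system with a pattern map, a field map and one auxiliary coordinate. -/
structure Leaf (n : ℕ) where
  /-- configurations -/
  X : Type
  [mX : MeasurableSpace X]
  /-- their law -/
  μ : Measure X
  [prob : IsProbabilityMeasure μ]
  /-- the vector seen by patterns -/
  pat : X → Fin n → ℝ
  /-- the vector seen by the perturbing fields -/
  fld : X → Fin n → ℝ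
  /-- the auxiliary coordinate -/
  aux : X → ℝ
  /-- the deterministic part -/
  det : X → ℝ
  pat_meas : Measurable pat
  fld_meas : Measurable fld
  aux_meas : Measurable aux
  det_meas : Measurable det
  bdd : ∃ B, ∀ x, (∀ i, |pat x i| ≤ B) ∧ (∀ i, |fld x i| ≤ B) ∧ |aux x| ≤ B ∧ |det x| ≤ B

attribute [instance] Leaf.mX Leaf.prob

/-- One level of Gaussian fields: the coordinates of the field and one auxiliary coordinate. -/
abbrev FieldIdx (n : ℕ) := Fin n ⊕ Unit

/-- The Hamiltonian: patterns, fields of amplitudes `σ l * √N` and `β l` at level `l`, compensation. -/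
noncomputable def ham {n M k : ℕ} (S : Leaf n) (f : ℝ → ℝ) (N : ℝ) (σ β : ℕ → ℝ)
    (g : Fin M → Fin n → ℝ) (z : Fin k → FieldIdx n → ℝ) (x : S.X) : ℝ :=
  ∑ a, f (sdot (g a) (S.pat x))
    + ∑ l : Fin k, (σ (l + 1) * √N * sdot (fun i => z l (.inl i)) (S.fld x)
        + β (l + 1) * z l (.inr ()) * S.aux x)
    - N / 2 * (∑ l : Fin k, σ (l + 1) ^ 2) * sdot (S.fld x) (S.fld x) + S.det x

/-- The expected value at the root, per unit of `N`. -/
noncomputable def free {n : ℕ} (S : Leaf n) (f : ℝ → ℝ) (M k : ℕ) (N : ℝ) (σ β : ℕ → ℝ) : ℝ :=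
  (∫ g, val (stdG (FieldIdx n)) S.μ (ham (k := k) S f N σ β g) 0 (fun _ _ => 0) ∂patterns M n) / N

/-- Expectation of an observable in the tree measure. -/
noncomputable def gib {n k : ℕ} (S : Leaf n) (f : ℝ → ℝ) (M : ℕ) (N : ℝ) (σ β : ℕ → ℝ)
    (φ : (Fin M → Fin n → ℝ) → (Fin k → FieldIdx n → ℝ) → S.X → ℝ) : ℝ :=
  ∫ g, cnd (stdG (FieldIdx n)) S.μ (ham S f N σ β g) (φ g) 0 (fun _ _ => 0) ∂patterns M n

/-- Expectation of an observable of two leaves that branch after level `j`. -/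
noncomputable def gibPair {n k : ℕ} (S : Leaf n) (f : ℝ → ℝ) (M : ℕ) (N : ℝ) (σ β : ℕ → ℝ) (j : ℕ)
    (ψ : (Fin M → Fin n → ℝ) → S.X → S.X → ℝ) : ℝ :=
  gib (k := k) S f M N σ β fun g z _ =>
    pairCnd (stdG (FieldIdx n)) S.μ (ham S f N σ β g) (fun _ x _ y => ψ g x y) j z

/-- The mean overlap of the field vectors at branch level `j`; level `0` is put equal to zero. -/
noncomputable def qOf {n : ℕ} (S : Leaf n) (f : ℝ → ℝ) (M k : ℕ) (N : ℝ) (σ β : ℕ → ℝ) (j : ℕ) : ℝ :=
  if j = 0 then 0 else gibPair (k := k) S f M N σ β j fun _ x y => sdot (S.fld x) (S.fld y)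

/-- A monotone overlap path on the grid. -/
def IsPath (k : ℕ) (q : ℕ → ℝ) : Prop := q 0 = 0 ∧ (∀ j < k, q j ≤ q (j + 1)) ∧ q k ≤ 1

/-- The weighted tail of a path. -/
noncomputable def tail (k : ℕ) (q : ℕ → ℝ) (j : ℕ) : ℝ := mass k * ∑ l ∈ Finset.Icc j k, q l

/-- The one-pattern functional of a path. -/
noncomputable def phiK (k : ℕ) (f : ℝ → ℝ) (q : ℕ → ℝ) : ℝ :=
  val (gaussianReal 0 1) (gaussianReal 0 1)
    (fun (z : Fin k → ℝ) x => f (∑ l : Fin k, √(q (l + 1) - q l) * z l + √(1 - q k) * x)) 0 fun _ => 0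

/-- The tail variables `v j = 1 - q k + ∑_{j < i ≤ k} m_i (q i - q (i - 1))`. -/
noncomputable def vOf (k : ℕ) (q : ℕ → ℝ) (j : ℕ) : ℝ :=
  1 - q k + ∑ i ∈ Finset.Ico j k, lev k (i + 1) * (q (i + 1) - q i)

/-- The entropy of a path on the sphere. -/
noncomputable def entS (k : ℕ) (q : ℕ → ℝ) : ℝ :=
  (log (vOf k q k) + ∑ i ∈ Finset.range k, log (vOf k q i / vOf k q (i + 1)) / lev k (i + 1)) / 2

/-- The functional in perturbing variances `Δ`. -/
noncomputable def wFun (k : ℕ) (f : ℝ → ℝ) (t : ℝ) (Δ q : ℕ → ℝ) : ℝ :=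
  entS k q - (∑ j ∈ Finset.Icc 1 k, tail k q j * Δ j) / 2 + t * phiK k f q

/-- The variables `D`: `D k = b` and `D (j - 1) = D j - m_j * Δ j`. -/
noncomputable def dOf (k : ℕ) (b : ℝ) (Δ : ℕ → ℝ) (j : ℕ) : ℝ :=
  b - ∑ i ∈ Finset.Ico j k, lev k (i + 1) * Δ (i + 1)

/-- The field functional with Lagrange parameter `b`. -/
noncomputable def fieldG (k : ℕ) (b : ℝ) (Δ : ℕ → ℝ) : ℝ :=
  (b - 1 - ∑ j ∈ Finset.Icc 1 k, Δ j - log b
    + ∑ i ∈ Finset.range k, log (dOf k b Δ (i + 1) / dOf k b Δ i) / lev k (i + 1)) / 2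

/-- The variational value on the grid with `k` levels. -/
noncomputable def valK (k : ℕ) (f : ℝ → ℝ) (α : ℝ) : ℝ :=
  sInf ((fun q => wFun k f α (fun _ => 0) q) '' {q | IsPath k q ∧ q k < 1})

end Vale.Agent.P157.Rsb
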