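import Vale.Agent.P157.Radial
import Vale.Agent.P157.Rsb.Defs

/-!
# P157: interfaces between the modules of the spherical perceptron proof

Each `...Stmt` is a proposition proved in the module of the same name; the assembly takes them as
arguments.
-/

open MeasureTheory ProbabilityTheory Real Metric

namespace Vale.Agent.P157.Rsb

/-- A smooth potential of compact support. -/
def Good (f : ℝ → ℝ) : Prop := ContDiff ℝ 3 f ∧ HasCompactSupport f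

/-- The unit sphere of dimension `N + 1` with pattern and field map the coordinates. -/
noncomputable def sphereLeaf (N : ℕ) : Leaf (N + 1) where
  X := Metric.sphere (0 : EuclideanSpace ℝ (Fin (N + 1))) 1
  μ := ((volume : Measure (EuclideanSpace ℝ (Fin (N + 1)))).toSphere Set.univ)⁻¹ •
    (volume : Measure (EuclideanSpace ℝ (Fin (N + 1)))).toSphere
  prob := ⟨by
    rw [Measure.smul_apply, smul_eq_mul,
      ENNReal.inv_mul_cancel (toSphere_univ_ne _) (measure_ne_top _ _)]⟩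
  pat x i := (x : EuclideanSpace ℝ (Fin (N + 1))) i
  fld x i := (x : EuclideanSpace ℝ (Fin (N + 1))) i
  aux _ := 0
  det _ := 0
  pat_meas := by fun_prop
  fld_meas := by fun_prop
  aux_meas := measurable_const
  det_meas := measurable_const
  bdd := ⟨1, fun x => by
    have h : ∀ i, |(x : EuclideanSpace ℝ (Fin (N + 1))) i| ≤ 1 := fun i => by
      have := PiLp.norm_apply_le (x : EuclideanSpace ℝ (Fin (N + 1))) i
      simpa [Real.norm_eq_abs] using this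
    exact ⟨h, h, by simp, by simp⟩⟩

/-- The perturbed pressure on the sphere of dimension `N + 1`. -/
noncomputable def sphFree (f : ℝ → ℝ) (N M k : ℕ) (σ : ℕ → ℝ) : ℝ :=
  free (sphereLeaf N) f M k (N + 1) σ fun _ => 0

/-- The overlap path of the sphere system. -/
noncomputable def sphQ (f : ℝ → ℝ) (N M k : ℕ) (σ : ℕ → ℝ) : ℕ → ℝ :=
  qOf (sphereLeaf N) f M k (N + 1) σ fun _ => 0

/-- Extend amplitudes given on the levels `1, …, k`. -/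
def lift {k : ℕ} (y : Fin k → ℝ) (l : ℕ) : ℝ :=
  if h : 1 ≤ l ∧ l ≤ k then y ⟨l - 1, by omega⟩ else 0

/-- The average over the box with corner `a` and side `δ`. -/
noncomputable def boxAvg (k : ℕ) (a : Fin k → ℝ) (δ : ℝ) (Ψ : (ℕ → ℝ) → ℝ) : ℝ :=
  ⨍ y in Set.pi Set.univ (fun i => Set.Icc (a i) (a i + δ)), Ψ (lift y)

/-- Field variances from amplitudes. -/
def sq (σ : ℕ → ℝ) (l : ℕ) : ℝ := σ l ^ 2

/-- The derivative in one amplitude. -/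
def DerivStmt : Prop :=
  ∀ (f : ℝ → ℝ) (L : ℝ), Measurable f → (∀ u, |f u| ≤ L) →
    ∀ (n M k j : ℕ) (S : Leaf n) (N : ℝ) (σ β : ℕ → ℝ), 0 < N → 1 ≤ j → j ≤ k →
      HasDerivAt (fun s => free S f M k N (Function.update σ j s) β)
        (-σ j * tail k (qOf S f M k N σ β) j) (σ j)

/-- The mean distance of an overlap to `q j` at branch level `j`. -/
noncomputable def ovErr (f : ℝ → ℝ) (N M k : ℕ) (σ q : ℕ → ℝ) (j : ℕ) : ℝ :=
  gibPair (k := k) (sphereLeaf N) f M (N + 1) σ (fun _ => 0) j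
    fun _ x y => |sdot ((sphereLeaf N).fld x) ((sphereLeaf N).fld y) - q j|

/-- The weighted sum of `ovErr` at the path of the system. -/
noncomputable def totErr (f : ℝ → ℝ) (N M k : ℕ) (σ : ℕ → ℝ) : ℝ :=
  mass k * ∑ j ∈ Finset.Icc 0 k, ovErr f N M k σ (sphQ f N M k σ) j

/-- Overlaps given the branch level are deterministic, on average over a box of amplitudes. -/
def SyncStmt : Prop :=
  ∃ C : ℝ, 0 ≤ C ∧ ∀ (f : ℝ → ℝ) (L : ℝ), Measurable f → (∀ u, |f u| ≤ L) →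
    ∀ (k : ℕ) (η B δ T ε : ℝ), 0 < η → 0 < δ → 0 < ε → ∃ N₀ : ℕ, ∀ N : ℕ, N₀ ≤ N →
      ∀ M : ℕ, (M : ℝ) ≤ T * N → ∀ a : Fin k → ℝ, (∀ i, η ≤ a i ∧ a i ≤ B) →
        boxAvg k a δ (fun σ => totErr f N M k σ) ≤ C / √(k + 1) + ε

/-- The sphere path is a path. -/
def PathStmt : Prop :=
  ∀ (f : ℝ → ℝ) (L : ℝ), Measurable f → (∀ u, |f u| ≤ L) →
    ∀ (N M k : ℕ) (σ : ℕ → ℝ), IsPath k (sphQ f N M k σ)

/-- `Γ j`, the mean square of the conditional derivative at level `j`. -/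
noncomputable def gamK (k : ℕ) (f : ℝ → ℝ) (q : ℕ → ℝ) (j : ℕ) : ℝ :=
  let H := fun (z : Fin k → ℝ) (x : ℝ) =>
    f (∑ l : Fin k, √(q (l + 1) - q l) * z l + √(1 - q k) * x)
  let d := fun (z : Fin k → ℝ) (x : ℝ) =>
    deriv f (∑ l : Fin k, √(q (l + 1) - q l) * z l + √(1 - q k) * x)
  cnd (gaussianReal 0 1) (gaussianReal 0 1) H
    (fun z _ => cnd (gaussianReal 0 1) (gaussianReal 0 1) H d j z ^ 2) 0 fun _ => 0

/-- Properties of the one-pattern functional. -/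
def PhiStmt : Prop :=
  (∀ (f : ℝ → ℝ) (B : ℝ), Good f → (∀ u, |deriv f u| ≤ B) →
    ∀ (k : ℕ) (q q' : ℕ → ℝ), IsPath k q → IsPath k q' →
      |phiK k f q - phiK k f q'| ≤ B ^ 2 * mass k * ∑ j ∈ Finset.Icc 1 k, |q j - q' j| ∧
      (∀ e, 0 ≤ e → (∀ j ∈ Finset.Icc 1 k, tail k q' j ≤ tail k q j + e) →
        phiK k f q ≤ phiK k f q' + B ^ 2 * e) ∧
      (∀ j ≤ k, 0 ≤ gamK k f q j ∧ gamK k f q j ≤ B ^ 2) ∧
      (∀ j < k, gamK k f q j ≤ gamK k f q (j + 1))) ∧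
  ∀ (f h : ℝ → ℝ) (L : ℝ), Measurable f → Measurable h → (∀ u, |f u| ≤ L) → (∀ u, |h u| ≤ L) →
    ∀ (k : ℕ) (q : ℕ → ℝ), IsPath k q →
      |phiK k f q - phiK k h q| ≤ exp (8 * L) * ∫ u, |f u - h u| ∂gaussianReal 0 1

/-- Adding one pattern, and observables of two leaves in an added pattern. -/
def PatternStmt : Prop :=
  ∀ f : ℝ → ℝ, Good f → ∃ C : ℝ, 0 ≤ C ∧
    ∀ (n M k : ℕ) (S : Leaf n) (N : ℝ) (σ β : ℕ → ℝ) (q : ℕ → ℝ), 0 < N → IsPath k q →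
      (∀ x, sdot (S.pat x) (S.pat x) = 1) →
      let err := fun j => gibPair (k := k) S f M N σ β j
        fun _ x y => |sdot (S.pat x) (S.pat y) - q j|
      |N * (free S f (M + 1) k N σ β - free S f M k N σ β) - phiK k f q|
          ≤ C * mass k * ∑ j ∈ Finset.Icc 0 k, err j ∧
        (∀ j ≤ k, ∀ (a b : S.X → ℝ) (R : ℝ), (∀ x, |a x| ≤ R) → (∀ x, |b x| ≤ R) →
          Measurable a → Measurable b →
          |gibPair (k := k) S f (M + 1) N σ β j (fun g x y => a x * b y *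
              (deriv f (sdot (g (Fin.last M)) (S.pat x)) * deriv f (sdot (g (Fin.last M)) (S.pat y))))
            - gamK k f q j * gibPair (k := k) S f M N σ β j (fun _ x y => a x * b y)|
            ≤ C * R ^ 2 * (err j + mass k * ∑ i ∈ Finset.Icc 0 k, err i) ∧
          |gibPair (k := k) S f (M + 1) N σ β j (fun _ x y => a x * b y)
            - gibPair (k := k) S f M N σ β j (fun _ x y => a x * b y)|
            ≤ C * R ^ 2 * (err j + mass k * ∑ i ∈ Finset.Icc 0 k, err i)) ∧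
        ∀ j ≤ k, ∀ (ψ : S.X → S.X → ℝ) (R : ℝ), (∀ x y, 0 ≤ ψ x y ∧ ψ x y ≤ R) →
          Measurable (Function.uncurry ψ) →
          gibPair (k := k) S f (M + 1) N σ β j (fun _ x y => ψ x y)
            ≤ C * gibPair (k := k) S f M N σ β j (fun _ x y => ψ x y)

/-- The sum `r_j + t Γ_j` of field and pattern kernels; zero at level `0`. -/
noncomputable def rhoOf (k : ℕ) (f : ℝ → ℝ) (t : ℝ) (σ q : ℕ → ℝ) (j : ℕ) : ℝ :=
  if j = 0 then 0 else (∑ i ∈ Finset.Icc 1 j, σ i ^ 2) + t * gamK k f q j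

/-- The Lagrange parameter of a kernel and a path. -/
noncomputable def bOf (k : ℕ) (ρ q : ℕ → ℝ) : ℝ :=
  1 + ρ k - mass k * ∑ l ∈ Finset.Icc 1 k, ρ l * q l

/-- The defect in the self-consistency equation at level `j`. -/
noncomputable def defect (k : ℕ) (ρ q : ℕ → ℝ) (j : ℕ) : ℝ :=
  q j * (bOf k ρ q - ρ k + mass k * ∑ l ∈ Finset.Icc (j + 1) k, ρ l)
    + mass k * ∑ l ∈ Finset.Icc 1 j, ρ l * q l - ρ j * vOf k q j

/-- Self-consistency of the sphere system. -/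
def ConsistStmt : Prop :=
  ∀ f : ℝ → ℝ, Good f → ∃ C : ℝ, 0 ≤ C ∧
    ∀ (k : ℕ) (B T : ℝ), ∃ C' : ℝ, ∀ (N M : ℕ) (σ : ℕ → ℝ), (M : ℝ) ≤ T * N →
      (∀ l, 0 ≤ σ l ∧ σ l ≤ B) → ∀ j ∈ Finset.Icc 1 k,
        let q := sphQ f N M k σ
        let t := (M : ℝ) / (N + 1)
        |defect k (rhoOf k f t σ q) q j|
          ≤ C * (1 + t + ∑ i ∈ Finset.Icc 1 k, σ i ^ 2) *
              (ovErr f N M k σ q j + totErr f N M k σ + mass k) + C' / (N + 1)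

/-- Differences of a kernel. -/
def incr (ρ : ℕ → ℝ) (j : ℕ) : ℝ := ρ j - ρ (j - 1)

/-- The two algebraic facts about the sphere functional. -/
def AlgebraStmt : Prop :=
  (∀ (k : ℕ) (q Δ : ℕ → ℝ), IsPath k q → q k < 1 → (∀ j, 0 ≤ Δ j) →
    ∃ b, dOf k b Δ 0 = 1 / vOf k q 0 ∧ 0 < dOf k b Δ 0 ∧
      fieldG k b Δ ≤ entS k q - (∑ j ∈ Finset.Icc 1 k, tail k q j * Δ j) / 2) ∧
  ∀ R : ℝ, ∃ C : ℝ, 0 < C ∧ ∀ (k : ℕ) (ρ q : ℕ → ℝ), IsPath k q → ρ 0 = 0 →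
    (∀ j < k, ρ j ≤ ρ (j + 1)) → ρ k ≤ R →
    let e := mass k * ∑ j ∈ Finset.Icc 1 k, |defect k ρ q j| + mass k
    C * e ≤ 1 →
      1 ≤ C * dOf k (bOf k ρ q) (incr ρ) 0 ∧
      ∃ q' : ℕ → ℝ, IsPath k q' ∧ q' k < 1 ∧ mass k * ∑ j ∈ Finset.Icc 1 k, |q j - q' j| ≤ C * e ∧
        entS k q' - (∑ j ∈ Finset.Icc 1 k, tail k q' j * incr ρ j) / 2
          ≤ fieldG k (bOf k ρ q) (incr ρ) + C * e

/-- The pressure without patterns is at most the field functional. -/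
def InitStmt : Prop :=
  ∀ (f : ℝ → ℝ) (k : ℕ) (B D ε : ℝ), 0 < D → 0 < ε → ∃ N₀ : ℕ, ∀ N : ℕ, N₀ ≤ N →
    ∀ (σ : ℕ → ℝ) (b : ℝ), (∀ l, 0 ≤ σ l ∧ σ l ≤ B) → dOf k b (sq σ) 0 = D →
      sphFree f N 0 k σ ≤ fieldG k b (sq σ) + ε

/-- The truncated one-coordinate value. -/
noncomputable def cavW (W : ℝ) (k : ℕ) (b : ℝ) (Δ : ℕ → ℝ) : ℝ :=
  val (gaussianReal 0 1) ((gaussianReal 0 1).restrict (Set.Icc (-W) W))
    (fun (z : Fin k → ℝ) w => ∑ l : Fin k, √(Δ (l + 1)) * z l * w - (b - 1) * w ^ 2 / 2) 0 fun _ => 0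

/-- The truncated value converges to the field functional. -/
def TruncStmt : Prop :=
  (∀ (R d ε : ℝ), 0 < d → 0 < ε → ∃ W₀ : ℝ, ∀ W, W₀ ≤ W → ∀ (k : ℕ) (b : ℝ) (Δ : ℕ → ℝ),
    (∀ j, 0 ≤ Δ j) → ∑ j ∈ Finset.Icc 1 k, Δ j ≤ R → |b| ≤ R → d ≤ dOf k b Δ 0 →
      fieldG k b Δ - (b - 1 - ∑ j ∈ Finset.Icc 1 k, Δ j) / 2 - ε ≤ cavW W k b Δ) ∧
  ∀ R : ℝ, ∃ C : ℝ, ∀ W, 1 ≤ W → ∀ (k : ℕ) (b : ℝ) (Δ : ℕ → ℝ),
    (∀ j, 0 ≤ Δ j) → ∑ j ∈ Finset.Icc 1 k, Δ j ≤ R → |b| ≤ R → -C ≤ cavW W k b Δ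

/-- The one-coordinate increment at a fixed number of patterns. -/
def CavityStmt : Prop :=
  ∀ (f : ℝ → ℝ) (T B W : ℝ), Good f → 1 ≤ W → ∃ C : ℝ, ∀ (k : ℕ) (ε : ℝ), 0 < ε →
    ∃ N₀ : ℕ, ∀ N : ℕ, N₀ ≤ N → ∀ M : ℕ, (M : ℝ) ≤ T * N →
      ∀ σ : ℕ → ℝ, (∀ l, 0 ≤ σ l) → ∑ i ∈ Finset.Icc 1 k, σ i ^ 2 ≤ B →
        let q := sphQ f N M k σ
        let t := (M : ℝ) / (N + 1)
        let ρ := rhoOf k f t σ q
        cavW W k (bOf k ρ q) (incr ρ)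
            - (mass k * ∑ l ∈ Finset.Icc 1 k, (∑ i ∈ Finset.Icc 1 l, σ i ^ 2) * q l) / 2
            - C * √(totErr f N M k σ + mass k) - ε
          ≤ (N + 2) * sphFree f (N + 1) M k σ - (N + 1) * sphFree f N M k σ

/-- The upper bound on every grid. -/
def UpperStmt : Prop :=
  ∀ (f : ℝ → ℝ) (α : ℝ), Good f → 0 < α → ∃ C : ℝ, ∀ (k : ℕ) (ε : ℝ), 0 < ε →
    ∀ᶠ N in Filter.atTop, pressureSphere f α N ≤ valK k f α + C / √(k + 1) + ε

/-- The lower bound on every grid. -/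
def LowerStmt : Prop :=
  ∀ (f : ℝ → ℝ) (α : ℝ), Good f → 0 < α → ∀ ε' : ℝ, 0 < ε' → ∃ C : ℝ, ∀ (k : ℕ) (ε : ℝ), 0 < ε →
    ∀ᶠ N in Filter.atTop, valK k f α - C / ((k : ℝ) + 1) ^ (1 / 4 : ℝ) - ε' - ε ≤ pressureSphere f α N

/-- Approximation of bounded measurable potentials. -/
def ApproxStmt : Prop :=
  (∀ (f : ℝ → ℝ) (L ε : ℝ), Measurable f → (∀ u, |f u| ≤ L) → 0 < ε →
    ∃ h : ℝ → ℝ, Good h ∧ (∀ u, |h u| ≤ L + 1) ∧ ∫ u, |f u - h u| ∂gaussianReal 0 1 ≤ ε) ∧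
  ∀ (f h : ℝ → ℝ) (L : ℝ), Measurable f → Measurable h → (∀ u, |f u| ≤ L) → (∀ u, |h u| ≤ L) →
    ∀ (α : ℝ) (N : ℕ), 0 ≤ α →
      |pressureSphere f α N - pressureSphere h α N| ≤ α * exp (8 * L) * ∫ u, |f u - h u| ∂gaussianReal 0 1

end Vale.Agent.P157.Rsb
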