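import Vale.Agent.P157.Rsb.AlgCore
import Vale.Agent.P157.Rsb.Intf

/-!
# P157: the algebraic facts about the sphere functional

`algebra : AlgebraStmt` restates `RsbAlg.G_le_entropy` and `RsbAlg.lower_of_defect` for the grid
conventions of `Rsb.Defs`.
-/

open Finset Real

namespace Vale.Agent.P157.Rsb

variable {k : ℕ} {q ρ Δ : ℕ → ℝ}

theorem sum_Icc_eq_range (F : ℕ → ℝ) (a b : ℕ) :
    ∑ j ∈ Icc (a + 1) b, F j = ∑ i ∈ Ico a b, F (i + 1) := by
  rw [sum_Ico_add' F a b 1]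
  refine sum_congr (Finset.ext fun x => ?_) fun _ _ => rfl
  simp only [mem_Icc, mem_Ico]
  omega

theorem sum_Icc_one (F : ℕ → ℝ) (k : ℕ) : ∑ j ∈ Icc 1 k, F j = ∑ i ∈ range k, F (i + 1) := by
  rw [range_eq_Ico]; exact sum_Icc_eq_range F 0 k

theorem tail_succ_eq_tau (i : ℕ) : tail k q (i + 1) = RsbAlg.tau k q i := by
  rw [tail, sum_Icc_eq_range]; rfl

theorem vOf_eq_room (j : ℕ) : vOf k q j = RsbAlg.room k q j := rfl

theorem dOf_eq_stiff {b : ℝ} {r : ℕ → ℝ} (hd : ∀ i < k, r (i + 1) - r i = Δ (i + 1)) (j : ℕ) :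
    dOf k b Δ j = RsbAlg.stiff k b r j := by
  simp only [dOf, RsbAlg.stiff]
  congr 1
  exact sum_congr rfl fun i hi => by rw [hd i (mem_Ico.1 hi).2]; rfl

theorem sum_tail_eq_pair {r : ℕ → ℝ} (h0 : r 0 = 0)
    (hd : ∀ i < k, r (i + 1) - r i = Δ (i + 1)) :
    ∑ j ∈ Icc 1 k, tail k q j * Δ j = RsbAlg.pair k q r := by
  rw [sum_Icc_one, RsbAlg.pair_eq_tau h0]
  exact sum_congr rfl fun i hi => by rw [tail_succ_eq_tau, hd i (mem_range.1 hi)]

theorem isPath_alg (hq : IsPath k q) : RsbAlg.IsPath k q := ⟨hq.1, hq.2.1⟩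

theorem entS_eq (hq : RsbAlg.IsPath k q) (h1 : q k < 1) : entS k q = RsbAlg.S k q := by
  rw [entS, RsbAlg.S, vOf_eq_room, RsbAlg.room_top]
  refine congrArg (· / 2) (congrArg₂ (· + ·) rfl (sum_congr rfl fun i _ => ?_))
  rw [vOf_eq_room, vOf_eq_room, log_div (RsbAlg.room_pos hq h1 i).ne'
    (RsbAlg.room_pos hq h1 (i + 1)).ne']
  rfl

theorem fieldG_eq {b : ℝ} {r : ℕ → ℝ} (hr : RsbAlg.IsPath k r)
    (hd : ∀ i < k, r (i + 1) - r i = Δ (i + 1)) (hb : 0 < RsbAlg.stiff k b r 0) :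
    fieldG k b Δ = RsbAlg.G k b r := by
  have h1 : ∑ j ∈ Icc 1 k, Δ j = r k := by
    rw [sum_Icc_one, ← sub_zero (r k)]
    conv_rhs => rw [← hr.zero, ← sum_range_sub r k]
    exact sum_congr rfl fun i hi => (hd i (mem_range.1 hi)).symm
  rw [fieldG, RsbAlg.G, h1]
  refine congrArg (· / 2) (congrArg₂ (· + ·) rfl (sum_congr rfl fun i hi => ?_))
  have hi := mem_range.1 hi
  rw [dOf_eq_stiff hd, dOf_eq_stiff hd, log_div (RsbAlg.stiff_pos hr hb hi).ne'
    (RsbAlg.stiff_pos hr hb hi.le).ne']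
  rfl

theorem bOf_eq_cavMult : bOf k ρ q = RsbAlg.cavMult k q ρ := by
  rw [bOf, RsbAlg.cavMult, RsbAlg.pair, sum_Icc_one, mass, RsbAlg.wid]
  simp only [mul_comm (ρ _)]

theorem defect_eq {j : ℕ} (hj : j ≤ k) :
    defect k ρ q j = RsbAlg.defect k (RsbAlg.cavMult k q ρ) q ρ j := by
  rw [RsbAlg.defect_cav hj, defect, bOf_eq_cavMult, sum_Icc_eq_range, sum_Icc_one, vOf_eq_room,
    RsbAlg.room_eq hj, RsbAlg.cavMult]
  simp only [RsbAlg.tau, mass, RsbAlg.wid]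
  ring

/-- The two algebraic facts hold. -/
theorem algebra : AlgebraStmt := by
  refine ⟨fun k q Δ hq hq1 hΔ => ?_, fun R => ?_⟩
  · let r : ℕ → ℝ := fun n => ∑ i ∈ range n, Δ (i + 1)
    have hd : ∀ i < k, r (i + 1) - r i = Δ (i + 1) := fun i _ => by
      simp [r, sum_range_succ]
    have hr : RsbAlg.IsPath k r := ⟨by simp [r], fun i hi => by
      have := hd i hi; have := hΔ (i + 1); linarith⟩
    obtain ⟨b, h0, hle⟩ := RsbAlg.G_le_entropy (isPath_alg hq) hq1 hr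
    have hb : 0 < RsbAlg.stiff k b r 0 :=
      h0 ▸ one_div_pos.2 (RsbAlg.room_pos (isPath_alg hq) hq1 0)
    refine ⟨b, ?_, ?_, ?_⟩
    · rw [dOf_eq_stiff hd, h0, vOf_eq_room]
    · rwa [dOf_eq_stiff hd]
    · rw [fieldG_eq hr hd hb, entS_eq (isPath_alg hq) hq1, sum_tail_eq_pair hr.zero hd]
      exact hle
  · refine ⟨max (RsbAlg.stabC R) 4, lt_of_lt_of_le (by norm_num) (le_max_right _ _),
      fun k ρ q hq h0 hmono hR => ?_⟩
    intro e hCe
    have hr : RsbAlg.IsPath k ρ := ⟨h0, hmono⟩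
    have hq' := isPath_alg hq
    have herr : RsbAlg.err k q ρ ≤ e := by
      refine le_add_of_le_of_nonneg (le_of_eq ?_) (by simp only [mass]; positivity)
      rw [sum_Icc_one]
      exact congrArg (mass k * ·) (sum_congr rfl fun i hi => by
        rw [defect_eq (mem_range.1 hi)])
    have he := RsbAlg.err_nonneg (k := k) (q := q) (r := ρ)
    have hC4 : (4 : ℝ) ≤ max (RsbAlg.stabC R) 4 := le_max_right _ _
    have hd : ∀ i < k, ρ (i + 1) - ρ i = incr ρ (i + 1) := fun i _ => by simp [incr]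
    have hsmall : RsbAlg.err k q ρ ≤ 1 / 4 := by
      have := (mul_le_mul hC4 herr he (by linarith)).trans hCe
      linarith
    have hprod : 1 / 2 ≤ RsbAlg.stiff k (bOf k ρ q) ρ 0 * RsbAlg.room k q 0 := by
      have h := RsbAlg.abs_cav_product_le (q := q) (r := ρ) (Nat.zero_le k)
      rw [RsbAlg.defect_zero hq.1 h0, abs_zero, zero_add, ← bOf_eq_cavMult] at h
      linarith [(abs_le.1 h).1]
    have hroom : 0 ≤ RsbAlg.room k q 0 :=
      le_trans (by linarith [hq.2.2]) (RsbAlg.one_sub_top_le_room hq' 0)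
    have hD : 0 < RsbAlg.stiff k (bOf k ρ q) ρ 0 :=
      pos_of_mul_pos_left (lt_of_lt_of_le (by norm_num) hprod) hroom
    refine ⟨?_, ?_⟩
    · rw [dOf_eq_stiff hd]
      have := mul_le_of_le_one_right hD.le (RsbAlg.room_le_one hq' (Nat.zero_le k))
      have := mul_le_mul_of_nonneg_right hC4 hD.le
      linarith
    obtain ⟨q', hp, hp1, hdist, hb⟩ := RsbAlg.lower_of_defect hq' hq.2.2 hr hR
    refine ⟨q', ⟨hp.zero, hp.mono, hp1.le⟩, hp1, ?_, ?_⟩
    · refine (le_of_eq ?_).trans (hdist.trans (mul_le_mul hC4 herr he (by linarith)))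
      rw [sum_Icc_one]
      exact congrArg (mass k * ·) (sum_congr rfl fun i _ => abs_sub_comm _ _)
    · rw [fieldG_eq hr hd hD, entS_eq hp hp1, sum_tail_eq_pair h0 hd]
      have hm : RsbAlg.stabC R * RsbAlg.err k q ρ ≤ max (RsbAlg.stabC R) 4 * e :=
        mul_le_mul (le_max_left _ _) herr he (by linarith)
      linarith [hb _ hD]

end Vale.Agent.P157.Rsb
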