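import Vale.Agent.P157.Rsb.Final

/-!
# P157: refining the grid

A path on the grid with `k` levels is also a path on every grid with `k'` levels when `k + 1` divides
`k' + 1`, with the same entropy and the same one-pattern functional.  Hence the limit of the grid
values is the infimum of the functional over all step paths.
-/

open MeasureTheory ProbabilityTheory Real Finset Filter Topology

namespace Vale.Agent.P157.Rsb

variable {k k' r : ℕ} {q : ℕ → ℝ}

/-- A path read on a grid that is `r + 1` times finer. -/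
def refinePath (r : ℕ) (q : ℕ → ℝ) (j : ℕ) : ℝ := q (j / (r + 1))

/-- The one-pattern recursion in the local field after `d` integrated levels. -/
noncomputable def phiRec (k : ℕ) (f : ℝ → ℝ) (q : ℕ → ℝ) : ℕ → ℝ → ℝ
  | 0, u => log (∫ x, exp (f (u + √(1 - q k) * x)) ∂gaussianReal 0 1)
  | d + 1, u => log (∫ y, exp (lev k (k - d) *
      phiRec k f q d (u + √(q (k - d) - q (k - d - 1)) * y)) ∂gaussianReal 0 1) / lev k (k - d)

theorem top_div (hk : k' + 1 = (r + 1) * (k + 1)) : k' / (r + 1) = k := by
  refine Nat.div_eq_of_lt_le ?_ ?_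
  · rw [mul_comm]; rw [Nat.mul_add, Nat.mul_one] at hk; omega
  · rw [mul_comm]; omega

theorem lev_refine (hk : k' + 1 = (r + 1) * (k + 1)) (p : ℕ) :
    lev k' ((r + 1) * p) = lev k p := by
  have : ((k' : ℝ) + 1) = ((r : ℝ) + 1) * ((k : ℝ) + 1) := by exact_mod_cast hk
  simp only [lev]
  rw [this]
  push_cast
  rw [mul_div_mul_left _ _ (by positivity)]

/-- Sums that vanish off the old grid points. -/
theorem sum_jumps (hk : k' + 1 = (r + 1) * (k + 1)) {g : ℕ → ℝ}
    (hg : ∀ i < k', ¬ (r + 1) ∣ (i + 1) → g i = 0) :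
    ∑ i ∈ range k', g i = ∑ p ∈ range k, g ((r + 1) * p + r) := by
  rw [← sum_image (f := g) (s := range k) (g := fun p => (r + 1) * p + r)
    (fun a _ b _ hab => by simpa using hab)]
  refine (sum_subset ?_ fun i hi hni => hg i (mem_range.1 hi) fun hd => hni ?_).symm
  · intro i hi
    obtain ⟨p, hp, rfl⟩ := mem_image.1 hi
    have h1 : (r + 1) * (p + 1) ≤ (r + 1) * k := Nat.mul_le_mul_left _ (mem_range.1 hp)
    rw [mem_range]
    rw [Nat.mul_add, Nat.mul_one] at h1 hk
    omega
  · obtain ⟨c, hc⟩ := hd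
    rcases c with _ | p
    · simp at hc
    refine mem_image.2 ⟨p, mem_range.2 ?_, by rw [Nat.mul_add, Nat.mul_one] at hc; omega⟩
    have h2 : (r + 1) * (p + 1) < (r + 1) * (k + 1) := by
      rw [← hc, ← hk]; have := mem_range.1 hi; omega
    have := Nat.lt_of_mul_lt_mul_left h2
    omega

theorem refine_step (r : ℕ) (q : ℕ → ℝ) {i : ℕ} (h : ¬ (r + 1) ∣ (i + 1)) :
    refinePath r q (i + 1) = refinePath r q i := by
  simp [refinePath, Nat.succ_div, h]

theorem refine_at (r : ℕ) (q : ℕ → ℝ) (p : ℕ) :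
    refinePath r q ((r + 1) * p + r) = q p ∧ refinePath r q ((r + 1) * p + r + 1) = q (p + 1) := by
  constructor
  · simp [refinePath, Nat.mul_add_div, Nat.div_eq_of_lt]
  · simp only [refinePath]
    rw [show (r + 1) * p + r + 1 = (r + 1) * (p + 1) by ring, Nat.mul_div_cancel_left _ (by omega)]

theorem isPath_refine (hk : k' + 1 = (r + 1) * (k + 1)) (hq : IsPath k q) :
    IsPath k' (refinePath r q) := by
  refine ⟨by simp [refinePath, hq.1], fun j hj => ?_, by simp [refinePath, top_div hk, hq.2.2]⟩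
  by_cases h : (r + 1) ∣ (j + 1)
  · simp only [refinePath, Nat.succ_div, if_pos h]
    refine hq.2.1 _ ?_
    have h1 : (j + 1) / (r + 1) ≤ k := (Nat.div_le_div_right hj).trans (top_div hk).le
    rw [Nat.succ_div, if_pos h] at h1
    omega
  · exact (refine_step r q h).ge

theorem vOf_range (k : ℕ) (q : ℕ → ℝ) (j : ℕ) : vOf k q j =
    1 - q k + ∑ p ∈ range k, if j ≤ p then lev k (p + 1) * (q (p + 1) - q p) else 0 := by
  rw [vOf, ← sum_filter]
  congr 2
  ext i
  simp [and_comm]

theorem vOf_refine (hk : k' + 1 = (r + 1) * (k + 1)) (q : ℕ → ℝ) (i : ℕ) :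
    vOf k' (refinePath r q) i = 1 - q k +
      ∑ p ∈ range k, if i ≤ (r + 1) * p + r then lev k (p + 1) * (q (p + 1) - q p) else 0 := by
  rw [vOf_range, sum_jumps hk (fun i _ h => by simp [refine_step r q h])]
  congr 1
  · simp [refinePath, top_div hk]
  · refine sum_congr rfl fun p _ => ?_
    rw [(refine_at r q p).1, (refine_at r q p).2,
      show (r + 1) * p + r + 1 = (r + 1) * (p + 1) by ring, lev_refine hk]

theorem entS_refine (hk : k' + 1 = (r + 1) * (k + 1)) (q : ℕ → ℝ) :
    entS k' (refinePath r q) = entS k q := by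
  have hd : ∀ p p' : ℕ, (r + 1) * p + r ≤ (r + 1) * p' + r ↔ p ≤ p' := fun p p' => by
    rw [Nat.add_le_add_iff_right, Nat.mul_le_mul_left_iff (by omega)]
  have htop : vOf k' (refinePath r q) k' = vOf k q k := by
    simp [vOf, refinePath, top_div hk]
  simp only [entS, htop]
  congr 2
  have hz : ∀ i < k', ¬ (r + 1) ∣ (i + 1) →
      log (vOf k' (refinePath r q) i / vOf k' (refinePath r q) (i + 1)) / lev k' (i + 1) = 0 := by
    intro i hi h
    have : vOf k' (refinePath r q) i = vOf k' (refinePath r q) (i + 1) := by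
      simp only [vOf]
      rw [sum_eq_sum_Ico_succ_bot hi, refine_step r q h]
      ring
    rw [this]
    by_cases h0 : vOf k' (refinePath r q) (i + 1) = 0
    · simp [h0]
    · simp [div_self h0]
  rw [sum_jumps hk hz]
  refine sum_congr rfl fun p hp => ?_
  rw [show (r + 1) * p + r + 1 = (r + 1) * (p + 1) by ring, lev_refine hk, vOf_refine hk,
    vOf_refine hk, vOf_range k q p, vOf_range k q (p + 1)]
  congr 4
  · exact sum_congr rfl fun p' _ => by simp only [hd]
  · refine sum_congr rfl fun p' _ => ?_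
    have : (r + 1) * (p + 1) ≤ (r + 1) * p' + r ↔ p + 1 ≤ p' := by
      constructor
      · intro h
        have h' : (r + 1) * (p + 1) < (r + 1) * (p' + 1) := by rw [Nat.mul_add _ p' 1]; omega
        exact Nat.lt_of_mul_lt_mul_left h' |> Nat.le_of_lt_succ
      · intro h; have := Nat.mul_le_mul_left (r + 1) h; omega
    simp only [this]

theorem phiRec_refine (hk : k' + 1 = (r + 1) * (k + 1)) (f : ℝ → ℝ) (q : ℕ → ℝ) :
    ∀ d ≤ k', phiRec k' f (refinePath r q) d = phiRec k f q (k - (k' - d) / (r + 1)) := by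
  intro d
  induction d with
  | zero =>
    intro _
    funext u
    simp [phiRec, refinePath, top_div hk]
  | succ d ih =>
    intro hd
    obtain ⟨j, hj⟩ : ∃ j, k' - d = j + 1 := ⟨k' - d - 1, by omega⟩
    have hj' : k' - (d + 1) = j := by omega
    funext u
    simp only [phiRec, ih (by omega), hj, hj', Nat.add_sub_cancel]
    by_cases h : (r + 1) ∣ (j + 1)
    · have hi : (j + 1) / (r + 1) = j / (r + 1) + 1 := by simp [Nat.succ_div, h]
      have hik : j / (r + 1) + 1 ≤ k := by
        rw [← hi]; exact (Nat.div_le_div_right (by omega)).trans (top_div hk).le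
      have hl : lev k' (j + 1) = lev k (j / (r + 1) + 1) := by
        rw [← hi, ← lev_refine hk, Nat.mul_div_cancel' h]
      rw [hi, hl, show k - j / (r + 1) = (k - (j / (r + 1) + 1)) + 1 by omega, phiRec,
        Nat.sub_sub_self hik, Nat.add_sub_cancel]
      simp only [refinePath, hi]
    · rw [refine_step r q h]
      have hi : (j + 1) / (r + 1) = j / (r + 1) := by simp [Nat.succ_div, h]
      have hl : lev k' (j + 1) ≠ 0 := by unfold lev; positivity
      simp only [sub_self, sqrt_zero, zero_mul, add_zero, integral_const, probReal_univ, one_smul,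
        log_exp, hi]
      rw [mul_div_cancel_left₀ _ hl]

/-- Extend a coordinate family by zero. -/
def zext (z : Fin k → ℝ) (l : ℕ) : ℝ := if h : l < k then z ⟨l, h⟩ else 0

theorem phiK_eq_rec (k : ℕ) (f : ℝ → ℝ) (q : ℕ → ℝ) : phiK k f q = phiRec k f q k 0 := by
  suffices h : ∀ d ≤ k, ∀ z : Fin k → ℝ,
      nest (gaussianReal 0 1) (gaussianReal 0 1)
        (fun (z : Fin k → ℝ) x => f (∑ l : Fin k, √(q (l + 1) - q l) * z l + √(1 - q k) * x)) d z
      = phiRec k f q d (∑ l ∈ range (k - d), √(q (l + 1) - q l) * zext z l) by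
    simp only [phiK, val, Nat.sub_zero]
    rw [h k le_rfl]; simp
  intro d
  induction d with
  | zero =>
    intro _ z
    simp only [nest, phiRec, Nat.sub_zero]
    congr 1
    refine integral_congr_ae (ae_of_all _ fun x => ?_)
    simp only []
    rw [← Fin.sum_univ_eq_sum_range (fun l => √(q (l + 1) - q l) * zext z l) k]
    simp [zext]
  | succ d ih =>
    intro hd z
    simp only [nest, phiRec]
    congr 2
    refine integral_congr_ae (ae_of_all _ fun y => ?_)
    simp only []
    rw [ih (by omega)]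
    obtain ⟨i, hi⟩ : ∃ i, k - d = i + 1 := ⟨k - d - 1, by omega⟩
    rw [hi, show k - (d + 1) = i by omega, Nat.add_sub_cancel, sum_range_succ]
    congr 3
    congr 1
    · refine sum_congr rfl fun l hl => ?_
      have h1 : l < k := by have := mem_range.1 hl; omega
      have h2 : l ≠ i := (mem_range.1 hl).ne
      simp [zext, h1, put, h2]
    · have h1 : i < k := by omega
      simp [zext, h1, put]

theorem phiK_refine (hk : k' + 1 = (r + 1) * (k + 1)) (f : ℝ → ℝ) (q : ℕ → ℝ) :
    phiK k' f (refinePath r q) = phiK k f q := by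
  rw [phiK_eq_rec, phiK_eq_rec, phiRec_refine hk f q k' le_rfl]
  simp

/-- The values of the functional at all step paths on all grids. -/
def stepValues (f : ℝ → ℝ) (α : ℝ) : Set ℝ :=
  {x | ∃ (k : ℕ) (q : ℕ → ℝ), IsPath k q ∧ q k < 1 ∧ x = entS k q + α * phiK k f q}

/-- If the grid values converge to `l`, then `l` is the infimum over all step paths. -/
theorem isGLB_stepValues (hA : AlgebraStmt) (hP : PhiStmt) {f : ℝ → ℝ} (hf : Measurable f) {L : ℝ}
    (hL : ∀ u, |f u| ≤ L) {α l : ℝ} (hα : 0 ≤ α) (hl : Tendsto (fun k => valK k f α) atTop (𝓝 l)) :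
    IsGLB (stepValues f α) l := by
  constructor
  · rintro x ⟨k, q, hq, hq1, rfl⟩
    have hk : ∀ r, ((r + 1) * (k + 1) - 1) + 1 = (r + 1) * (k + 1) := fun r =>
      Nat.sub_add_cancel (Nat.mul_pos (Nat.succ_pos r) (Nat.succ_pos k))
    have hinf : Tendsto (fun r : ℕ => (r + 1) * (k + 1) - 1) atTop atTop :=
      tendsto_atTop_mono (fun r => by
        have := Nat.le_mul_of_pos_right (r + 1) (show 0 < k + 1 by omega); simp only [id]; omega) tendsto_id
    refine le_of_tendsto (hl.comp hinf) (Eventually.of_forall fun r => ?_)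
    simp only [Function.comp_apply, valK_eq]
    refine csInf_le (valSet_ok hA hP hf hL hα _).2 ⟨refinePath r q,
      ⟨isPath_refine (hk r) hq, by simpa [refinePath, top_div (hk r)] using hq1⟩, ?_⟩
    simp only [entS_refine (hk r), phiK_refine (hk r)]
  · intro x hx
    refine ge_of_tendsto hl (Eventually.of_forall fun k => ?_)
    rw [valK_eq]
    refine le_csInf (valSet_ok hA hP hf hL hα k).1 ?_
    rintro _ ⟨q, hq, rfl⟩
    exact hx ⟨k, q, hq.1, hq.2, rfl⟩

/-- The pressure converges to the infimum of the functional over all step paths. -/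
theorem sphere_parisi (hA : AlgebraStmt) (hP : PhiStmt) (hX : ApproxStmt) (hU : UpperStmt)
    (hLo : LowerStmt) {f : ℝ → ℝ} (hf : Measurable f) {L : ℝ} (hL : ∀ u, |f u| ≤ L) {α : ℝ}
    (hα : 0 < α) : ∃ l, Tendsto (fun N => pressureSphere f α N) atTop (𝓝 l) ∧
      IsGLB (stepValues f α) l ∧ Tendsto (fun k => valK k f α) atTop (𝓝 l) := by
  obtain ⟨l, h1, h2⟩ := sphere_formula hA hP hX hU hLo hf hL hα
  exact ⟨l, h1, isGLB_stepValues hA hP hf hL hα.le h2, h2⟩

end Vale.Agent.P157.Rsb
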