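import Vale.Agent.P157.Rsb.CalcGauss

/-!
# P157: calculus of nested log-Laplace recursions (all parts)
-/
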