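import Vale.Agent.P157.Rsb.CavTools

/-!
# P157, cavity module: linear perturbations by fields

For a Hamiltonian affine in the fields, the integration by parts formula for the field part of a
derivative and the bound on its exponential moments.
-/

open MeasureTheory ProbabilityTheory Real Finset

namespace Vale.Agent.P157.Rsb

variable {k : ℕ} {ι X : Type} [Fintype ι] [MeasurableSpace X]

/-- A linear form in the fields. -/
def linZ (d : Fin k → ι → X → ℝ) (z : Fin k → ι → ℝ) (x : X) : ℝ := ∑ a, ∑ i, z a i * d a i x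

/-- Bounded measurable coefficients. -/
def BCoef (d : Fin k → ι → X → ℝ) : Prop :=
  ∃ B, 0 ≤ B ∧ ∀ a i, Measurable (d a i) ∧ ∀ x, |d a i x| ≤ B

theorem abs_le_tot (z : Fin k → ι → ℝ) (a : Fin k) (i : ι) :
    |z a i| ≤ (gaussSize ι).tot z :=
  (single_le_sum (fun j _ => abs_nonneg (z a j)) (mem_univ i)).trans
    (single_le_sum (f := fun a => ∑ i, |z a i|) (fun b _ => sum_nonneg fun j _ => abs_nonneg _)
      (mem_univ a))

theorem measurable_linZ {d : Fin k → ι → X → ℝ} (hd : BCoef d) :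
    Measurable (Function.uncurry (linZ d)) := by
  obtain ⟨B, -, hB⟩ := hd
  unfold linZ Function.uncurry
  refine Finset.measurable_sum _ fun a _ => Finset.measurable_sum _ fun i _ => ?_
  have := (hB a i).1
  fun_prop

theorem abs_linZ_le {d : Fin k → ι → X → ℝ} {B : ℝ} (hB : ∀ a i x, |d a i x| ≤ B)
    (z : Fin k → ι → ℝ) (x : X) : |linZ d z x| ≤ B * (gaussSize ι).tot z := by
  unfold linZ Size.tot gaussSize
  simp only [mul_sum]
  refine (abs_sum_le_sum_abs _ _).trans (sum_le_sum fun a _ => (abs_sum_le_sum_abs _ _).trans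
    (sum_le_sum fun i _ => ?_))
  rw [abs_mul, mul_comm B]
  exact mul_le_mul_of_nonneg_left (hB a i x) (abs_nonneg _)

theorem tame_of_bdd {g : X → ℝ} (hg : Measurable g) {B : ℝ} (hB : ∀ x, |g x| ≤ B) :
    Tame (k := k) (gaussSize ι) (fun _ x => g x) := by
  refine ⟨hg.comp measurable_snd, max B 0, le_max_right _ _, fun z x => ?_⟩
  have h1 : (1 : ℝ) ≤ exp (max B 0 * (gaussSize ι).tot z) :=
    one_le_exp (mul_nonneg (le_max_right _ _) (sum_nonneg fun a _ => (gaussSize ι).nonneg _))
  exact ((hB x).trans (le_max_left _ _)).trans (le_mul_of_one_le_right (le_max_right _ _) h1)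

theorem linB_affine {v : Fin k → ι → X → ℝ} (hv : BCoef v) {H0 : X → ℝ} (h0 : Measurable H0)
    {B0 : ℝ} (hB0 : ∀ x, |H0 x| ≤ B0) : LinB (gaussSize ι) fun z x => linZ v z x + H0 x := by
  have hm := measurable_linZ hv
  obtain ⟨B, hB, hBv⟩ := hv
  refine ⟨hm.add (h0.comp measurable_snd), max B (max B0 0),
    le_trans (le_max_right _ _) (le_max_right _ _), fun z x => ?_⟩
  have h1 := abs_linZ_le (fun a i x => (hBv a i).2 x) z x
  have ht : 0 ≤ (gaussSize ι).tot z := sum_nonneg fun a _ => (gaussSize ι).nonneg _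
  refine (abs_add_le _ _).trans ?_
  nlinarith [hB0 x, mul_le_mul_of_nonneg_right (le_max_left B (max B0 0)) ht,
    le_max_left B0 (0 : ℝ), le_max_right B (max B0 0)]

theorem tame_mul_exp {d : Fin k → ι → X → ℝ} (hd : BCoef d) (t : ℝ) {g : X → ℝ}
    (hg : Measurable g) {B : ℝ} (hB : ∀ x, |g x| ≤ B) :
    Tame (gaussSize ι) fun z x => g x * exp (t * linZ d z x) := by
  have hm := measurable_linZ hd
  obtain ⟨D, hD, hDd⟩ := hd
  refine ⟨(hg.comp measurable_snd).mul (Real.measurable_exp.comp (hm.const_mul t)),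
    max (max B 0) (|t| * D), (le_max_right B 0).trans (le_max_left _ _), fun z x => ?_⟩
  have h1 := abs_linZ_le (fun a i x => (hDd a i).2 x) z x
  have ht : 0 ≤ (gaussSize ι).tot z := sum_nonneg fun a _ => (gaussSize ι).nonneg _
  rw [abs_mul, abs_exp]
  refine mul_le_mul ((hB x).trans ((le_max_left B 0).trans (le_max_left _ _))) (exp_le_exp.2 ?_)
    (exp_pos _).le ((le_max_right B 0).trans (le_max_left _ _))
  calc t * linZ d z x ≤ |t| * |linZ d z x| := (le_abs_self _).trans (abs_mul _ _).le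
    _ ≤ |t| * (D * (gaussSize ι).tot z) := mul_le_mul_of_nonneg_left h1 (abs_nonneg _)
    _ ≤ _ := by rw [← mul_assoc]; exact mul_le_mul_of_nonneg_right (le_max_right _ _) ht

omit [MeasurableSpace X] in
theorem hasDerivAt_linZ [DecidableEq ι] (d : Fin k → ι → X → ℝ) (z : Fin k → ι → ℝ) (a : Fin k)
    (i : ι) (x : X) :
    HasDerivAt (fun t => linZ d (Function.update z a (Function.update (z a) i t)) x) (d a i x)
      (z a i) := by
  have e : ∀ t, linZ d (Function.update z a (Function.update (z a) i t)) x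
      = linZ d z x + (t - z a i) * d a i x := fun t => by
    have h : ∀ b j, Function.update z a (Function.update (z a) i t) b j * d b j x
        = z b j * d b j x + if b = a ∧ j = i then (t - z a i) * d a i x else 0 := fun b j => by
      by_cases hb : b = a
      · subst hb
        by_cases hj : j = i
        · subst hj; simp; ring
        · simp [hj]
      · simp [hb]
    unfold linZ
    simp only [h, sum_add_distrib, ite_and]
    simp
  simp_rw [e]
  simpa using ((hasDerivAt_id (z a i)).sub_const (z a i)).mul_const (d a i x) |>.const_add (linZ d z x)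

variable {μ : Measure X} [IsProbabilityMeasure μ] {v d : Fin k → ι → X → ℝ} {H0 : X → ℝ}

/-- The kernel of the levels below `l`. -/
def lowKer (d v : Fin k → ι → X → ℝ) (l : ℕ) (x y : X) : ℝ :=
  ∑ a : Fin k, if (a : ℕ) < l then ∑ i, d a i x * v a i y else 0

/-- The integrand of the pair term of the integration by parts formula. -/
noncomputable def lowTerm (μ : Measure X) (H : (Fin k → ι → ℝ) → X → ℝ)
    (d v : Fin k → ι → X → ℝ) (t : ℝ) (l : ℕ) (z' : Fin k → ι → ℝ) : ℝ :=
  cnd (stdG ι) μ H (fun z'' x => (∑ a : Fin k, if (a : ℕ) < l then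
      ∑ i, d a i x * cnd (stdG ι) μ H (fun _ y => v a i y) l z' else 0)
    * exp (t * linZ d z'' x)) l z'

theorem lowTerm_eq {H : (Fin k → ι → ℝ) → X → ℝ} (hH : LinB (gaussSize ι) H) (hv : BCoef v)
    (hd : BCoef d) (t : ℝ) (l : ℕ) :
    let A := fun (p : Fin k × ι) (z : Fin k → ι → ℝ) (_ : X) => if (p.1 : ℕ) < l then
      cnd (stdG ι) μ H (fun z x => d p.1 p.2 x * exp (t * linZ d z x)) l z
        * cnd (stdG ι) μ H (fun _ y => v p.1 p.2 y) l z else 0
    (∀ p, Tame (gaussSize ι) (A p)) ∧ Tame (gaussSize ι) (fun z (_ : X) => lowTerm μ H d v t l z) ∧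
      ∀ z x, lowTerm μ H d v t l z = ∑ p, A p z x := by
  intro A
  obtain ⟨Bd, hBd0, hBd⟩ := id hd
  obtain ⟨Bv, hBv0, hBv⟩ := id hv
  have tP : ∀ p : Fin k × ι, Tame (gaussSize ι) fun z x => d p.1 p.2 x * exp (t * linZ d z x) :=
    fun p => tame_mul_exp hd t (hBd _ _).1 (hBd _ _).2
  have tA : ∀ p, Tame (gaussSize ι) (A p) := fun p => by
    by_cases hp : (p.1 : ℕ) < l
    · simp only [A, if_pos hp]
      exact (cnd_tame hH (tP p) l).mul (cnd_tame hH (tame_of_bdd (hBv _ _).1 (hBv _ _).2) l)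
    · simp only [A, if_neg hp]
      exact tame_of_bdd measurable_const (B := 0) (by simp)
  have he : ∀ z x, lowTerm μ H d v t l z = ∑ p, A p z x := fun z' x' => by
    set c := fun p : Fin k × ι => if (p.1 : ℕ) < l then cnd (stdG ι) μ H (fun _ y => v p.1 p.2 y) l z'
      else 0
    have e2 : ∀ p, A p z' x' = cnd (stdG ι) μ H
        (fun z'' x => c p * (d p.1 p.2 x * exp (t * linZ d z'' x))) l z' := fun p => by
      rw [cnd_const_mul]
      by_cases hp : (p.1 : ℕ) < l <;> simp [A, c, hp, mul_comm]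
    simp only [e2]
    rw [← cnd_finsum hH univ (fun p _ => (tP p).const_mul (c p)), lowTerm]
    congr 1
    funext z'' x
    rw [Fintype.sum_prod_type, sum_mul]
    refine sum_congr rfl fun b _ => ?_
    by_cases hb : (b : ℕ) < l
    · simp only [c, if_pos hb, sum_mul]
      exact sum_congr rfl fun i _ => by ring
    · simp [c, hb]
  refine ⟨tA, ?_, he⟩
  have hs : Tame (gaussSize ι) fun z x => ∑ p, A p z x := Tame.sum univ fun p _ => tA p
  exact (funext₂ fun z x => (he z x).symm) ▸ hs

/-- Integration by parts for the linear form with an exponential weight. -/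
theorem cnd_linZ [DecidableEq ι] (hv : BCoef v) (hd : BCoef d) (h0 : Measurable H0) {B0 : ℝ}
    (hB0 : ∀ x, |H0 x| ≤ B0) (t : ℝ) (z : Fin k → ι → ℝ) :
    let H := fun z x => linZ v z x + H0 x
    cnd (stdG ι) μ H (fun z x => linZ d z x * exp (t * linZ d z x)) 0 z
      = cnd (stdG ι) μ H
          (fun z x => (∑ a, ∑ i, (t * d a i x ^ 2 + d a i x * v a i x)) * exp (t * linZ d z x)) 0 z
        - mass k * ∑ l ∈ Icc 1 k, cnd (stdG ι) μ H (fun z' _ => lowTerm μ H d v t l z') 0 z := by
  intro H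
  have hH : LinB (gaussSize ι) H := linB_affine hv h0 hB0
  have hmZ := measurable_linZ hd
  obtain ⟨Bd, hBd0, hBd⟩ := hd
  have hd : BCoef d := ⟨Bd, hBd0, hBd⟩
  obtain ⟨Bv, hBv0, hBv⟩ := hv
  set E := fun (z : Fin k → ι → ℝ) (x : X) => exp (t * linZ d z x)
  have tE : ∀ {g : X → ℝ} {B : ℝ}, Measurable g → (∀ x, |g x| ≤ B) →
      Tame (gaussSize ι) fun z x => g x * E z x := fun hg hB => tame_mul_exp hd t hg hB
  set P := fun (a : Fin k) (i : ι) (z : Fin k → ι → ℝ) (x : X) => d a i x * E z x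
  have tP : ∀ a i, Tame (gaussSize ι) (P a i) := fun a i => tE (hBd a i).1 (hBd a i).2
  have tzP : ∀ a i, Tame (gaussSize ι) fun z x => z a i * P a i z x := fun a i => by
    obtain ⟨A, hA, hAb⟩ := (tP a i).bound
    have hm : Measurable fun q : (Fin k → ι → ℝ) × X => q.1 a i := by fun_prop
    refine ⟨hm.mul (tP a i).meas, A + 1, by linarith, fun z x => ?_⟩
    have h1 := abs_le_tot z a i
    have ht : 0 ≤ (gaussSize ι).tot z := sum_nonneg fun a _ => (gaussSize ι).nonneg _
    rw [abs_mul]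
    calc |z a i| * |P a i z x| ≤ exp ((gaussSize ι).tot z) * (A * exp (A * (gaussSize ι).tot z)) :=
          mul_le_mul (h1.trans (by linarith [add_one_le_exp ((gaussSize ι).tot z)])) (hAb z x)
            (abs_nonneg _) (exp_pos _).le
      _ = A * exp ((A + 1) * (gaussSize ι).tot z) := by
          rw [mul_left_comm, ← exp_add]; congr 2; ring
      _ ≤ _ := mul_le_mul_of_nonneg_right (by linarith) (exp_pos _).le
  have hone : ∀ a i, cnd (stdG ι) μ H (fun z x => z a i * P a i z x) 0 z
      = cnd (stdG ι) μ H (fun z x => (t * d a i x ^ 2 + d a i x * v a i x) * E z x) 0 z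
        - mass k * ∑ l ∈ Icc ((a : ℕ) + 1) k,
            cnd (stdG ι) μ H (fun z _ => cnd (stdG ι) μ H (P a i) l z
              * cnd (stdG ι) μ H (fun _ x => v a i x) l z) 0 z := by
    intro a i
    have hq : ∀ x, |t * d a i x ^ 2| ≤ |t| * Bd ^ 2 := fun x => by
      rw [abs_mul, abs_pow]
      exact mul_le_mul_of_nonneg_left (pow_le_pow_left₀ (abs_nonneg _) ((hBd a i).2 x) 2) (abs_nonneg _)
    have h := cnd_ibp (μ := μ) (H := H) (φ := P a i) (dH := fun _ x => v a i x)
      (dφ := fun z x => t * d a i x ^ 2 * E z x) i a hH (tP a i)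
      (tame_of_bdd (hBv a i).1 (hBv a i).2) (tE (by have := (hBd a i).1; fun_prop) hq)
      (fun z x => (hasDerivAt_linZ v z a i x).add_const (H0 x))
      (fun z x => by
        have h1 := ((hasDerivAt_linZ d z a i x).const_mul t).exp.const_mul (d a i x)
        simp only [Function.update_eq_self] at h1
        exact h1.congr_deriv (by simp only [E]; ring))
      (Nat.zero_le _) z
    rw [h]
    congr 2
    funext z x
    simp only [P]; ring
  have e0 : (fun z x => linZ d z x * E z x) = fun z x => ∑ p : Fin k × ι, z p.1 p.2 * P p.1 p.2 z x := by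
    funext z x
    simp only [linZ, P, sum_mul, Fintype.sum_prod_type, mul_assoc]
  have tq : ∀ p : Fin k × ι, Tame (gaussSize ι)
      fun z x => (t * d p.1 p.2 x ^ 2 + d p.1 p.2 x * v p.1 p.2 x) * E z x := fun p =>
    tE (by have := (hBd p.1 p.2).1; have := (hBv p.1 p.2).1; fun_prop)
      (B := |t| * Bd ^ 2 + Bd * Bv) fun x => by
        refine (abs_add_le _ _).trans (add_le_add ?_ ?_)
        · rw [abs_mul, abs_pow]
          exact mul_le_mul_of_nonneg_left (pow_le_pow_left₀ (abs_nonneg _) ((hBd _ _).2 x) 2)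
            (abs_nonneg _)
        · rw [abs_mul]
          exact mul_le_mul ((hBd _ _).2 x) ((hBv _ _).2 x) (abs_nonneg _) hBd0
  change cnd (stdG ι) μ H (fun z x => linZ d z x * E z x) 0 z = _
  rw [e0, cnd_finsum hH univ (fun p _ => tzP p.1 p.2)]
  simp_rw [hone, sum_sub_distrib, ← mul_sum]
  congr 1
  · rw [← cnd_finsum hH univ (fun p _ => tq p)]
    congr 1
    funext z x
    simp only [sum_mul, Fintype.sum_prod_type, E]
  · congr 1
    rw [Fintype.sum_prod_type]
    have hIcc : ∀ (a : Fin k) (f : ℕ → ℝ),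
        ∑ l ∈ Icc ((a : ℕ) + 1) k, f l = ∑ l ∈ Icc 1 k, if (a : ℕ) < l then f l else 0 := fun a f => by
      rw [← sum_filter]
      refine sum_congr ?_ fun _ _ => rfl
      ext l
      simp only [mem_Icc, mem_filter]
      omega
    simp_rw [hIcc]
    rw [← Fintype.sum_prod_type' (f := fun a i => ∑ l ∈ Icc 1 k, _), sum_comm]
    refine sum_congr rfl fun l _ => ?_
    set A := fun (p : Fin k × ι) (z : Fin k → ι → ℝ) (_ : X) => if (p.1 : ℕ) < l then
      cnd (stdG ι) μ H (P p.1 p.2) l z * cnd (stdG ι) μ H (fun _ y => v p.1 p.2 y) l z else 0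
    have tA : ∀ p, Tame (gaussSize ι) (A p) := fun p => by
      by_cases hp : (p.1 : ℕ) < l
      · simp only [A, if_pos hp]
        exact (cnd_tame hH (tP _ _) l).mul (cnd_tame hH (tame_of_bdd (hBv _ _).1 (hBv _ _).2) l)
      · simp only [A, if_neg hp]
        exact tame_of_bdd measurable_const (B := 0) (by simp)
    have e1 : ∀ p : Fin k × ι, (if (p.1 : ℕ) < l then cnd (stdG ι) μ H (fun z _ =>
        cnd (stdG ι) μ H (P p.1 p.2) l z * cnd (stdG ι) μ H (fun _ y => v p.1 p.2 y) l z) 0 z else 0)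
          = cnd (stdG ι) μ H (A p) 0 z := fun p => by
      by_cases hp : (p.1 : ℕ) < l
      · simp only [A, if_pos hp]
      · simp only [A, if_neg hp]
        exact (cnd_const hH 0 0 z).symm
    simp only [e1]
    rw [← cnd_finsum hH univ (fun p _ => tA p)]
    congr 1
    funext z' x'
    exact ((lowTerm_eq hH ⟨Bv, hBv0, hBv⟩ hd t l).2.2 z' x').symm

theorem measurable_lowKer_right (hv : BCoef v) (l : ℕ) (x : X) :
    Measurable (lowKer d v l x) := by
  obtain ⟨B, -, hB⟩ := hv
  refine Finset.measurable_sum _ fun a _ => ?_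
  by_cases ha : (a : ℕ) < l
  · simp only [if_pos ha]
    refine Finset.measurable_sum _ fun i _ => ?_
    have := (hB a i).1
    fun_prop
  · simp only [if_neg ha]; exact measurable_const

/-- The coefficient of the conditional expectation is that of the kernel. -/
theorem low_sum_eq (hv : BCoef v) {H : (Fin k → ι → ℝ) → X → ℝ} (hH : LinB (gaussSize ι) H)
    (l : ℕ) (x : X) (z : Fin k → ι → ℝ) :
    (∑ a : Fin k, if (a : ℕ) < l then
        ∑ i, d a i x * cnd (stdG ι) μ H (fun _ y => v a i y) l z else 0)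
      = cnd (stdG ι) μ H (fun _ y => lowKer d v l x y) l z := by
  obtain ⟨B, -, hB⟩ := hv
  have t : ∀ p : Fin k × ι, Tame (k := k) (gaussSize ι)
      fun _ y => (if (p.1 : ℕ) < l then d p.1 p.2 x else 0) * v p.1 p.2 y := fun p =>
    (tame_of_bdd (hB _ _).1 (hB _ _).2).const_mul _
  have e : (fun (_ : Fin k → ι → ℝ) (y : X) => lowKer d v l x y)
      = fun _ y => ∑ p : Fin k × ι, (if (p.1 : ℕ) < l then d p.1 p.2 x else 0) * v p.1 p.2 y := by
    funext _ y
    unfold lowKer
    rw [Fintype.sum_prod_type]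
    refine sum_congr rfl fun a _ => ?_
    by_cases ha : (a : ℕ) < l <;> simp [ha]
  rw [e, cnd_finsum hH univ (fun p _ => t p), Fintype.sum_prod_type]
  refine sum_congr rfl fun a _ => ?_
  by_cases ha : (a : ℕ) < l
  · simp only [if_pos ha]
    exact sum_congr rfl fun i _ => (cnd_const_mul (φ := fun _ y => v a i y) _ _ _).symm
  · simp only [if_neg ha, zero_mul]
    exact (Eq.trans (sum_congr rfl fun i _ => cnd_const hH 0 _ _) sum_const_zero).symm

/-- The mean of the linear form: diagonal minus pairs of leaves. -/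
theorem cnd_linZ_zero [DecidableEq ι] (hv : BCoef v) (hd : BCoef d) (h0 : Measurable H0) {B0 : ℝ}
    (hB0 : ∀ x, |H0 x| ≤ B0) (z : Fin k → ι → ℝ) :
    let H := fun z x => linZ v z x + H0 x
    cnd (stdG ι) μ H (linZ d) 0 z
      = cnd (stdG ι) μ H (fun _ x => ∑ a, ∑ i, d a i x * v a i x) 0 z
        - mass k * ∑ l ∈ Icc 1 k, cnd (stdG ι) μ H
            (fun z' _ => pairCnd (stdG ι) μ H (fun _ x _ y => lowKer d v l x y) l z') 0 z := by
  intro H
  have hH : LinB (gaussSize ι) H := linB_affine hv h0 hB0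
  have h := cnd_linZ (μ := μ) hv hd h0 hB0 0 z
  simp only [lowTerm, zero_mul, exp_zero, mul_one, zero_add] at h
  refine h.trans ?_
  congr 2
  refine sum_congr rfl fun l _ => ?_
  simp only [pairCnd]
  congr 1
  funext z' _
  congr 1
  funext z'' x
  exact low_sum_eq hv hH l x z'

/-- Deterministic bounds for the kernels of a linear form. -/
def KerBd (d v : Fin k → ι → X → ℝ) (D κ : ℝ) : Prop :=
  (∀ x, ∑ a, ∑ i, d a i x ^ 2 ≤ D) ∧ (∀ x, |∑ a, ∑ i, d a i x * v a i x| ≤ κ) ∧
    ∀ l x y, |lowKer d v l x y| ≤ κ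

omit [MeasurableSpace X] in
theorem KerBd.neg {D κ : ℝ} (h : KerBd d v D κ) : KerBd (fun a i x => -d a i x) v D κ := by
  refine ⟨fun x => by simpa using h.1 x, fun x => ?_, fun l x y => ?_⟩
  · simpa [neg_mul, sum_neg_distrib] using h.2.1 x
  · have e : lowKer (fun a i x => -d a i x) v l x y = -lowKer d v l x y := by
      unfold lowKer
      rw [← sum_neg_distrib]
      refine sum_congr rfl fun a _ => ?_
      by_cases ha : (a : ℕ) < l <;> simp [ha, sum_neg_distrib]
    rw [e, abs_neg]
    exact h.2.2 l x y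

/-- The derivative of an exponential moment is controlled by the moment. -/
theorem cnd_linZ_exp_le [DecidableEq ι] (hv : BCoef v) (hd : BCoef d) (h0 : Measurable H0) {B0 : ℝ}
    (hB0 : ∀ x, |H0 x| ≤ B0) {D κ : ℝ} (hK : KerBd d v D κ) {t : ℝ} (ht : 0 ≤ t)
    (z : Fin k → ι → ℝ) :
    let H := fun z x => linZ v z x + H0 x
    cnd (stdG ι) μ H (fun z x => linZ d z x * exp (t * linZ d z x)) 0 z
      ≤ (t * D + 2 * κ) * cnd (stdG ι) μ H (fun z x => exp (t * linZ d z x)) 0 z := by
  intro H
  have hH : LinB (gaussSize ι) H := linB_affine hv h0 hB0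
  set E := fun (z : Fin k → ι → ℝ) (x : X) => exp (t * linZ d z x)
  have tEe : ∀ c : ℝ, Tame (gaussSize ι) fun z x => c * E z x := fun c =>
    tame_mul_exp hd t (g := fun _ => c) measurable_const (fun _ => le_rfl)
  have tg : ∀ {g : X → ℝ} {B : ℝ}, Measurable g → (∀ x, |g x| ≤ B) →
      Tame (gaussSize ι) fun z x => g x * E z x := fun hg hB => tame_mul_exp hd t hg hB
  rw [cnd_linZ hv hd h0 hB0 t z]
  obtain ⟨Bd, hBd0, hBd⟩ := id hd
  obtain ⟨Bv, hBv0, hBv⟩ := id hv
  have hbd : ∀ x, |∑ a, ∑ i, (t * d a i x ^ 2 + d a i x * v a i x)| ≤ t * D + κ := fun x => by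
    simp only [sum_add_distrib, ← mul_sum]
    refine (abs_add_le _ _).trans (add_le_add ?_ (hK.2.1 x))
    rw [abs_of_nonneg (mul_nonneg ht (by positivity))]
    exact mul_le_mul_of_nonneg_left (hK.1 x) ht
  have hκ : 0 ≤ κ := by
    by_contra hc
    rcases isEmpty_or_nonempty X with hX | ⟨⟨x⟩⟩
    · exact absurd (measure_univ (μ := μ)) (by simp [Measure.eq_zero_of_isEmpty μ])
    · exact hc ((abs_nonneg _).trans (hK.2.2 0 x x))
  have hm1 : Measurable fun x => ∑ a, ∑ i, (t * d a i x ^ 2 + d a i x * v a i x) := by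
    refine Finset.measurable_sum _ fun a _ => Finset.measurable_sum _ fun i _ => ?_
    have := (hBd a i).1; have := (hBv a i).1
    fun_prop
  have hfirst : cnd (stdG ι) μ H
      (fun z x => (∑ a, ∑ i, (t * d a i x ^ 2 + d a i x * v a i x)) * E z x) 0 z
      ≤ (t * D + κ) * cnd (stdG ι) μ H E 0 z := by
    rw [← cnd_const_mul (φ := E)]
    exact cnd_mono hH (tg hm1 hbd) (tEe _) (fun z x => mul_le_mul_of_nonneg_right
      ((le_abs_self _).trans (hbd x)) (exp_pos _).le) 0 z
  have hlow : ∀ l ∈ Icc 1 k, -(κ * cnd (stdG ι) μ H E 0 z)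
      ≤ cnd (stdG ι) μ H (fun z' _ => lowTerm μ H d v t l z') 0 z := by
    intro l hl
    have hlk := (mem_Icc.1 hl).2
    have hin : ∀ z', -(κ * cnd (stdG ι) μ H E l z') ≤ lowTerm μ H d v t l z' := fun z' => by
      rw [← neg_mul, ← cnd_const_mul (φ := E), lowTerm]
      have hb : ∀ x, |∑ a : Fin k, if (a : ℕ) < l then
          ∑ i, d a i x * cnd (stdG ι) μ H (fun _ y => v a i y) l z' else 0| ≤ κ := fun x => by
        rw [low_sum_eq hv hH]
        exact cnd_abs_le (φ := fun _ y => lowKer d v l x y) hH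
          ((measurable_lowKer_right hv l x).comp measurable_snd) (fun _ y => hK.2.2 l x y) l z'
      have hm : Measurable fun x => ∑ a : Fin k, if (a : ℕ) < l then
          ∑ i, d a i x * cnd (stdG ι) μ H (fun _ y => v a i y) l z' else 0 := by
        refine Finset.measurable_sum _ fun a _ => ?_
        by_cases ha : (a : ℕ) < l
        · simp only [if_pos ha]
          refine Finset.measurable_sum _ fun i _ => ?_
          have := (hBd a i).1
          fun_prop
        · simp only [if_neg ha]; exact measurable_const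
      refine cnd_mono hH (tEe _) (tg hm hb) (fun z'' x => ?_) l z'
      exact mul_le_mul_of_nonneg_right (by linarith [(abs_le.1 (hb x)).1]) (exp_pos _).le
    have tE1 : Tame (gaussSize ι) E := by simpa using tEe 1
    calc -(κ * cnd (stdG ι) μ H E 0 z)
        = cnd (stdG ι) μ H (fun z' _ => -κ * cnd (stdG ι) μ H E l z') 0 z := by
          rw [cnd_const_mul, cnd_tower hH (Nat.zero_le l)]; ring
      _ ≤ _ := cnd_mono hH ((cnd_tame hH tE1 l).const_mul _) (lowTerm_eq hH hv hd t l).2.1
          (fun z' x => by simpa [neg_mul] using hin z') 0 z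
  have hE0 : 0 ≤ cnd (stdG ι) μ H E 0 z := cnd_nonneg (fun z x => (exp_pos _).le) 0 z
  have hsum : mass k * ∑ l ∈ Icc 1 k, -(cnd (stdG ι) μ H (fun z' _ => lowTerm μ H d v t l z') 0 z)
      ≤ κ * cnd (stdG ι) μ H E 0 z :=
    mass_sum_le (fun l hl => mem_Icc.2 ⟨Nat.zero_le _, (mem_Icc.1 hl).2⟩) (mul_nonneg hκ hE0)
      (fun l hl => by linarith [hlow l hl])
  rw [sum_neg_distrib, mul_neg] at hsum
  simp only [E] at hfirst hsum ⊢
  linarith

/-- The exponential moment of the linear form. -/
theorem cnd_exp_linZ_le [DecidableEq ι] (hv : BCoef v) (hd : BCoef d) (h0 : Measurable H0) {B0 : ℝ}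
    (hB0 : ∀ x, |H0 x| ≤ B0) {D κ : ℝ} (hK : KerBd d v D κ) {t : ℝ} (ht : 0 ≤ t)
    (z : Fin k → ι → ℝ) :
    cnd (stdG ι) μ (fun z x => linZ v z x + H0 x) (fun z x => exp (t * linZ d z x)) 0 z
      ≤ exp (t ^ 2 * D / 2 + 2 * κ * t) := by
  set H := fun z x => linZ v z x + H0 x
  have hH : LinB (gaussSize ι) H := linB_affine hv h0 hB0
  have hmZ := measurable_linZ hd
  obtain ⟨Bd, hBd0, hBd⟩ := id hd
  obtain ⟨A0, hA0, hH0⟩ := hH.bound
  set G := fun s => cnd (stdG ι) μ H (fun z x => exp (s * linZ d z x)) 0 z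
  set G' := fun s => cnd (stdG ι) μ H (fun z x => linZ d z x * exp (s * linZ d z x)) 0 z
  have hder : ∀ s, HasDerivAt G (G' s) s := by
    intro s
    have F : Family (gaussSize ι) (fun _ => H) (fun s z x => exp (s * linZ d z x))
        (fun _ _ _ => 0) (fun s z x => linZ d z x * exp (s * linZ d z x)) s 1 := by
      refine ⟨one_pos, fun _ => hH.meas, fun _ => measurable_const,
        fun u => Real.measurable_exp.comp (hmZ.const_mul u),
        fun u => hmZ.mul (Real.measurable_exp.comp (hmZ.const_mul u)),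
        ⟨A0 + (|s| + 2) * Bd + 1, by positivity, fun u hu z x => ?_⟩,
        fun u _ z x => hasDerivAt_const u _,
        fun u _ z x => by simpa [mul_comm] using ((hasDerivAt_id u).mul_const (linZ d z x)).exp⟩
      set T := (gaussSize ι).tot z
      have hT : 0 ≤ T := sum_nonneg fun a _ => (gaussSize ι).nonneg _
      have hb := abs_linZ_le (fun a i x => (hBd a i).2 x) z x
      set A := A0 + (|s| + 2) * Bd + 1
      have hA : 1 ≤ A := by nlinarith [abs_nonneg s]
      have hu' : |u| ≤ |s| + 1 := by linarith [abs_sub_abs_le_abs_sub u s]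
      have h1 : u * linZ d z x ≤ (|s| + 1) * (Bd * T) :=
        (le_abs_self _).trans ((abs_mul _ _).le.trans (mul_le_mul hu' hb (abs_nonneg _) (by positivity)))
      have h2 : |linZ d z x| ≤ exp (Bd * T) := hb.trans (by linarith [add_one_le_exp (Bd * T)])
      have h3 : exp (u * linZ d z x) ≤ exp (A * T) :=
        exp_le_exp.2 (h1.trans (by nlinarith [mul_nonneg hA0 hT, mul_nonneg hBd0 hT]))
      refine ⟨(hH0 z x).trans (mul_le_mul_of_nonneg_right (by nlinarith [abs_nonneg s]) (by linarith)),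
        by simpa using mul_nonneg (by linarith : (0 : ℝ) ≤ A) (exp_pos (A * T)).le, ?_, ?_⟩
      · rw [abs_exp]; exact h3.trans (le_mul_of_one_le_left (exp_pos _).le hA)
      · rw [abs_mul, abs_exp]
        refine (mul_le_mul h2 (exp_le_exp.2 h1) (exp_pos _).le (exp_pos _).le).trans ?_
        rw [← exp_add]
        refine (exp_le_exp.2 ?_).trans (le_mul_of_one_le_left (exp_pos _).le hA)
        nlinarith [mul_nonneg hA0 hT, mul_nonneg hBd0 hT]
    refine (hasDerivAt_cnd F (Nat.zero_le k) z).congr_deriv ?_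
    simp only [cndDer, mul_zero, add_zero, cnd_const hH 0, sum_const_zero, sub_zero, G']
  have hG0 : G 0 = 1 := by simp only [G, zero_mul, exp_zero]; exact cnd_const hH 1 0 z
  set W := fun s => G s * exp (-(s ^ 2 * D / 2 + 2 * κ * s))
  have hW : ∀ s, HasDerivAt W ((G' s - (s * D + 2 * κ) * G s)
      * exp (-(s ^ 2 * D / 2 + 2 * κ * s))) s := fun s =>
    ((hder s).mul ((((hasDerivAt_pow 2 s).mul_const D).div_const 2).add
      ((hasDerivAt_id s).const_mul (2 * κ))).neg.exp).congr_deriv (by simp; ring)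
  have hmono : AntitoneOn W (Set.Ici 0) := antitoneOn_of_deriv_nonpos (convex_Ici 0)
    (continuous_iff_continuousAt.2 fun s => (hW s).continuousAt).continuousOn
    (fun s _ => (hW s).differentiableAt.differentiableWithinAt) fun s hs => by
      rw [interior_Ici, Set.mem_Ioi] at hs
      rw [(hW s).deriv]
      exact mul_nonpos_of_nonpos_of_nonneg
        (by linarith [cnd_linZ_exp_le (μ := μ) hv hd h0 hB0 hK hs.le z]) (exp_pos _).le
  have h := hmono (Set.self_mem_Ici) (Set.mem_Ici.2 ht) ht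
  simp only [W, hG0] at h
  norm_num at h
  have e1 : exp (-(2 * κ * t) + -(t ^ 2 * D / 2)) * exp (t ^ 2 * D / 2 + 2 * κ * t) = 1 := by
    rw [← exp_add]; ring_nf; exact exp_zero
  calc G t = G t * exp (-(2 * κ * t) + -(t ^ 2 * D / 2)) * exp (t ^ 2 * D / 2 + 2 * κ * t) := by
        rw [mul_assoc, e1, mul_one]
    _ ≤ 1 * exp (t ^ 2 * D / 2 + 2 * κ * t) := mul_le_mul_of_nonneg_right h (exp_pos _).le
    _ = _ := one_mul _

end Vale.Agent.P157.Rsb
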