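import Mathlib

/-!
# P157, cavity module: the coefficients of the one-coordinate interpolation

`n` is the old dimension, `u` the angle and `w` the new coordinate (rescaled by `√n`).
-/

open Real

namespace Vale.Agent.P157.Rsb

/-- The new coordinate of a unit vector. -/
noncomputable def cS (n w : ℝ) : ℝ := w / √(n + w ^ 2)

/-- The factor of the old coordinates seen by patterns. -/
noncomputable def cA (n u w : ℝ) : ℝ := √(1 - sin u ^ 2 * cS n w ^ 2)

/-- The factor of the old coordinates seen by fields. -/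
noncomputable def cC (n u w : ℝ) : ℝ :=
  √(cos u ^ 2 * (n / (n + 1)) + sin u ^ 2 * (n / (n + w ^ 2)))

/-- The derivative of `cA` in the angle. -/
noncomputable def cA' (n u w : ℝ) : ℝ := -(sin u * cos u * cS n w ^ 2) / cA n u w

/-- The derivative of `cC` in the angle. -/
noncomputable def cC' (n u w : ℝ) : ℝ :=
  sin u * cos u * (n / (n + w ^ 2) - n / (n + 1)) / cC n u w

variable {n u w v W : ℝ}

theorem cS_sq (hn : 0 < n) : cS n w ^ 2 = w ^ 2 / (n + w ^ 2) := by
  rw [cS, div_pow, sq_sqrt (by positivity)]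

theorem cS_sq_le (hn : 0 < n) (hw : |w| ≤ W) : cS n w ^ 2 ≤ W ^ 2 / n := by
  have : w ^ 2 ≤ W ^ 2 := by simpa [sq_abs] using pow_le_pow_left₀ (abs_nonneg w) hw 2
  rw [cS_sq hn]
  exact div_le_div₀ (sq_nonneg W) this hn (by nlinarith)

theorem cA_sq (hn : 0 < n) : cA n u w ^ 2 = 1 - sin u ^ 2 * cS n w ^ 2 := by
  refine sq_sqrt (sub_nonneg.2 ?_)
  rw [cS_sq hn]
  refine mul_le_one₀ (sin_sq_le_one u) (by positivity) ?_
  rw [div_le_one (by positivity)]
  linarith

theorem one_sub_cS_sq (hn : 0 < n) : 1 - cS n w ^ 2 = n / (n + w ^ 2) := by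
  have : 0 < n + w ^ 2 := by positivity
  rw [cS_sq hn]; field_simp; ring

theorem cA_sq_ge (hn : 0 < n) : n / (n + w ^ 2) ≤ cA n u w ^ 2 := by
  rw [cA_sq hn, ← one_sub_cS_sq hn]
  nlinarith [mul_le_mul_of_nonneg_right (sin_sq_le_one u) (sq_nonneg (cS n w))]

theorem cA_pos (hn : 0 < n) : 0 < cA n u w := by
  have h := cA_sq_ge (u := u) (w := w) hn
  have : 0 < n / (n + w ^ 2) := by positivity
  have h0 : 0 ≤ cA n u w := sqrt_nonneg _
  nlinarith

theorem cA_le_one (hn : 0 < n) : cA n u w ≤ 1 := by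
  nlinarith [cA_sq (u := u) (w := w) hn, mul_nonneg (sq_nonneg (sin u)) (sq_nonneg (cS n w)),
    cA_pos (u := u) (w := w) hn]

theorem cC_sq (hn : 0 < n) :
    cC n u w ^ 2 = cos u ^ 2 * (n / (n + 1)) + sin u ^ 2 * (n / (n + w ^ 2)) :=
  sq_sqrt (by positivity)

theorem cC_le_one (hn : 0 < n) : cC n u w ≤ 1 := by
  refine sqrt_le_one.2 ?_
  have h1 : n / (n + 1) ≤ 1 := by rw [div_le_one (by positivity)]; linarith
  have h2 : n / (n + w ^ 2) ≤ 1 := by rw [div_le_one (by positivity)]; nlinarith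
  nlinarith [mul_le_mul_of_nonneg_left h1 (sq_nonneg (cos u)),
    mul_le_mul_of_nonneg_left h2 (sq_nonneg (sin u)), sin_sq_add_cos_sq u]

theorem cC_pos (hn : 0 < n) : 0 < cC n u w := by
  refine sqrt_pos.2 ?_
  have h1 : 0 < n / (n + 1) := by positivity
  have h2 : 0 < n / (n + w ^ 2) := by positivity
  rcases le_total (n / (n + 1)) (n / (n + w ^ 2)) with h | h <;>
    nlinarith [mul_le_mul_of_nonneg_left h (sq_nonneg (cos u)),
      mul_le_mul_of_nonneg_left h (sq_nonneg (sin u)), sin_sq_add_cos_sq u]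

/-- Both squared factors are bounded below. -/
theorem inv_factors_le (hn : 1 ≤ n) (hW : 1 ≤ W) (hw : |w| ≤ W) :
    1 / cA n u w ≤ 2 * W ∧ 1 / cC n u w ≤ 2 * W := by
  have hn0 : 0 < n := by linarith
  have hw2 : w ^ 2 ≤ W ^ 2 := by simpa [sq_abs] using pow_le_pow_left₀ (abs_nonneg w) hw 2
  have key : ∀ a : ℝ, 0 ≤ a → a ≤ W ^ 2 → 1 / (4 * W ^ 2) ≤ n / (n + a) := fun a ha haW => by
    rw [div_le_div_iff₀ (by positivity) (by positivity)]
    nlinarith [mul_le_mul_of_nonneg_right hn (sq_nonneg W),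
      mul_le_mul_of_nonneg_left (one_le_pow₀ hW : 1 ≤ W ^ 2) hn0.le]
  have fin : ∀ c : ℝ, 0 < c → 1 / (4 * W ^ 2) ≤ c ^ 2 → 1 / c ≤ 2 * W := fun c hc h => by
    have : 1 / (2 * W) ≤ c := by
      refine le_of_pow_le_pow_left₀ two_ne_zero hc.le ?_
      refine le_of_eq_of_le ?_ h
      ring
    rw [div_le_iff₀ hc]
    rw [div_le_iff₀ (by positivity)] at this
    linarith
  refine ⟨fin _ (cA_pos hn0) ((key _ (sq_nonneg w) hw2).trans (cA_sq_ge hn0)),
    fin _ (cC_pos hn0) ?_⟩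
  rw [cC_sq hn0]
  have h1 := key 1 zero_le_one (by nlinarith)
  have h2 := key _ (sq_nonneg w) hw2
  calc 1 / (4 * W ^ 2) = cos u ^ 2 * (1 / (4 * W ^ 2)) + sin u ^ 2 * (1 / (4 * W ^ 2)) := by
        rw [← add_mul, cos_sq_add_sin_sq, one_mul]
    _ ≤ _ := add_le_add (mul_le_mul_of_nonneg_left h1 (sq_nonneg _))
        (mul_le_mul_of_nonneg_left h2 (sq_nonneg _))

theorem hasDerivAt_cA (hn : 0 < n) (u : ℝ) :
    HasDerivAt (fun t => cA n t w) (cA' n u w) u := by
  have h := (((hasDerivAt_sin u).pow 2).mul_const (cS n w ^ 2)).const_sub 1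
  refine ((h.sqrt ?_).congr_deriv ?_)
  · have := cA_sq (u := u) (w := w) hn
    have h' := cA_pos (u := u) (w := w) hn
    intro h0
    simp only [Pi.pow_apply] at h0
    rw [h0] at this
    nlinarith
  · simp only [cA', cA, Pi.pow_apply]
    field_simp
    push_cast
    ring

theorem hasDerivAt_cC (hn : 0 < n) (u : ℝ) :
    HasDerivAt (fun t => cC n t w) (cC' n u w) u := by
  have h := (((hasDerivAt_cos u).pow 2).mul_const (n / (n + 1))).add
    (((hasDerivAt_sin u).pow 2).mul_const (n / (n + w ^ 2)))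
  refine ((h.sqrt ?_).congr_deriv ?_)
  · have := cC_sq (u := u) (w := w) hn
    have h' := cC_pos (u := u) (w := w) hn
    intro h0
    simp only [Pi.pow_apply, Pi.add_apply] at h0
    rw [h0] at this
    nlinarith
  · simp only [cC', cC, Pi.pow_apply, Pi.add_apply]
    field_simp
    push_cast
    ring

theorem abs_sin_cos_le (u : ℝ) : |sin u * cos u| ≤ 1 := by
  rw [abs_mul]; exact mul_le_one₀ (abs_sin_le_one u) (abs_nonneg _) (abs_cos_le_one u)

theorem abs_gap_le (hn : 0 < n) (hW : 1 ≤ W) (hw : |w| ≤ W) :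
    |n / (n + w ^ 2) - n / (n + 1)| ≤ W ^ 2 / n := by
  have hw2 : w ^ 2 ≤ W ^ 2 := by simpa [sq_abs] using pow_le_pow_left₀ (abs_nonneg w) hw 2
  have e : n / (n + w ^ 2) - n / (n + 1) = n * (1 - w ^ 2) / ((n + w ^ 2) * (n + 1)) := by
    field_simp; ring
  rw [e, abs_div, abs_mul, abs_of_pos hn,
    abs_of_pos (show 0 < (n + w ^ 2) * (n + 1) by positivity),
    div_le_div_iff₀ (by positivity) hn]
  have h1 : |1 - w ^ 2| ≤ W ^ 2 := abs_le.2 ⟨by nlinarith, by nlinarith⟩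
  nlinarith [mul_le_mul_of_nonneg_left h1 (mul_nonneg hn.le hn.le),
    mul_nonneg (sq_nonneg W) (by nlinarith : 0 ≤ (n + w ^ 2) * (n + 1) - n * n)]

/-- The derivatives of the factors are small. -/
theorem abs_cA'_le (hn : 1 ≤ n) (hW : 1 ≤ W) (hw : |w| ≤ W) :
    |cA' n u w| ≤ 2 * W ^ 3 / n ∧ |cC' n u w| ≤ 2 * W ^ 3 / n := by
  have hn0 : 0 < n := by linarith
  obtain ⟨ha, hc⟩ := inv_factors_le (u := u) hn hW hw
  have main : ∀ x c : ℝ, 0 < c → 1 / c ≤ 2 * W → |x| ≤ W ^ 2 / n →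
      |sin u * cos u * x / c| ≤ 2 * W ^ 3 / n := fun x c hc0 hc hx => by
    rw [abs_div, abs_mul, abs_of_pos hc0, div_eq_mul_one_div]
    calc |sin u * cos u| * |x| * (1 / c) ≤ 1 * (W ^ 2 / n) * (2 * W) :=
          mul_le_mul (mul_le_mul (abs_sin_cos_le u) hx (abs_nonneg _) zero_le_one) hc
            (by positivity) (by positivity)
      _ = _ := by ring
  constructor
  · rw [cA', ← mul_neg]
    exact main _ _ (cA_pos hn0) ha (by rw [abs_neg, abs_sq]; exact cS_sq_le hn0 hw)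
  · exact main _ _ (cC_pos hn0) hc (abs_gap_le hn0 hW hw)

theorem mul_cS_near (hn : 1 ≤ n) (hw : |w| ≤ W) (hv : |v| ≤ W) :
    |n * (cS n w * cS n v) - w * v| ≤ W ^ 4 / n := by
  have hn0 : 0 < n := by linarith
  have hw2 : w ^ 2 ≤ W ^ 2 := by simpa [sq_abs] using pow_le_pow_left₀ (abs_nonneg w) hw 2
  have hv2 : v ^ 2 ≤ W ^ 2 := by simpa [sq_abs] using pow_le_pow_left₀ (abs_nonneg v) hv 2
  set D := √(n + w ^ 2) * √(n + v ^ 2) with hD
  have hD0 : 0 < D := by positivity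
  have hD2 : D ^ 2 = (n + w ^ 2) * (n + v ^ 2) := by
    rw [hD, mul_pow, sq_sqrt (by positivity), sq_sqrt (by positivity)]
  have hlo : n ≤ D := by nlinarith
  have hhi : D ≤ n + W ^ 2 := by
    nlinarith [mul_le_mul (by linarith : n + w ^ 2 ≤ n + W ^ 2) (by linarith : n + v ^ 2 ≤ n + W ^ 2)
      (by positivity) (by positivity)]
  have e : n * (cS n w * cS n v) - w * v = w * v * ((n - D) / D) := by
    rw [cS, cS, div_mul_div_comm, ← hD]; field_simp
  rw [e, abs_mul, abs_div, abs_of_pos hD0, abs_mul]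
  calc |w| * |v| * (|n - D| / D) ≤ W * W * (W ^ 2 / n) := by
        refine mul_le_mul (mul_le_mul hw hv (abs_nonneg _) ((abs_nonneg _).trans hw)) ?_
          (by positivity) (by nlinarith [(abs_nonneg w).trans hw])
        exact div_le_div₀ (sq_nonneg W) (abs_le.2 ⟨by linarith, by nlinarith⟩) hn0 hlo
    _ = _ := by ring

/-- The ratio of two factors is close to one. -/
theorem ratio_near {a b : ℝ} (ha : 0 < a) (hb : 0 < b) (hW : 1 ≤ W) (hn : 0 < n)
    (hainv : 1 / a ≤ 2 * W) (hbinv : 1 / b ≤ 2 * W) (h : |b ^ 2 - a ^ 2| ≤ W ^ 2 / n) :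
    |b / a - 1| ≤ 2 * W ^ 4 / n := by
  have hs : 1 / W ≤ a + b := by
    rw [div_le_iff₀ (by linarith)]
    rw [div_le_iff₀ ha] at hainv
    rw [div_le_iff₀ hb] at hbinv
    linarith
  have hd : |b - a| ≤ W ^ 3 / n := by
    have e : |b ^ 2 - a ^ 2| = |b - a| * (a + b) := by
      rw [show b ^ 2 - a ^ 2 = (b - a) * (a + b) by ring, abs_mul, abs_of_pos (by linarith : 0 < a + b)]
    rw [div_le_iff₀ (by linarith : 0 < W)] at hs
    calc |b - a| ≤ |b - a| * ((a + b) * W) := le_mul_of_one_le_right (abs_nonneg _) hs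
      _ ≤ W ^ 2 / n * W := by rw [← mul_assoc, ← e]; exact mul_le_mul_of_nonneg_right h (by linarith)
      _ = _ := by ring
  rw [show b / a - 1 = (b - a) * (1 / a) by field_simp, abs_mul, abs_of_pos (by positivity : 0 < 1 / a)]
  calc |b - a| * (1 / a) ≤ W ^ 3 / n * (2 * W) :=
        mul_le_mul hd hainv (by positivity) (by positivity)
    _ = _ := by ring

/-- The pattern kernel, rescaled by `n`. -/
theorem patKer_near (hn : 1 ≤ n) (hW : 1 ≤ W) (hw : |w| ≤ W) (hv : |v| ≤ W) {R : ℝ} (hR : |R| ≤ 1) :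
    |n * (cA' n u w * cA n u v * R + cos u * cS n w * (sin u * cS n v))
      - sin u * cos u * (w * v - w ^ 2 * R)| ≤ 4 * W ^ 6 / n := by
  have hn0 : 0 < n := by linarith
  have hw2 : w ^ 2 ≤ W ^ 2 := by simpa [sq_abs] using pow_le_pow_left₀ (abs_nonneg w) hw 2
  set r := cA n u v / cA n u w
  have hr : |r - 1| ≤ 2 * W ^ 4 / n := by
    refine ratio_near (cA_pos hn0) (cA_pos hn0) hW hn0 (inv_factors_le hn hW hw).1
      (inv_factors_le hn hW hv).1 ?_
    rw [cA_sq hn0, cA_sq hn0, show 1 - sin u ^ 2 * cS n v ^ 2 - (1 - sin u ^ 2 * cS n w ^ 2)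
      = sin u ^ 2 * (cS n w ^ 2 - cS n v ^ 2) by ring, abs_mul, abs_sq]
    exact (mul_le_of_le_one_left (abs_nonneg _) (sin_sq_le_one u)).trans
      (abs_le.2 ⟨by nlinarith [cS_sq_le hn0 hv], by nlinarith [cS_sq_le hn0 hw]⟩)
  have hq : |n * cS n w ^ 2 * r - w ^ 2| ≤ 3 * W ^ 6 / n := by
    have h1 : n * cS n w ^ 2 ≤ W ^ 2 := by
      have := cS_sq_le hn0 hw
      rw [le_div_iff₀ hn0] at this
      linarith
    have h2 : |n * cS n w ^ 2 - w ^ 2| ≤ W ^ 4 / n := by
      simpa [sq] using mul_cS_near hn hw hw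
    calc |n * cS n w ^ 2 * r - w ^ 2|
        = |n * cS n w ^ 2 * (r - 1) + (n * cS n w ^ 2 - w ^ 2)| := by ring_nf
      _ ≤ W ^ 2 * (2 * W ^ 4 / n) + W ^ 4 / n := by
          refine (abs_add_le _ _).trans (add_le_add ?_ h2)
          rw [abs_mul, abs_of_nonneg (mul_nonneg hn0.le (sq_nonneg _))]
          exact mul_le_mul h1 hr (abs_nonneg _) (sq_nonneg W)
      _ ≤ W ^ 2 * (2 * W ^ 4 / n) + W ^ 6 / n :=
          add_le_add le_rfl (div_le_div_of_nonneg_right (pow_le_pow_right₀ hW (by norm_num)) hn0.le)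
      _ = _ := by ring
  have e : n * (cA' n u w * cA n u v * R + cos u * cS n w * (sin u * cS n v))
      - sin u * cos u * (w * v - w ^ 2 * R)
      = sin u * cos u * ((n * (cS n w * cS n v) - w * v) - R * (n * cS n w ^ 2 * r - w ^ 2)) := by
    simp only [r, cA']; ring
  rw [e, abs_mul]
  calc |sin u * cos u| * |(n * (cS n w * cS n v) - w * v) - R * (n * cS n w ^ 2 * r - w ^ 2)|
      ≤ 1 * (W ^ 4 / n + 1 * (3 * W ^ 6 / n)) := by
        refine mul_le_mul (abs_sin_cos_le u) ((abs_sub _ _).trans (add_le_add (mul_cS_near hn hw hv) ?_))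
          (abs_nonneg _) zero_le_one
        rw [abs_mul]
        exact mul_le_mul hR hq (abs_nonneg _) zero_le_one
    _ ≤ 1 * (W ^ 6 / n + 1 * (3 * W ^ 6 / n)) := by
        gcongr
        norm_num
    _ = _ := by ring

/-- The field kernel, rescaled by `n + 1`. -/
theorem fldKer_near (hn : 1 ≤ n) (hW : 1 ≤ W) (hw : |w| ≤ W) (hv : |v| ≤ W) {R : ℝ} (hR : |R| ≤ 1) :
    |(n + 1) * (cC' n u w * cC n u v * R + cos u * cS n w * (sin u * cS n v))
      - sin u * cos u * ((1 - w ^ 2) * R + w * v)| ≤ 5 * W ^ 6 / n := by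
  have hn0 : 0 < n := by linarith
  have hw2 : w ^ 2 ≤ W ^ 2 := by simpa [sq_abs] using pow_le_pow_left₀ (abs_nonneg w) hw 2
  have hv2 : v ^ 2 ≤ W ^ 2 := by simpa [sq_abs] using pow_le_pow_left₀ (abs_nonneg v) hv 2
  have hnear : ∀ a : ℝ, 0 ≤ a → a ≤ W ^ 2 → 0 ≤ 1 - n / (n + a) ∧ 1 - n / (n + a) ≤ W ^ 2 / n :=
    fun a ha haW => by
      rw [show 1 - n / (n + a) = a / (n + a) by field_simp; ring]
      exact ⟨by positivity, div_le_div₀ (sq_nonneg W) haW hn0 (by linarith)⟩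
  set r := cC n u v / cC n u w
  have hr : |r - 1| ≤ 2 * W ^ 4 / n := by
    refine ratio_near (cC_pos hn0) (cC_pos hn0) hW hn0 (inv_factors_le hn hW hw).2
      (inv_factors_le hn hW hv).2 ?_
    rw [cC_sq hn0, cC_sq hn0, add_sub_add_left_eq_sub, ← mul_sub, abs_mul, abs_sq]
    refine (mul_le_of_le_one_left (abs_nonneg _) (sin_sq_le_one u)).trans (abs_le.2 ?_)
    obtain ⟨a1, a2⟩ := hnear _ (sq_nonneg w) hw2
    obtain ⟨b1, b2⟩ := hnear _ (sq_nonneg v) hv2
    constructor <;> linarith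
  have hq : |n / (n + w ^ 2) * r - 1| ≤ 3 * W ^ 4 / n := by
    obtain ⟨a1, a2⟩ := hnear _ (sq_nonneg w) hw2
    calc |n / (n + w ^ 2) * r - 1| = |n / (n + w ^ 2) * (r - 1) - (1 - n / (n + w ^ 2))| := by ring_nf
      _ ≤ 1 * (2 * W ^ 4 / n) + W ^ 2 / n := by
          refine (abs_sub _ _).trans (add_le_add ?_ (by rwa [abs_of_nonneg a1]))
          rw [abs_mul, abs_of_nonneg (by positivity : 0 ≤ n / (n + w ^ 2))]
          exact mul_le_mul (by linarith) hr (abs_nonneg _) zero_le_one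
      _ ≤ 1 * (2 * W ^ 4 / n) + W ^ 4 / n :=
          add_le_add le_rfl (div_le_div_of_nonneg_right (pow_le_pow_right₀ hW (by norm_num)) hn0.le)
      _ = _ := by ring
  have hz : |(n + 1) * (cS n w * cS n v) - w * v| ≤ 2 * W ^ 4 / n := by
    have h1 : |cS n w * cS n v| ≤ W ^ 2 / n := by
      rw [abs_le]
      constructor <;>
        nlinarith [sq_nonneg (cS n w - cS n v), sq_nonneg (cS n w + cS n v), cS_sq_le hn0 hw,
          cS_sq_le hn0 hv]
    calc |(n + 1) * (cS n w * cS n v) - w * v|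
        = |(n * (cS n w * cS n v) - w * v) + cS n w * cS n v| := by ring_nf
      _ ≤ W ^ 4 / n + W ^ 4 / n := (abs_add_le _ _).trans (add_le_add (mul_cS_near hn hw hv)
          (h1.trans (div_le_div_of_nonneg_right (pow_le_pow_right₀ hW (by norm_num)) hn0.le)))
      _ = _ := by ring
  have e : (n + 1) * (cC' n u w * cC n u v * R + cos u * cS n w * (sin u * cS n v))
      - sin u * cos u * ((1 - w ^ 2) * R + w * v)
      = sin u * cos u * (((n + 1) * (cS n w * cS n v) - w * v)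
        + (1 - w ^ 2) * R * (n / (n + w ^ 2) * r - 1)) := by
    have := cC_pos (u := u) (w := w) hn0
    simp only [r, cC']
    field_simp
    ring
  rw [e, abs_mul]
  calc |sin u * cos u| * |((n + 1) * (cS n w * cS n v) - w * v)
        + (1 - w ^ 2) * R * (n / (n + w ^ 2) * r - 1)|
      ≤ 1 * (2 * W ^ 4 / n + W ^ 2 * 1 * (3 * W ^ 4 / n)) := by
        refine mul_le_mul (abs_sin_cos_le u) ((abs_add_le _ _).trans (add_le_add hz ?_))
          (abs_nonneg _) zero_le_one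
        rw [abs_mul, abs_mul]
        exact mul_le_mul (mul_le_mul (abs_le.2 ⟨by nlinarith, by nlinarith⟩) hR (abs_nonneg _)
          (sq_nonneg W)) hq (abs_nonneg _) (by positivity)
    _ ≤ 1 * (2 * W ^ 6 / n + W ^ 2 * 1 * (3 * W ^ 4 / n)) := by
        gcongr
        norm_num
    _ = _ := by ring

/-- The overlap of patterns is close to the overlap of the old coordinates. -/
theorem patOv_near (hn : 1 ≤ n) (hw : |w| ≤ W) (hv : |v| ≤ W) {R : ℝ} (hR : |R| ≤ 1) :
    |cA n u w * cA n u v * R + sin u * cS n w * (sin u * cS n v) - R| ≤ 3 * W ^ 2 / n := by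
  have hn0 : 0 < n := by linarith
  have a1 := cA_le_one (u := u) (w := w) hn0
  have a2 := cA_le_one (u := u) (w := v) hn0
  have p1 := cA_pos (u := u) (w := w) hn0
  have p2 := cA_pos (u := u) (w := v) hn0
  have s1 := cS_sq_le hn0 hw
  have s2 := cS_sq_le hn0 hv
  have q1 := cA_sq (u := u) (w := w) hn0
  have q2 := cA_sq (u := u) (w := v) hn0
  have t0 := sin_sq_le_one u
  have h1 : |cA n u w * cA n u v - 1| ≤ 2 * (W ^ 2 / n) := by
    rw [abs_of_nonpos (by nlinarith [mul_le_one₀ a1 p2.le a2])]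
    nlinarith [mul_le_mul_of_nonneg_right t0 (sq_nonneg (cS n w)),
      mul_le_mul_of_nonneg_right t0 (sq_nonneg (cS n v))]
  have h2 : |sin u * cS n w * (sin u * cS n v)| ≤ W ^ 2 / n := by
    rw [abs_le]
    constructor <;>
      nlinarith [sq_nonneg (sin u * cS n w - sin u * cS n v),
        sq_nonneg (sin u * cS n w + sin u * cS n v), mul_le_mul_of_nonneg_right t0 (sq_nonneg (cS n w)),
        mul_le_mul_of_nonneg_right t0 (sq_nonneg (cS n v))]
  calc |cA n u w * cA n u v * R + sin u * cS n w * (sin u * cS n v) - R|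
      = |(cA n u w * cA n u v - 1) * R + sin u * cS n w * (sin u * cS n v)| := by ring_nf
    _ ≤ 2 * (W ^ 2 / n) * 1 + W ^ 2 / n := (abs_add_le _ _).trans (add_le_add (by
          rw [abs_mul]; exact mul_le_mul h1 hR (abs_nonneg _) (by positivity)) h2)
    _ = _ := by ring

end Vale.Agent.P157.Rsb
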