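import Vale.Agent.P157.Rsb.Intf
import Vale.Agent.P157.Rsb.CavScalar
import Vale.Agent.P157.Rsb.CavLinear

/-!
# P157, cavity module: the interpolating systems

At angle `0` the new coordinate is an independent one-coordinate system, at angle `π / 2` it is a
coordinate of the larger sphere.
-/

open MeasureTheory ProbabilityTheory Real Finset

namespace Vale.Agent.P157.Rsb

/-! ### systems as affine functions of their fields -/

section Affine

variable {n M k : ℕ} (S : Leaf n) {f : ℝ → ℝ} {L : ℝ}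

/-- The field coefficients of a system. -/
noncomputable def vCoef (N : ℝ) (σ β : ℕ → ℝ) (l : Fin k) : FieldIdx n → S.X → ℝ :=
  Sum.elim (fun i x => σ (l + 1) * √N * S.fld x i) (fun _ x => β (l + 1) * S.aux x)

/-- The part of the Hamiltonian without fields. -/
noncomputable def h0Of (k : ℕ) (f : ℝ → ℝ) (N : ℝ) (σ : ℕ → ℝ) (g : Fin M → Fin n → ℝ) (x : S.X) : ℝ :=
  ∑ a, f (sdot (g a) (S.pat x))
    - N / 2 * (∑ l : Fin k, σ (l + 1) ^ 2) * sdot (S.fld x) (S.fld x) + S.det x

theorem ham_eq (f : ℝ → ℝ) (N : ℝ) (σ β : ℕ → ℝ) (g : Fin M → Fin n → ℝ)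
    (z : Fin k → FieldIdx n → ℝ) (x : S.X) :
    ham S f N σ β g z x = linZ (vCoef S N σ β) z x + h0Of S k f N σ g x := by
  have e : ∀ l : Fin k, σ (l + 1) * √N * sdot (fun i => z l (.inl i)) (S.fld x)
      + β (l + 1) * z l (.inr ()) * S.aux x = ∑ i, z l i * vCoef S N σ β l i x := fun l => by
    rw [Fintype.sum_sum_type, sdot, mul_sum]
    simp only [vCoef, Sum.elim_inl, Sum.elim_inr, Fintype.sum_unique]
    congr 1
    · exact sum_congr rfl fun i _ => by ring
    · ring
  simp only [ham, h0Of, linZ, e]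
  ring

theorem measurable_sdot {α : Type*} [MeasurableSpace α] {m : ℕ} {a b : α → Fin m → ℝ}
    (ha : Measurable a) (hb : Measurable b) : Measurable fun x => sdot (a x) (b x) :=
  Finset.measurable_sum _ fun i _ => (ha.eval).mul (hb.eval)

theorem abs_sdot_le {m : ℕ} (a b : Fin m → ℝ) {B : ℝ} (hb : ∀ i, |b i| ≤ B) :
    |sdot a b| ≤ B * ∑ i, |a i| := by
  rw [mul_sum]
  refine (abs_sum_le_sum_abs _ _).trans (sum_le_sum fun i _ => ?_)
  rw [abs_mul, mul_comm B]
  exact mul_le_mul_of_nonneg_left (hb i) (abs_nonneg _)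

theorem bcoef_vCoef (N : ℝ) (σ β : ℕ → ℝ) : BCoef (vCoef (k := k) S N σ β) := by
  obtain ⟨B, hB⟩ := S.bdd
  refine ⟨∑ l : Fin k, (|σ (l + 1) * √N| + |β (l + 1)|) * |B|, by positivity, fun l i => ?_⟩
  have hle : (|σ (l + 1) * √N| + |β (l + 1)|) * |B|
      ≤ ∑ l : Fin k, (|σ (l + 1) * √N| + |β (l + 1)|) * |B| :=
    single_le_sum (f := fun l : Fin k => (|σ (l + 1) * √N| + |β (l + 1)|) * |B|)
      (fun _ _ => by positivity) (mem_univ l)
  have hB0 : ∀ x, |S.aux x| ≤ |B| := fun x => (hB x).2.2.1.trans (le_abs_self B)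
  cases i with
  | inl i =>
    refine ⟨S.fld_meas.eval.const_mul _, fun x => le_trans ?_ hle⟩
    simp only [vCoef, Sum.elim_inl]
    rw [abs_mul]
    exact mul_le_mul (le_add_of_nonneg_right (abs_nonneg _)) (((hB x).2.1 i).trans (le_abs_self B))
      (abs_nonneg _) (by positivity)
  | inr i =>
    refine ⟨S.aux_meas.const_mul _, fun x => le_trans ?_ hle⟩
    simp only [vCoef, Sum.elim_inr]
    rw [abs_mul]
    exact mul_le_mul (le_add_of_nonneg_left (abs_nonneg _)) (hB0 x) (abs_nonneg _) (by positivity)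

theorem h0Of_bdd (hm : Measurable f) (hf : ∀ u, |f u| ≤ L) (k : ℕ) (N : ℝ) (σ : ℕ → ℝ) :
    (∀ g : Fin M → Fin n → ℝ, Measurable (h0Of S k f N σ g)) ∧
      ∃ B0, ∀ (g : Fin M → Fin n → ℝ) x, |h0Of S k f N σ g x| ≤ B0 := by
  refine ⟨fun g => ((Finset.measurable_sum _ fun a _ => hm.comp (measurable_sdot measurable_const
    S.pat_meas)).sub ((measurable_sdot S.fld_meas S.fld_meas).const_mul _)).add S.det_meas, ?_⟩
  obtain ⟨B, hB⟩ := S.bdd
  refine ⟨M * L + |N / 2 * ∑ l : Fin k, σ (l + 1) ^ 2| * (n * B ^ 2) + B, fun g x => ?_⟩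
  have h1 : |∑ a, f (sdot (g a) (S.pat x))| ≤ M * L :=
    (abs_sum_le_sum_abs _ _).trans ((sum_le_sum fun a _ => hf _).trans_eq (by simp))
  have h2 : |sdot (S.fld x) (S.fld x)| ≤ n * B ^ 2 :=
    (abs_sum_le_sum_abs _ _).trans ((sum_le_sum fun i _ => (show |S.fld x i * S.fld x i| ≤ B ^ 2 by
      rw [abs_mul, pow_two]; exact mul_le_mul ((hB x).2.1 i) ((hB x).2.1 i) (abs_nonneg _)
        ((abs_nonneg _).trans ((hB x).2.1 i)))).trans_eq (by simp))
  refine (abs_add_le _ _).trans (add_le_add ((abs_sub _ _).trans (add_le_add h1 ?_)) (hB x).2.2.2)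
  rw [abs_mul]
  exact mul_le_mul_of_nonneg_left h2 (abs_nonneg _)

theorem linB_ham (hm : Measurable f) (hf : ∀ u, |f u| ≤ L) (N : ℝ) (σ β : ℕ → ℝ)
    (g : Fin M → Fin n → ℝ) : LinB (gaussSize (FieldIdx n)) (ham (k := k) S f N σ β g) := by
  obtain ⟨h0m, B0, hB0⟩ := h0Of_bdd (M := M) S hm hf k N σ
  rw [show ham (k := k) S f N σ β g = fun z x => linZ (vCoef S N σ β) z x + h0Of S k f N σ g x from
    funext₂ fun z x => ham_eq S f N σ β g z x]
  exact linB_affine (bcoef_vCoef S N σ β) (h0m g) (hB0 g)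

theorem measurable_ham (hm : Measurable f) (N : ℝ) (σ β : ℕ → ℝ) :
    Measurable fun p : ((Fin M → Fin n → ℝ) × (Fin k → FieldIdx n → ℝ)) × S.X =>
      ham (k := k) S f N σ β p.1.1 p.1.2 p.2 := by
  have hp : Measurable fun p : ((Fin M → Fin n → ℝ) × (Fin k → FieldIdx n → ℝ)) × S.X => S.pat p.2 :=
    S.pat_meas.comp measurable_snd
  have hl : Measurable fun p : ((Fin M → Fin n → ℝ) × (Fin k → FieldIdx n → ℝ)) × S.X =>
      linZ (vCoef S N σ β) p.1.2 p.2 :=
    (measurable_linZ (bcoef_vCoef S N σ β)).comp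
      ((measurable_snd.comp measurable_fst).prodMk measurable_snd)
  simp only [ham_eq]
  refine hl.add (((Finset.measurable_sum _ fun a _ => hm.comp (measurable_sdot (by fun_prop) hp)).sub
    (((measurable_sdot S.fld_meas S.fld_meas).comp measurable_snd).const_mul _)).add
    (S.det_meas.comp measurable_snd))

end Affine

/-! ### the interpolating leaf -/

/-- The data of an interpolation: the old configurations with their unit vectors, the law of the new
coordinate and a constant. -/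
structure CavBase (N : ℕ) where
  /-- the old configurations -/
  X0 : Type
  [mX : MeasurableSpace X0]
  /-- their law -/
  law : Measure X0
  [probLaw : IsProbabilityMeasure law]
  /-- their coordinates -/
  vec : X0 → Fin (N + 1) → ℝ
  vec_meas : Measurable vec
  vec_unit : ∀ x, sdot (vec x) (vec x) = 1
  /-- the law of the new coordinate -/
  nu : Measure ℝ
  [probNu : IsProbabilityMeasure nu]
  /-- a constant -/
  shift : ℝ

attribute [instance] CavBase.mX CavBase.probLaw CavBase.probNu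

/-- Configurations: an old unit vector and the new coordinate. -/
abbrev CavX {N : ℕ} (K : CavBase N) := K.X0 × ℝ

/-- Truncation to the window. -/
noncomputable def clipW (W w : ℝ) : ℝ := max (-W) (min W w)

theorem abs_clipW_le {W : ℝ} (hW : 0 ≤ W) (w : ℝ) : |clipW W w| ≤ W :=
  abs_le.2 ⟨le_max_left _ _, max_le (by linarith) (min_le_left _ _)⟩

theorem clipW_of_mem {W w : ℝ} (h : w ∈ Set.Icc (-W) W) : clipW W w = w := by
  rw [clipW, min_eq_right h.2, max_eq_right h.1]

theorem measurable_clipW (W : ℝ) : Measurable (clipW W) := by unfold clipW; fun_prop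

variable {N : ℕ} {K : CavBase N} {W : ℝ}

/-- The coordinates of the old vector. -/
def cx (p : CavX K) (i : Fin (N + 1)) : ℝ := K.vec p.1 i

/-- The dimension of the old vector. -/
noncomputable def dimN (N : ℕ) : ℝ := (N : ℝ) + 1

theorem one_le_dimN (N : ℕ) : 1 ≤ dimN N := by unfold dimN; linarith [N.cast_nonneg (α := ℝ)]

/-- A vector with a block proportional to the old vector and a last coordinate. -/
noncomputable def joinC (p : CavX K) (a b : ℝ) : Fin (N + 1 + 1) → ℝ :=
  Fin.snoc (fun i => a * cx p i) b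

theorem sdot_joinC (p p' : CavX K) (a b a' b' : ℝ) :
    sdot (joinC p a b) (joinC p' a' b') = a * a' * sdot (cx p) (cx p') + b * b' := by
  rw [sdot, sdot, Fin.sum_univ_castSucc]
  simp only [joinC, Fin.snoc_castSucc, Fin.snoc_last, mul_sum]
  congr 1
  exact sum_congr rfl fun i _ => by ring

theorem cx_unit (p : CavX K) : sdot (cx p) (cx p) = 1 := K.vec_unit p.1

theorem abs_cx_le (p : CavX K) (i : Fin (N + 1)) : |cx p i| ≤ 1 := by
  have h := cx_unit p
  have h2 : cx p i * cx p i ≤ sdot (cx p) (cx p) :=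
    single_le_sum (fun j _ => mul_self_nonneg (cx p j)) (mem_univ i)
  rw [abs_le]
  constructor <;> nlinarith

theorem measurable_cx (K : CavBase N) : Measurable (cx (K := K)) := K.vec_meas.comp measurable_fst

/-- The overlap of the old coordinates. -/
noncomputable def oldOv (p p' : CavX K) : ℝ := sdot (cx p) (cx p')

theorem abs_oldOv_le (p p' : CavX K) : |oldOv p p'| ≤ 1 := by
  have h : ∀ s : ℝ, s ^ 2 = 1 → 0 ≤ 2 + 2 * (s * oldOv p p') := fun s hs => by
    have e : ∑ i, (cx p i + s * cx p' i) ^ 2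
        = sdot (cx p) (cx p) + s ^ 2 * sdot (cx p') (cx p') + 2 * (s * sdot (cx p) (cx p')) := by
      simp only [sdot, mul_sum, ← sum_add_distrib]
      exact sum_congr rfl fun i _ => by ring
    rw [cx_unit, cx_unit, hs] at e
    have h0 := sum_nonneg fun i (_ : i ∈ univ) => sq_nonneg (cx p i + s * cx p' i)
    rw [e] at h0
    simp only [oldOv]
    linarith
  rw [abs_le]
  constructor <;> linarith [h 1 (by norm_num), h (-1) (by norm_num)]

theorem abs_joinC_le (p : CavX K) (a b : ℝ) (i : Fin (N + 1 + 1)) : |joinC p a b i| ≤ |a| + |b| := by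
  induction i using Fin.lastCases with
  | last => simp [joinC]
  | cast i =>
    simp only [joinC, Fin.snoc_castSucc, abs_mul]
    nlinarith [abs_cx_le p i, abs_nonneg a, abs_nonneg b]

theorem measurable_joinC {a b : CavX K → ℝ} (ha : Measurable a) (hb : Measurable b) :
    Measurable fun p : CavX K => joinC p (a p) (b p) := by
  refine measurable_pi_lambda _ fun i => ?_
  induction i using Fin.lastCases with
  | last => simpa [joinC] using hb
  | cast i =>
    simp only [joinC, Fin.snoc_castSucc]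
    exact ha.mul (measurable_cx K).eval

variable {u : ℝ}

/-- The new coordinate of a configuration. -/
noncomputable def cw (W : ℝ) (p : CavX K) : ℝ := clipW W p.2

theorem measurable_cw : Measurable (cw (K := K) W) := (measurable_clipW W).comp measurable_snd

theorem abs_cw_le (hW : 1 ≤ W) (p : CavX K) : |cw W p| ≤ W := abs_clipW_le (by linarith) _

/-- The vector seen by patterns at angle `u`. -/
noncomputable def cavPat (W u : ℝ) (p : CavX K) : Fin (N + 1 + 1) → ℝ :=
  joinC p (cA (dimN N) u (cw W p)) (sin u * cS (dimN N) (cw W p))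

/-- The vector seen by fields at angle `u`. -/
noncomputable def cavFld (W u : ℝ) (p : CavX K) : Fin (N + 1 + 1) → ℝ :=
  joinC p (cC (dimN N) u (cw W p)) (sin u * cS (dimN N) (cw W p))

/-- The derivative of `cavPat`. -/
noncomputable def cavPat' (W u : ℝ) (p : CavX K) : Fin (N + 1 + 1) → ℝ :=
  joinC p (cA' (dimN N) u (cw W p)) (cos u * cS (dimN N) (cw W p))

/-- The derivative of `cavFld`. -/
noncomputable def cavFld' (W u : ℝ) (p : CavX K) : Fin (N + 1 + 1) → ℝ :=
  joinC p (cC' (dimN N) u (cw W p)) (cos u * cS (dimN N) (cw W p))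

/-- The deterministic part. -/
noncomputable def cavDet (W b u : ℝ) (p : CavX K) : ℝ :=
  -(cos u ^ 2 * (b - 1) * cw W p ^ 2) / 2 + K.shift

/-- The derivative of the deterministic part. -/
noncomputable def cavDet' (W b u : ℝ) (p : CavX K) : ℝ := sin u * cos u * (b - 1) * cw W p ^ 2

theorem measurable_coefs (K : CavBase N) (W u : ℝ) :
    Measurable (fun p : CavX K => cS (dimN N) (cw W p)) ∧
      Measurable (fun p : CavX K => cA (dimN N) u (cw W p)) ∧
      Measurable (fun p : CavX K => cC (dimN N) u (cw W p)) ∧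
      Measurable (fun p : CavX K => cA' (dimN N) u (cw W p)) ∧
      Measurable (fun p : CavX K => cC' (dimN N) u (cw W p)) := by
  have := measurable_cw (K := K) (W := W)
  refine ⟨?_, ?_, ?_, ?_, ?_⟩ <;> (simp only [cS, cA, cC, cA', cC']; fun_prop)

theorem measurable_cavPat : Measurable (cavPat (K := K) W u) :=
  measurable_joinC (measurable_coefs K W u).2.1 ((measurable_coefs K W u).1.const_mul _)

theorem measurable_cavFld : Measurable (cavFld (K := K) W u) :=
  measurable_joinC (measurable_coefs K W u).2.2.1 ((measurable_coefs K W u).1.const_mul _)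

theorem measurable_cavPat' : Measurable (cavPat' (K := K) W u) :=
  measurable_joinC (measurable_coefs K W u).2.2.2.1 ((measurable_coefs K W u).1.const_mul _)

theorem measurable_cavFld' : Measurable (cavFld' (K := K) W u) :=
  measurable_joinC (measurable_coefs K W u).2.2.2.2 ((measurable_coefs K W u).1.const_mul _)

theorem measurable_cavDet (b u : ℝ) : Measurable (cavDet (K := K) W b u) := by
  have := measurable_cw (K := K) (W := W)
  unfold cavDet; fun_prop

theorem abs_cS_le {n w : ℝ} (hn : 0 < n) : |cS n w| ≤ 1 := by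
  rw [← sq_le_one_iff_abs_le_one, cS_sq hn, div_le_one (by positivity)]
  linarith

theorem abs_coefs_le (hW : 1 ≤ W) (u : ℝ) (p : CavX K) (i : Fin (N + 1 + 1)) :
    |cavPat W u p i| ≤ 3 * W ^ 3 ∧ |cavFld W u p i| ≤ 3 * W ^ 3 ∧
      |cavPat' W u p i| ≤ 3 * W ^ 3 ∧ |cavFld' W u p i| ≤ 3 * W ^ 3 := by
  have hn := one_le_dimN N
  have hn0 : 0 < dimN N := by linarith
  have hW3 : 1 ≤ W ^ 3 := one_le_pow₀ hW
  have hs := abs_cS_le (w := cw W p) hn0
  have hb : ∀ c : ℝ, |c| ≤ 1 → |c * cS (dimN N) (cw W p)| ≤ 1 := fun c hc => by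
    rw [abs_mul]; exact mul_le_one₀ hc (abs_nonneg _) hs
  obtain ⟨h1, h2⟩ := abs_cA'_le (u := u) hn hW (abs_cw_le hW p)
  have hd : 2 * W ^ 3 / dimN N ≤ 2 * W ^ 3 := div_le_self (by positivity) hn
  refine ⟨(abs_joinC_le _ _ _ i).trans ?_, (abs_joinC_le _ _ _ i).trans ?_,
    (abs_joinC_le _ _ _ i).trans ?_, (abs_joinC_le _ _ _ i).trans ?_⟩
  · rw [abs_of_pos (cA_pos hn0)]
    linarith [cA_le_one (u := u) (w := cw W p) hn0, hb _ (abs_sin_le_one u)]
  · rw [abs_of_pos (cC_pos hn0)]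
    linarith [cC_le_one (u := u) (w := cw W p) hn0, hb _ (abs_sin_le_one u)]
  · linarith [hb _ (abs_cos_le_one u)]
  · linarith [hb _ (abs_cos_le_one u)]

theorem abs_cavDet_le (hW : 1 ≤ W) (b u : ℝ) (p : CavX K) :
    |cavDet W b u p| ≤ |b - 1| * W ^ 2 + |K.shift| ∧ |cavDet' W b u p| ≤ |b - 1| * W ^ 2 := by
  have hw : |cw W p ^ 2| ≤ W ^ 2 := by
    rw [abs_pow]; exact pow_le_pow_left₀ (abs_nonneg _) (abs_cw_le hW p) 2
  have hc : |cos u ^ 2| ≤ 1 := by rw [abs_sq]; exact cos_sq_le_one u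
  refine ⟨(abs_add_le _ _).trans (add_le_add ?_ le_rfl), ?_⟩
  · rw [abs_div, abs_neg, abs_mul, abs_mul, abs_two]
    have := mul_le_mul (mul_le_mul_of_nonneg_right hc (abs_nonneg (b - 1))) hw (abs_nonneg _)
      (by positivity)
    linarith [mul_nonneg (abs_nonneg (b - 1)) (sq_nonneg W)]
  · rw [cavDet', abs_mul, abs_mul]
    calc |sin u * cos u| * |b - 1| * |cw W p ^ 2| ≤ 1 * |b - 1| * W ^ 2 :=
          mul_le_mul (mul_le_mul_of_nonneg_right (abs_sin_cos_le u) (abs_nonneg _)) hw (abs_nonneg _)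
            (by positivity)
      _ = _ := by rw [one_mul]

/-- The interpolating system at angle `u`, with Lagrange parameter `b`. -/
noncomputable abbrev cavLeaf {N : ℕ} (K : CavBase N) {W : ℝ} (hW : 1 ≤ W) (b u : ℝ) :
    Leaf (N + 1 + 1) where
  X := CavX K
  μ := K.law.prod K.nu
  prob := inferInstance
  pat := cavPat W u
  fld := cavFld W u
  aux := cw W
  det := cavDet W b u
  pat_meas := measurable_cavPat
  fld_meas := measurable_cavFld
  aux_meas := measurable_cw
  det_meas := measurable_cavDet b u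
  bdd := ⟨3 * W ^ 3 + W + (|b - 1| * W ^ 2 + |K.shift|), fun p => by
    have h0 : 0 ≤ |b - 1| * W ^ 2 + |K.shift| := by positivity
    have h3 : 0 ≤ 3 * W ^ 3 := by positivity
    refine ⟨fun i => ?_, fun i => ?_, ?_, ?_⟩
    · linarith [(abs_coefs_le hW u p i).1]
    · linarith [(abs_coefs_le hW u p i).2.1]
    · linarith [abs_cw_le hW p]
    · linarith [(abs_cavDet_le hW b u p).1]⟩

/-! ### geometry of the path -/

theorem cavPat_unit (p : CavX K) : sdot (cavPat W u p) (cavPat W u p) = 1 := by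
  have hn : 0 < dimN N := by linarith [one_le_dimN N]
  rw [cavPat, sdot_joinC, cx_unit, ← pow_two, cA_sq hn]
  ring

theorem cavPat'_orth (p : CavX K) : sdot (cavPat' W u p) (cavPat W u p) = 0 := by
  have hn : 0 < dimN N := by linarith [one_le_dimN N]
  rw [cavPat, cavPat', sdot_joinC, cx_unit]
  have := (cA_pos (u := u) (w := cw W p) hn).ne'
  simp only [cA']
  field_simp
  ring

theorem cavFld_sq (p : CavX K) :
    sdot (cavFld W u p) (cavFld W u p) = cos u ^ 2 * (dimN N / (dimN N + 1)) + sin u ^ 2 := by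
  have hn : 0 < dimN N := by linarith [one_le_dimN N]
  rw [cavFld, sdot_joinC, cx_unit, ← pow_two, cC_sq hn, ← pow_two, mul_pow, ← one_sub_cS_sq hn]
  ring

theorem cavFld'_diag (p : CavX K) :
    (dimN N + 1) * sdot (cavFld' W u p) (cavFld W u p) = sin u * cos u := by
  have hn : 0 < dimN N := by linarith [one_le_dimN N]
  rw [cavFld, cavFld', sdot_joinC, cx_unit]
  have := (cC_pos (u := u) (w := cw W p) hn).ne'
  simp only [cC']
  rw [← one_sub_cS_sq hn]
  field_simp
  ring

theorem cavPat'_sq_le (hW : 1 ≤ W) (p : CavX K) :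
    dimN N * sdot (cavPat' W u p) (cavPat' W u p) ≤ 5 * W ^ 6 ∧
      (dimN N + 1) * sdot (cavFld' W u p) (cavFld' W u p) ≤ 10 * W ^ 6 := by
  have hn := one_le_dimN N
  have hn0 : 0 < dimN N := by linarith
  obtain ⟨h1, h2⟩ := abs_cA'_le (u := u) hn hW (abs_cw_le hW p)
  have hs := cS_sq_le hn0 (abs_cw_le hW p)
  rw [le_div_iff₀ hn0] at h1 h2 hs
  have hb : dimN N * (cos u * cS (dimN N) (cw W p)) ^ 2 ≤ W ^ 6 := by
    rw [mul_pow]
    nlinarith [mul_le_mul_of_nonneg_right (cos_sq_le_one u) (mul_nonneg (sq_nonneg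
      (cS (dimN N) (cw W p))) hn0.le), pow_le_pow_right₀ hW (show 2 ≤ 6 by norm_num)]
  have ha : ∀ c : ℝ, |c| * dimN N ≤ 2 * W ^ 3 → dimN N * c ^ 2 ≤ 4 * W ^ 6 := fun c hc => by
    have h := pow_le_pow_left₀ (by positivity) hc 2
    rw [mul_pow, sq_abs, show (2 * W ^ 3) ^ 2 = 4 * W ^ 6 by ring] at h
    nlinarith [mul_le_mul_of_nonneg_left hn (mul_nonneg hn0.le (sq_nonneg c))]
  rw [cavPat', cavFld', sdot_joinC, sdot_joinC, cx_unit]
  simp only [← pow_two, mul_one]
  constructor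
  · nlinarith [ha _ h1]
  · nlinarith [ha _ h2, mul_le_mul_of_nonneg_right hn (sq_nonneg (cC' (dimN N) u (cw W p))),
      mul_le_mul_of_nonneg_right hn (sq_nonneg (cos u * cS (dimN N) (cw W p)))]

/-- The kernel of the pattern part. -/
theorem cavPatKer (hW : 1 ≤ W) (p p' : CavX K) :
    |dimN N * sdot (cavPat' W u p) (cavPat W u p')
        - sin u * cos u * (cw W p * cw W p' - cw W p ^ 2 * oldOv p p')| ≤ 4 * W ^ 6 / dimN N := by
  rw [cavPat, cavPat', sdot_joinC]
  exact patKer_near (one_le_dimN N) hW (abs_cw_le hW p) (abs_cw_le hW p') (abs_oldOv_le p p')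

/-- The kernel of the field part. -/
theorem cavFldKer (hW : 1 ≤ W) (p p' : CavX K) :
    |(dimN N + 1) * sdot (cavFld' W u p) (cavFld W u p')
        - sin u * cos u * ((1 - cw W p ^ 2) * oldOv p p' + cw W p * cw W p')| ≤ 5 * W ^ 6 / dimN N := by
  rw [cavFld, cavFld', sdot_joinC]
  exact fldKer_near (one_le_dimN N) hW (abs_cw_le hW p) (abs_cw_le hW p') (abs_oldOv_le p p')

theorem cavKer_bdd (hW : 1 ≤ W) (p p' : CavX K) :
    dimN N * |sdot (cavPat' W u p) (cavPat W u p')| ≤ 6 * W ^ 6 ∧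
      (dimN N + 1) * |sdot (cavFld' W u p) (cavFld W u p')| ≤ 8 * W ^ 6 := by
  have hn := one_le_dimN N
  have h1 := cavPatKer (u := u) hW p p'
  have h2 := cavFldKer (u := u) hW p p'
  have d1 : 4 * W ^ 6 / dimN N ≤ 4 * W ^ 6 := div_le_self (by positivity) hn
  have d2 : 5 * W ^ 6 / dimN N ≤ 5 * W ^ 6 := div_le_self (by positivity) hn
  have hw := pow_le_pow_left₀ (abs_nonneg _) (abs_cw_le hW p) 2
  rw [sq_abs] at hw
  have h26 : W ^ 2 ≤ W ^ 6 := pow_le_pow_right₀ hW (by norm_num)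
  have hR := abs_le.1 (abs_oldOv_le p p')
  have hp : |cw W p * cw W p'| ≤ W ^ 2 := by
    rw [abs_mul, pow_two]
    exact mul_le_mul (abs_cw_le hW p) (abs_cw_le hW p') (abs_nonneg _) (by linarith)
  have k1 : |cw W p * cw W p' - cw W p ^ 2 * oldOv p p'| ≤ 2 * W ^ 6 := by
    rw [abs_le] at hp ⊢
    constructor <;>
      nlinarith [mul_le_mul_of_nonneg_left hR.1 (sq_nonneg (cw W p)),
        mul_le_mul_of_nonneg_left hR.2 (sq_nonneg (cw W p))]
  have k2 : |(1 - cw W p ^ 2) * oldOv p p' + cw W p * cw W p'| ≤ 3 * W ^ 6 := by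
    rw [abs_le] at hp ⊢
    constructor <;>
      nlinarith [mul_le_mul_of_nonneg_left hR.1 (sq_nonneg (cw W p)),
        mul_le_mul_of_nonneg_left hR.2 (sq_nonneg (cw W p)), one_le_pow₀ (n := 6) hW]
  have main : ∀ a b e c : ℝ, 0 < a → |a * b - sin u * cos u * c| ≤ e →
      a * |b| ≤ |c| + e := fun a b e c ha h => by
    have h3 : |sin u * cos u * c| ≤ |c| := by
      rw [abs_mul]; exact mul_le_of_le_one_left (abs_nonneg _) (abs_sin_cos_le u)
    have h4 := abs_sub_abs_le_abs_sub (a * b) (sin u * cos u * c)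
    rw [abs_mul a b, abs_of_pos ha] at h4
    linarith
  exact ⟨by linarith [main _ _ _ _ (by linarith) h1], by linarith [main _ _ _ _ (by linarith) h2]⟩

/-- Patterns see the old overlap up to a small error. -/
theorem cavPatOv (hW : 1 ≤ W) (p p' : CavX K) :
    |sdot (cavPat W u p) (cavPat W u p') - oldOv p p'| ≤ 3 * W ^ 2 / dimN N := by
  rw [cavPat, cavPat, sdot_joinC]
  exact patOv_near (one_le_dimN N) (abs_cw_le hW p) (abs_cw_le hW p') (abs_oldOv_le p p')

/-! ### the Hamiltonian and its derivative -/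

/-- The amplitudes of the auxiliary fields: variance `cos u ^ 2 * incr ρ l + e l`. -/
noncomputable def cavBeta (ρ e : ℕ → ℝ) (u : ℝ) (l : ℕ) : ℝ :=
  if e l = 0 then cos u * √(incr ρ l) else √(cos u ^ 2 * incr ρ l + e l)

/-- The derivative of the amplitudes. -/
noncomputable def cavBeta' (ρ e : ℕ → ℝ) (u : ℝ) (l : ℕ) : ℝ :=
  if e l = 0 then -(sin u) * √(incr ρ l) else -(sin u * cos u * incr ρ l) / cavBeta ρ e u l

theorem cavBeta_facts {ρ e : ℕ → ℝ} {l : ℕ} (hρ : 0 ≤ incr ρ l) (he : 0 ≤ e l) (u : ℝ) :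
    cavBeta ρ e u l ^ 2 = cos u ^ 2 * incr ρ l + e l ∧
      cavBeta' ρ e u l * cavBeta ρ e u l = -(sin u * cos u * incr ρ l) ∧
      cavBeta' ρ e u l ^ 2 ≤ incr ρ l ∧
      HasDerivAt (fun t => cavBeta ρ e t l) (cavBeta' ρ e u l) u := by
  by_cases h : e l = 0
  · simp only [cavBeta, cavBeta', h, if_true, add_zero]
    have hs := mul_self_sqrt hρ
    refine ⟨by rw [mul_pow, sq_sqrt hρ], by linear_combination (-(sin u * cos u)) * hs, ?_, ?_⟩
    · rw [mul_pow, neg_sq, sq_sqrt hρ]
      exact mul_le_of_le_one_left hρ (sin_sq_le_one u)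
    · simpa using (hasDerivAt_cos u).mul_const (√(incr ρ l))
  · have he' : 0 < e l := lt_of_le_of_ne he (Ne.symm h)
    have hb : 0 < cos u ^ 2 * incr ρ l + e l := add_pos_of_nonneg_of_pos (by positivity) he'
    have hs := sqrt_pos.2 hb
    simp only [cavBeta, cavBeta', if_neg h]
    refine ⟨sq_sqrt hb.le, div_mul_cancel₀ _ hs.ne', ?_, ?_⟩
    · rw [div_pow, sq_sqrt hb.le, div_le_iff₀ hb]
      nlinarith [mul_nonneg (mul_nonneg hρ hρ) (sq_nonneg (cos u)), sin_sq_le_one u,
        mul_nonneg hρ he, mul_le_mul_of_nonneg_right (sin_sq_le_one u)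
          (mul_nonneg (mul_nonneg hρ hρ) (sq_nonneg (cos u)))]
    · refine ((((hasDerivAt_cos u).pow 2).mul_const (incr ρ l)).add_const (e l)).sqrt ?_ |>.congr_deriv ?_
      · simpa using hb.ne'
      · simp only [Pi.pow_apply]
        field_simp
        push_cast
        ring

/-- The size of the new system. -/
noncomputable def bigN (N : ℕ) : ℝ := dimN N + 1

/-- The interpolating Hamiltonian. -/
noncomputable def cavH {M : ℕ} (k : ℕ) (K : CavBase N) (hW : 1 ≤ W) (f : ℝ → ℝ) (σ ρ e : ℕ → ℝ) (b : ℝ)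
    (g : Fin M → Fin (N + 1 + 1) → ℝ) (u : ℝ) :
    (Fin k → FieldIdx (N + 1 + 1) → ℝ) → CavX K → ℝ :=
  ham (cavLeaf K hW b u) f (bigN N) σ (cavBeta ρ e u) g

/-- The field coefficients of the derivative. -/
noncomputable def dCoef {k : ℕ} (W : ℝ) (σ ρ e : ℕ → ℝ) (u : ℝ) (l : Fin k) :
    FieldIdx (N + 1 + 1) → CavX K → ℝ :=
  Sum.elim (fun i p => σ (l + 1) * √(bigN N) * cavFld' W u p i)
    (fun _ p => cavBeta' ρ e u (l + 1) * cw W p)

/-- The pattern part of the derivative. -/
noncomputable def patD {M : ℕ} (W : ℝ) (f : ℝ → ℝ) (g : Fin M → Fin (N + 1 + 1) → ℝ) (u : ℝ)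
    (p : CavX K) : ℝ :=
  ∑ a, deriv f (sdot (g a) (cavPat W u p)) * sdot (g a) (cavPat' W u p)

/-- The part of the derivative independent of disorder. -/
noncomputable def detD (k : ℕ) (W : ℝ) (σ : ℕ → ℝ) (b u : ℝ) (p : CavX K) : ℝ :=
  -bigN N * (∑ l : Fin k, σ (l + 1) ^ 2) * sdot (cavFld' W u p) (cavFld W u p) + cavDet' W b u p

/-- The derivative of the Hamiltonian in the angle. -/
noncomputable def cavDH {M : ℕ} (k : ℕ) (W : ℝ) (f : ℝ → ℝ) (σ ρ e : ℕ → ℝ) (b : ℝ)
    (g : Fin M → Fin (N + 1 + 1) → ℝ) (u : ℝ) (z : Fin k → FieldIdx (N + 1 + 1) → ℝ) (p : CavX K) :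
    ℝ :=
  patD W f g u p + linZ (dCoef W σ ρ e u) z p + detD k W σ b u p

theorem detD_eq (k : ℕ) (σ : ℕ → ℝ) (b u : ℝ) (p : CavX K) :
    detD k W σ b u p
      = sin u * cos u * ((b - 1) * cw W p ^ 2 - ∑ l : Fin k, σ (l + 1) ^ 2) := by
  have h := cavFld'_diag (W := W) (u := u) p
  rw [detD, cavDet', bigN]
  linear_combination (-∑ l : Fin k, σ (l + 1) ^ 2) * h

theorem hasDerivAt_joinC {A B : ℝ → ℝ} {A' B' u : ℝ} (p : CavX K) (hA : HasDerivAt A A' u)
    (hB : HasDerivAt B B' u) (i : Fin (N + 1 + 1)) :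
    HasDerivAt (fun t => joinC p (A t) (B t) i) (joinC p A' B' i) u := by
  induction i using Fin.lastCases with
  | last => simpa [joinC] using hB
  | cast i => simpa [joinC] using hA.mul_const (cx p i)

theorem hasDerivAt_sdot {m : ℕ} (c : Fin m → ℝ) {v : ℝ → Fin m → ℝ} {v' : Fin m → ℝ} {u : ℝ}
    (h : ∀ i, HasDerivAt (fun t => v t i) (v' i) u) :
    HasDerivAt (fun t => sdot c (v t)) (sdot c v') u :=
  HasDerivAt.fun_sum fun i _ => (h i).const_mul (c i)

theorem hasDerivAt_cavVec (u : ℝ) (p : CavX K) (i : Fin (N + 1 + 1)) :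
    HasDerivAt (fun t => cavPat W t p i) (cavPat' W u p i) u ∧
      HasDerivAt (fun t => cavFld W t p i) (cavFld' W u p i) u := by
  have hn : 0 < dimN N := by linarith [one_le_dimN N]
  have hs := (hasDerivAt_sin u).mul_const (cS (dimN N) (cw W p))
  exact ⟨hasDerivAt_joinC p (hasDerivAt_cA hn u) hs i, hasDerivAt_joinC p (hasDerivAt_cC hn u) hs i⟩

theorem hasDerivAt_cavH {M k : ℕ} (hW : 1 ≤ W) {f : ℝ → ℝ} (hf : Differentiable ℝ f) (σ : ℕ → ℝ)
    {ρ e : ℕ → ℝ} (hρ : ∀ l, 1 ≤ l → l ≤ k → 0 ≤ incr ρ l) (he : ∀ l, 0 ≤ e l)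
    (b : ℝ) (g : Fin M → Fin (N + 1 + 1) → ℝ) (u : ℝ)
    (z : Fin k → FieldIdx (N + 1 + 1) → ℝ) (p : CavX K) :
    HasDerivAt (fun t => cavH k K hW f σ ρ e b g t z p) (cavDH k W f σ ρ e b g u z p) u := by
  have eH : ∀ t, cavH k K hW f σ ρ e b g t z p
      = ∑ a, f (sdot (g a) (cavPat W t p))
        + ∑ l : Fin k, (σ (l + 1) * √(bigN N) * sdot (fun i => z l (.inl i)) (cavFld W t p)
            + cavBeta ρ e t (l + 1) * z l (.inr ()) * cw W p)
        - bigN N / 2 * (∑ l : Fin k, σ (l + 1) ^ 2) * sdot (cavFld W t p) (cavFld W t p)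
        + cavDet W b t p := fun t => rfl
  simp only [eH]
  have hP := hasDerivAt_cavVec (W := W) u p
  have h1 : HasDerivAt (fun t => ∑ a, f (sdot (g a) (cavPat W t p))) (patD W f g u p) u :=
    HasDerivAt.fun_sum fun a _ =>
      ((hf _).hasDerivAt).comp u (hasDerivAt_sdot (g a) fun i => (hP i).1)
  have h2 : HasDerivAt (fun t => ∑ l : Fin k,
      (σ (l + 1) * √(bigN N) * sdot (fun i => z l (.inl i)) (cavFld W t p)
        + cavBeta ρ e t (l + 1) * z l (.inr ()) * cw W p)) (linZ (dCoef W σ ρ e u) z p) u := by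
    refine (HasDerivAt.fun_sum fun l _ => (((hasDerivAt_sdot (fun i => z l (.inl i))
      fun i => (hP i).2).const_mul (σ (l + 1) * √(bigN N))).add
      ((((cavBeta_facts (hρ (l + 1) (by omega) (by omega)) (he (l + 1)) u).2.2.2).mul_const
        (z l (.inr ()))).mul_const (cw W p)))).congr_deriv (sum_congr rfl fun l _ => ?_)
    rw [Fintype.sum_sum_type]
    simp only [dCoef, Sum.elim_inl, Sum.elim_inr, sdot, Fintype.sum_unique, mul_sum]
    congr 1
    · exact sum_congr rfl fun i _ => by ring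
    · ring
  have h3 : HasDerivAt (fun t => sdot (cavFld W t p) (cavFld W t p))
      (2 * sdot (cavFld' W u p) (cavFld W u p)) u := by
    refine (HasDerivAt.fun_sum fun i _ => ((hP i).2).mul ((hP i).2)).congr_deriv ?_
    rw [sdot, mul_sum]
    exact sum_congr rfl fun i _ => by ring
  have h4 : HasDerivAt (fun t => cavDet W b t p) (cavDet' W b u p) u :=
    ((((((hasDerivAt_cos u).pow 2).mul_const (b - 1)).mul_const (cw W p ^ 2)).neg).div_const 2
      |>.add_const (K.shift)).congr_deriv (by simp only [cavDet']; push_cast; ring)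
  exact (((h1.add h2).sub (h3.const_mul _)).add h4).congr_deriv (by simp only [cavDH, detD]; ring)

end Vale.Agent.P157.Rsb
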