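import Vale.Agent.P157.Rsb.CavSystem

/-!
# P157, cavity module: integrals over patterns
-/

open MeasureTheory ProbabilityTheory Real Finset

namespace Vale.Agent.P157.Rsb

variable {n M k : ℕ}

theorem gTot_nonneg (g : Fin M → Fin n → ℝ) : 0 ≤ gTot g :=
  sum_nonneg fun _ _ => sum_nonneg fun _ _ => abs_nonneg _

theorem gTot_row_le (g : Fin M → Fin n → ℝ) (a : Fin M) : ∑ i, |g a i| ≤ gTot g :=
  single_le_sum (f := fun a => ∑ i, |g a i|) (fun _ _ => sum_nonneg fun _ _ => abs_nonneg _)
    (mem_univ a)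

theorem measurable_gTot : Measurable (gTot (M := M) (n := n)) := by unfold gTot; fun_prop

theorem integrable_exp_gTot (A : ℝ) :
    Integrable (fun g : Fin M → Fin n → ℝ => exp (A * gTot g)) (patterns M n) := by
  have hm : Measurable fun g : Fin M → Fin n → ℝ => exp (A * gTot g) :=
    measurable_exp.comp (measurable_gTot.const_mul A)
  refine ((measurePreserving_curry M n).integrable_comp hm.aestronglyMeasurable).1 ?_
  refine ((gaussSize (Fin M × Fin n)).int A).congr (ae_of_all _ fun y => ?_)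
  simp only [Function.comp_apply, gTot, gaussSize, Fintype.sum_prod_type]

theorem integrable_patterns {G : (Fin M → Fin n → ℝ) → ℝ} (hm : Measurable G) {A : ℝ}
    (hb : ∀ g, |G g| ≤ A * exp (A * gTot g)) : Integrable G (patterns M n) :=
  ((integrable_exp_gTot A).const_mul A).mono' hm.aestronglyMeasurable
    (ae_of_all _ fun g => by rw [Real.norm_eq_abs]; exact hb g)

theorem integrable_entry {G : (Fin M → Fin n → ℝ) → ℝ} (hm : Measurable G) {A : ℝ}
    (hb : ∀ g, |G g| ≤ A * exp (A * gTot g)) (a : Fin M) (i : Fin n) :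
    Integrable (fun g => g a i * G g) (patterns M n) := by
  have hc : Measurable fun g : Fin M → Fin n → ℝ => g a i := by fun_prop
  refine integrable_patterns (A := |A| + 1) (hc.mul hm) fun g => ?_
  have h1 : |g a i| ≤ exp (gTot g) :=
    ((single_le_sum (fun j _ => abs_nonneg (g a j)) (mem_univ i)).trans (gTot_row_le g a)).trans
      (by linarith [add_one_le_exp (gTot g)])
  have h2 : |G g| ≤ |A| * exp (|A| * gTot g) := (hb g).trans (mul_le_mul (le_abs_self A)
    (exp_le_exp.2 (mul_le_mul_of_nonneg_right (le_abs_self A) (gTot_nonneg g))) (exp_pos _).le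
    (abs_nonneg A))
  rw [abs_mul, add_mul |A| 1 (gTot g), one_mul, exp_add, add_mul, one_mul]
  calc |g a i| * |G g| ≤ exp (gTot g) * (|A| * exp (|A| * gTot g)) :=
        mul_le_mul h1 h2 (abs_nonneg _) (exp_pos _).le
    _ ≤ _ := by nlinarith [mul_pos (exp_pos (gTot g)) (exp_pos (|A| * gTot g))]

theorem measurable_section {A B C : Type} [MeasurableSpace A] [MeasurableSpace B] [MeasurableSpace C]
    (F : A → B → C → ℝ) (h : Measurable fun p : (A × B) × C => F p.1.1 p.1.2 p.2) (a : A) :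
    Measurable (Function.uncurry (F a)) := by
  have hg : Measurable fun q : B × C => ((a, q.1), q.2) :=
    (measurable_const.prodMk measurable_fst).prodMk measurable_snd
  exact h.comp hg

theorem measurable_slice {A C : Type} [MeasurableSpace A] [MeasurableSpace C] (F : A → C → ℝ)
    (h : Measurable fun p : A × C => F p.1 p.2) (a : A) : Measurable (F a) := by
  have hg : Measurable fun c : C => (a, c) := measurable_prodMk_left
  exact h.comp hg

/-- A root average of an observable as a function of the patterns. -/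
noncomputable def gibz (S : Leaf n) (f : ℝ → ℝ) (N : ℝ) (σ β : ℕ → ℝ)
    (φ : (Fin M → Fin n → ℝ) → (Fin k → FieldIdx n → ℝ) → S.X → ℝ) (g : Fin M → Fin n → ℝ) : ℝ :=
  cnd (stdG (FieldIdx n)) S.μ (ham S f N σ β g) (φ g) 0 fun _ _ => 0

theorem gib_eq (S : Leaf n) (f : ℝ → ℝ) (N : ℝ) (σ β : ℕ → ℝ)
    (φ : (Fin M → Fin n → ℝ) → (Fin k → FieldIdx n → ℝ) → S.X → ℝ) :
    gib S f M N σ β φ = ∫ g, gibz S f N σ β φ g ∂patterns M n := rfl

variable {S : Leaf n} {f : ℝ → ℝ} {N : ℝ}

theorem measurable_root {φ H : (Fin M → Fin n → ℝ) → (Fin k → FieldIdx n → ℝ) → S.X → ℝ}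
    (hH : Measurable fun p : ((Fin M → Fin n → ℝ) × (Fin k → FieldIdx n → ℝ)) × S.X =>
      H p.1.1 p.1.2 p.2)
    (hφ : Measurable fun p : ((Fin M → Fin n → ℝ) × (Fin k → FieldIdx n → ℝ)) × S.X =>
      φ p.1.1 p.1.2 p.2) :
    Measurable fun g => cnd (stdG (FieldIdx n)) S.μ (H g) (φ g) 0 (fun _ _ => 0) := by
  have h := cnd_measurable_param (γ := stdG (FieldIdx n)) (μ := S.μ) hH hφ 0
  have hp : Measurable fun g : Fin M → Fin n → ℝ =>
      ((g, fun _ _ => 0) : (Fin M → Fin n → ℝ) × (Fin k → FieldIdx n → ℝ)) :=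
    measurable_id.prodMk measurable_const
  exact h.comp hp

theorem measurable_gibz (hm : Measurable f) {σ β : ℕ → ℝ}
    {φ : (Fin M → Fin n → ℝ) → (Fin k → FieldIdx n → ℝ) → S.X → ℝ}
    (hφ : Measurable fun p : ((Fin M → Fin n → ℝ) × (Fin k → FieldIdx n → ℝ)) × S.X =>
      φ p.1.1 p.1.2 p.2) : Measurable (gibz S f N σ β φ) :=
  measurable_root (H := fun g => ham (k := k) S f N σ β g) (measurable_ham S hm N σ β) hφ

theorem abs_gibz_le {L : ℝ} (hm : Measurable f) (hf : ∀ u, |f u| ≤ L) {σ β : ℕ → ℝ}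
    {φ : (Fin M → Fin n → ℝ) → (Fin k → FieldIdx n → ℝ) → S.X → ℝ} {g : Fin M → Fin n → ℝ}
    (hφ : Measurable (Function.uncurry (φ g))) {C : ℝ} (hC : ∀ z x, |φ g z x| ≤ C) :
    |gibz S f N σ β φ g| ≤ C := by
  have h := cnd_abs_le (γ := stdG (FieldIdx n)) (μ := S.μ) (linB_ham (k := k) S hm hf N σ β g) hφ hC 0
    (fun _ _ => 0)
  exact h

section Pairs

variable {Z X : Type} [MeasurableSpace Z] [MeasurableSpace X] {γ : Measure Z} {μ : Measure X}

/-- The pair expectation is measurable in a parameter. -/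
theorem measurable_pairCnd_prod {G : Type} [MeasurableSpace G] [SFinite γ] [SFinite μ]
    {H : G → (Fin k → Z) → X → ℝ} {ψ : G → X → X → ℝ}
    (hH : Measurable fun p : (G × (Fin k → Z)) × X => H p.1.1 p.1.2 p.2)
    (hψ : Measurable fun p : (G × X) × X => ψ p.1.1 p.1.2 p.2) (j : ℕ) :
    Measurable fun p : G × (Fin k → Z) => pairCnd γ μ (H p.1) (fun _ x _ y => ψ p.1 x y) j p.2 := by
  have e1 : Measurable fun q : ((G × X) × (Fin k → Z)) × X => ((q.1.1.1, q.1.2), q.2) :=
    ((measurable_fst.comp (measurable_fst.comp measurable_fst)).prodMk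
      (measurable_snd.comp measurable_fst)).prodMk measurable_snd
  have e2 : Measurable fun q : ((G × X) × (Fin k → Z)) × X => ((q.1.1.1, q.1.1.2), q.2) :=
    ((measurable_fst.comp (measurable_fst.comp measurable_fst)).prodMk
      (measurable_snd.comp (measurable_fst.comp measurable_fst))).prodMk measurable_snd
  have hin : Measurable fun p : (G × X) × (Fin k → Z) =>
      cnd γ μ (H p.1.1) (fun _ y => ψ p.1.1 p.1.2 y) j p.2 :=
    cnd_measurable_param (γ := γ) (μ := μ) (H := fun q : G × X => H q.1)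
      (φ := fun q _ y => ψ q.1 q.2 y) (hH.comp e1) (hψ.comp e2) j
  have e3 : Measurable fun q : ((G × (Fin k → Z)) × (Fin k → Z)) × X => ((q.1.1.1, q.1.2), q.2) :=
    ((measurable_fst.comp (measurable_fst.comp measurable_fst)).prodMk
      (measurable_snd.comp measurable_fst)).prodMk measurable_snd
  have e4 : Measurable fun q : ((G × (Fin k → Z)) × (Fin k → Z)) × X => ((q.1.1.1, q.2), q.1.1.2) :=
    ((measurable_fst.comp (measurable_fst.comp measurable_fst)).prodMk measurable_snd).prodMk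
      (measurable_snd.comp (measurable_fst.comp measurable_fst))
  have hout : Measurable fun p : (G × (Fin k → Z)) × (Fin k → Z) =>
      cnd γ μ (H p.1.1) (fun _ x => cnd γ μ (H p.1.1) (fun _ y => ψ p.1.1 x y) j p.1.2) j p.2 :=
    cnd_measurable_param (γ := γ) (μ := μ) (H := fun q : G × (Fin k → Z) => H q.1)
      (φ := fun q _ x => cnd γ μ (H q.1) (fun _ y => ψ q.1 x y) j q.2) (hH.comp e3) (hin.comp e4) j
  exact hout.comp (measurable_id.prodMk measurable_snd)

variable [IsProbabilityMeasure γ] [IsFiniteMeasure μ] [NeZero μ] {w : Size γ}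

/-- The sum of products of conditional means is a pair expectation. -/
theorem pair_sum {H : (Fin k → Z) → X → ℝ}
    (hH : LinB w H) {ι : Type} [Fintype ι] {a c : ι → X → ℝ} (ha : ∀ i, Measurable (a i))
    (hc : ∀ i, Measurable (c i)) {B : ℝ} (hb : ∀ i x, |a i x| ≤ B ∧ |c i x| ≤ B) (l : ℕ)
    (z : Fin k → Z) :
    ∑ i, cnd γ μ H (fun _ x => a i x) l z * cnd γ μ H (fun _ y => c i y) l z
      = pairCnd γ μ H (fun _ x _ y => ∑ i, a i x * c i y) l z := by
  have tb : ∀ {g : X → ℝ} {C : ℝ}, Measurable g → (∀ x, |g x| ≤ C) →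
      Tame w fun (_ : Fin k → Z) x => g x := fun hg hC =>
    Tame.of_bdd (hg.comp measurable_snd) fun _ x => hC x
  have h1 : ∀ x, cnd γ μ H (fun _ y => ∑ i, a i x * c i y) l z
      = ∑ i, a i x * cnd γ μ H (fun _ y => c i y) l z := fun x => by
    rw [cnd_finsum hH univ (φ := fun i _ y => a i x * c i y)
      (fun i _ => (tb (hc i) fun y => (hb i y).2).const_mul (a i x))]
    exact sum_congr rfl fun i _ => cnd_const_mul (φ := fun _ y => c i y) _ _ _
  unfold pairCnd
  simp only [h1]
  rw [cnd_finsum hH univ (φ := fun i _ x => a i x * cnd γ μ H (fun _ y => c i y) l z)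
    (fun i _ => ((tb (ha i) fun x => (hb i x).1).const_mul (cnd γ μ H (fun _ y => c i y) l z)).congr
      fun _ x => mul_comm _ _)]
  refine sum_congr rfl fun i _ => ?_
  rw [show (fun (_ : Fin k → Z) (x : X) => a i x * cnd γ μ H (fun _ y => c i y) l z)
    = fun _ x => cnd γ μ H (fun _ y => c i y) l z * a i x from funext₂ fun _ _ => mul_comm _ _,
    cnd_const_mul (φ := fun _ x => a i x), mul_comm]

/-- A bound for the derivative formula of bounded data. -/
theorem abs_cndDer_le {H φ dH dφ : (Fin k → Z) → X → ℝ} (hH : LinB w H)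
    (hφ : Measurable (Function.uncurry φ)) (hdH : Measurable (Function.uncurry dH))
    (hdφ : Measurable (Function.uncurry dφ)) {P Q R : ℝ}
    (bφ : ∀ z x, |φ z x| ≤ P) (bdH : ∀ z x, |dH z x| ≤ Q) (bdφ : ∀ z x, |dφ z x| ≤ R)
    {j : ℕ} (hj : j ≤ k) (z : Fin k → Z) :
    |cndDer γ μ H φ dH dφ j z| ≤ R + 3 * (P * Q) := by
  have hP : ∀ l z, |cnd γ μ H φ l z| ≤ P := fun l z => cnd_abs_le hH hφ bφ l z
  have hQ : ∀ l z, |cnd γ μ H dH l z| ≤ Q := fun l z => cnd_abs_le hH hdH bdH l z
  have hP0 : 0 ≤ P := (abs_nonneg _).trans (hP 0 z)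
  have hPQ : ∀ l z, |cnd γ μ H φ l z * cnd γ μ H dH l z| ≤ P * Q := fun l z => by
    rw [abs_mul]; exact mul_le_mul (hP l z) (hQ l z) (abs_nonneg _) hP0
  have hPQ0 : 0 ≤ P * Q := (abs_nonneg _).trans (hPQ 0 z)
  have a1 : |cnd γ μ H (fun z x => dφ z x + φ z x * dH z x) j z| ≤ R + P * Q :=
    cnd_abs_le (φ := fun z x => dφ z x + φ z x * dH z x) hH (hdφ.add (hφ.mul hdH)) (fun z x =>
      (abs_add_le _ _).trans (add_le_add (bdφ z x) (by
        rw [abs_mul]; exact mul_le_mul (bφ z x) (bdH z x) (abs_nonneg _) hP0))) j z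
  have mφ : ∀ l, Measurable (Function.uncurry fun (z : Fin k → Z) (_ : X) =>
      cnd γ μ H φ l z * cnd γ μ H dH l z) := fun l =>
    (((cnd_regular (γ := γ) (μ := μ) hH (Tame.of_bdd hφ bφ) l).1).mul
      ((cnd_regular (γ := γ) (μ := μ) hH (Tame.of_bdd hdH bdH) l).1)).comp measurable_fst
  have a2 : |mass k * ∑ l ∈ Icc (j + 1) k,
      cnd γ μ H (fun z _ => cnd γ μ H φ l z * cnd γ μ H dH l z) j z| ≤ P * Q := by
    rw [abs_mul, abs_of_pos mass_pos]
    refine (mul_le_mul_of_nonneg_left (abs_sum_le_sum_abs _ _) mass_pos.le).trans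
      (mass_sum_le (fun l hl => mem_Icc.2 ⟨Nat.zero_le _, (mem_Icc.1 hl).2⟩) hPQ0 fun l _ => ?_)
    exact cnd_abs_le (φ := fun z _ => cnd γ μ H φ l z * cnd γ μ H dH l z) hH (mφ l)
      (fun z _ => hPQ l z) j z
  have a3 : |lev k (j + 1) * (cnd γ μ H φ j z * cnd γ μ H dH j z)| ≤ P * Q := by
    rw [abs_mul, abs_of_nonneg (lev_nonneg _)]
    exact (mul_le_of_le_one_left (abs_nonneg _) (lev_le_one (by omega))).trans (hPQ j z)
  calc |cndDer γ μ H φ dH dφ j z| ≤ (R + P * Q) + P * Q + P * Q :=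
        (abs_sub _ _).trans (add_le_add ((abs_sub _ _).trans (add_le_add a1 a2)) a3)
    _ = _ := by ring

omit [IsProbabilityMeasure γ] [IsFiniteMeasure μ] [NeZero μ] in
/-- The derivative formula is measurable in a parameter. -/
theorem cndDer_measurable_param {G : Type} [MeasurableSpace G] [SFinite γ] [SFinite μ]
    {H φ dH dφ : G → (Fin k → Z) → X → ℝ}
    (hH : Measurable fun p : (G × (Fin k → Z)) × X => H p.1.1 p.1.2 p.2)
    (hφ : Measurable fun p : (G × (Fin k → Z)) × X => φ p.1.1 p.1.2 p.2)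
    (hdH : Measurable fun p : (G × (Fin k → Z)) × X => dH p.1.1 p.1.2 p.2)
    (hdφ : Measurable fun p : (G × (Fin k → Z)) × X => dφ p.1.1 p.1.2 p.2) (j : ℕ) :
    Measurable fun p : G × (Fin k → Z) => cndDer γ μ (H p.1) (φ p.1) (dH p.1) (dφ p.1) j p.2 := by
  have c1 := fun l => cnd_measurable_param (γ := γ) (μ := μ) hH hφ l
  have c2 := fun l => cnd_measurable_param (γ := γ) (μ := μ) hH hdH l
  have a1 := cnd_measurable_param (γ := γ) (μ := μ)
    (φ := fun g z x => dφ g z x + φ g z x * dH g z x) hH (hdφ.add (hφ.mul hdH)) j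
  have a2 := fun l => cnd_measurable_param (γ := γ) (μ := μ)
    (φ := fun g z _ => cnd γ μ (H g) (φ g) l z * cnd γ μ (H g) (dH g) l z) hH
    (((c1 l).mul (c2 l)).comp measurable_fst) j
  exact (a1.sub ((Finset.measurable_sum _ fun l _ => a2 l).const_mul (mass k))).sub
    (((c1 j).mul (c2 j)).const_mul (lev k (j + 1)))

/-- A pair expectation of a bounded kernel is bounded. -/
theorem abs_pairCnd_le {H : (Fin k → Z) → X → ℝ} (hH : LinB w H) {ψ : X → X → ℝ}
    (hψ : Measurable (Function.uncurry ψ)) {C : ℝ} (hC : ∀ x y, |ψ x y| ≤ C) (l : ℕ) (z : Fin k → Z) :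
    |pairCnd γ μ H (fun _ x _ y => ψ x y) l z| ≤ C := by
  have e2 : Measurable fun q : (X × (Fin k → Z)) × X => (q.1.1, q.2) :=
    (measurable_fst.comp measurable_fst).prodMk measurable_snd
  have e3 : Measurable fun q : (X × (Fin k → Z)) × X => (q.1.2, q.2) :=
    (measurable_snd.comp measurable_fst).prodMk measurable_snd
  have m2 : Measurable fun q : X × (Fin k → Z) => cnd γ μ H (fun _ y => ψ q.1 y) l q.2 :=
    cnd_measurable_param (γ := γ) (μ := μ) (H := fun _ : X => H) (φ := fun x _ y => ψ x y)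
      (hH.meas.comp e3) (hψ.comp e2) l
  have hi : Measurable fun x : X => (x, z) := measurable_prodMk_right
  have m3 : Measurable fun x => cnd γ μ H (fun _ y => ψ x y) l z := m2.comp hi
  have m5 : Measurable (Function.uncurry fun (_ : Fin k → Z) x => cnd γ μ H (fun _ y => ψ x y) l z) :=
    m3.comp measurable_snd
  refine cnd_abs_le (φ := fun _ x => cnd γ μ H (fun _ y => ψ x y) l z) hH m5 (fun _ x => ?_) l z
  have hi4 : Measurable fun y : X => (x, y) := measurable_prodMk_left
  have m4 : Measurable fun y => ψ x y := hψ.comp hi4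
  have m6 : Measurable (Function.uncurry fun (_ : Fin k → Z) y => ψ x y) := m4.comp measurable_snd
  exact cnd_abs_le (φ := fun _ y => ψ x y) hH m6 (fun _ y => hC x y) l z

omit [IsProbabilityMeasure γ] [IsFiniteMeasure μ] [NeZero μ] in
/-- The derivative formula at a fixed field configuration is measurable in the parameter. -/
theorem measurable_cndDer_at {G : Type} [MeasurableSpace G] [SFinite γ] [SFinite μ]
    {H φ dH dφ : G → (Fin k → Z) → X → ℝ}
    (hH : Measurable fun p : (G × (Fin k → Z)) × X => H p.1.1 p.1.2 p.2)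
    (hφ : Measurable fun p : (G × (Fin k → Z)) × X => φ p.1.1 p.1.2 p.2)
    (hdH : Measurable fun p : (G × (Fin k → Z)) × X => dH p.1.1 p.1.2 p.2)
    (hdφ : Measurable fun p : (G × (Fin k → Z)) × X => dφ p.1.1 p.1.2 p.2) (j : ℕ) (z : Fin k → Z) :
    Measurable fun g => cndDer γ μ (H g) (φ g) (dH g) (dφ g) j z := by
  have hi : Measurable fun g : G => (g, z) := measurable_prodMk_right
  exact (cndDer_measurable_param (γ := γ) (μ := μ) hH hφ hdH hdφ j).comp hi

end Pairs

/-- The root average of a pair expectation: measurability and bound. -/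
theorem gibz_pair_facts {L : ℝ} (hm : Measurable f) (hf : ∀ u, |f u| ≤ L) {σ β : ℕ → ℝ} (l : ℕ)
    {ψ : (Fin M → Fin n → ℝ) → S.X → S.X → ℝ}
    (hψ : Measurable fun p : ((Fin M → Fin n → ℝ) × S.X) × S.X => ψ p.1.1 p.1.2 p.2) :
    let G := gibz (k := k) S f N σ β fun g z _ =>
      pairCnd (stdG (FieldIdx n)) S.μ (ham S f N σ β g) (fun _ x _ y => ψ g x y) l z
    Measurable G ∧ ∀ g C, (∀ x y, |ψ g x y| ≤ C) → |G g| ≤ C := by
  intro G
  have mP : Measurable fun p : (Fin M → Fin n → ℝ) × (Fin k → FieldIdx n → ℝ) =>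
      pairCnd (stdG (FieldIdx n)) S.μ (ham (k := k) S f N σ β p.1) (fun _ x _ y => ψ p.1 x y) l p.2 :=
    measurable_pairCnd_prod (H := fun g => ham (k := k) S f N σ β g) (ψ := ψ) (measurable_ham S hm N σ β) hψ l
  set φ := fun (g : Fin M → Fin n → ℝ) (z : Fin k → FieldIdx n → ℝ) (_ : S.X) =>
    pairCnd (stdG (FieldIdx n)) S.μ (ham (k := k) S f N σ β g) (fun _ x _ y => ψ g x y) l z with hφ
  have mP1 : Measurable fun p : ((Fin M → Fin n → ℝ) × (Fin k → FieldIdx n → ℝ)) × S.X =>
      φ p.1.1 p.1.2 p.2 := mP.comp measurable_fst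
  refine ⟨measurable_gibz (φ := φ) hm mP1, fun g C hC => ?_⟩
  have mu : Measurable (Function.uncurry (φ g)) := measurable_section φ mP1 g
  have mψ : Measurable (Function.uncurry (ψ g)) := measurable_section ψ hψ g
  refine abs_gibz_le (φ := φ) hm hf mu fun z x => ?_
  exact abs_pairCnd_le (linB_ham (k := k) S hm hf N σ β g) mψ hC l z

/-- Rows are exchangeable. -/
theorem gibPair_row {σ β : ℕ → ℝ} (j : ℕ) (a : Fin (M + 1))
    (Φ : (Fin n → ℝ) → S.X → S.X → ℝ) (hm : Measurable f)
    (hΦ : Measurable fun p : ((Fin n → ℝ) × S.X) × S.X => Φ p.1.1 p.1.2 p.2) :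
    gibPair (k := k) S f (M + 1) N σ β j (fun g x y => Φ (g a) x y)
      = gibPair (k := k) S f (M + 1) N σ β j (fun g x y => Φ (g (Fin.last M)) x y) := by
  set e := Equiv.swap a (Fin.last M) with he0
  have hpm : Measurable fun (g : Fin (M + 1) → Fin n → ℝ) b => g (e b) :=
    measurable_pi_lambda _ fun b => measurable_pi_apply (e b)
  have hp : MeasurePreserving (fun (g : Fin (M + 1) → Fin n → ℝ) b => g (e b))
      (patterns (M + 1) n) (patterns (M + 1) n) := by
    refine ⟨hpm, (Measure.pi_eq fun s hs => ?_).symm⟩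
    rw [Measure.map_apply hpm (MeasurableSet.univ_pi hs)]
    have e' : (fun (g : Fin (M + 1) → Fin n → ℝ) b => g (e b)) ⁻¹' Set.univ.pi s
        = Set.univ.pi fun b => s (e b) := by
      ext g
      simp only [Set.mem_preimage, Set.mem_pi, Set.mem_univ, forall_const]
      exact ⟨fun h b => by simpa [e] using h (e b), fun h b => by simpa [e] using h (e b)⟩
    rw [e', patterns, Measure.pi_pi]
    exact Equiv.prod_comp e fun b => (Measure.pi fun _ => gaussianReal 0 1) (s b)
  have hH : ∀ g : Fin (M + 1) → Fin n → ℝ,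
      ham (k := k) S f N σ β (fun b => g (e b)) = ham S f N σ β g := fun g => by
    funext z x
    simp only [ham]
    congr 3
    exact Equiv.sum_comp e fun b => f (sdot (g b) (S.pat x))
  set P := fun (c : Fin (M + 1)) => gibz (k := k) S f N σ β fun g z _ =>
    pairCnd (stdG (FieldIdx n)) S.μ (ham S f N σ β g) (fun _ x _ y => Φ (g c) x y) j z
  have hP : Measurable (P (Fin.last M)) := by
    refine measurable_gibz hm ?_
    have e1 : Measurable fun p : ((Fin (M + 1) → Fin n → ℝ) × S.X) × S.X =>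
        ((p.1.1 (Fin.last M), p.1.2), p.2) :=
      (((measurable_pi_apply (Fin.last M)).comp (measurable_fst.comp measurable_fst)).prodMk
        (measurable_snd.comp measurable_fst)).prodMk measurable_snd
    have h1 := measurable_pairCnd_prod (γ := stdG (FieldIdx n)) (μ := S.μ) (k := k)
      (H := fun g => ham S f N σ β g) (ψ := fun g x y => Φ (g (Fin.last M)) x y)
      (measurable_ham S hm N σ β) (hΦ.comp e1) j
    exact h1.comp measurable_fst
  have heq : ∀ g, P a g = P (Fin.last M) (fun b => g (e b)) := fun g => by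
    simp only [P, gibz]
    rw [hH g, show e (Fin.last M) = a from Equiv.swap_apply_right a (Fin.last M)]
  have hi := integral_map (μ := patterns (M + 1) n) hpm.aemeasurable
    (f := P (Fin.last M)) hP.aestronglyMeasurable
  rw [hp.map_eq] at hi
  unfold gibPair
  rw [gib_eq, gib_eq]
  change ∫ g, P a g ∂patterns (M + 1) n = ∫ g, P (Fin.last M) g ∂patterns (M + 1) n
  rw [funext heq, hi]

/-- The directional derivative of the pattern part along `d`. -/
noncomputable def patP (S : Leaf n) (f : ℝ → ℝ) (d : S.X → Fin n → ℝ) (g : Fin M → Fin n → ℝ)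
    (x : S.X) : ℝ :=
  ∑ a, deriv f (sdot (g a) (S.pat x)) * sdot (g a) (d x)

theorem patD_eq {N : ℕ} (K : CavBase N) {W : ℝ} (hW : 1 ≤ W) (f : ℝ → ℝ) (b u : ℝ)
    (g : Fin M → Fin (N + 1 + 1) → ℝ) :
    patD (K := K) W f g u = patP (cavLeaf K hW b u) f (cavPat' W u) g := rfl

/-- Hypotheses on a direction. -/
structure Dir (S : Leaf n) (f : ℝ → ℝ) (d : S.X → Fin n → ℝ) (L Bf B : ℝ) : Prop where
  good : ContDiff ℝ 2 f
  bf : ∀ u, |f u| ≤ L
  bf' : ∀ u, |deriv f u| ≤ Bf
  bf'' : ∃ C, ∀ u, |deriv (deriv f) u| ≤ C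
  nonneg : 0 ≤ B
  meas : Measurable d
  bd : ∀ x i, |d x i| ≤ B
  bp : ∀ x i, |S.pat x i| ≤ B
  orth : ∀ x, sdot (d x) (S.pat x) = 0

variable {d : S.X → Fin n → ℝ} {L Bf B : ℝ}

theorem Dir.bf0 (h : Dir S f d L Bf B) : 0 ≤ Bf := (abs_nonneg _).trans (h.bf' 0)

theorem Dir.mf (h : Dir S f d L Bf B) :
    Measurable f ∧ Measurable (deriv f) ∧ Measurable (deriv (deriv f)) ∧ Differentiable ℝ f ∧
      Differentiable ℝ (deriv f) := by
  have h2 : ContDiff ℝ (1 + 1) f := h.good.of_le (by norm_num)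
  obtain ⟨hd, -, h1⟩ := contDiff_succ_iff_deriv.1 h2
  exact ⟨hd.continuous.measurable, measurable_deriv f, measurable_deriv _, hd,
    h1.differentiable (by norm_num)⟩

theorem Dir.abs_patP_le (h : Dir S f d L Bf B) (g : Fin M → Fin n → ℝ) (x : S.X) :
    |patP S f d g x| ≤ Bf * B * gTot g := by
  unfold patP gTot
  rw [mul_sum]
  refine (abs_sum_le_sum_abs _ _).trans (sum_le_sum fun a _ => ?_)
  rw [abs_mul, mul_assoc]
  exact mul_le_mul (h.bf' _) (abs_sdot_le (g a) (d x) (h.bd x)) (abs_nonneg _) h.bf0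

theorem Dir.measurable_patP (h : Dir S f d L Bf B) :
    Measurable fun p : (Fin M → Fin n → ℝ) × S.X => patP S f d p.1 p.2 := by
  unfold patP
  refine Finset.measurable_sum _ fun a _ => Measurable.mul ?_ ?_
  · exact h.mf.2.1.comp (measurable_sdot ((measurable_pi_apply a).comp measurable_fst)
      (S.pat_meas.comp measurable_snd))
  · exact measurable_sdot ((measurable_pi_apply a).comp measurable_fst) (h.meas.comp measurable_snd)

theorem hasDerivAt_setEntry (g : Fin M → Fin n → ℝ) (a c : Fin M) (i : Fin n) (v : Fin n → ℝ) (s : ℝ) :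
    HasDerivAt (fun t => sdot (setEntry g a i t c) v) (if c = a then v i else 0) s := by
  by_cases hc : c = a
  · subst hc
    simp only [if_pos, setEntry, Function.update_self, sdot]
    refine (HasDerivAt.fun_sum (A' := fun j => if j = i then v i else 0) fun j _ => ?_).congr_deriv
      (by simp)
    by_cases hj : j = i
    · subst hj
      simpa using (hasDerivAt_id s).mul_const (v j)
    · simpa [Function.update_of_ne hj, hj] using hasDerivAt_const s (g c j * v j)
  · simp only [if_neg hc, setEntry, Function.update_of_ne hc]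
    exact hasDerivAt_const s _

theorem gTot_setEntry_le (g : Fin M → Fin n → ℝ) (a : Fin M) (i : Fin n) (s : ℝ) :
    gTot (setEntry g a i s) ≤ gTot g + |s| := by
  unfold gTot
  calc ∑ c, ∑ j, |setEntry g a i s c j|
      ≤ ∑ c, ∑ j, (|g c j| + if c = a then (if j = i then |s| else 0) else 0) := by
        refine sum_le_sum fun c _ => sum_le_sum fun j _ => ?_
        by_cases hc : c = a
        · subst hc
          by_cases hj : j = i
          · subst hj; simp [setEntry]
          · simp [setEntry, hj]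
        · simp [setEntry, hc]
    _ = _ := by simp only [sum_add_distrib]; simp

end Vale.Agent.P157.Rsb
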