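import Vale.Agent.P157.Rsb.Intf
import Vale.Agent.P157.Rsb.Calc

/-!
# P157: perturbed systems on a general leaf space

Bounds, measurability and the derivatives of the Hamiltonian of `ham` on an arbitrary leaf space,
and the overlap `qOf` as a mean square of conditional expectations.
-/

open MeasureTheory ProbabilityTheory Real Finset

namespace Vale.Agent.P157.Rsb.Lf

variable {n M k : ℕ} {f : ℝ → ℝ} {L : ℝ}

/-- The law of one level of fields. -/
noncomputable abbrev gn (n : ℕ) : Measure (FieldIdx n → ℝ) := stdG (FieldIdx n)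

/-- The weight of the fields. -/
noncomputable abbrev wn (n : ℕ) : Size (gn n) := gaussSize (FieldIdx n)

/-- The mean vector at level `l`. -/
noncomputable def mv (S : Leaf n) (H : (Fin k → FieldIdx n → ℝ) → S.X → ℝ) (l : ℕ) (i : Fin n)
    (z : Fin k → FieldIdx n → ℝ) : ℝ :=
  cnd (gn n) S.μ H (fun _ x => S.fld x i) l z

/-- The square of the mean vector. -/
noncomputable def mu2 (S : Leaf n) (H : (Fin k → FieldIdx n → ℝ) → S.X → ℝ) (l : ℕ)
    (z : Fin k → FieldIdx n → ℝ) : ℝ :=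
  ∑ i, mv S H l i z ^ 2

/-- The overlap of a field coordinate with the leaf. -/
def fieldDot (S : Leaf n) (a : Fin k) (z : Fin k → FieldIdx n → ℝ) (x : S.X) : ℝ :=
  sdot (fun i => z a (.inl i)) (S.fld x)

theorem coord_bound (S : Leaf n) : ∃ B, 0 ≤ B ∧ ∀ x, (∀ i, |S.pat x i| ≤ B) ∧ (∀ i, |S.fld x i| ≤ B) ∧
    |S.aux x| ≤ B ∧ |S.det x| ≤ B := by
  obtain ⟨B, hB⟩ := S.bdd
  refine ⟨|B|, abs_nonneg B, fun x => ?_⟩
  obtain ⟨h1, h2, h3, h4⟩ := hB x
  exact ⟨fun i => (h1 i).trans (le_abs_self B), fun i => (h2 i).trans (le_abs_self B),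
    h3.trans (le_abs_self B), h4.trans (le_abs_self B)⟩

theorem fld_le_one (S : Leaf n) (hu : ∀ x, sdot (S.fld x) (S.fld x) = 1) (x : S.X) (i : Fin n) :
    |S.fld x i| ≤ 1 := by
  rw [abs_le_one_iff_mul_self_le_one, ← hu x]
  exact single_le_sum (f := fun i => S.fld x i * S.fld x i) (fun i _ => mul_self_nonneg _) (mem_univ i)

theorem z_le_tot (z : Fin k → FieldIdx n → ℝ) (a : Fin k) (i : FieldIdx n) : |z a i| ≤ (wn n).tot z :=
  (single_le_sum (f := fun i => |z a i|) (fun i _ => abs_nonneg _) (mem_univ i)).trans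
    (single_le_sum (f := fun a => ∑ i, |z a i|) (fun a _ => sum_nonneg fun i _ => abs_nonneg _)
      (mem_univ a))

theorem tame_z (S : Leaf n) (a : Fin k) (i : FieldIdx n) :
    Tame (wn n) fun (z : Fin k → FieldIdx n → ℝ) (_ : S.X) => z a i :=
  ⟨(measurable_pi_apply i).comp ((measurable_pi_apply a).comp measurable_fst), 1, zero_le_one,
    fun z _ => by
      rw [one_mul, one_mul]
      exact (z_le_tot z a i).trans ((lt_add_one _).le.trans (add_one_le_exp _))⟩

theorem meas_fld (S : Leaf n) (i : Fin n) : Measurable fun x => S.fld x i :=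
  (measurable_pi_apply i).comp S.fld_meas

theorem tame_fld (S : Leaf n) (i : Fin n) :
    Tame (wn n) fun (_ : Fin k → FieldIdx n → ℝ) x => S.fld x i := by
  obtain ⟨B, _, hB⟩ := coord_bound S
  exact Tame.of_bdd ((meas_fld S i).comp measurable_snd) fun _ x => (hB x).2.1 i

theorem tame_fieldDot (S : Leaf n) (a : Fin k) : Tame (wn n) (fieldDot S a) :=
  (Tame.sum univ fun i _ => (tame_z S a (.inl i)).mul (tame_fld S i)).congr fun _ _ => rfl

/-! ### the Hamiltonian -/

theorem ham_meas (S : Leaf n) (hm : Measurable f) (N : ℝ) (σ β : ℕ → ℝ) :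
    Measurable fun p : ((Fin M → Fin n → ℝ) × (Fin k → FieldIdx n → ℝ)) × S.X =>
      ham S f N σ β p.1.1 p.1.2 p.2 := by
  have := S.fld_meas
  have := S.pat_meas
  have := S.aux_meas
  have := S.det_meas
  simp only [ham, sdot]
  fun_prop

theorem ham_meas_right (S : Leaf n) (hm : Measurable f) (N : ℝ) (σ β : ℕ → ℝ) (g : Fin M → Fin n → ℝ) :
    Measurable (Function.uncurry (ham (k := k) S f N σ β g)) := by
  have := S.fld_meas
  have := S.pat_meas
  have := S.aux_meas
  have := S.det_meas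
  simp only [Function.uncurry_def, ham, sdot]
  fun_prop

/-- A linear bound that is uniform in the patterns and in bounded amplitudes. -/
theorem ham_bound (S : Leaf n) (hL : ∀ u, |f u| ≤ L) (N : ℝ) (β : ℕ → ℝ) (R : ℝ) :
    ∃ A, 0 ≤ A ∧ ∀ σ : ℕ → ℝ, (∀ l : Fin k, |σ ((l : ℕ) + 1)| ≤ R) → ∀ (g : Fin M → Fin n → ℝ) (z : Fin k → FieldIdx n → ℝ) x,
      |ham S f N σ β g z x| ≤ A * (1 + (wn n).tot z) := by
  obtain ⟨B, hB0, hB⟩ := coord_bound S
  set A₁ := k * (|R| * √N) * B + (∑ l : Fin k, |β ((l : ℕ) + 1)|) * B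
  set A₀ := M * |L| + |N| / 2 * (k * R ^ 2) * (n * (B * B)) + B
  have hA1 : 0 ≤ A₁ := by positivity
  have hA0 : 0 ≤ A₀ := by positivity
  refine ⟨A₀ + A₁, by positivity, fun σ hσ g z x => ?_⟩
  obtain ⟨-, hf, ha, hd⟩ := hB x
  have ht := (wn n).tot_nonneg z
  have h1 : |∑ a, f (sdot (g a) (S.pat x))| ≤ M * |L| :=
    (abs_sum_le_sum_abs _ _).trans ((sum_le_card_nsmul _ _ |L| fun a _ =>
      (hL _).trans (le_abs_self L)).trans (le_of_eq (by simp)))
  have h2 : |∑ l : Fin k, (σ ((l : ℕ) + 1) * √N * sdot (fun i => z l (.inl i)) (S.fld x)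
      + β ((l : ℕ) + 1) * z l (.inr ()) * S.aux x)| ≤ A₁ * (wn n).tot z := by
    have hl : ∀ l : Fin k, |σ ((l : ℕ) + 1) * √N * sdot (fun i => z l (.inl i)) (S.fld x)
        + β ((l : ℕ) + 1) * z l (.inr ()) * S.aux x|
        ≤ (|R| * √N * B + |β ((l : ℕ) + 1)| * B) * (wn n).tot z := fun l => by
      have hs : |sdot (fun i => z l (.inl i)) (S.fld x)| ≤ B * (wn n).tot z := by
        refine (abs_sum_le_sum_abs _ _).trans (le_trans (sum_le_sum (g := fun i => B * |z l (.inl i)|)
          fun i _ => ?_) ?_)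
        · rw [abs_mul, mul_comm]
          exact mul_le_mul_of_nonneg_right (hf i) (abs_nonneg _)
        · rw [← mul_sum]
          refine mul_le_mul_of_nonneg_left (le_trans ?_ (single_le_sum (f := fun a => ∑ i, |z a i|)
            (fun a _ => sum_nonneg fun i _ => abs_nonneg _) (mem_univ l))) hB0
          rw [Fintype.sum_sum_type]
          exact le_add_of_nonneg_right (sum_nonneg fun i _ => abs_nonneg _)
      refine (abs_add_le _ _).trans ?_
      rw [abs_mul, abs_mul, abs_of_nonneg (sqrt_nonneg N), abs_mul, abs_mul, add_mul]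
      refine add_le_add ?_ ?_
      · rw [mul_assoc (|R| * √N)]
        exact mul_le_mul (mul_le_mul_of_nonneg_right ((hσ l).trans (le_abs_self R)) (sqrt_nonneg N)) hs
          (abs_nonneg _) (by positivity)
      · rw [mul_assoc, mul_assoc]
        refine mul_le_mul_of_nonneg_left ?_ (abs_nonneg _)
        rw [mul_comm B]
        exact mul_le_mul (z_le_tot z l _) ha (abs_nonneg _) ht
    refine (abs_sum_le_sum_abs _ _).trans ((sum_le_sum fun l _ => hl l).trans (le_of_eq ?_))
    rw [← sum_mul, sum_add_distrib, sum_const, card_univ, Fintype.card_fin, nsmul_eq_mul, ← sum_mul]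
    simp only [A₁]
    ring
  have h3 : |N / 2 * (∑ l : Fin k, σ ((l : ℕ) + 1) ^ 2) * sdot (S.fld x) (S.fld x)|
      ≤ |N| / 2 * (k * R ^ 2) * (n * (B * B)) := by
    rw [abs_mul, abs_mul, abs_div, abs_of_pos (zero_lt_two : (0 : ℝ) < 2)]
    refine mul_le_mul (mul_le_mul_of_nonneg_left ?_ (by positivity)) ?_ (abs_nonneg _) (by positivity)
    · rw [abs_of_nonneg (sum_nonneg fun l _ => sq_nonneg _)]
      refine (sum_le_card_nsmul _ _ (R ^ 2) fun l _ => ?_).trans (le_of_eq (by simp))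
      rw [← sq_abs]
      exact pow_le_pow_left₀ (abs_nonneg _) (hσ l) 2
    · refine (abs_sum_le_sum_abs _ _).trans ((sum_le_card_nsmul _ _ (B * B) fun i _ => ?_).trans
        (le_of_eq (by simp)))
      rw [abs_mul]
      exact mul_le_mul (hf i) (hf i) (abs_nonneg _) hB0
  have h4 := mul_nonneg hA0 ht
  unfold ham
  rw [abs_le] at h1 h2 h3 hd ⊢
  simp only [A₀] at h4 hA0 ⊢
  constructor <;> linarith [h1.1, h1.2, h2.1, h2.2, h3.1, h3.2, hd.1, hd.2]

theorem ham_linB (S : Leaf n) (hm : Measurable f) (hL : ∀ u, |f u| ≤ L) (N : ℝ) (σ β : ℕ → ℝ)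
    (g : Fin M → Fin n → ℝ) : LinB (wn n) (ham (k := k) S f N σ β g) := by
  obtain ⟨A, hA, h⟩ := ham_bound (M := M) (k := k) S hL N β (∑ l : Fin k, |σ ((l : ℕ) + 1)|)
  exact ⟨ham_meas_right S hm N σ β g, A, hA, fun z x => h σ (fun l =>
    single_le_sum (f := fun l : Fin k => |σ ((l : ℕ) + 1)|) (fun _ _ => abs_nonneg _) (mem_univ l)) g z x⟩

/-- The Hamiltonian as a function of one field coordinate. -/
theorem ham_upd (S : Leaf n) (f : ℝ → ℝ) (N : ℝ) (σ β : ℕ → ℝ) (g : Fin M → Fin n → ℝ) (a : Fin k)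
    (i : Fin n) (t : ℝ) (z : Fin k → FieldIdx n → ℝ) (x : S.X) :
    ham S f N σ β g (Function.update z a (Function.update (z a) (.inl i) t)) x
      = ham S f N σ β g z x + σ ((a : ℕ) + 1) * √N * S.fld x i * (t - z a (.inl i)) := by
  set z' := Function.update z a (Function.update (z a) (.inl i) t)
  have h : ∀ l : Fin k, σ ((l : ℕ) + 1) * √N * sdot (fun i' => z' l (.inl i')) (S.fld x)
      + β ((l : ℕ) + 1) * z' l (.inr ()) * S.aux x
      = σ ((l : ℕ) + 1) * √N * sdot (fun i' => z l (.inl i')) (S.fld x)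
        + β ((l : ℕ) + 1) * z l (.inr ()) * S.aux x
        + if l = a then σ ((a : ℕ) + 1) * √N * S.fld x i * (t - z a (.inl i)) else 0 := fun l => by
    by_cases hl : l = a
    · subst hl
      rw [if_pos rfl]
      have e : ∀ i', z' l (.inl i') * S.fld x i' = z l (.inl i') * S.fld x i'
          + if i' = i then S.fld x i * (t - z l (.inl i)) else 0 := fun i' => by
        by_cases hi : i' = i
        · subst hi; simp [z']; ring
        · simp [z', hi]
      have e2 : z' l (.inr ()) = z l (.inr ()) := by simp [z']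
      simp only [sdot, e, e2, sum_add_distrib, sum_ite_eq', mem_univ, if_true]
      ring
    · simp [z', hl]
  simp only [ham, h, sum_add_distrib, sum_ite_eq', mem_univ, if_true]
  ring

theorem ham_upd_deriv (S : Leaf n) (f : ℝ → ℝ) (N : ℝ) (σ β : ℕ → ℝ) (g : Fin M → Fin n → ℝ)
    (a : Fin k) (i : Fin n) (z : Fin k → FieldIdx n → ℝ) (x : S.X) :
    HasDerivAt (fun t => ham S f N σ β g (Function.update z a (Function.update (z a) (.inl i) t)) x)
      (σ ((a : ℕ) + 1) * √N * S.fld x i) (z a (.inl i)) := by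
  simp only [ham_upd]
  simpa using (((hasDerivAt_id (z a (.inl i))).sub_const _).const_mul
    (σ ((a : ℕ) + 1) * √N * S.fld x i)).const_add (ham S f N σ β g z x)

/-- Integration by parts of a field coordinate against a coordinate of the leaf. -/
theorem field_coord_ibp (S : Leaf n) (hm : Measurable f) (hL : ∀ u, |f u| ≤ L) (N : ℝ) (σ β : ℕ → ℝ)
    (g : Fin M → Fin n → ℝ) (a : Fin k) (i b : Fin n) {j : ℕ} (hj : j ≤ a)
    (z : Fin k → FieldIdx n → ℝ) :
    cnd (gn n) S.μ (ham S f N σ β g) (fun z x => z a (.inl i) * S.fld x b) j z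
      = σ ((a : ℕ) + 1) * √N *
        (cnd (gn n) S.μ (ham S f N σ β g) (fun _ x => S.fld x b * S.fld x i) j z
          - mass k * ∑ l ∈ Icc ((a : ℕ) + 1) k, cnd (gn n) S.μ (ham S f N σ β g)
              (fun z _ => mv S (ham S f N σ β g) l b z * mv S (ham S f N σ β g) l i z) j z) := by
  set c := σ ((a : ℕ) + 1) * √N
  have h0 : Tame (wn n) fun (_ : Fin k → FieldIdx n → ℝ) (_ : S.X) => (0 : ℝ) :=
    Tame.of_bdd measurable_const (B := 0) fun _ _ => by simp
  rw [cnd_ibp (H := ham S f N σ β g) (φ := fun _ x => S.fld x b) (dH := fun _ x => c * S.fld x i)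
    (dφ := fun _ _ => 0) (.inl i) a (ham_linB S hm hL N σ β g) (tame_fld S b)
    ((tame_fld S i).const_mul c) h0 (fun z x => ham_upd_deriv S f N σ β g a i z x)
    (fun z x => hasDerivAt_const _ _) hj z]
  simp only [zero_add, mul_left_comm _ c, cnd_const_mul, mul_sub, mul_sum, mv]

/-- The mean overlap is the mean square of the mean vector. -/
theorem qOf_eq (S : Leaf n) (hm : Measurable f) (hL : ∀ u, |f u| ≤ L) (N : ℝ) (σ β : ℕ → ℝ) {j : ℕ}
    (hj : j ≠ 0) :
    qOf S f M k N σ β j = ∫ g, cnd (gn n) S.μ (ham (k := k) S f N σ β g)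
      (fun z _ => mu2 S (ham S f N σ β g) j z) 0 (fun _ _ => 0) ∂patterns M n := by
  rw [qOf, if_neg hj]
  refine integral_congr_ae (ae_of_all _ fun g => ?_)
  refine congrArg (fun φ => cnd (k := k) (gn n) S.μ (ham S f N σ β g) φ 0 fun _ _ => 0) ?_
  funext z _
  have hH := ham_linB (k := k) S hm hL N σ β g
  have h1 : ∀ x : S.X, cnd (gn n) S.μ (ham (k := k) S f N σ β g)
      (fun _ y => sdot (S.fld x) (S.fld y)) j z = ∑ i, S.fld x i * mv S (ham S f N σ β g) j i z :=
    fun x => by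
      simp only [sdot]
      rw [cnd_finsum hH _ fun i _ => (tame_fld S i).const_mul _]
      simp only [cnd_const_mul, mv]
  show cnd (gn n) S.μ (ham S f N σ β g) (fun _ x => cnd (gn n) S.μ (ham (k := k) S f N σ β g)
    (fun _ y => sdot (S.fld x) (S.fld y)) j z) j z = _
  simp only [h1, mu2, mul_comm (S.fld _ _)]
  rw [cnd_finsum hH _ fun i _ => (tame_fld S i).const_mul _]
  simp only [cnd_const_mul, mv, pow_two]

end Vale.Agent.P157.Rsb.Lf
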