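import Vale.Agent.P157.Rsb.CalcParam

/-!
# P157: congruence, shifts, parameters and continuity of nested conditional expectations
-/

open MeasureTheory ProbabilityTheory Real Finset Filter Topology

namespace Vale.Agent.P157.Rsb

variable {k : ℕ} {Z X : Type} [MeasurableSpace Z] [MeasurableSpace X]
  {γ : Measure Z} {μ : Measure X}

/-- Observables that agree wherever the levels below `j` are those of `z` have the same expectation. -/
theorem cnd_congr_upto {H φ φ' : (Fin k → Z) → X → ℝ} (j : ℕ) (z : Fin k → Z)
    (h : ∀ z' : Fin k → Z, (∀ i : Fin k, (i : ℕ) < j → z' i = z i) → φ z' = φ' z') :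
    cnd γ μ H φ j z = cnd γ μ H φ' j z := by
  induction j using levels_induction (k := k) generalizing z with
  | htop j hj => simp only [cnd_of_le hj, cnd_top, h z fun i _ => rfl]
  | hstep j hj hjk ih =>
    simp only [cnd_step hj hjk]
    congr 2
    funext y
    rw [ih (put z (j - 1) y) fun z' hz => h z' fun i hi => by
      rw [hz i (by omega)]; simp only [put, if_neg (by omega : ¬ (i : ℕ) = j - 1)]]

/-- Equality after the leaf integration propagates to all levels. -/
theorem cnd_congr_top {H φ φ' : (Fin k → Z) → X → ℝ}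
    (h : ∀ z, cnd γ μ H φ k z = cnd γ μ H φ' k z) (j : ℕ) (z : Fin k → Z) :
    cnd γ μ H φ j z = cnd γ μ H φ' j z := by
  induction j using levels_induction (k := k) generalizing z with
  | htop j hj => simp only [cnd_of_le hj, h]
  | hstep j hj hjk ih => simp only [cnd_step hj hjk, ih]

/-- A shift of a level below `j` can be moved inside. -/
theorem cnd_shift {H φ : (Fin k → Z) → X → ℝ} (a : Fin k) (T : Z → Z) (j : ℕ) (ha : (a : ℕ) < j)
    (z : Fin k → Z) :
    val γ μ H j (Function.update z a (T (z a)))
      = val γ μ (fun z x => H (Function.update z a (T (z a))) x) j z ∧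
    cnd γ μ H φ j (Function.update z a (T (z a)))
      = cnd γ μ (fun z x => H (Function.update z a (T (z a))) x)
          (fun z x => φ (Function.update z a (T (z a))) x) j z := by
  induction j using levels_induction (k := k) generalizing z with
  | htop j hj => simp only [val_of_le hj, cnd_of_le hj, val_top, cnd_top, and_self]
  | hstep j hj hjk ih =>
    have e : ∀ y, put (Function.update z a (T (z a))) (j - 1) y
        = Function.update (put z (j - 1) y) a (T (put z (j - 1) y a)) := fun y => by
      funext i
      by_cases hi : i = a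
      · subst hi
        simp only [put, if_neg (by omega : ¬ (i : ℕ) = j - 1), Function.update_self]
      · simp only [put, Function.update_of_ne hi]
    simp only [val_step hj hjk, cnd_step hj hjk, e, (ih (by omega) _).1, (ih (by omega) _).2, and_self]

/-- Two leaves that branch after level `l`, seen from the root. -/
theorem cnd_pair_eq [IsProbabilityMeasure γ] [IsFiniteMeasure μ] [NeZero μ] {w : Size γ}
    {H : (Fin k → Z) → X → ℝ} (hH : LinB w H) (ψ : X → X → ℝ) (l j : ℕ) (hlj : l ≤ j) (z : Fin k → Z) :
    cnd γ μ H (fun z _ => pairCnd γ μ H (fun _ x _ y => ψ x y) j z) l z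
      = cnd γ μ H (fun z x => cnd γ μ H (fun _ y => ψ x y) j z) l z := by
  have e : ∀ z, pairCnd γ μ H (fun _ x _ y => ψ x y) j z
      = cnd γ μ H (fun z x => cnd γ μ H (fun _ y => ψ x y) j z) j z := fun z =>
    cnd_congr_upto j z fun z' hz => funext fun x => cnd_upto j z z' fun i hi => (hz i hi).symm
  simp only [e]
  exact cnd_tower hH hlj z

section Param

variable [IsProbabilityMeasure γ] [IsFiniteMeasure μ] {P : Type} [MeasurableSpace P]
  {H φ : P → (Fin k → Z) → X → ℝ}

theorem cnd_measurable_param_at (hH : Measurable fun q : (P × (Fin k → Z)) × X => H q.1.1 q.1.2 q.2)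
    (hφ : Measurable fun q : (P × (Fin k → Z)) × X => φ q.1.1 q.1.2 q.2) (j : ℕ) (z : Fin k → Z) :
    Measurable fun p : P => cnd γ μ (H p) (φ p) j z :=
  (cnd_measurable_param hH hφ j).comp (f := fun p : P => (p, z)) (measurable_id.prodMk measurable_const)

theorem val_measurable_param_at (hH : Measurable fun q : (P × (Fin k → Z)) × X => H q.1.1 q.1.2 q.2)
    (j : ℕ) (z : Fin k → Z) : Measurable fun p : P => val γ μ (H p) j z :=
  (val_measurable_param hH j).comp (f := fun p : P => (p, z)) (measurable_id.prodMk measurable_const)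

end Param

variable [IsProbabilityMeasure γ] [IsFiniteMeasure μ] [NeZero μ] {w : Size γ}
  {H0 : (Fin k → Z) → X → ℝ}

theorem linB_add_bdd {d : (Fin k → Z) → X → ℝ} (hH : LinB w H0)
    (hd : Measurable (Function.uncurry d)) {L : ℝ} (h : ∀ z x, |d z x| ≤ L) :
    LinB w fun z x => H0 z x + d z x := by
  obtain ⟨A, hA, hb⟩ := hH.bound
  refine ⟨hH.meas.add hd, A + |L|, by positivity, fun z x => ?_⟩
  have ht := w.tot_nonneg z
  nlinarith [abs_add_le (H0 z x) (d z x), hb z x, h z x, le_abs_self L, mul_nonneg (abs_nonneg L) ht]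

/-- A bound by a fixed admissible observable passes to every bounded perturbation. -/
theorem cnd_unif {H φ ψ : (Fin k → Z) → X → ℝ} (hH0 : LinB w H0) (hH : LinB w H) {L : ℝ}
    (hL : ∀ z x, |H z x - H0 z x| ≤ L) (hφ : Tame w φ) (hψ : Tame w ψ) (h : ∀ z x, |φ z x| ≤ ψ z x)
    {j : ℕ} (hjk : j ≤ k) (z : Fin k → Z) :
    |cnd γ μ H φ j z| ≤ exp (2 * L) * cnd γ μ H0 ψ j z := by
  have h1 : |cnd γ μ H φ j z| ≤ cnd γ μ H ψ j z := by
    refine abs_le.2 ⟨?_, cnd_mono hH hφ hψ (fun z x => (abs_le.1 (h z x)).2) j z⟩
    have := cnd_mono (μ := μ) hH hφ.neg hψ (fun z x => (neg_le_abs _).trans (h z x)) j z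
    rw [show (fun z x => -φ z x) = fun z x => (-1) * φ z x from funext₂ fun _ _ => by ring,
      cnd_const_mul] at this
    linarith
  exact h1.trans (cnd_tilt hH0 hH hψ (fun z x => (abs_nonneg _).trans (h z x)) hL hjk z)

/-- Continuity in a parameter of bounded perturbations and bounded observables. -/
theorem cnd_continuous {T : Type} [TopologicalSpace T] [FirstCountableTopology T]
    {d φ : T → (Fin k → Z) → X → ℝ} (hH : LinB w H0) {L M : ℝ}
    (hdm : ∀ t, Measurable (Function.uncurry (d t))) (hdb : ∀ t z x, |d t z x| ≤ L)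
    (hdc : ∀ z x, Continuous fun t => d t z x)
    (hφm : ∀ t, Measurable (Function.uncurry (φ t))) (hφb : ∀ t z x, |φ t z x| ≤ M)
    (hφc : ∀ z x, Continuous fun t => φ t z x) (j : ℕ) (z : Fin k → Z) :
    Continuous (fun t => val γ μ (fun z x => H0 z x + d t z x) j z) ∧
    Continuous (fun t => cnd γ μ (fun z x => H0 z x + d t z x) (φ t) j z) := by
  have hHt : ∀ t, LinB w fun z x => H0 z x + d t z x := fun t => linB_add_bdd hH (hdm t) (hdb t)
  induction j using levels_induction (k := k) generalizing z with
  | htop j hj =>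
    simp only [val_of_le hj, cnd_of_le hj, val_top, cnd_top]
    have hi := integrable_exp_leaf (μ := μ) hH z
    have hb : ∀ t x, exp (H0 z x + d t z x) ≤ exp L * exp (H0 z x) := fun t x => by
      rw [← exp_add]
      exact exp_le_exp.2 (by linarith [(abs_le.1 (hdb t z x)).2])
    have h1 : Continuous fun t => ∫ x, exp (H0 z x + d t z x) ∂μ := by
      refine continuous_of_dominated (fun t => ((hHt t).meas_right z).exp.aestronglyMeasurable)
        (fun t => ae_of_all _ fun x => ?_) (hi.const_mul (exp L))
        (ae_of_all _ fun x => continuous_exp.comp ((hdc z x).const_add _))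
      rw [Real.norm_eq_abs, abs_of_pos (exp_pos _)]
      exact hb t x
    have h2 : Continuous fun t => ∫ x, φ t z x * exp (H0 z x + d t z x) ∂μ := by
      refine continuous_of_dominated
        (fun t => (((hφm t).comp (measurable_const.prodMk measurable_id)).mul
          ((hHt t).meas_right z).exp).aestronglyMeasurable)
        (fun t => ae_of_all _ fun x => ?_) (hi.const_mul (|M| * exp L))
        (ae_of_all _ fun x => (hφc z x).mul (continuous_exp.comp ((hdc z x).const_add _)))
      rw [Real.norm_eq_abs, abs_mul, abs_of_pos (exp_pos _), mul_assoc]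
      exact mul_le_mul ((hφb t z x).trans (le_abs_self M)) (hb t x) (exp_pos _).le (abs_nonneg _)
    have hp : ∀ t, (∫ x, exp (H0 z x + d t z x) ∂μ) ≠ 0 := fun t =>
      (integral_exp_pos (integrable_exp_leaf (hHt t) z)).ne'
    exact ⟨h1.log hp, h2.div h1 hp⟩
  | hstep j hj hjk ih =>
    simp only [val_step hj hjk, cnd_step hj hjk]
    obtain ⟨hi, -⟩ := integrable_val_step (γ := γ) (μ := μ) hH (j := j) z (j - 1)
    have hb : ∀ t y, exp (lev k j * val γ μ (fun z x => H0 z x + d t z x) j (put z (j - 1) y))
        ≤ exp (lev k j * L) * exp (lev k j * val γ μ H0 j (put z (j - 1) y)) := fun t y => by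
      have h := val_close (γ := γ) (μ := μ) hH (hHt t) (L := L)
        (fun z x => by simpa using hdb t z x) j (put z (j - 1) y)
      rw [← exp_add]
      exact exp_le_exp.2 (by nlinarith [(abs_le.1 h).2, lev_nonneg (k := k) j])
    have mv : ∀ t, Measurable fun y =>
        exp (lev k j * val γ μ (fun z x => H0 z x + d t z x) j (put z (j - 1) y)) := fun t =>
      (((val_regular (hHt t) j).1.comp (measurable_put_right z (j - 1))).const_mul _).exp
    have h1 : Continuous fun t =>
        ∫ y, exp (lev k j * val γ μ (fun z x => H0 z x + d t z x) j (put z (j - 1) y)) ∂γ := by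
      refine continuous_of_dominated (fun t => (mv t).aestronglyMeasurable)
        (fun t => ae_of_all _ fun y => ?_) (hi.const_mul (exp (lev k j * L)))
        (ae_of_all _ fun y => continuous_exp.comp ((ih _).1.const_mul _))
      rw [Real.norm_eq_abs, abs_of_pos (exp_pos _)]
      exact hb t y
    have h2 : Continuous fun t => ∫ y, cnd γ μ (fun z x => H0 z x + d t z x) (φ t) j (put z (j - 1) y)
        * exp (lev k j * val γ μ (fun z x => H0 z x + d t z x) j (put z (j - 1) y)) ∂γ := by
      refine continuous_of_dominated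
        (fun t => (((cnd_regular (hHt t) (Tame.of_bdd (hφm t) (hφb t)) j).1.comp
          (measurable_put_right z (j - 1))).mul (mv t)).aestronglyMeasurable)
        (fun t => ae_of_all _ fun y => ?_) (hi.const_mul (|M| * exp (lev k j * L)))
        (ae_of_all _ fun y => (ih _).2.mul (continuous_exp.comp ((ih _).1.const_mul _)))
      rw [Real.norm_eq_abs, abs_mul, abs_of_pos (exp_pos _), mul_assoc]
      exact mul_le_mul ((cnd_abs_le (hHt t) (hφm t) (hφb t) j _).trans (le_abs_self M)) (hb t y)
        (exp_pos _).le (abs_nonneg _)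
    have hp : ∀ t, (∫ y, exp (lev k j * val γ μ (fun z x => H0 z x + d t z x) j (put z (j - 1) y)) ∂γ)
        ≠ 0 := fun t => (integrable_val_step (hHt t) z (j - 1)).2.ne'
    exact ⟨(h1.log hp).div_const _, h2.div h1 hp⟩

end Vale.Agent.P157.Rsb
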