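import Vale.Agent.P157.Rsb.Intf
import Vale.Agent.P157.Rsb.Algebra

/-!
# P157: the upper bound on every grid

`upper : UpperStmt` from the other interface statements and two regularity facts.  For a fixed
overlap path `q`, the box average of the perturbed pressure minus the affine functional of `q`
grows by at most the error per added pattern at an approximate maximum over the amplitudes: there
the secants bound every overlap tail below by the tail of `q`, and the one-pattern functional is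
monotone in the tails.
-/

open MeasureTheory ProbabilityTheory Real Finset

namespace Vale.Agent.P157.Rsb

/-- Semiconvexity of the perturbed pressure in one amplitude. -/
def TangentStmt : Prop :=
  ∀ (f : ℝ → ℝ) (L : ℝ), Measurable f → (∀ u, |f u| ≤ L) →
    ∀ (N M k j : ℕ) (σ : ℕ → ℝ) (s : ℝ), 1 ≤ j → j ≤ k →
      sphFree f N M k σ + (s - σ j) * (-σ j * tail k (sphQ f N M k σ) j) - (s - σ j) ^ 2 / 2
        ≤ sphFree f N M k (Function.update σ j s)

/-- Regularity of the overlap error. -/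
def RegStmt : Prop :=
  ∀ (f : ℝ → ℝ) (L : ℝ), Measurable f → (∀ u, |f u| ≤ L) →
    ∀ (N M k : ℕ), Measurable (fun y : Fin k → ℝ => totErr f N M k (lift y)) ∧
      ∀ σ, |totErr f N M k σ| ≤ 2

variable {k : ℕ} {q : ℕ → ℝ} {f : ℝ → ℝ}

/-! ### elementary lemmas -/

theorem lift_succ (y : Fin k → ℝ) (i : Fin k) : lift y ((i : ℕ) + 1) = y i := by
  simp [lift, i.2]

theorem lift_update (y : Fin k → ℝ) (i : Fin k) (s : ℝ) :
    lift (Function.update y i s) = Function.update (lift y) ((i : ℕ) + 1) s := by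
  funext l
  by_cases hl : l = (i : ℕ) + 1
  · subst hl; simp [lift, i.2]
  · rw [Function.update_of_ne hl]
    unfold lift
    split_ifs with h
    · rw [Function.update_of_ne]
      intro h'
      have := congrArg Fin.val h'
      simp only at this
      omega
    · rfl

theorem lift_bound {y : Fin k → ℝ} {B : ℝ} (hB : 0 ≤ B) (h : ∀ i, 0 ≤ y i ∧ y i ≤ B) (l : ℕ) :
    0 ≤ lift y l ∧ lift y l ≤ B := by
  unfold lift; split_ifs
  · exact h _
  · exact ⟨le_rfl, hB⟩

theorem lift_zero : lift (fun _ : Fin k => (0 : ℝ)) = fun _ => 0 := by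
  funext l; simp [lift]

theorem path_mem (hq : IsPath k q) {j : ℕ} (hj : j ≤ k) : 0 ≤ q j ∧ q j ≤ 1 :=
  ⟨(isPath_alg hq).nonneg hj, ((isPath_alg hq).le hj le_rfl).trans hq.2.2⟩

theorem tail_mem (hq : IsPath k q) {j : ℕ} (hj : 1 ≤ j) : 0 ≤ tail k q j ∧ tail k q j ≤ 1 := by
  have hm : 0 < mass k := by simp only [mass]; positivity
  have h0 := sum_nonneg (s := Icc j k) fun l hl => (path_mem hq (Finset.mem_Icc.1 hl).2).1
  refine ⟨mul_nonneg hm.le h0, ?_⟩
  have h1 : ∑ l ∈ Icc j k, q l ≤ (k : ℝ) + 1 := by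
    refine le_trans (sum_le_sum (g := fun _ => (1 : ℝ)) fun l hl =>
      (path_mem hq (Finset.mem_Icc.1 hl).2).2) ?_
    rw [sum_const, Nat.card_Icc, nsmul_eq_mul, mul_one]
    exact_mod_cast (show k + 1 - j ≤ k + 1 by omega)
  calc tail k q j ≤ mass k * ((k : ℝ) + 1) := mul_le_mul_of_nonneg_left h1 hm.le
    _ = 1 := by simp only [mass]; field_simp

theorem isPath_zero (k : ℕ) : IsPath k fun _ => 0 := ⟨rfl, fun _ _ => le_rfl, zero_le_one⟩

theorem wFun_lift (f : ℝ → ℝ) (t : ℝ) (a : Fin k → ℝ) (q : ℕ → ℝ) :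
    wFun k f t (sq (lift a)) q
      = entS k q - (∑ i : Fin k, tail k q ((i : ℕ) + 1) * a i ^ 2) / 2 + t * phiK k f q := by
  rw [wFun, sum_Icc_one, ← Fin.sum_univ_eq_sum_range]
  simp only [sq, lift_succ]

theorem wFun_zero (f : ℝ → ℝ) (t : ℝ) (q : ℕ → ℝ) :
    wFun k f t (fun _ => 0) q = entS k q + t * phiK k f q := by simp [wFun]

theorem sum_update_sq (c : Fin k → ℝ) (a : Fin k → ℝ) (i : Fin k) (s : ℝ) :
    ∑ l, c l * Function.update a i s l ^ 2 = ∑ l, c l * a l ^ 2 + c i * (s ^ 2 - a i ^ 2) := by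
  rw [← Finset.add_sum_erase _ _ (mem_univ i),
    ← Finset.add_sum_erase _ (fun l => c l * a l ^ 2) (mem_univ i), Function.update_self]
  rw [sum_congr rfl fun l hl => by rw [Function.update_of_ne (ne_of_mem_erase hl)]]
  ring

theorem nest_indep {Z X : Type} [MeasurableSpace Z] [MeasurableSpace X] (γ : Measure Z)
    [IsProbabilityMeasure γ] (μ : Measure X) (h : X → ℝ) (d : ℕ) (hd : d ≤ k) (z : Fin k → Z) :
    nest γ μ (fun _ => h) d z = log (∫ x, exp (h x) ∂μ) := by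
  induction d generalizing z with
  | zero => rfl
  | succ d ih =>
    have hl : lev k (k - d) ≠ 0 := by
      have : 0 < k - d := by omega
      simp only [lev]; positivity
    simp only [nest, ih (by omega)]
    rw [integral_const, probReal_univ, one_smul, log_exp, mul_div_cancel_left₀ _ hl]

theorem phiK_const_zero (q : ℕ → ℝ) : phiK k (fun _ => 0) q = 0 := by
  unfold phiK val
  rw [nest_indep _ _ _ _ (by omega)]
  simp

/-- The one-pattern functional is bounded by a constant of `f`. -/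
theorem abs_phiK_le (hPhi : PhiStmt) {L : ℝ} (hm : Measurable f) (hL : ∀ u, |f u| ≤ L)
    (hq : IsPath k q) : |phiK k f q| ≤ exp (8 * L) * L := by
  have hL0 : 0 ≤ L := (abs_nonneg _).trans (hL 0)
  have h := hPhi.2 f (fun _ => 0) L hm measurable_const hL (fun _ => by simpa using hL0) k q hq
  rw [phiK_const_zero, sub_zero] at h
  refine h.trans (mul_le_mul_of_nonneg_left ?_ (exp_pos _).le)
  have := norm_integral_le_of_norm_le_const (μ := gaussianReal 0 1) (C := L)
    (f := fun u => |f u - 0|) (ae_of_all _ fun u => by simp [hL u])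
  rw [probReal_univ, mul_one, Real.norm_eq_abs] at this
  exact (le_abs_self _).trans this

theorem sphFree_zero_eq (f : ℝ → ℝ) (N M k : ℕ) :
    sphFree f N M k (fun _ => 0) = (∫ g, log (∫ x, exp (∑ a, f (sdot (g a) ((sphereLeaf N).pat x)))
      ∂(sphereLeaf N).μ) ∂patterns M (N + 1)) / ((N : ℝ) + 1) := by
  unfold sphFree free val
  refine congrArg (· / ((N : ℝ) + 1)) (integral_congr_ae (ae_of_all _ fun g => ?_))
  have : ham (k := k) (sphereLeaf N) f ((N : ℝ) + 1) (fun _ => 0) (fun _ => 0) g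
      = fun _ x => ∑ a, f (sdot (g a) ((sphereLeaf N).pat x)) := by
    funext z x; simp [ham, sphereLeaf]
  simp only [this]
  exact nest_indep _ _ _ _ (by omega) _

theorem pressureSphere_eq_sphFree (f : ℝ → ℝ) (α : ℝ) (N k : ℕ) :
    pressureSphere f α (N + 1) = sphFree f N ⌊α * ((N : ℝ) + 1)⌋₊ k (fun _ => 0) := by
  rw [← show ⌊α * ((N + 1 : ℕ) : ℝ)⌋₊ = ⌊α * ((N : ℝ) + 1)⌋₊ by push_cast; rfl, sphFree_zero_eq,
    pressureSphere]
  generalize ⌊α * ((N + 1 : ℕ) : ℝ)⌋₊ = M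
  push_cast
  refine congrArg (· / ((N : ℝ) + 1)) (integral_congr_ae (ae_of_all _ fun g => ?_))
  have hN : √((N : ℝ) + 1) ≠ 0 := by positivity
  simp only [average]
  refine congrArg log (integral_congr_ae (ae_of_all _ fun x => ?_))
  simp only [sdot, sphereLeaf]
  refine congrArg exp (sum_congr rfl fun a _ => congrArg f ?_)
  rw [sum_div]
  exact sum_congr rfl fun i _ => by field_simp

theorem sphFree_zero_pattern (f : ℝ → ℝ) (N k : ℕ) : sphFree f N 0 k (fun _ => 0) = 0 := by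
  have := (sphereLeaf N).prob
  simp [sphFree_zero_eq]

/-! ### boxes -/

/-- The box with corner `a` and side `δ`. -/
def boxSet (a : Fin k → ℝ) (δ : ℝ) : Set (Fin k → ℝ) :=
  Set.pi Set.univ fun i => Set.Icc (a i) (a i + δ)

/-- The uniform law on the box. -/
noncomputable def boxP (a : Fin k → ℝ) (δ : ℝ) : Measure (Fin k → ℝ) :=
  ((volume.restrict (boxSet a δ)) Set.univ)⁻¹ • volume.restrict (boxSet a δ)

theorem boxAvg_eq (a : Fin k → ℝ) (δ : ℝ) (Ψ : (ℕ → ℝ) → ℝ) :
    boxAvg k a δ Ψ = ∫ y, Ψ (lift y) ∂boxP a δ := rfl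

theorem boxP_facts (a : Fin k → ℝ) {δ : ℝ} (hδ : 0 < δ) :
    IsProbabilityMeasure (boxP a δ) ∧ (∀ᵐ y ∂boxP a δ, y ∈ boxSet a δ) := by
  have hv : volume (boxSet a δ) = ENNReal.ofReal δ ^ k := by
    rw [boxSet, volume_pi_pi]; simp [Real.volume_Icc]
  have h0 : (volume.restrict (boxSet a δ)) Set.univ ≠ 0 := by
    rw [Measure.restrict_apply_univ, hv]
    exact pow_ne_zero _ (by simpa using hδ)
  have ht : (volume.restrict (boxSet a δ)) Set.univ ≠ ⊤ := by
    rw [Measure.restrict_apply_univ, hv]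
    exact ENNReal.pow_ne_top ENNReal.ofReal_ne_top
  refine ⟨⟨by rw [boxP, Measure.smul_apply, smul_eq_mul, ENNReal.inv_mul_cancel h0 ht]⟩, ?_⟩
  exact Measure.ae_smul_measure
    (ae_restrict_mem (MeasurableSet.univ_pi fun _ => measurableSet_Icc)) _

theorem integrable_boxP {a : Fin k → ℝ} {δ : ℝ} (hδ : 0 < δ) {g : (Fin k → ℝ) → ℝ}
    (hg : ContinuousOn g (boxSet a δ)) : Integrable g (boxP a δ) := by
  refine Integrable.smul_measure
    (hg.integrableOn_compact (isCompact_univ_pi fun _ => isCompact_Icc)) ?_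
  rw [ne_eq, ENNReal.inv_eq_top, Measure.restrict_apply_univ, boxSet, volume_pi_pi]
  simp [Real.volume_Icc, hδ]

/-! ### amplitude dependence -/

section Bounds

variable (hD : DerivStmt) (hP : PathStmt) {L : ℝ} (hm : Measurable f) (hL : ∀ u, |f u| ≤ L)
include hD hP hm hL

theorem sphFree_step {N M : ℕ} {R : ℝ} (y : Fin k → ℝ) (i : Fin k) {s : ℝ} (hy : |y i| ≤ R)
    (hs : |s| ≤ R) :
    |sphFree f N M k (lift (Function.update y i s)) - sphFree f N M k (lift y)|
      ≤ R * |s - y i| := by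
  set j := (i : ℕ) + 1 with hj
  let g := fun t => sphFree f N M k (Function.update (lift y) j t)
  have hd : ∀ t, HasDerivAt g
      (-t * tail k (sphQ f N M k (Function.update (lift y) j t)) j) t := by
    intro t
    have h := hD f L hm hL (N + 1) M k j (sphereLeaf N) ((N : ℝ) + 1)
      (Function.update (lift y) j t) (fun _ => 0) (by positivity) (by omega) (by omega)
    simp only [Function.update_idem, Function.update_self] at h
    exact h
  have h := Convex.norm_image_sub_le_of_norm_hasDerivWithin_le (f := g)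
    (f' := fun t => -t * tail k (sphQ f N M k (Function.update (lift y) j t)) j)
    (s := Set.Icc (-R) R) (C := R) (fun t _ => (hd t).hasDerivWithinAt) (fun t ht => by
      have hT := tail_mem (hP f L hm hL N M k (Function.update (lift y) j t)) (j := j) (by omega)
      rw [Real.norm_eq_abs, abs_mul, abs_neg, abs_of_nonneg hT.1]
      exact (mul_le_of_le_one_right (abs_nonneg _) hT.2).trans (abs_le.2 ⟨ht.1, ht.2⟩))
    (convex_Icc _ _) (x := y i) (y := s) (abs_le.1 hy) (abs_le.1 hs)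
  have e : Function.update (lift y) j (y i) = lift y := by
    rw [← lift_update, Function.update_eq_self]
  simpa [g, e, lift_update, ← hj, Real.norm_eq_abs] using h

theorem sphFree_lip {N M : ℕ} {R : ℝ} {y y' : Fin k → ℝ} (hy : ∀ i, |y i| ≤ R)
    (hy' : ∀ i, |y' i| ≤ R) :
    |sphFree f N M k (lift y') - sphFree f N M k (lift y)| ≤ R * ∑ i, |y' i - y i| := by
  let z : Finset (Fin k) → Fin k → ℝ := fun s i => if i ∈ s then y' i else y i
  have key : ∀ s : Finset (Fin k),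
      |sphFree f N M k (lift (z s)) - sphFree f N M k (lift y)| ≤ R * ∑ i ∈ s, |y' i - y i| := by
    intro s
    induction s using Finset.induction_on with
    | empty => simp [z]
    | @insert a s ha ih =>
      have e : z (insert a s) = Function.update (z s) a (y' a) := by
        funext i
        by_cases h : i = a
        · subst h; simp [z]
        · simp [z, h]
      have ez : z s a = y a := by simp [z, ha]
      have h := sphFree_step hD hP hm hL (N := N) (M := M) (z s) a (ez.symm ▸ hy a) (hy' a)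
      rw [← e, ez] at h
      rw [sum_insert ha, mul_add]
      exact (abs_sub_le _ (sphFree f N M k (lift (z s))) _).trans (add_le_add h ih)
  simpa [z] using key Finset.univ

theorem continuousOn_sphFree {N M : ℕ} {R : ℝ} (hR : 0 ≤ R) :
    ContinuousOn (fun y : Fin k → ℝ => sphFree f N M k (lift y))
      (Set.pi Set.univ fun _ => Set.Icc (-R) R) := by
  refine (LipschitzOnWith.of_dist_le_mul (K := Real.toNNReal (R * k))
    fun y hy y' hy' => ?_).continuousOn
  rw [Real.coe_toNNReal _ (by positivity), Real.dist_eq, mul_assoc]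
  refine (sphFree_lip hD hP hm hL (R := R) (fun i => abs_le.2 (hy' i trivial))
    (fun i => abs_le.2 (hy i trivial))).trans (mul_le_mul_of_nonneg_left ?_ hR)
  refine (sum_le_sum fun i _ => ?_).trans_eq
    (by rw [sum_const, card_univ, Fintype.card_fin, nsmul_eq_mul])
  simpa [Real.dist_eq] using dist_le_pi_dist y y' i

theorem integrable_sphFree {N M : ℕ} {a : Fin k → ℝ} {δ R : ℝ} (hδ : 0 < δ) (hR : 0 ≤ R)
    (ha : ∀ i, 0 ≤ a i ∧ a i + δ ≤ R) :
    Integrable (fun y => sphFree f N M k (lift y)) (boxP a δ) :=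
  integrable_boxP hδ ((continuousOn_sphFree hD hP hm hL hR).mono fun y hy i hi =>
    ⟨by linarith [(hy i hi).1, (ha i).1], (hy i hi).2.trans (ha i).2⟩)

theorem boxAvg_sphFree_close {N M : ℕ} {a y : Fin k → ℝ} {δ R : ℝ} (hδ : 0 < δ) (hR : 0 ≤ R)
    (ha : ∀ i, 0 ≤ a i ∧ a i + δ ≤ R) (hy : y ∈ boxSet a δ) :
    |boxAvg k a δ (sphFree f N M k) - sphFree f N M k (lift y)| ≤ R * k * δ := by
  obtain ⟨hp, hae⟩ := boxP_facts a hδ
  rw [boxAvg_eq]
  have hi := integrable_sphFree hD hP hm hL (N := N) (M := M) hδ hR ha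
  have h : ∀ᵐ u ∂boxP a δ,
      ‖sphFree f N M k (lift u) - sphFree f N M k (lift y)‖ ≤ R * k * δ := by
    filter_upwards [hae] with u hu
    have hb : ∀ w : Fin k → ℝ, w ∈ boxSet a δ → ∀ i, |w i| ≤ R := fun w hw i =>
      abs_le.2 ⟨by linarith [(hw i trivial).1, (ha i).1], (hw i trivial).2.trans (ha i).2⟩
    rw [Real.norm_eq_abs, mul_assoc]
    refine (sphFree_lip hD hP hm hL (hb y hy) (hb u hu)).trans
      (mul_le_mul_of_nonneg_left ?_ hR)
    refine (sum_le_sum (g := fun _ => δ) fun i _ => ?_).trans_eq (by simp)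
    have := hu i trivial
    have := hy i trivial
    simp only [Set.mem_Icc] at *
    exact abs_le.2 ⟨by linarith, by linarith⟩
  have h2 := norm_integral_le_of_norm_le_const h
  rw [integral_sub hi (integrable_const _), integral_const, probReal_univ, one_smul, mul_one,
    Real.norm_eq_abs] at h2
  exact h2

end Bounds

/-! ### one added pattern at an approximate maximum -/

/-- The objective whose maximum over the amplitudes is followed. -/
noncomputable def upObj (k : ℕ) (f : ℝ → ℝ) (q : ℕ → ℝ) (N : ℕ) (δ εp : ℝ) (M : ℕ)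
    (a : Fin k → ℝ) : ℝ :=
  boxAvg k a δ (sphFree f N M k) - wFun k f ((M : ℝ) / ((N : ℝ) + 1)) (sq (lift a)) q
    - εp * ∑ i, a i ^ 2

section Step

variable (hD : DerivStmt) (hP : PathStmt) {L : ℝ} (hm : Measurable f) (hL : ∀ u, |f u| ≤ L)
include hD hP hm hL

theorem tail_of_near_max (hT : TangentStmt) (hq : IsPath k q) {N M : ℕ} {a y : Fin k → ℝ}
    {δ R e η h θ G εp : ℝ} (hδ : 0 < δ) (hR : 0 ≤ R) (he : 0 < e) (hη : 0 < η) (hh : h = e * η / 4)
    (hεp : εp = e / 6) (hhη : h ≤ η) (hh1 : h ≤ 1) (ha : ∀ i, η ≤ a i ∧ a i + h + δ ≤ R)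
    (hy : y ∈ boxSet a δ) (i : Fin k)
    (hmax : upObj k f q N δ εp (M + 1) (Function.update a i (a i + h))
      ≤ upObj k f q N δ εp (M + 1) a + θ)
    (hclose : ∀ σ, |sphFree f N (M + 1) k σ - sphFree f N M k σ| ≤ G)
    (hsmall : θ + 2 * G + 2 * (R * k * δ) + δ ≤ e * h * η / 4) :
    tail k q ((i : ℕ) + 1) ≤ tail k (sphQ f N M k (lift y)) ((i : ℕ) + 1) + e := by
  have hh0 : 0 < h := by rw [hh]; positivity
  set b := Function.update a i (a i + h) with hbdef
  have hba : ∀ l, 0 ≤ b l ∧ b l + δ ≤ R := fun l => by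
    by_cases hl : l = i
    · subst hl
      rw [hbdef, Function.update_self]
      exact ⟨by linarith [(ha l).1], (ha l).2⟩
    · rw [hbdef, Function.update_of_ne hl]
      exact ⟨by linarith [(ha l).1], by linarith [(ha l).2]⟩
  have haa : ∀ l, 0 ≤ a l ∧ a l + δ ≤ R := fun l =>
    ⟨by linarith [(ha l).1], by linarith [(ha l).2]⟩
  have hybox : Function.update y i (y i + h) ∈ boxSet b δ := fun l _ => by
    by_cases hl : l = i
    · subst hl
      simp only [hbdef, Function.update_self, Set.mem_Icc]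
      exact ⟨by linarith [(hy l trivial).1], by linarith [(hy l trivial).2]⟩
    · simp only [hbdef, Function.update_of_ne hl]; exact hy l trivial
  have c1 := abs_le.1 (boxAvg_sphFree_close hD hP hm hL (N := N) (M := M) hδ hR haa hy)
  have c2 := abs_le.1 (boxAvg_sphFree_close hD hP hm hL (N := N) (M := M) hδ hR hba hybox)
  have tan := hT f L hm hL N M k ((i : ℕ) + 1) (lift y) (y i + h) (by omega) (by omega)
  rw [← lift_update, lift_succ, add_sub_cancel_left] at tan
  have hd : ∀ c : Fin k → ℝ, (∀ l, 0 ≤ c l ∧ c l + δ ≤ R) →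
      |boxAvg k c δ (sphFree f N (M + 1) k) - boxAvg k c δ (sphFree f N M k)| ≤ G := by
    intro c hc
    obtain ⟨hpc, -⟩ := boxP_facts c hδ
    rw [boxAvg_eq, boxAvg_eq, ← integral_sub (integrable_sphFree hD hP hm hL hδ hR hc)
      (integrable_sphFree hD hP hm hL hδ hR hc), ← Real.norm_eq_abs]
    exact (norm_integral_le_of_norm_le_const
      (ae_of_all _ fun u => (Real.norm_eq_abs _).trans_le (hclose (lift u)))).trans_eq
      (by rw [probReal_univ, mul_one])
  have d1 := abs_le.1 (hd a haa)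
  have d2 := abs_le.1 (hd b hba)
  have hτ := tail_mem hq (j := (i : ℕ) + 1) (by omega)
  have hτy := tail_mem (hP f L hm hL N M k (lift y)) (j := (i : ℕ) + 1) (by omega)
  have hai := (ha i).1
  have hyi := hy i trivial
  simp only [upObj, wFun_lift] at hmax
  have s1 : ∑ l : Fin k, tail k q ((l : ℕ) + 1) * b l ^ 2 =
      ∑ l : Fin k, tail k q ((l : ℕ) + 1) * a l ^ 2
      + tail k q ((i : ℕ) + 1) * ((a i + h) ^ 2 - a i ^ 2) :=
    sum_update_sq (fun l : Fin k => tail k q ((l : ℕ) + 1)) a i (a i + h)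
  have s2 : ∑ l, b l ^ 2 = ∑ l, a l ^ 2 + ((a i + h) ^ 2 - a i ^ 2) := by
    simpa only [one_mul] using sum_update_sq (fun _ => (1 : ℝ)) a i (a i + h)
  rw [s1, s2] at hmax
  set τ := tail k q ((i : ℕ) + 1)
  set τy := tail k (sphQ f N M k (lift y)) ((i : ℕ) + 1)
  have hmain : h * (a i * τ) ≤ h * (y i * τy) + h ^ 2 / 2 + εp * (2 * a i * h + h ^ 2)
      + θ + 2 * G + 2 * (R * k * δ) := by
    have : 0 ≤ τ * h ^ 2 := mul_nonneg hτ.1 (sq_nonneg h)
    linarith
  have hy1 : y i * τy ≤ a i * τy + δ := by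
    linarith [mul_le_mul_of_nonneg_right hyi.2 hτy.1, mul_le_of_le_one_right hδ.le hτy.2]
  have hgoal : h * (a i * τ) ≤ h * (a i * (τy + e)) := by
    have q1 : h * (y i * τy) ≤ h * (a i * τy + δ) := mul_le_mul_of_nonneg_left hy1 hh0.le
    have q2 : h ^ 2 / 2 ≤ e * h * a i / 8 := by
      have := mul_le_mul_of_nonneg_left hai (mul_nonneg he.le hh0.le)
      have : h ^ 2 = e * h * η / 4 := by rw [hh]; ring
      linarith
    have q3 : εp * (2 * a i * h + h ^ 2) ≤ e * h * a i / 2 := by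
      have : h ^ 2 ≤ h * a i := by
        rw [pow_two]; exact mul_le_mul_of_nonneg_left (hhη.trans hai) hh0.le
      have := mul_le_mul_of_nonneg_left this he.le
      subst hεp
      linarith
    have q4 : e * h * η ≤ e * h * a i := mul_le_mul_of_nonneg_left hai (by positivity)
    have q5 : 0 ≤ e * h * a i := mul_nonneg (mul_nonneg he.le hh0.le) (hη.le.trans hai)
    have q6 : h * δ ≤ δ := mul_le_of_le_one_left hδ.le hh1
    linarith
  exact le_of_mul_le_mul_left (le_of_mul_le_mul_left hgoal hh0) (hη.trans_le hai)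

theorem boxAvg_increment (hR' : RegStmt) {N M : ℕ} {a : Fin k → ℝ} {δ R X C Se : ℝ} (hδ : 0 < δ)
    (hR : 0 ≤ R) (ha : ∀ i, 0 ≤ a i ∧ a i + δ ≤ R) (hC : 0 ≤ C)
    (hpt : ∀ y ∈ boxSet a δ, ((N : ℝ) + 1) * (sphFree f N (M + 1) k (lift y)
      - sphFree f N M k (lift y)) ≤ X + C * totErr f N M k (lift y))
    (hS : boxAvg k a δ (fun σ => totErr f N M k σ) ≤ Se) :
    boxAvg k a δ (sphFree f N (M + 1) k) - boxAvg k a δ (sphFree f N M k)
      ≤ (X + C * Se) / ((N : ℝ) + 1) := by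
  obtain ⟨hp, hae⟩ := boxP_facts a hδ
  have hiT : Integrable (fun y => totErr f N M k (lift y)) (boxP a δ) :=
    Integrable.of_bound (hR' f L hm hL N M k).1.aestronglyMeasurable 2
      (ae_of_all _ fun y => (Real.norm_eq_abs _).trans_le ((hR' f L hm hL N M k).2 _))
  have i1 := integrable_sphFree hD hP hm hL (N := N) (M := M + 1) hδ hR ha
  have i2 := integrable_sphFree hD hP hm hL (N := N) (M := M) hδ hR ha
  have hint := integral_mono_ae ((i1.sub i2).const_mul ((N : ℝ) + 1))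
    ((integrable_const X).add (hiT.const_mul C)) (by filter_upwards [hae] with y hy using hpt y hy)
  simp only [Pi.sub_apply, Pi.add_apply] at hint
  rw [integral_const_mul, integral_sub i1 i2, integral_add (integrable_const _) (hiT.const_mul C),
    integral_const, probReal_univ, one_smul, integral_const_mul, ← boxAvg_eq, ← boxAvg_eq,
    ← boxAvg_eq] at hint
  rw [le_div_iff₀ (by positivity)]
  linarith [mul_le_mul_of_nonneg_left hS hC]

/-- The growth of the objective from the start, by induction over the patterns. -/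
theorem upper_chain (hT : TangentStmt) (hR' : RegStmt) (hq : IsPath k q) {N M₀ : ℕ}
    {δ η h θ G εp B C D e A₁ Se v₀ : ℝ} (hδ : 0 < δ) (he : 0 < e) (hη : 0 < η) (hηB : η ≤ B)
    (hh : h = e * η / 4) (hεp : εp = e / 6) (hhη : h ≤ η) (hh1 : h ≤ 1)
    (hθ : 0 < θ) (hC : 0 ≤ C)
    (hclose : ∀ M σ, |sphFree f N (M + 1) k σ - sphFree f N M k σ| ≤ G)
    (hinc : ∀ M σ, ((N : ℝ) + 1) * (sphFree f N (M + 1) k σ - sphFree f N M k σ)
      ≤ phiK k f (sphQ f N M k σ) + C * totErr f N M k σ)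
    (hmono : ∀ p, IsPath k p → (∀ j ∈ Finset.Icc 1 k, tail k q j ≤ tail k p j + e) →
      phiK k f p ≤ phiK k f q + D ^ 2 * e)
    (hsync : ∀ M < M₀, ∀ a : Fin k → ℝ, (∀ i, η ≤ a i ∧ a i ≤ B) →
      boxAvg k a δ (fun σ => totErr f N M k σ) ≤ Se)
    (hzero : ∀ a ∈ Set.pi Set.univ (fun _ : Fin k => Set.Icc η B), upObj k f q N δ εp 0 a ≤ v₀)
    (hJ : ∀ M ≤ M₀, ∀ a ∈ Set.pi Set.univ (fun _ : Fin k => Set.Icc η B),
      upObj k f q N δ εp M a ≤ A₁ - εp * ∑ i, a i ^ 2)
    (hlow : ∀ M ≤ M₀, A₁ + θ - εp * (B - h) ^ 2 ≤ upObj k f q N δ εp M fun _ => η)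
    (hsmall : θ + 2 * G + 2 * ((B + δ) * k * δ) + δ ≤ e * h * η / 4) :
    ∀ M ≤ M₀, ∀ a ∈ Set.pi Set.univ (fun _ : Fin k => Set.Icc η B),
      upObj k f q N δ εp M a
        ≤ v₀ + M * (θ + (D ^ 2 * e + C * Se) / ((N : ℝ) + 1)) := by
  have ha₀ : (fun _ : Fin k => η) ∈ Set.pi Set.univ (fun _ : Fin k => Set.Icc η B) :=
    fun i _ => ⟨le_rfl, hηB⟩
  intro M
  induction M with
  | zero =>
    intro _ a ha
    simpa using hzero a ha
  | succ M ih =>
    intro hM a' ha'
    have hbdd : BddAbove (upObj k f q N δ εp (M + 1) '' Set.pi Set.univ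
        (fun _ : Fin k => Set.Icc η B)) := ⟨A₁, by
      rintro _ ⟨a, ha, rfl⟩
      have : 0 ≤ εp * ∑ i, a i ^ 2 := by rw [hεp]; positivity
      linarith [hJ (M + 1) hM a ha]⟩
    obtain ⟨_, ⟨a, ha, rfl⟩, hlt⟩ := exists_lt_of_lt_csSup
      (Set.Nonempty.image (upObj k f q N δ εp (M + 1)) ⟨_, ha₀⟩)
      (sub_lt_self (sSup (upObj k f q N δ εp (M + 1) '' Set.pi Set.univ
        (fun _ : Fin k => Set.Icc η B))) hθ)
    have hmax : ∀ b ∈ Set.pi Set.univ (fun _ : Fin k => Set.Icc η B),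
        upObj k f q N δ εp (M + 1) b ≤ upObj k f q N δ εp (M + 1) a + θ := fun b hb => by
      linarith [le_csSup hbdd ⟨b, hb, rfl⟩]
    have hroom : ∀ i, a i + h ≤ B := by
      intro i
      by_contra hc
      rw [not_le] at hc
      have h4 : (B - h) ^ 2 < ∑ l, a l ^ 2 :=
        lt_of_lt_of_le (pow_lt_pow_left₀ (by linarith) (by linarith) two_ne_zero)
          (single_le_sum (f := fun l => a l ^ 2) (fun l _ => sq_nonneg _) (mem_univ i))
      have := mul_lt_mul_of_pos_left h4 (show 0 < εp by rw [hεp]; positivity)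
      linarith [hJ (M + 1) hM a ha, hmax _ ha₀, hlow (M + 1) hM]
    have hab : ∀ i, η ≤ a i ∧ a i + h + δ ≤ B + δ := fun i =>
      ⟨(ha i trivial).1, by linarith [hroom i]⟩
    have htail : ∀ y ∈ boxSet a δ, ∀ j ∈ Finset.Icc 1 k,
        tail k q j ≤ tail k (sphQ f N M k (lift y)) j + e := by
      intro y hy j hj
      rw [Finset.mem_Icc] at hj
      obtain ⟨i, rfl⟩ : ∃ i : Fin k, (i : ℕ) + 1 = j := ⟨⟨j - 1, by omega⟩, by simp; omega⟩
      refine tail_of_near_max hD hP hm hL hT hq hδ (by linarith) he hη hh hεp hhη hh1 hab hy i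
        (hmax _ fun l _ => ?_) (hclose M) hsmall
      by_cases hl : l = i
      · subst hl
        rw [Function.update_self]
        exact ⟨by linarith [(hab l).1, hh ▸ (show 0 < e * η / 4 by positivity)], hroom l⟩
      · rw [Function.update_of_ne hl]; exact ha l trivial
    have hstep : boxAvg k a δ (sphFree f N (M + 1) k) - boxAvg k a δ (sphFree f N M k)
        ≤ (phiK k f q + D ^ 2 * e + C * Se) / ((N : ℝ) + 1) :=
      boxAvg_increment hD hP hm hL hR' hδ (by linarith : (0 : ℝ) ≤ B + δ)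
        (fun i => ⟨by linarith [(ha i trivial).1], by linarith [(ha i trivial).2]⟩) hC
        (fun y hy => (hinc M _).trans (add_le_add
          (hmono _ (hP f L hm hL N M k _) (htail y hy)) le_rfl))
        (hsync M (by omega) a fun i => ha i trivial)
    have e4 : wFun k f (((M + 1 : ℕ) : ℝ) / ((N : ℝ) + 1)) (sq (lift a)) q
        = wFun k f ((M : ℝ) / ((N : ℝ) + 1)) (sq (lift a)) q + phiK k f q / ((N : ℝ) + 1) := by
      simp only [wFun]; push_cast; ring
    have h5 := ih (by omega) a ha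
    have h6 := hmax a' ha'
    rw [add_assoc, add_div] at hstep
    simp only [upObj, e4] at h5 h6 ⊢
    push_cast at h6 ⊢
    linarith

end Step

/-- The bound before any pattern, from `InitStmt` and the first algebraic fact. -/
theorem start_bound (hA : AlgebraStmt) (hq : IsPath k q) (hq1 : q k < 1) {N : ℕ} {R ε₀ δ : ℝ}
    (hR : 0 ≤ R)
    (hN : ∀ (σ : ℕ → ℝ) (b : ℝ), (∀ l, 0 ≤ σ l ∧ σ l ≤ R) →
      dOf k b (sq σ) 0 = 1 / vOf k q 0 → sphFree f N 0 k σ ≤ fieldG k b (sq σ) + ε₀)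
    {a y : Fin k → ℝ} (ha : ∀ i, 0 ≤ a i ∧ a i + δ ≤ R) (hy : y ∈ boxSet a δ) :
    sphFree f N 0 k (lift y) ≤ wFun k f 0 (sq (lift a)) q + ε₀ := by
  have hy0 : ∀ i, 0 ≤ y i ∧ y i ≤ R := fun i =>
    ⟨by linarith [(hy i trivial).1, (ha i).1], by linarith [(hy i trivial).2, (ha i).2]⟩
  obtain ⟨b, hb, _, hle⟩ := hA.1 k q (sq (lift y)) hq hq1 (fun j => sq_nonneg _)
  refine (hN (lift y) b (lift_bound hR hy0) hb).trans ?_
  have hw : fieldG k b (sq (lift y)) ≤ wFun k f 0 (sq (lift y)) q := by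
    rw [wFun, zero_mul, add_zero]; exact hle
  have hmono : wFun k f 0 (sq (lift y)) q ≤ wFun k f 0 (sq (lift a)) q := by
    simp only [wFun_lift]
    have : ∑ i : Fin k, tail k q ((i : ℕ) + 1) * a i ^ 2
        ≤ ∑ i : Fin k, tail k q ((i : ℕ) + 1) * y i ^ 2 :=
      sum_le_sum fun i _ => mul_le_mul_of_nonneg_left
        (pow_le_pow_left₀ (ha i).1 (hy i trivial).1 2) (tail_mem hq (by omega)).1
    linarith
  linarith

theorem sphere_unit (N : ℕ) (x : (sphereLeaf N).X) :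
    sdot ((sphereLeaf N).pat x) ((sphereLeaf N).pat x) = 1 := by
  have key : ∀ x : Metric.sphere (0 : EuclideanSpace ℝ (Fin (N + 1))) 1,
      ∑ i, (x : EuclideanSpace ℝ (Fin (N + 1))) i * (x : EuclideanSpace ℝ (Fin (N + 1))) i = 1 :=
    fun x => by
      have := EuclideanSpace.norm_sq_eq (x : EuclideanSpace ℝ (Fin (N + 1)))
      simp only [mem_sphere_zero_iff_norm.1 x.2, one_pow, Real.norm_eq_abs, sq_abs] at this
      simp only [← pow_two, ← this]
  exact key x

theorem pattern_step (hP : PathStmt) {L C : ℝ} (hm : Measurable f) (hL : ∀ u, |f u| ≤ L)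
    (hC : ∀ (n M k : ℕ) (S : Leaf n) (N : ℝ) (σ β : ℕ → ℝ) (q : ℕ → ℝ), 0 < N → IsPath k q →
      (∀ x, sdot (S.pat x) (S.pat x) = 1) →
      |N * (free S f (M + 1) k N σ β - free S f M k N σ β) - phiK k f q|
        ≤ C * mass k * ∑ j ∈ Finset.Icc 0 k, gibPair (k := k) S f M N σ β j
            fun _ x y => |sdot (S.pat x) (S.pat y) - q j|)
    (N M : ℕ) (σ : ℕ → ℝ) :
    |((N : ℝ) + 1) * (sphFree f N (M + 1) k σ - sphFree f N M k σ)
      - phiK k f (sphQ f N M k σ)| ≤ C * totErr f N M k σ := by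
  have h := hC (N + 1) M k (sphereLeaf N) ((N : ℝ) + 1) σ (fun _ => 0) (sphQ f N M k σ)
    (by positivity) (hP f L hm hL N M k σ) (sphere_unit N)
  rw [mul_assoc C] at h
  exact h

theorem apriori {N : ℕ} {G : ℝ}
    (hclose : ∀ M σ, |sphFree f N (M + 1) k σ - sphFree f N M k σ| ≤ G) (M : ℕ) (σ : ℕ → ℝ) :
    |sphFree f N M k σ - sphFree f N 0 k σ| ≤ M * G := by
  induction M with
  | zero => simp
  | succ M ih =>
    refine (abs_sub_le _ (sphFree f N M k σ) _).trans ?_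
    push_cast
    linarith [hclose M σ]

theorem zero_close (hD : DerivStmt) (hP : PathStmt) {L : ℝ} (hm : Measurable f)
    (hL : ∀ u, |f u| ≤ L) {N : ℕ} {δ η : ℝ} (hδ : 0 < δ) (hη : 0 < η) (hδη : δ ≤ η) (M : ℕ) :
    |boxAvg k (fun _ => η) δ (sphFree f N M k) - sphFree f N M k (fun _ => 0)|
      ≤ (k : ℝ) * 4 * η ^ 2 := by
  have h1 := boxAvg_sphFree_close hD hP hm hL (N := N) (M := M) (R := 2 * η) hδ (by linarith)
    (a := fun _ : Fin k => η) (y := fun _ => η)
    (fun i => ⟨hη.le, by linarith⟩) (fun i _ => ⟨le_rfl, by linarith⟩)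
  have h2 := sphFree_lip hD hP hm hL (N := N) (M := M) (k := k) (R := 2 * η)
    (y := fun _ => 0) (y' := fun _ => η)
    (fun _ => by rw [abs_zero]; linarith) (fun _ => by rw [abs_of_pos hη]; linarith)
  rw [lift_zero] at h2
  simp only [sub_zero, abs_of_pos hη, sum_const, card_univ, Fintype.card_fin, nsmul_eq_mul] at h2
  refine (abs_sub_le _ (sphFree f N M k (lift fun _ : Fin k => η)) _).trans ?_
  have hk : (0 : ℝ) ≤ k * η := by positivity
  nlinarith [mul_le_mul_of_nonneg_left hδη hk]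

/-- A bound for a single grid, in terms of constants that do not depend on the size. -/
theorem upper_at (hD : DerivStmt) (hP : PathStmt) (hPhi : PhiStmt) (hA : AlgebraStmt)
    (hT : TangentStmt) (hR : RegStmt) (hm : Measurable f) {L D C Se α ε A η e δ B : ℝ}
    (hL : ∀ u, |f u| ≤ L) (hf : Good f) (hDer : ∀ u, |deriv f u| ≤ D) (hα : 0 < α)
    (hC : 0 ≤ C) (hSe : 0 ≤ Se) (hq : IsPath k q) (hq1 : q k < 1) (hA0 : 0 ≤ A)
    (he : 0 < e) (he1 : e ≤ 1) (hη : 0 < η) (hη1 : η ≤ 1)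
    (hη2 : (k : ℝ) * (e / 6 + 4) * η ^ 2 ≤ ε) (hδ : 0 < δ) (hδη : δ ≤ η) (hB : 2 ≤ B)
    (hBP : 4 * α * A + |entS k q| + 2 * ε + 1 ≤ e / 6 * (B - 1) ^ 2) {N M₀ : ℕ}
    (hM : (M₀ : ℝ) ≤ α * ((N : ℝ) + 1)) (hM' : α * ((N : ℝ) + 1) < M₀ + 1)
    (hphi : |phiK k f q| ≤ A)
    (hclose : ∀ M σ, |sphFree f N (M + 1) k σ - sphFree f N M k σ| ≤ A / ((N : ℝ) + 1))
    (hinc : ∀ M σ, ((N : ℝ) + 1) * (sphFree f N (M + 1) k σ - sphFree f N M k σ)
      ≤ phiK k f (sphQ f N M k σ) + C * totErr f N M k σ)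
    (hsync : ∀ M < M₀, ∀ a : Fin k → ℝ, (∀ i, η ≤ a i ∧ a i ≤ B) →
      boxAvg k a δ (fun σ => totErr f N M k σ) ≤ Se)
    (hinit : ∀ (σ : ℕ → ℝ) (b : ℝ), (∀ l, 0 ≤ σ l ∧ σ l ≤ B + 1) →
      dOf k b (sq σ) 0 = 1 / vOf k q 0 → sphFree f N 0 k σ ≤ fieldG k b (sq σ) + ε)
    (hsmall : (4 * A + 1) / ((N : ℝ) + 1) + (2 * ((B + 1) * k) + 1) * δ ≤ e * (e * η / 4) * η / 4) :
    sphFree f N M₀ k (fun _ => 0) ≤ entS k q + α * phiK k f q + 2 * ε
      + α * (D ^ 2 * e + C * Se) + (α + A) / ((N : ℝ) + 1) := by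
  have hN : (0 : ℝ) < (N : ℝ) + 1 := by positivity
  set θ := 1 / ((N : ℝ) + 1) ^ 2 with hθ
  have hθ1 : θ ≤ 1 / ((N : ℝ) + 1) :=
    one_div_le_one_div_of_le hN (le_self_pow₀ (by linarith [(Nat.cast_nonneg N : (0 : ℝ) ≤ N)])
      two_ne_zero)
  have hh1 : e * η / 4 ≤ η := by
    linarith [mul_le_of_le_one_left hη.le he1]
  have hbox : ∀ a ∈ Set.pi Set.univ (fun _ : Fin k => Set.Icc η B),
      ∀ i, 0 ≤ a i ∧ a i + δ ≤ B + 1 := fun a ha i =>
    ⟨by linarith [(ha i trivial).1], by linarith [(ha i trivial).2]⟩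
  have hap := apriori hclose
  have hMA : ∀ M ≤ M₀, (M : ℝ) * (A / ((N : ℝ) + 1)) ≤ α * A ∧ (M : ℝ) / ((N : ℝ) + 1) ≤ α := by
    intro M h
    have hM'' : (M : ℝ) ≤ α * ((N : ℝ) + 1) := le_trans (Nat.cast_le.2 h) hM
    refine ⟨?_, (div_le_iff₀ hN).2 hM''⟩
    calc (M : ℝ) * (A / ((N : ℝ) + 1)) ≤ α * ((N : ℝ) + 1) * (A / ((N : ℝ) + 1)) :=
          mul_le_mul_of_nonneg_right hM'' (by positivity)
      _ = α * A := by field_simp
  have hint : ∀ M, ∀ a ∈ Set.pi Set.univ (fun _ : Fin k => Set.Icc η B), ∀ c : ℝ,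
      (∀ y ∈ boxSet a δ, sphFree f N M k (lift y) ≤ c) →
      boxAvg k a δ (sphFree f N M k) ≤ c := by
    intro M a ha c h
    obtain ⟨hp, hae⟩ := boxP_facts a hδ
    have := integral_mono_ae (integrable_sphFree hD hP hm hL (N := N) (M := M) hδ
      (by linarith : (0 : ℝ) ≤ B + 1) (hbox a ha)) (integrable_const c)
      (by filter_upwards [hae] with y hy using h y hy)
    rwa [integral_const, probReal_univ, one_smul, ← boxAvg_eq] at this
  have hzero : ∀ a ∈ Set.pi Set.univ (fun _ : Fin k => Set.Icc η B),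
      upObj k f q N δ (e / 6) 0 a ≤ ε := by
    intro a ha
    have := hint 0 a ha _ fun y hy =>
      start_bound hA hq hq1 (by linarith : (0 : ℝ) ≤ B + 1) hinit (hbox a ha) hy
    have : 0 ≤ e / 6 * ∑ i, a i ^ 2 := by positivity
    simp only [upObj, Nat.cast_zero, zero_div]
    linarith
  have hJ : ∀ M ≤ M₀, ∀ a ∈ Set.pi Set.univ (fun _ : Fin k => Set.Icc η B),
      upObj k f q N δ (e / 6) M a ≤ ε + 2 * α * A - e / 6 * ∑ i, a i ^ 2 := by
    intro M h a ha
    have h4 : -(α * A) ≤ (M : ℝ) / ((N : ℝ) + 1) * phiK k f q := by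
      have h0 : (0 : ℝ) ≤ (M : ℝ) / ((N : ℝ) + 1) := by positivity
      linarith [mul_le_mul_of_nonneg_left (abs_le.1 hphi).1 h0,
        mul_le_mul_of_nonneg_right (hMA M h).2 hA0]
    have := hint M a ha (wFun k f 0 (sq (lift a)) q + ε + α * A) fun y hy => by
      linarith [start_bound hA hq hq1 (by linarith : (0 : ℝ) ≤ B + 1) hinit (hbox a ha) hy,
        (abs_le.1 (hap M (lift y))).2, (hMA M h).1]
    simp only [upObj, wFun] at this ⊢
    linarith
  have hlow : ∀ M ≤ M₀, ε + 2 * α * A + θ - e / 6 * (B - e * η / 4) ^ 2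
      ≤ upObj k f q N δ (e / 6) M fun _ => η := by
    intro M h
    have h1 := (abs_le.1 (zero_close hD hP hm hL (k := k) (N := N) hδ hη hδη M)).1
    have h2 := (abs_le.1 (hap M fun _ => 0)).1
    rw [sphFree_zero_pattern, sub_zero] at h2
    have h0 : (0 : ℝ) ≤ (M : ℝ) / ((N : ℝ) + 1) := by positivity
    have h4 : (M : ℝ) / ((N : ℝ) + 1) * phiK k f q ≤ α * A :=
      (mul_le_mul_of_nonneg_left (abs_le.1 hphi).2 h0).trans
        (mul_le_mul_of_nonneg_right (hMA M h).2 hA0)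
    have h5 : e / 6 * (B - 1) ^ 2 ≤ e / 6 * (B - e * η / 4) ^ 2 :=
      mul_le_mul_of_nonneg_left (pow_le_pow_left₀ (by linarith) (by linarith) 2) (by positivity)
    have h6 : 0 ≤ ∑ i : Fin k, tail k q ((i : ℕ) + 1) * η ^ 2 :=
      sum_nonneg fun i _ => mul_nonneg (tail_mem hq (by omega)).1 (sq_nonneg _)
    have h7 : θ ≤ 1 := hθ1.trans (by
      rw [div_le_one hN]; linarith [(Nat.cast_nonneg N : (0 : ℝ) ≤ N)])
    simp only [upObj, wFun_lift, sum_const, card_univ, Fintype.card_fin, nsmul_eq_mul] at h6 ⊢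
    linarith [(hMA M h).1, le_abs_self (entS k q)]
  have hfin := upper_chain hD hP hm hL hT hR hq hδ he hη (by linarith) rfl rfl hh1
    (hh1.trans hη1) (by positivity) hC hclose hinc
    (fun p hp h => (hPhi.1 f D hf hDer k p q hp hq).2.1 e he.le h) hsync hzero hJ hlow (by
      have e1 : (4 * A + 1) / ((N : ℝ) + 1) = 4 * (A / ((N : ℝ) + 1)) + 1 / ((N : ℝ) + 1) := by
        ring
      have : (B + δ) * k * δ ≤ (B + 1) * k * δ := by
        gcongr
        exact hδη.trans hη1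
      have : 0 ≤ A / ((N : ℝ) + 1) := by positivity
      linarith) M₀ le_rfl (fun _ => η) (fun i _ => ⟨le_rfl, by linarith⟩)
  have h1 := (abs_le.1 (zero_close hD hP hm hL (k := k) (N := N) hδ hη hδη M₀)).1
  have hE : 0 ≤ D ^ 2 * e + C * Se := by positivity
  have h3 : (M₀ : ℝ) * (θ + (D ^ 2 * e + C * Se) / ((N : ℝ) + 1))
      ≤ α / ((N : ℝ) + 1) + α * (D ^ 2 * e + C * Se) := by
    refine (mul_le_mul_of_nonneg_right hM (by positivity)).trans_eq ?_
    rw [hθ]; field_simp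
  have h4 : (M₀ : ℝ) / ((N : ℝ) + 1) * phiK k f q ≤ α * phiK k f q + A / ((N : ℝ) + 1) := by
    have hd : |(M₀ : ℝ) / ((N : ℝ) + 1) - α| ≤ 1 / ((N : ℝ) + 1) := by
      rw [div_sub' hN.ne', abs_div, abs_of_pos hN]
      exact div_le_div_of_nonneg_right (abs_le.2 ⟨by linarith, by linarith⟩) hN.le
    have := mul_le_mul hd hphi (abs_nonneg _) (by positivity)
    rw [← abs_mul, one_div_mul_eq_div] at this
    linarith [(abs_le.1 this).2]
  have h6 : 0 ≤ ∑ i : Fin k, tail k q ((i : ℕ) + 1) * η ^ 2 :=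
    sum_nonneg fun i _ => mul_nonneg (tail_mem hq (by omega)).1 (sq_nonneg _)
  simp only [upObj, wFun_lift, sum_const, card_univ, Fintype.card_fin, nsmul_eq_mul] at hfin
  rw [add_div]
  linarith

/-- `UpperStmt` from the other interface statements. -/
theorem upper (hD : DerivStmt) (hS : SyncStmt) (hP : PathStmt) (hPat : PatternStmt)
    (hI : InitStmt) (hPhi : PhiStmt) (hA : AlgebraStmt) (hT : TangentStmt) (hR : RegStmt) :
    UpperStmt := by
  intro f α hf hα
  obtain ⟨L, hL⟩ := hf.2.exists_bound_of_continuous hf.1.continuous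
  simp only [Real.norm_eq_abs] at hL
  obtain ⟨D, hDer⟩ := hf.2.deriv.exists_bound_of_continuous (hf.1.continuous_deriv (by norm_num))
  simp only [Real.norm_eq_abs] at hDer
  have hm : Measurable f := hf.1.continuous.measurable
  have hL0 : 0 ≤ L := (abs_nonneg _).trans (hL 0)
  obtain ⟨C, hC0, hC⟩ := hPat f hf
  obtain ⟨Cs, hCs0, hCs⟩ := hS
  refine ⟨α * C * Cs, fun k ε hε => ?_⟩
  obtain ⟨_, ⟨q, ⟨hq, hq1⟩, rfl⟩, hqv⟩ := exists_lt_of_csInf_lt
    (s := (fun q => wFun k f α (fun _ => 0) q) '' {q | IsPath k q ∧ q k < 1})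
    (Set.Nonempty.image _ ⟨fun _ => 0, isPath_zero k, one_pos⟩)
    (show valK k f α < valK k f α + ε / 8 by linarith)
  simp only [wFun_zero] at hqv
  set A := exp (8 * L) * L + 2 * C with hAdef
  have hA0 : 0 ≤ A := by positivity
  obtain ⟨e, he, he1, he2⟩ : ∃ e, 0 < e ∧ e ≤ 1 ∧ α * (D ^ 2 * e) ≤ ε / 8 := by
    refine ⟨min 1 (ε / (8 * (α * (D ^ 2 + 1)))), by positivity, min_le_left _ _, ?_⟩
    have h := min_le_right 1 (ε / (8 * (α * (D ^ 2 + 1))))
    rw [le_div_iff₀ (by positivity)] at h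
    have h0 : (0 : ℝ) ≤ α * min 1 (ε / (8 * (α * (D ^ 2 + 1)))) := by positivity
    linarith
  set εs := ε / (8 * (α * (C + 1))) with hεs
  have hεs0 : 0 < εs := by positivity
  have hεs1 : α * (C * εs) ≤ ε / 8 := by
    have : α * (C + 1) * εs = ε / 8 := by rw [hεs]; field_simp
    linarith [mul_nonneg hα.le hεs0.le]
  obtain ⟨B, hB, hBP⟩ : ∃ B, 2 ≤ B ∧
      4 * α * A + |entS k q| + 2 * (ε / 8) + 1 ≤ e / 6 * (B - 1) ^ 2 := by
    set P := 4 * α * A + |entS k q| + 2 * (ε / 8) + 1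
    refine ⟨√(P / (e / 6)) + 2, le_add_of_nonneg_left (sqrt_nonneg _), ?_⟩
    have h : √(P / (e / 6)) ^ 2 ≤ (√(P / (e / 6)) + 2 - 1) ^ 2 :=
      pow_le_pow_left₀ (sqrt_nonneg _) (by linarith) 2
    rw [sq_sqrt (by positivity), div_le_iff₀ (by positivity)] at h
    linarith
  obtain ⟨η, hη, hη1, hη2⟩ : ∃ η : ℝ, 0 < η ∧ η ≤ 1 ∧
      (k : ℝ) * (e / 6 + 4) * η ^ 2 ≤ ε / 8 := by
    refine ⟨min 1 (ε / (8 * ((k : ℝ) * (e / 6 + 4) + 1))), by positivity, min_le_left _ _, ?_⟩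
    set η := min 1 (ε / (8 * ((k : ℝ) * (e / 6 + 4) + 1))) with h
    have h1 : η ≤ 1 := min_le_left _ _
    have h2 : η ≤ ε / (8 * ((k : ℝ) * (e / 6 + 4) + 1)) := min_le_right _ _
    rw [le_div_iff₀ (by positivity)] at h2
    have h0 : 0 ≤ η := by positivity
    have hX : 0 ≤ (k : ℝ) * (e / 6 + 4) := by positivity
    nlinarith [mul_le_mul_of_nonneg_left (mul_le_of_le_one_left h0 h1) hX]
  set W := e * (e * η / 4) * η / 4 with hW
  obtain ⟨δ, hδ, hδη, hδs⟩ : ∃ δ, 0 < δ ∧ δ ≤ η ∧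
      (2 * ((B + 1) * k) + 1) * δ ≤ W / 2 := by
    refine ⟨min η (W / 2 / (2 * ((B + 1) * k) + 1)), by positivity, min_le_left _ _, ?_⟩
    have := min_le_right η (W / 2 / (2 * ((B + 1) * k) + 1))
    rw [le_div_iff₀ (by positivity)] at this
    linarith
  obtain ⟨N₁, hN₁⟩ := hI f k (B + 1) (1 / vOf k q 0) (ε / 8)
    (one_div_pos.2 (RsbAlg.room_pos (isPath_alg hq) hq1 0)) (by linarith)
  obtain ⟨N₂, hN₂⟩ := hCs f L hm hL k η B δ (α + 1) εs hη hδ hεs0
  obtain ⟨N₃, hN₃⟩ := exists_nat_ge (max α (max ((4 * A + 1) / (W / 2)) ((α + A) / (ε / 8))))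
  rw [max_le_iff, max_le_iff] at hN₃
  rw [Filter.eventually_atTop]
  refine ⟨max N₁ (max N₂ N₃) + 1, fun n hn => ?_⟩
  obtain ⟨N, rfl⟩ : ∃ N, n = N + 1 := ⟨n - 1, by omega⟩
  rw [pressureSphere_eq_sphFree f α N k]
  have hN : (0 : ℝ) < (N : ℝ) + 1 := by positivity
  have hNr : (N₃ : ℝ) ≤ N := Nat.cast_le.2 (by omega)
  have hNA : (4 * A + 1) / ((N : ℝ) + 1) ≤ W / 2 := by
    rw [div_le_iff₀ hN, mul_comm (W / 2), ← div_le_iff₀ (by positivity)]
    linarith [hN₃.2.1]
  have hNε : (α + A) / ((N : ℝ) + 1) ≤ ε / 8 := by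
    rw [div_le_iff₀ hN, mul_comm (ε / 8), ← div_le_iff₀ (by positivity)]
    linarith [hN₃.2.2]
  have hinc := pattern_step (k := k) hP hm hL
    (fun n M k S N σ β p h1 h2 h3 => (hC n M k S N σ β p h1 h2 h3).1) N
  have hclose : ∀ (M : ℕ) (σ : ℕ → ℝ),
      |sphFree f N (M + 1) k σ - sphFree f N M k σ| ≤ A / ((N : ℝ) + 1) := by
    intro M σ
    rw [le_div_iff₀ hN, mul_comm, ← abs_of_pos hN, ← abs_mul]
    have h1 := hinc M σ
    have h2 := abs_phiK_le hPhi hm hL (hP f L hm hL N M k σ)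
    have h3 := mul_le_mul_of_nonneg_left
      ((le_abs_self _).trans ((hR f L hm hL N M k).2 σ)) hC0
    rw [abs_le] at h1 h2 ⊢
    constructor <;> linarith
  have hfloor : (⌊α * ((N : ℝ) + 1)⌋₊ : ℝ) ≤ α * ((N : ℝ) + 1) := Nat.floor_le (by positivity)
  have hmain := upper_at hD hP hPhi hA hT hR hm (Se := Cs / √((k : ℝ) + 1) + εs) (ε := ε / 8)
    hL hf hDer hα hC0 (by positivity) hq hq1 hA0 he he1 hη hη1 hη2 hδ hδη hB hBP
    hfloor (Nat.lt_floor_add_one _) ((abs_phiK_le hPhi hm hL hq).trans (by linarith)) hclose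
    (fun M σ => by linarith [(abs_le.1 (hinc M σ)).2])
    (fun M hM a ha => hN₂ N (by omega) M (by
      have h1 : (M : ℝ) + 1 ≤ (⌊α * ((N : ℝ) + 1)⌋₊ : ℝ) := by exact_mod_cast hM
      linarith [hN₃.1, (Nat.cast_nonneg N₃ : (0 : ℝ) ≤ N₃)]) a ha)
    (hN₁ N (by omega)) (by linarith)
  have h5 : α * C * Cs / √((k : ℝ) + 1) = α * (C * (Cs / √((k : ℝ) + 1))) := by ring
  linarith

end Vale.Agent.P157.Rsb
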