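import Vale.Agent.P157.Rsb.Deriv
import Vale.Agent.P157.Rsb.Upper

/-!
# P157: the overlaps form a path
-/

open MeasureTheory ProbabilityTheory Real Finset

namespace Vale.Agent.P157.Rsb

namespace Lf

variable {n M k : ℕ} {f : ℝ → ℝ} {L : ℝ}

/-- The mean square grows in conditional expectation. -/
theorem mu2_le (S : Leaf n) {H : (Fin k → FieldIdx n → ℝ) → S.X → ℝ} (hH : LinB (wn n) H) {j l : ℕ}
    (hjl : j ≤ l) (z : Fin k → FieldIdx n → ℝ) :
    mu2 S H j z ≤ cnd (gn n) S.μ H (fun z _ => mu2 S H l z) j z := by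
  have hT : ∀ i, Tame (wn n) fun z (_ : S.X) => mv S H l i z := fun i => cnd_tame hH (tame_fld S i) l
  have e : cnd (gn n) S.μ H (fun z _ => mu2 S H l z) j z
      = ∑ i, cnd (gn n) S.μ H (fun z _ => mv S H l i z ^ 2) j z :=
    cnd_finsum hH _ (fun i _ => ((hT i).mul (hT i)).congr fun _ _ => (pow_two _).symm) j z
  rw [e]
  refine sum_le_sum fun i _ => ?_
  rw [show mv S H j i z = cnd (gn n) S.μ H (fun z _ => mv S H l i z) j z from
    (cnd_tower hH hjl z).symm]
  exact cnd_sq_le hH (hT i) j z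

/-- The mean square is at most one for unit vectors. -/
theorem mu2_le_one (S : Leaf n) (hu : ∀ x, sdot (S.fld x) (S.fld x) = 1)
    {H : (Fin k → FieldIdx n → ℝ) → S.X → ℝ} (hH : LinB (wn n) H) (j : ℕ)
    (z : Fin k → FieldIdx n → ℝ) : mu2 S H j z ≤ 1 := by
  have hsq : ∀ i, Tame (wn n) fun (_ : Fin k → FieldIdx n → ℝ) x => S.fld x i ^ 2 := fun i =>
    ((tame_fld S i).mul (tame_fld S i)).congr fun _ _ => (pow_two _).symm
  refine (sum_le_sum fun i _ => cnd_sq_le hH (tame_fld S i) j z).trans (le_of_eq ?_)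
  rw [← cnd_finsum hH _ fun i _ => hsq i]
  simp only [show ∀ x, ∑ i, S.fld x i ^ 2 = 1 from fun x => by rw [← hu x]; simp only [sdot, pow_two]]
  exact cnd_const hH 1 j z

/-- The overlaps of a system with unit field vectors form a path. -/
theorem isPath_qOf (S : Leaf n) (hu : ∀ x, sdot (S.fld x) (S.fld x) = 1) (hm : Measurable f)
    (hL : ∀ u, |f u| ≤ L) (N : ℝ) (σ β : ℕ → ℝ) : IsPath k (qOf S f M k N σ β) := by
  have : IsProbabilityMeasure (patterns M n) := by unfold patterns; infer_instance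
  have hi := fun l => root_mu2_integrable (M := M) (k := k) S hm hL N σ β l
  refine ⟨by simp [qOf], fun j hj => ?_, ?_⟩
  · rw [qOf_eq S hm hL N σ β (by omega : j + 1 ≠ 0)]
    rcases Nat.eq_zero_or_pos j with rfl | h0
    · rw [qOf, if_pos rfl]
      exact integral_nonneg fun g => cnd_nonneg (fun z _ => sum_nonneg fun i _ => sq_nonneg _) 0 _
    · rw [qOf_eq S hm hL N σ β (by omega : j ≠ 0)]
      refine integral_mono (hi j) (hi (j + 1)) fun g => ?_
      have hH := ham_linB (k := k) S hm hL N σ β g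
      refine (cnd_mono hH (tame_mu2 S hH j) (cnd_tame hH (tame_mu2 S hH (j + 1)) j)
        (fun z _ => mu2_le S hH (Nat.le_succ j) z) 0 _).trans (le_of_eq ?_)
      exact cnd_tower hH (Nat.zero_le j) _
  · rcases Nat.eq_zero_or_pos k with hk | hk
    · simp [qOf, hk]
    · rw [qOf_eq S hm hL N σ β (by omega : k ≠ 0)]
      refine (integral_mono (hi k) (integrable_const (1 : ℝ)) fun g => ?_).trans (le_of_eq (by simp))
      have hH := ham_linB (k := k) S hm hL N σ β g
      refine (cnd_mono hH (tame_mu2 S hH k) (Tame.of_bdd measurable_const (B := 1) fun _ _ => by simp)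
        (fun z _ => mu2_le_one S hu hH k z) 0 _).trans (le_of_eq ?_)
      exact cnd_const hH 1 0 _

end Lf

/-- The sphere path is a path. -/
theorem path_sphere : PathStmt := fun _ _ hm hL N _ _ σ =>
  Lf.isPath_qOf (sphereLeaf N) (fun x => sphere_unit N x) hm hL _ σ _

end Vale.Agent.P157.Rsb
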