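import Vale.Agent.P157.Rsb.LeafRoot
import Vale.Agent.P157.Rsb.Upd

/-!
# P157: the derivative of the perturbed pressure in one amplitude
-/

open MeasureTheory ProbabilityTheory Real Finset

namespace Vale.Agent.P157.Rsb

namespace Lf

variable {n M k : ℕ} {f : ℝ → ℝ} {L : ℝ}

theorem root_mu2_abs_le (S : Leaf n) (hm : Measurable f) (hL : ∀ u, |f u| ≤ L) (N : ℝ) (σ β : ℕ → ℝ)
    (g : Fin M → Fin n → ℝ) {B : ℝ} (hB : ∀ x i, |S.fld x i| ≤ B) (l : ℕ) :
    |cnd (k := k) (gn n) S.μ (ham S f N σ β g) (fun z _ => mu2 S (ham S f N σ β g) l z) 0 fun _ _ => 0|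
      ≤ n * B ^ 2 := by
  have hH := ham_linB (k := k) S hm hL N σ β g
  refine cnd_abs_le hH (tame_mu2 S hH l).meas (fun z _ => ?_) 0 _
  rw [abs_of_nonneg (show 0 ≤ mu2 S (ham (k := k) S f N σ β g) l z from
    sum_nonneg fun i _ => sq_nonneg _)]
  refine (sum_le_card_nsmul _ _ (B ^ 2) fun i _ => ?_).trans (le_of_eq (by simp))
  rw [← sq_abs]
  exact pow_le_pow_left₀ (abs_nonneg _)
    (cnd_abs_le hH (tame_fld S i).meas (fun _ x => hB x i) l z) 2

theorem root_mu2_integrable (S : Leaf n) (hm : Measurable f) (hL : ∀ u, |f u| ≤ L) (N : ℝ)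
    (σ β : ℕ → ℝ) (l : ℕ) :
    Integrable (fun g => cnd (k := k) (gn n) S.μ (ham S f N σ β g)
      (fun z _ => mu2 S (ham S f N σ β g) l z) 0 fun _ _ => 0) (patterns M n) := by
  have : IsProbabilityMeasure (patterns M n) := by unfold patterns; infer_instance
  obtain ⟨B, -, hB⟩ := coord_bound S
  have hmH := ham_meas (M := M) (k := k) S hm N σ β
  have hmv : ∀ i, Measurable fun p : (Fin M → Fin n → ℝ) × (Fin k → FieldIdx n → ℝ) =>
      mv S (ham S f N σ β p.1) l i p.2 := fun i =>
    cnd_measurable_param (γ := gn n) (μ := S.μ) (φ := fun _ _ x => S.fld x i) hmH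
      ((meas_fld S i).comp measurable_snd) l
  have hmu : Measurable fun p : ((Fin M → Fin n → ℝ) × (Fin k → FieldIdx n → ℝ)) × S.X =>
      mu2 S (ham S f N σ β p.1.1) l p.1.2 :=
    (Finset.measurable_sum univ fun i _ => (hmv i).pow_const 2).comp measurable_fst
  refine Integrable.of_bound (cnd_measurable_param_at hmH hmu 0 _).aestronglyMeasurable (n * B ^ 2)
    (ae_of_all _ fun g => ?_)
  exact root_mu2_abs_le S hm hL N σ β g (fun x i => (hB x).2.1 i) l

end Lf

open Lf in
/-- The derivative in one amplitude. -/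
theorem deriv_amp : DerivStmt := by
  intro f L hm hL n M k j S N σ β hN hj hjk
  obtain ⟨a, rfl⟩ : ∃ a : Fin k, (a : ℕ) + 1 = j := ⟨⟨j - 1, by omega⟩, by simp; omega⟩
  have : IsProbabilityMeasure (patterns M n) := by unfold patterns; infer_instance
  obtain ⟨B, hB0, hB⟩ := coord_bound S
  set s₀ := σ ((a : ℕ) + 1)
  set D : (Fin M → Fin n → ℝ) → ℝ → ℝ := fun g s =>
    -(N * s) * rootTail S f N (setAmp σ a s) β g k ((a : ℕ) + 1)
  have hup : setAmp σ a s₀ = σ := Function.update_eq_self _ _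
  have hroot : ∀ s (g : Fin M → Fin n → ℝ), |rootTail S f N (setAmp σ a s) β g k ((a : ℕ) + 1)|
      ≤ mass k * ((k : ℝ) * (n * B ^ 2)) := fun s g => by
    rw [rootTail, abs_mul, abs_of_nonneg mass_pos.le]
    refine mul_le_mul_of_nonneg_left ((abs_sum_le_sum_abs _ _).trans ((sum_le_card_nsmul _ _ (n * B ^ 2)
      fun l _ => root_mu2_abs_le S hm hL N _ β g (fun x i => (hB x).2.1 i) l).trans ?_)) mass_pos.le
    rw [nsmul_eq_mul, Nat.card_Icc]
    refine mul_le_mul_of_nonneg_right ?_ (by positivity)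
    exact_mod_cast (by omega : k + 1 - ((a : ℕ) + 1) ≤ k)
  obtain ⟨A, hA, hb⟩ := ham_bound (M := M) (k := k) S hL N β
    (∑ l : Fin k, |σ ((l : ℕ) + 1)|)
  obtain ⟨A', -, hA'⟩ := val_bound_unif (k := k) (μ := S.μ) (wn n) hA
  have hval : Integrable (fun g => val (gn n) S.μ (ham (k := k) S f N (setAmp σ a s₀) β g) 0 fun _ _ => 0)
      (patterns M n) := by
    rw [hup]
    exact Integrable.of_bound (val_measurable_param_at (ham_meas S hm N σ β) 0 _).aestronglyMeasurable
      (A' * (1 + (wn n).tot (fun (_ : Fin k) _ => 0))) (ae_of_all _ fun g => (Real.norm_eq_abs _).trans_le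
        (hA' _ (ham_meas_right S hm N σ β g) (fun z x => hb σ (fun l =>
          single_le_sum (f := fun l : Fin k => |σ ((l : ℕ) + 1)|) (fun _ _ => abs_nonneg _)
            (mem_univ l)) g z x) 0 _))
  have hD0 : AEStronglyMeasurable (fun g => D g s₀) (patterns M n) := by
    simp only [D, rootTail, hup]
    exact (((integrable_finsetSum _ fun l _ => root_mu2_integrable S hm hL N σ β l).const_mul _).const_mul
      _).aestronglyMeasurable
  have h := hasDerivAt_integral_of_dominated_loc_of_deriv_le (μ := patterns M n)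
    (F := fun s g => val (gn n) S.μ (ham (k := k) S f N (setAmp σ a s) β g) 0 fun _ _ => 0)
    (F' := fun s g => D g s) (x₀ := s₀)
    (bound := fun _ => N * (|s₀| + 1) * (mass k * ((k : ℝ) * (n * B ^ 2))))
    (s := Metric.ball s₀ 1) (Metric.ball_mem_nhds _ one_pos)
    (Filter.Eventually.of_forall fun s =>
      (val_measurable_param_at (ham_meas S hm N (setAmp σ a s) β) 0 _).aestronglyMeasurable)
    hval hD0
    (ae_of_all _ fun g s hs => by
      rw [Metric.mem_ball, Real.dist_eq] at hs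
      rw [Real.norm_eq_abs, abs_mul, abs_neg, abs_mul, abs_of_pos hN]
      exact mul_le_mul (mul_le_mul_of_nonneg_left (by linarith [abs_sub_abs_le_abs_sub s s₀]) hN.le)
        (hroot s g) (abs_nonneg _) (by positivity))
    (integrable_const _)
    (ae_of_all _ fun g s _ => val_amp_deriv S hm hL hN.le σ β g a s)
  have h2 := h.2.div_const N
  refine HasDerivAt.congr_deriv (show HasDerivAt (fun s => free S f M k N (setAmp σ a s) β) _ s₀ from h2) ?_
  have e : ∀ l ∈ Icc ((a : ℕ) + 1) k, qOf S f M k N σ β l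
      = ∫ g, cnd (gn n) S.μ (ham (k := k) S f N σ β g) (fun z _ => mu2 S (ham S f N σ β g) l z) 0
          (fun _ _ => 0) ∂patterns M n := fun l hl =>
    qOf_eq S hm hL N σ β (by have := (mem_Icc.1 hl).1; omega)
  simp only [D, hup, rootTail, tail]
  rw [sum_congr rfl e, integral_const_mul, integral_const_mul,
    integral_finsetSum _ fun l _ => root_mu2_integrable S hm hL N σ β l]
  field_simp

end Vale.Agent.P157.Rsb
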