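import Vale.Agent.P157.Rsb.CalcGauss
import Vale.Agent.P157.Rsb.Upd
import Vale.Agent.P157.Rsb.Upper

/-!
# P157: semiconvexity and regularity of the perturbed sphere systems

`tangent : TangentStmt` from `DerivStmt`, and `reg : RegStmt`.  The Hamiltonian is affine in one
amplitude up to the constant compensation, so the value has a supporting line everywhere; it equals
the derivative wherever that exists.
-/

open MeasureTheory ProbabilityTheory Real Finset

namespace Vale.Agent.P157.Rsb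

instance patterns_isProb (M N : ℕ) : IsProbabilityMeasure (patterns M N) := by
  unfold patterns; infer_instance

variable {k N M : ℕ} {f : ℝ → ℝ} {L : ℝ}

/-- The Hamiltonian of the sphere system. -/
noncomputable def sphHam (f : ℝ → ℝ) (N : ℕ) {M k : ℕ} (σ : ℕ → ℝ)
    (g : Fin M → Fin (N + 1) → ℝ) :
    (Fin k → FieldIdx (N + 1) → ℝ) → (sphereLeaf N).X → ℝ :=
  ham (sphereLeaf N) f ((N : ℝ) + 1) σ (fun _ => 0) g

theorem abs_fld_le (x : (sphereLeaf N).X) (i : Fin (N + 1)) : |(sphereLeaf N).fld x i| ≤ 1 := by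
  rw [← sq_le_one_iff_abs_le_one, pow_two, ← sphere_unit N x]
  exact single_le_sum (f := fun l => (sphereLeaf N).fld x l * (sphereLeaf N).fld x l)
    (fun l _ => mul_self_nonneg _) (mem_univ i)

theorem abs_sdot_fld_le (x x' : (sphereLeaf N).X) :
    |sdot ((sphereLeaf N).fld x) ((sphereLeaf N).fld x')| ≤ 1 := by
  have h1 := sphere_unit N x
  have h2 := sphere_unit N x'
  unfold sdot at h1 h2 ⊢
  refine (abs_sum_le_sum_abs _ _).trans ?_
  calc ∑ i, |(sphereLeaf N).fld x i * (sphereLeaf N).fld x' i|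
      ≤ ∑ i, ((sphereLeaf N).fld x i * (sphereLeaf N).fld x i
          + (sphereLeaf N).fld x' i * (sphereLeaf N).fld x' i) / 2 := sum_le_sum fun i _ => by
        rw [abs_le]
        constructor <;>
          nlinarith [sq_nonneg ((sphereLeaf N).fld x i + (sphereLeaf N).fld x' i),
            sq_nonneg ((sphereLeaf N).fld x i - (sphereLeaf N).fld x' i)]
    _ = (∑ i, (sphereLeaf N).fld x i * (sphereLeaf N).fld x i
          + ∑ i, (sphereLeaf N).fld x' i * (sphereLeaf N).fld x' i) / 2 := by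
        rw [← sum_div, sum_add_distrib]
    _ = 1 := by
        rw [show ∑ i, (sphereLeaf N).fld x i * (sphereLeaf N).fld x i = 1 from h1,
          show ∑ i, (sphereLeaf N).fld x' i * (sphereLeaf N).fld x' i = 1 from h2]
        norm_num

theorem measurable_sphHam (hm : Measurable f) :
    Measurable fun q : (((Fin k → ℝ) × (Fin M → Fin (N + 1) → ℝ))
        × (Fin k → FieldIdx (N + 1) → ℝ)) × (sphereLeaf N).X =>
      sphHam f N (lift q.1.1.1) q.1.1.2 q.1.2 q.2 := by
  have := (sphereLeaf N).fld_meas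
  have := (sphereLeaf N).pat_meas
  have := (sphereLeaf N).aux_meas
  have := (sphereLeaf N).det_meas
  simp only [sphHam, ham, lift_succ, sdot]
  fun_prop

theorem meas_sphHam_fixed (hm : Measurable f) (σ : ℕ → ℝ) (g : Fin M → Fin (N + 1) → ℝ) :
    Measurable (Function.uncurry (sphHam (k := k) f N σ g)) := by
  have := (sphereLeaf N).fld_meas
  have := (sphereLeaf N).pat_meas
  have := (sphereLeaf N).aux_meas
  have := (sphereLeaf N).det_meas
  simp only [Function.uncurry_def, sphHam, ham, sdot]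
  fun_prop

theorem abs_sdot_fields (z : FieldIdx (N + 1) → ℝ) (x : (sphereLeaf N).X) :
    |sdot (fun i => z (.inl i)) ((sphereLeaf N).fld x)| ≤ ∑ i, |z i| := by
  refine (abs_sum_le_sum_abs _ _).trans ?_
  rw [Fintype.sum_sum_type (fun i => |z i|)]
  refine le_add_of_le_of_nonneg (sum_le_sum fun i _ => ?_) (sum_nonneg fun i _ => abs_nonneg _)
  rw [abs_mul]
  exact mul_le_of_le_one_right (abs_nonneg _) (abs_fld_le x i)

/-- One bound for the Hamiltonians of all pattern matrices. -/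
theorem sphHam_bound (hL : ∀ u, |f u| ≤ L) (σ : ℕ → ℝ) :
    ∃ A, 0 ≤ A ∧ ∀ (g : Fin M → Fin (N + 1) → ℝ) z x,
      |sphHam (k := k) f N σ g z x| ≤ A * (1 + (gaussSize (FieldIdx (N + 1))).tot z) := by
  have hL0 : 0 ≤ L := (abs_nonneg _).trans (hL 0)
  set r := √((N : ℝ) + 1)
  set S := ∑ l : Fin k, |σ ((l : ℕ) + 1)|
  set Q := ∑ l : Fin k, σ ((l : ℕ) + 1) ^ 2
  have hS : 0 ≤ S := sum_nonneg fun _ _ => abs_nonneg _
  have hQ : 0 ≤ Q := sum_nonneg fun _ _ => sq_nonneg _
  refine ⟨M * L + S * r + ((N : ℝ) + 1) / 2 * Q, by positivity, fun g z x => ?_⟩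
  have hu : sdot ((sphereLeaf N).fld x) ((sphereLeaf N).fld x) = 1 := sphere_unit N x
  have ht : ∀ l : Fin k, ∑ i, |z l i| ≤ (gaussSize (FieldIdx (N + 1))).tot z := fun l =>
    single_le_sum (f := fun l => ∑ i, |z l i|) (fun _ _ => sum_nonneg fun _ _ => abs_nonneg _)
      (mem_univ l)
  have h0 := (gaussSize (FieldIdx (N + 1))).tot_nonneg z
  have h1 : |∑ a, f (sdot (g a) ((sphereLeaf N).pat x))| ≤ M * L := by
    refine ((abs_sum_le_sum_abs _ _).trans (sum_le_sum fun a _ => hL _)).trans_eq ?_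
    simp
  have h2 : |∑ l : Fin k, σ ((l : ℕ) + 1) * r * sdot (fun i => z l (.inl i)) ((sphereLeaf N).fld x)|
      ≤ S * r * (gaussSize (FieldIdx (N + 1))).tot z := by
    simp only [S, sum_mul]
    refine (abs_sum_le_sum_abs _ _).trans (sum_le_sum fun l _ => ?_)
    rw [abs_mul, abs_mul, abs_of_nonneg (sqrt_nonneg _)]
    exact mul_le_mul_of_nonneg_left ((abs_sdot_fields (z l) x).trans (ht l))
      (mul_nonneg (abs_nonneg _) (sqrt_nonneg _))
  have e : sphHam f N σ g z x = ∑ a, f (sdot (g a) ((sphereLeaf N).pat x))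
      + ∑ l : Fin k, σ ((l : ℕ) + 1) * r * sdot (fun i => z l (.inl i)) ((sphereLeaf N).fld x)
      - ((N : ℝ) + 1) / 2 * Q := by
    simp only [sphHam, ham, hu]
    simp [r, Q, sphereLeaf]
  rw [e, abs_le]
  have hSr : 0 ≤ S * r := mul_nonneg hS (sqrt_nonneg _)
  have hNQ : 0 ≤ ((N : ℝ) + 1) / 2 * Q := by positivity
  have h3 : 0 ≤ (M * L + ((N : ℝ) + 1) / 2 * Q) * (gaussSize (FieldIdx (N + 1))).tot z :=
    mul_nonneg (by positivity) h0
  constructor <;> linarith [(abs_le.1 h1).1, (abs_le.1 h1).2, (abs_le.1 h2).1, (abs_le.1 h2).2]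

theorem linB_sphHam (hm : Measurable f) (hL : ∀ u, |f u| ≤ L) (σ : ℕ → ℝ)
    (g : Fin M → Fin (N + 1) → ℝ) :
    LinB (gaussSize (FieldIdx (N + 1))) (sphHam (k := k) f N σ g) := by
  obtain ⟨A, hA, h⟩ := sphHam_bound (M := M) (N := N) (k := k) hL σ
  exact ⟨meas_sphHam_fixed hm σ g, A, hA, h g⟩

/-- The derivative of the Hamiltonian in the amplitude of the level `i + 1`, at zero compensation. -/
noncomputable def fieldDir (N : ℕ) (i : Fin k) (z : Fin k → FieldIdx (N + 1) → ℝ)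
    (x : (sphereLeaf N).X) : ℝ :=
  √((N : ℝ) + 1) * sdot (fun l => z i (.inl l)) ((sphereLeaf N).fld x)

theorem tame_fieldDir (i : Fin k) : Tame (gaussSize (FieldIdx (N + 1))) (fieldDir N i) := by
  have := (sphereLeaf N).fld_meas
  refine ⟨?_, max (√((N : ℝ) + 1)) 1, by positivity, fun z x => ?_⟩
  · unfold fieldDir sdot Function.uncurry
    fun_prop
  rw [fieldDir, abs_mul, abs_of_nonneg (sqrt_nonneg _)]
  have h0 := (gaussSize (FieldIdx (N + 1))).tot_nonneg z
  refine mul_le_mul (le_max_left _ _) ?_ (abs_nonneg _) (by positivity)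
  refine ((abs_sdot_fields (z i) x).trans (single_le_sum (f := fun l => ∑ a, |z l a|)
    (fun _ _ => sum_nonneg fun _ _ => abs_nonneg _) (mem_univ i))).trans ?_
  calc (gaussSize (FieldIdx (N + 1))).tot z ≤ exp ((gaussSize (FieldIdx (N + 1))).tot z) := by
        linarith [add_one_le_exp ((gaussSize (FieldIdx (N + 1))).tot z)]
    _ ≤ _ := exp_le_exp.2 (le_mul_of_one_le_left h0 (le_max_right _ _))

theorem sphHam_update (σ : ℕ → ℝ) (i : Fin k) (t : ℝ) (g : Fin M → Fin (N + 1) → ℝ)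
    (z : Fin k → FieldIdx (N + 1) → ℝ) (x : (sphereLeaf N).X) :
    sphHam f N (Function.update σ ((i : ℕ) + 1) t) g z x = sphHam f N σ g z x
      + ((t - σ ((i : ℕ) + 1)) * fieldDir N i z x
        - ((N : ℝ) + 1) / 2 * (t ^ 2 - σ ((i : ℕ) + 1) ^ 2)) := by
  have hu : sdot ((sphereLeaf N).fld x) ((sphereLeaf N).fld x) = 1 := sphere_unit N x
  have e1 : ∀ F : ℝ → Fin k → ℝ,
      ∑ l : Fin k, F (Function.update σ ((i : ℕ) + 1) t ((l : ℕ) + 1)) l
        = ∑ l : Fin k, F (σ ((l : ℕ) + 1)) l + (F t i - F (σ ((i : ℕ) + 1)) i) := by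
    intro F
    rw [← add_sum_erase _ _ (mem_univ i),
      ← add_sum_erase _ (fun l : Fin k => F (σ ((l : ℕ) + 1)) l) (mem_univ i),
      Function.update_self, sum_congr rfl fun l hl => by
        rw [Function.update_of_ne fun h => ne_of_mem_erase hl (Fin.ext (by omega))]]
    ring
  have hl := e1 fun a l => a * √((N : ℝ) + 1) * sdot (fun b => z l (.inl b)) ((sphereLeaf N).fld x)
  have hq := e1 fun a _ => a ^ 2
  simp only [sphHam, ham, hu, fieldDir]
  simp only [zero_mul, add_zero, mul_one]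
  rw [hl, hq]
  ring

theorem integrable_val_sphHam (hm : Measurable f) (hL : ∀ u, |f u| ≤ L) (σ : ℕ → ℝ)
    (z : Fin k → FieldIdx (N + 1) → ℝ) :
    Integrable (fun g => val (stdG (FieldIdx (N + 1))) (sphereLeaf N).μ (sphHam f N σ g) 0 z)
      (patterns M (N + 1)) := by
  obtain ⟨A, hA, hb⟩ := sphHam_bound (M := M) (N := N) (k := k) hL σ
  obtain ⟨A', -, hA'⟩ := val_bound_unif (k := k) (μ := (sphereLeaf N).μ) (gaussSize (FieldIdx (N + 1))) hA
  refine Integrable.of_bound (val_measurable_param_at ?_ 0 z).aestronglyMeasurable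
    (A' * (1 + (gaussSize (FieldIdx (N + 1))).tot z)) (ae_of_all _ fun g =>
      (Real.norm_eq_abs _).trans_le (hA' _ (meas_sphHam_fixed hm _ g) (hb g) 0 z))
  have := (sphereLeaf N).fld_meas
  have := (sphereLeaf N).pat_meas
  have := (sphereLeaf N).aux_meas
  have := (sphereLeaf N).det_meas
  simp only [sphHam, ham, sdot]
  fun_prop

theorem integrable_cnd_sphHam (hm : Measurable f) (hL : ∀ u, |f u| ≤ L) (σ : ℕ → ℝ)
    {φ : (Fin k → FieldIdx (N + 1) → ℝ) → (sphereLeaf N).X → ℝ}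
    (hφ : Tame (gaussSize (FieldIdx (N + 1))) φ) (z : Fin k → FieldIdx (N + 1) → ℝ) :
    Integrable (fun g => cnd (stdG (FieldIdx (N + 1))) (sphereLeaf N).μ (sphHam f N σ g) φ 0 z)
      (patterns M (N + 1)) := by
  obtain ⟨A, hA, hb⟩ := sphHam_bound (M := M) (N := N) (k := k) hL σ
  obtain ⟨D, hD0, hd'⟩ := hφ.bound
  obtain ⟨A', -, hA'⟩ := cnd_bound_unif (k := k) (μ := (sphereLeaf N).μ) (gaussSize (FieldIdx (N + 1)))
    (show 0 ≤ A + D by positivity)
  refine Integrable.of_bound (cnd_measurable_param_at ?_ ?_ 0 z).aestronglyMeasurable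
    (A' * exp (A' * (gaussSize (FieldIdx (N + 1))).tot z)) (ae_of_all _ fun g =>
      (Real.norm_eq_abs _).trans_le (hA' _ _ (meas_sphHam_fixed hm _ g) hφ.meas
        (fun z x => (hb g z x).trans (mul_le_mul_of_nonneg_right (by linarith)
          (by linarith [(gaussSize (FieldIdx (N + 1))).tot_nonneg z])))
        (fun z x => Tame.mono_bound hD0 (by linarith) hd' z x) 0 z))
  · have := (sphereLeaf N).fld_meas
    have := (sphereLeaf N).pat_meas
    have := (sphereLeaf N).aux_meas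
    have := (sphereLeaf N).det_meas
    simp only [sphHam, ham, sdot]
    fun_prop
  · exact hφ.meas.comp ((measurable_snd.comp measurable_fst).prodMk measurable_snd)

/-- The value has a supporting line in one amplitude. -/
theorem val_support (hm : Measurable f) (hL : ∀ u, |f u| ≤ L) (σ : ℕ → ℝ) (i : Fin k) (t : ℝ)
    (g : Fin M → Fin (N + 1) → ℝ) (z : Fin k → FieldIdx (N + 1) → ℝ) :
    val (stdG (FieldIdx (N + 1))) (sphereLeaf N).μ (sphHam f N σ g) 0 z
        + (t - σ ((i : ℕ) + 1)) *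
          cnd (stdG (FieldIdx (N + 1))) (sphereLeaf N).μ (sphHam f N σ g) (fieldDir N i) 0 z
        - ((N : ℝ) + 1) / 2 * (t ^ 2 - σ ((i : ℕ) + 1) ^ 2)
      ≤ val (stdG (FieldIdx (N + 1))) (sphereLeaf N).μ
          (sphHam f N (Function.update σ ((i : ℕ) + 1) t) g) 0 z := by
  have hH := linB_sphHam (k := k) hm hL σ g
  have h := cnd_exp_le (μ := (sphereLeaf N).μ) hH
    (linB_sphHam (k := k) hm hL (Function.update σ ((i : ℕ) + 1) t) g) 0 z
  simp only [sphHam_update (f := f) σ i t g, add_sub_cancel_left] at h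
  rw [cnd_sub hH ((tame_fieldDir i).const_mul _) (Tame.of_bdd measurable_const fun _ _ => le_rfl),
    cnd_const_mul, cnd_const hH] at h
  linarith

/-- The free energy has a supporting line in one amplitude. -/
theorem free_support (hm : Measurable f) (hL : ∀ u, |f u| ≤ L) (N M : ℕ) (σ : ℕ → ℝ) (i : Fin k) :
    ∃ c, ∀ t, sphFree f N M k σ + (t - σ ((i : ℕ) + 1)) * c - (t ^ 2 - σ ((i : ℕ) + 1) ^ 2) / 2
      ≤ sphFree f N M k (Function.update σ ((i : ℕ) + 1) t) := by
  have hn : (0 : ℝ) < (N : ℝ) + 1 := by positivity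
  set z₀ : Fin k → FieldIdx (N + 1) → ℝ := fun _ _ => 0
  refine ⟨(∫ g, cnd (stdG (FieldIdx (N + 1))) (sphereLeaf N).μ (sphHam f N σ g)
    (fieldDir N i) 0 z₀ ∂patterns M (N + 1)) / ((N : ℝ) + 1), fun t => ?_⟩
  have hV := fun σ => integrable_val_sphHam (M := M) (N := N) (k := k) hm hL σ z₀
  have hc := integrable_cnd_sphHam (M := M) hm hL σ (tame_fieldDir (N := N) i) z₀
  have h := integral_mono (((hV σ).add (hc.const_mul (t - σ ((i : ℕ) + 1)))).sub
    (integrable_const (((N : ℝ) + 1) / 2 * (t ^ 2 - σ ((i : ℕ) + 1) ^ 2))))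
    (hV (Function.update σ ((i : ℕ) + 1) t)) fun g => val_support hm hL σ i t g z₀
  simp only [Pi.sub_apply, Pi.add_apply] at h
  rw [integral_sub, integral_add, integral_const_mul, integral_const, probReal_univ, one_smul] at h
  · have h' := div_le_div_of_nonneg_right h hn.le
    rw [sub_div, add_div, mul_div_assoc,
      show ((N : ℝ) + 1) / 2 * (t ^ 2 - σ ((i : ℕ) + 1) ^ 2) / ((N : ℝ) + 1)
        = (t ^ 2 - σ ((i : ℕ) + 1) ^ 2) / 2 by field_simp] at h'
    exact h'
  · exact hV σ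
  · exact hc.const_mul _
  · exact (hV σ).add (hc.const_mul _)
  · exact integrable_const _

/-- `tangent : TangentStmt` from `DerivStmt`. -/
theorem tangent (hD : DerivStmt) : TangentStmt := by
  intro f L hm hL N M k j σ s hj hjk
  obtain ⟨i, rfl⟩ : ∃ i : Fin k, (i : ℕ) + 1 = j := ⟨⟨j - 1, by omega⟩, by simp; omega⟩
  obtain ⟨c, hc⟩ := free_support hm hL N M σ i
  set a := σ ((i : ℕ) + 1) with ha
  let F := fun t => sphFree f N M k (Function.update σ ((i : ℕ) + 1) t)
  have hder : HasDerivAt F (-a * tail k (sphQ f N M k σ) ((i : ℕ) + 1)) a :=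
    hD f L hm hL (N + 1) M k ((i : ℕ) + 1) (sphereLeaf N) ((N : ℝ) + 1) σ (fun _ => 0)
      (by positivity) hj hjk
  have he : F a = sphFree f N M k σ := by simp only [F, ha, Function.update_eq_self]
  have hmin : IsLocalMin (fun t => F t + t ^ 2 / 2 - c * t) a :=
    Filter.Eventually.of_forall fun t => by
      simp only [he]; linarith [hc t]
  have hd0 := hmin.hasDerivAt_eq_zero
    ((hder.add ((hasDerivAt_pow 2 a).div_const 2)).sub ((hasDerivAt_id a).const_mul c))
  push_cast at hd0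
  have h := hc s
  rw [show c = -a * tail k (sphQ f N M k σ) ((i : ℕ) + 1) + a by linarith] at h
  linarith

section General

variable {Z X Q : Type} [MeasurableSpace Z] [MeasurableSpace X] [MeasurableSpace Q]
  {γ : Measure Z} {μ : Measure X} [IsProbabilityMeasure γ] [IsFiniteMeasure μ]

theorem measurable_inner {H : Q → (Fin k → Z) → X → ℝ} {Ψ : Q → X → X → ℝ}
    (hH : Measurable fun p : (Q × (Fin k → Z)) × X => H p.1.1 p.1.2 p.2)
    (hΨ : Measurable fun p : Q × X × X => Ψ p.1 p.2.1 p.2.2) (j : ℕ) :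
    Measurable fun p : (Q × X) × (Fin k → Z) =>
      cnd γ μ (H p.1.1) (fun _ x' => Ψ p.1.1 p.1.2 x') j p.2 :=
  cnd_measurable_param (H := fun q : Q × X => H q.1) (φ := fun q _ x' => Ψ q.1 q.2 x')
    (hH.comp (f := fun p : ((Q × X) × (Fin k → Z)) × X => ((p.1.1.1, p.1.2), p.2)) (by fun_prop))
    (hΨ.comp (f := fun p : ((Q × X) × (Fin k → Z)) × X => (p.1.1.1, p.1.1.2, p.2)) (by fun_prop)) j

theorem measurable_pairCnd {H : Q → (Fin k → Z) → X → ℝ} {Ψ : Q → X → X → ℝ}
    (hH : Measurable fun p : (Q × (Fin k → Z)) × X => H p.1.1 p.1.2 p.2)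
    (hΨ : Measurable fun p : Q × X × X => Ψ p.1 p.2.1 p.2.2) (j : ℕ) :
    Measurable fun p : Q × (Fin k → Z) =>
      pairCnd γ μ (H p.1) (fun _ x _ x' => Ψ p.1 x x') j p.2 := by
  have hI := measurable_inner (γ := γ) (μ := μ) hH hΨ j
  have h := cnd_measurable_param (γ := γ) (μ := μ) (H := fun q : Q × (Fin k → Z) => H q.1)
    (φ := fun q _ x => cnd γ μ (H q.1) (fun _ x' => Ψ q.1 x x') j q.2)
    (hH.comp (f := fun p : ((Q × (Fin k → Z)) × (Fin k → Z)) × X => ((p.1.1.1, p.1.2), p.2))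
      (by fun_prop))
    (hI.comp (f := fun p : ((Q × (Fin k → Z)) × (Fin k → Z)) × X => ((p.1.1.1, p.2), p.1.1.2))
      (by fun_prop)) j
  exact h.comp (f := fun p : Q × (Fin k → Z) => (p, p.2)) (by fun_prop)

theorem measurable_root_pair {H : Q → (Fin k → Z) → X → ℝ} {Ψ : Q → X → X → ℝ}
    (hH : Measurable fun p : (Q × (Fin k → Z)) × X => H p.1.1 p.1.2 p.2)
    (hΨ : Measurable fun p : Q × X × X => Ψ p.1 p.2.1 p.2.2) (j : ℕ) (z₀ : Fin k → Z) :
    Measurable fun q : Q => cnd γ μ (H q)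
      (fun z _ => pairCnd γ μ (H q) (fun _ x _ x' => Ψ q x x') j z) 0 z₀ :=
  cnd_measurable_param_at (φ := fun q z _ => pairCnd γ μ (H q) (fun _ x _ x' => Ψ q x x') j z) hH
    ((measurable_pairCnd hH hΨ j).comp
      (f := fun p : (Q × (Fin k → Z)) × X => (p.1.1, p.1.2)) (by fun_prop)) 0 z₀

theorem abs_root_pair_le [NeZero μ] {w : Size γ} {H : (Fin k → Z) → X → ℝ} (hH : LinB w H)
    {ψ : X → X → ℝ} {B : ℝ} (hψm : Measurable (Function.uncurry ψ))
    (hψ : ∀ x x', |ψ x x'| ≤ B) (j : ℕ) (z₀ : Fin k → Z) :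
    |cnd γ μ H (fun z _ => pairCnd γ μ H (fun _ x _ x' => ψ x x') j z) 0 z₀| ≤ B := by
  have hHu : Measurable fun p : (Unit × (Fin k → Z)) × X => H p.1.2 p.2 :=
    hH.meas.comp (f := fun p : (Unit × (Fin k → Z)) × X => (p.1.2, p.2)) (by fun_prop)
  have hψu : Measurable fun p : Unit × X × X => ψ p.2.1 p.2.2 :=
    hψm.comp (f := fun p : Unit × X × X => (p.2.1, p.2.2)) (by fun_prop)
  have hI := measurable_inner (γ := γ) (μ := μ) (H := fun _ : Unit => H) (Ψ := fun _ => ψ) hHu hψu j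
  have hP := measurable_pairCnd (γ := γ) (μ := μ) (H := fun _ : Unit => H) (Ψ := fun _ => ψ)
    hHu hψu j
  refine cnd_abs_le (φ := fun z _ => pairCnd γ μ H (fun _ x _ x' => ψ x x') j z) hH
    (hP.comp (f := fun p : (Fin k → Z) × X => ((), p.1)) (by fun_prop)) (fun z _ => ?_) 0 z₀
  refine cnd_abs_le (φ := fun (_ : Fin k → Z) x => cnd γ μ H (fun _ x' => ψ x x') j z) hH
    (hI.comp (f := fun p : (Fin k → Z) × X => (((), p.2), z)) (by fun_prop)) (fun _ x => ?_) j z
  exact cnd_abs_le (φ := fun (_ : Fin k → Z) x' => ψ x x') hH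
    (hψm.comp (f := fun p : (Fin k → Z) × X => (x, p.2)) (by fun_prop)) (fun _ => hψ x) j z

end General

theorem gibPair_sphere (σ : ℕ → ℝ) (j : ℕ) (ψ : (sphereLeaf N).X → (sphereLeaf N).X → ℝ) :
    gibPair (k := k) (sphereLeaf N) f M ((N : ℝ) + 1) σ (fun _ => 0) j (fun _ x x' => ψ x x')
      = ∫ g, cnd (stdG (FieldIdx (N + 1))) (sphereLeaf N).μ (sphHam (k := k) f N σ g)
          (fun z _ => pairCnd (stdG (FieldIdx (N + 1))) (sphereLeaf N).μ (sphHam f N σ g)
            (fun _ x _ x' => ψ x x') j z) 0 (fun _ _ => 0) ∂patterns M (N + 1) := rfl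

theorem abs_gibPair_le (hm : Measurable f) (hL : ∀ u, |f u| ≤ L) (σ : ℕ → ℝ) (j : ℕ) {B : ℝ}
    (ψ : (sphereLeaf N).X → (sphereLeaf N).X → ℝ) (hψm : Measurable (Function.uncurry ψ))
    (hψ : ∀ x x', |ψ x x'| ≤ B) :
    |gibPair (k := k) (sphereLeaf N) f M ((N : ℝ) + 1) σ (fun _ => 0) j fun _ x x' => ψ x x'|
      ≤ B := by
  rw [gibPair_sphere, ← Real.norm_eq_abs]
  refine (norm_integral_le_of_norm_le_const (C := B) (ae_of_all _ fun g => ?_)).trans
    (by rw [probReal_univ, mul_one])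
  rw [Real.norm_eq_abs]
  exact abs_root_pair_le (linB_sphHam hm hL σ g) hψm hψ j _

theorem measurable_gibPair (hm : Measurable f) (j : ℕ)
    {Ψ : (Fin k → ℝ) → (sphereLeaf N).X → (sphereLeaf N).X → ℝ}
    (hΨ : Measurable fun p : (Fin k → ℝ) × (sphereLeaf N).X × (sphereLeaf N).X =>
      Ψ p.1 p.2.1 p.2.2) :
    Measurable fun y : Fin k → ℝ => gibPair (k := k) (sphereLeaf N) f M ((N : ℝ) + 1) (lift y)
      (fun _ => 0) j fun _ x x' => Ψ y x x' := by
  have hC := measurable_root_pair (γ := stdG (FieldIdx (N + 1))) (μ := (sphereLeaf N).μ)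
    (H := fun q : (Fin k → ℝ) × (Fin M → Fin (N + 1) → ℝ) => sphHam f N (lift q.1) q.2)
    (Ψ := fun q => Ψ q.1) (measurable_sphHam hm)
    (hΨ.comp (f := fun p : ((Fin k → ℝ) × (Fin M → Fin (N + 1) → ℝ))
      × (sphereLeaf N).X × (sphereLeaf N).X => (p.1.1, p.2)) (by fun_prop)) j (fun _ _ => 0)
  simp only [gibPair_sphere]
  exact (hC.stronglyMeasurable.integral_prod_right' (ν := patterns M (N + 1))).measurable

/-- `reg : RegStmt`. -/
theorem reg : RegStmt := by
  intro f L hm hL N M k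
  have hs : Measurable fun p : (sphereLeaf N).X × (sphereLeaf N).X =>
      sdot ((sphereLeaf N).fld p.1) ((sphereLeaf N).fld p.2) := by
    have := (sphereLeaf N).fld_meas
    simp only [sdot]; fun_prop
  have hq : ∀ σ j, |sphQ f N M k σ j| ≤ 1 := fun σ j => by
    unfold sphQ qOf
    split_ifs
    · simp
    · exact abs_gibPair_le hm hL σ j _ hs abs_sdot_fld_le
  refine ⟨Measurable.const_mul (Finset.measurable_sum _ fun j _ => ?_) _, fun σ => ?_⟩
  · have hc : Measurable fun y : Fin k → ℝ => sphQ f N M k (lift y) j := by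
      unfold sphQ qOf
      split_ifs
      · exact measurable_const
      · exact measurable_gibPair hm j
          (Ψ := fun _ x x' => sdot ((sphereLeaf N).fld x) ((sphereLeaf N).fld x'))
          (hs.comp measurable_snd)
    exact measurable_gibPair hm j
      (Ψ := fun y x x' => |sdot ((sphereLeaf N).fld x) ((sphereLeaf N).fld x')
        - sphQ f N M k (lift y) j|)
      ((hs.comp measurable_snd).sub (hc.comp measurable_fst)).abs
  · have hov : ∀ j, |ovErr f N M k σ (sphQ f N M k σ) j| ≤ 2 := fun j =>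
      abs_gibPair_le hm hL σ j _ (hs.sub measurable_const).abs fun x x' => by
        rw [abs_abs]
        exact (abs_sub _ _).trans (by linarith [abs_sdot_fld_le x x', hq σ j])
    rw [totErr, abs_mul, abs_of_pos mass_pos]
    refine (mul_le_mul_of_nonneg_left ((abs_sum_le_sum_abs _ _).trans
      (sum_le_sum fun j _ => hov j)) mass_pos.le).trans_eq ?_
    rw [sum_const, Nat.card_Icc, nsmul_eq_mul, mass]
    push_cast
    field_simp

end Vale.Agent.P157.Rsb
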