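import Vale.Agent.P157.Rsb.Reg

/-!
# P157: the mean overlap is within the mean distance of any constant

`dist`: the overlap error at a level is nonnegative and bounds the distance of the path of the
sphere system to the constant it is taken at.
-/

open MeasureTheory ProbabilityTheory Real Finset

namespace Vale.Agent.P157.Rsb

section General

variable {k : ℕ} {Z X : Type} [MeasurableSpace Z] [MeasurableSpace X] {γ : Measure Z} {μ : Measure X}
  [IsProbabilityMeasure γ] [IsFiniteMeasure μ] [NeZero μ] {w : Size γ}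
  {H φ : (Fin k → Z) → X → ℝ}

theorem cnd_abs_sub_le (hH : LinB w H) (hm : Measurable (Function.uncurry φ)) {B : ℝ}
    (hb : ∀ z x, |φ z x| ≤ B) (c : ℝ) (j : ℕ) (z : Fin k → Z) :
    |cnd γ μ H φ j z - c| ≤ cnd γ μ H (fun z x => |φ z x - c|) j z := by
  have hφ : Tame w φ := Tame.of_bdd hm hb
  have hc : Tame w fun (_ : Fin k → Z) (_ : X) => c := Tame.of_bdd measurable_const fun _ _ => le_rfl
  have hd : Tame w fun z x => φ z x - c := hφ.sub hc
  have ha : Tame w fun z x => |φ z x - c| :=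
    Tame.of_bdd (φ := fun z x => |φ z x - c|) (B := B + |c|) hd.meas.abs fun z x => by
      rw [abs_abs]; exact (abs_sub _ _).trans (add_le_add (hb z x) le_rfl)
  have e : cnd γ μ H φ j z - c = cnd γ μ H (fun z x => φ z x - c) j z := by
    rw [cnd_sub hH hφ hc, cnd_const hH]
  rw [e, abs_le]
  refine ⟨?_, cnd_mono hH hd ha (fun _ _ => le_abs_self _) j z⟩
  have h := cnd_mono (μ := μ) hH hd.neg ha (fun _ _ => neg_le_abs _) j z
  rw [show (fun z x => -(φ z x - c)) = fun z x => (-1) * (φ z x - c) from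
    funext₂ fun _ _ => by ring, cnd_const_mul] at h
  linarith

/-- The distance of a two-leaf expectation to a constant. -/
theorem abs_root_pair_sub_le (hH : LinB w H) {ψ : X → X → ℝ} {B : ℝ}
    (hψm : Measurable (Function.uncurry ψ)) (hψ : ∀ x x', |ψ x x'| ≤ B) (c : ℝ) (j : ℕ)
    (z₀ : Fin k → Z) :
    |cnd γ μ H (fun z _ => pairCnd γ μ H (fun _ x _ x' => ψ x x') j z) 0 z₀ - c|
      ≤ cnd γ μ H (fun z _ => pairCnd γ μ H (fun _ x _ x' => |ψ x x' - c|) j z) 0 z₀ := by
  have hHu : Measurable fun p : (Unit × (Fin k → Z)) × X => H p.1.2 p.2 :=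
    hH.meas.comp (f := fun p : (Unit × (Fin k → Z)) × X => (p.1.2, p.2)) (by fun_prop)
  have hab : ∀ x x', |(|ψ x x' - c|)| ≤ B + |c| := fun x x' => by
    rw [abs_abs]; exact (abs_sub _ _).trans (add_le_add (hψ x x') le_rfl)
  have ham' : Measurable (Function.uncurry fun x x' => |ψ x x' - c|) := (hψm.sub_const c).abs
  have hu : ∀ (a : X → X → ℝ), Measurable (Function.uncurry a) →
      Measurable fun p : Unit × X × X => a p.2.1 p.2.2 := fun a h =>
    h.comp (f := fun p : Unit × X × X => (p.2.1, p.2.2)) (by fun_prop)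
  have hInner : ∀ (a : X → X → ℝ) (A : ℝ), Measurable (Function.uncurry a) →
      (∀ x x', |a x x'| ≤ A) → ∀ z,
      Measurable (Function.uncurry fun (_ : Fin k → Z) x => cnd γ μ H (fun _ x' => a x x') j z) ∧
      ∀ x, |cnd γ μ H (fun _ x' => a x x') j z| ≤ A := fun a A h hA z =>
    ⟨(measurable_inner (γ := γ) (μ := μ) (H := fun _ : Unit => H) (Ψ := fun _ => a) hHu (hu a h) j).comp
      (f := fun p : (Fin k → Z) × X => (((), p.2), z)) (by fun_prop),
    fun x => cnd_abs_le (φ := fun (_ : Fin k → Z) x' => a x x') hH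
      (h.comp (f := fun p : (Fin k → Z) × X => (x, p.2)) (by fun_prop)) (fun _ => hA x) j z⟩
  have hPair : ∀ (a : X → X → ℝ) (A : ℝ), Measurable (Function.uncurry a) →
      (∀ x x', |a x x'| ≤ A) →
      Measurable (Function.uncurry fun z (_ : X) => pairCnd γ μ H (fun _ x _ x' => a x x') j z) ∧
      ∀ z, |pairCnd γ μ H (fun _ x _ x' => a x x') j z| ≤ A := fun a A h hA =>
    ⟨(measurable_pairCnd (γ := γ) (μ := μ) (H := fun _ : Unit => H) (Ψ := fun _ => a) hHu (hu a h) j).comp
      (f := fun p : (Fin k → Z) × X => ((), p.1)) (by fun_prop),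
    fun z => cnd_abs_le (φ := fun (_ : Fin k → Z) x => cnd γ μ H (fun _ x' => a x x') j z) hH
      (hInner a A h hA z).1 (fun _ x => (hInner a A h hA z).2 x) j z⟩
  have hmid : ∀ z, |pairCnd γ μ H (fun _ x _ x' => ψ x x') j z - c|
      ≤ pairCnd γ μ H (fun _ x _ x' => |ψ x x' - c|) j z := fun z => by
    obtain ⟨m1, b1⟩ := hInner ψ B hψm hψ z
    obtain ⟨m2, b2⟩ := hInner _ _ ham' hab z
    refine (cnd_abs_sub_le hH m1 (fun _ => b1) c j z).trans ?_
    exact cnd_mono hH (Tame.of_bdd
      (φ := fun (_ : Fin k → Z) x => |cnd γ μ H (fun _ x' => ψ x x') j z - c|)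
      (m1.sub_const c).abs (B := B + |c|) fun _ x => by
        rw [abs_abs]; exact (abs_sub _ _).trans (add_le_add (b1 x) le_rfl))
      (Tame.of_bdd m2 fun _ => b2)
      (fun _ x => cnd_abs_sub_le (φ := fun (_ : Fin k → Z) x' => ψ x x') hH
        (hψm.comp (f := fun p : (Fin k → Z) × X => (x, p.2)) (by fun_prop)) (fun _ => hψ x) c j z)
      j z
  obtain ⟨m1, b1⟩ := hPair ψ B hψm hψ
  obtain ⟨m2, b2⟩ := hPair _ _ ham' hab
  refine (cnd_abs_sub_le hH m1 (fun z _ => b1 z) c 0 z₀).trans ?_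
  exact cnd_mono hH (Tame.of_bdd
      (φ := fun z (_ : X) => |pairCnd γ μ H (fun _ x _ x' => ψ x x') j z - c|)
      (m1.sub_const c).abs (B := B + |c|) fun z _ => by
      rw [abs_abs]; exact (abs_sub _ _).trans (add_le_add (b1 z) le_rfl))
    (Tame.of_bdd m2 fun z _ => b2 z) (fun z _ => hmid z) 0 z₀

end General

/-- The overlap error is nonnegative and bounds the distance to the constant. -/
theorem dist : ∀ (f : ℝ → ℝ) (L : ℝ), Measurable f → (∀ u, |f u| ≤ L) →
    ∀ (N M k : ℕ) (σ c : ℕ → ℝ) (j : ℕ), 0 ≤ ovErr f N M k σ c j ∧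
      (1 ≤ j → j ≤ k → |sphQ f N M k σ j - c j| ≤ ovErr f N M k σ c j) := by
  intro f L hm hL N M k σ c j
  refine ⟨?_, fun hj _ => ?_⟩
  · exact integral_nonneg fun g => cnd_nonneg (fun z _ => cnd_nonneg (fun _ x =>
      cnd_nonneg (fun _ _ => abs_nonneg _) _ _) _ _) _ _
  have := (sphereLeaf N).fld_meas
  have hs : Measurable (Function.uncurry fun x y : (sphereLeaf N).X =>
      sdot ((sphereLeaf N).fld x) ((sphereLeaf N).fld y)) := by
    unfold Function.uncurry sdot; fun_prop
  rw [sphQ, qOf, if_neg (by omega), ovErr, gibPair_sphere, gibPair_sphere]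
  have hH : Measurable fun q : ((Fin M → Fin (N + 1) → ℝ) × (Fin k → FieldIdx (N + 1) → ℝ))
      × (sphereLeaf N).X => sphHam f N σ q.1.1 q.1.2 q.2 := by
    have := (sphereLeaf N).pat_meas
    have := (sphereLeaf N).aux_meas
    have := (sphereLeaf N).det_meas
    simp only [sphHam, ham, sdot]
    fun_prop
  have hI : ∀ (a : (sphereLeaf N).X → (sphereLeaf N).X → ℝ) (A : ℝ),
      Measurable (Function.uncurry a) → (∀ x y, |a x y| ≤ A) →
      Integrable (fun g => cnd (stdG (FieldIdx (N + 1))) (sphereLeaf N).μ (sphHam (k := k) f N σ g)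
        (fun z _ => pairCnd (stdG (FieldIdx (N + 1))) (sphereLeaf N).μ (sphHam f N σ g)
          (fun _ x _ x' => a x x') j z) 0 (fun _ _ => 0)) (patterns M (N + 1)) := fun a A ha hA =>
    Integrable.of_bound (measurable_root_pair (H := fun g => sphHam f N σ g) (Ψ := fun _ => a) hH
      (ha.comp (f := fun p : (Fin M → Fin (N + 1) → ℝ) × (sphereLeaf N).X × (sphereLeaf N).X =>
        (p.2.1, p.2.2)) (by fun_prop)) j _).aestronglyMeasurable A (ae_of_all _ fun g =>
      (Real.norm_eq_abs _).trans_le (abs_root_pair_le (linB_sphHam hm hL σ g) ha hA j _))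
  have h1 := hI _ _ hs abs_sdot_fld_le
  have h2 := hI (fun x y => |sdot ((sphereLeaf N).fld x) ((sphereLeaf N).fld y) - c j|) (1 + |c j|)
    (hs.sub_const _).abs fun x y => by
      rw [abs_abs]; exact (abs_sub _ _).trans (add_le_add (abs_sdot_fld_le x y) le_rfl)
  rw [show c j = ∫ _g, c j ∂patterns M (N + 1) by simp, ← integral_sub h1 (integrable_const _)]
  refine abs_integral_le_integral_abs.trans (integral_mono ((h1.sub (integrable_const _)).abs) ?_
    fun g => ?_)
  · simpa using h2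
  · simp only [integral_const, probReal_univ, one_smul]
    exact abs_root_pair_sub_le (linB_sphHam hm hL σ g) hs abs_sdot_fld_le (c j) j _

end Vale.Agent.P157.Rsb
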