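import Vale.Agent.P157.Rsb.CavPatBasic

/-!
# P157, cavity module: linear algebra of pair averages of a system
-/

open MeasureTheory ProbabilityTheory Real Finset

namespace Vale.Agent.P157.Rsb

/-- Measurable bounded observables of patterns and two leaves. -/
structure POb {n M : ℕ} {X : Type} [MeasurableSpace X] (ψ : (Fin M → Fin n → ℝ) → X → X → ℝ) :
    Prop where
  meas : Measurable fun p : ((Fin M → Fin n → ℝ) × X) × X => ψ p.1.1 p.1.2 p.2
  bdd : ∃ C, 0 ≤ C ∧ ∀ g x y, |ψ g x y| ≤ C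

namespace POb

variable {n M : ℕ} {X : Type} [MeasurableSpace X] {ψ φ : (Fin M → Fin n → ℝ) → X → X → ℝ}

theorem leaf {h : X → X → ℝ} (hm : Measurable (Function.uncurry h)) {C : ℝ} (hC : ∀ x y, |h x y| ≤ C) :
    POb fun (_ : Fin M → Fin n → ℝ) x y => h x y := by
  refine ⟨?_, |C|, abs_nonneg C, fun _ x y => (hC x y).trans (le_abs_self C)⟩
  have hi : Measurable fun p : ((Fin M → Fin n → ℝ) × X) × X => (p.1.2, p.2) :=
    (measurable_snd.comp measurable_fst).prodMk measurable_snd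
  exact hm.comp hi

theorem add (hψ : POb ψ) (hφ : POb φ) : POb fun g x y => ψ g x y + φ g x y := by
  obtain ⟨m, C, hC, b⟩ := hψ
  obtain ⟨m', C', hC', b'⟩ := hφ
  exact ⟨m.add m', C + C', by linarith,
    fun g x y => (abs_add_le _ _).trans (add_le_add (b g x y) (b' g x y))⟩

theorem mul (hψ : POb ψ) (hφ : POb φ) : POb fun g x y => ψ g x y * φ g x y := by
  obtain ⟨m, C, hC, b⟩ := hψ
  obtain ⟨m', C', hC', b'⟩ := hφ
  exact ⟨m.mul m', C * C', mul_nonneg hC hC',
    fun g x y => by rw [abs_mul]; exact mul_le_mul (b g x y) (b' g x y) (abs_nonneg _) hC⟩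

theorem const (c : ℝ) : POb fun (_ : Fin M → Fin n → ℝ) (_ : X) (_ : X) => c :=
  ⟨measurable_const, |c|, abs_nonneg c, fun _ _ _ => le_rfl⟩

theorem const_mul (hψ : POb ψ) (c : ℝ) : POb fun g x y => c * ψ g x y := (const c).mul hψ

theorem sub (hψ : POb ψ) (hφ : POb φ) : POb fun g x y => ψ g x y - φ g x y := by
  obtain ⟨m, C, hC, b⟩ := hψ
  obtain ⟨m', C', hC', b'⟩ := hφ
  exact ⟨m.sub m', C + C', by linarith,
    fun g x y => (abs_sub _ _).trans (add_le_add (b g x y) (b' g x y))⟩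

theorem abs (hψ : POb ψ) : POb fun g x y => |ψ g x y| := by
  obtain ⟨m, C, hC, b⟩ := hψ
  exact ⟨m.abs, C, hC, fun g x y => by rw [abs_abs]; exact b g x y⟩

theorem sum {ι : Type} (s : Finset ι) {ψ : ι → (Fin M → Fin n → ℝ) → X → X → ℝ}
    (h : ∀ i ∈ s, POb (ψ i)) : POb fun g x y => ∑ i ∈ s, ψ i g x y := by
  induction s using Finset.cons_induction with
  | empty => simpa using const (n := n) (M := M) (X := X) 0
  | cons a t ha ih =>
    simp only [sum_cons]
    exact (h a (mem_cons_self a t)).add (ih fun i hi => h i (mem_cons_of_mem hi))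

end POb

/-! ### pointwise algebra -/

section Point

variable {k : ℕ} {Z X : Type} [MeasurableSpace Z] [MeasurableSpace X] {γ : Measure Z} {μ : Measure X}
  [IsProbabilityMeasure γ] [IsFiniteMeasure μ] [NeZero μ] {w : Size γ} {H : (Fin k → Z) → X → ℝ}

theorem tame_inner (hH : LinB w H) {ψ : X → X → ℝ} (hψ : Measurable (Function.uncurry ψ)) {C : ℝ}
    (hC : ∀ x y, |ψ x y| ≤ C) (l : ℕ) (z : Fin k → Z) :
    Tame w fun (_ : Fin k → Z) x => cnd γ μ H (fun _ y => ψ x y) l z := by
  have e2 : Measurable fun q : (X × (Fin k → Z)) × X => (q.1.1, q.2) :=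
    (measurable_fst.comp measurable_fst).prodMk measurable_snd
  have e3 : Measurable fun q : (X × (Fin k → Z)) × X => (q.1.2, q.2) :=
    (measurable_snd.comp measurable_fst).prodMk measurable_snd
  have m2 : Measurable fun q : X × (Fin k → Z) => cnd γ μ H (fun _ y => ψ q.1 y) l q.2 :=
    cnd_measurable_param (γ := γ) (μ := μ) (H := fun _ : X => H) (φ := fun x _ y => ψ x y)
      (hH.meas.comp e3) (hψ.comp e2) l
  have hi : Measurable fun x : X => (x, z) := measurable_prodMk_right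
  have m3 : Measurable fun x => cnd γ μ H (fun _ y => ψ x y) l z := m2.comp hi
  refine Tame.of_bdd (φ := fun (_ : Fin k → Z) x => cnd γ μ H (fun _ y => ψ x y) l z)
    (B := C) (m3.comp measurable_snd) fun _ x => ?_
  exact cnd_abs_le (φ := fun _ y => ψ x y) hH ((measurable_slice ψ hψ x).comp measurable_snd)
    (fun _ y => hC x y) l z

theorem measurable_unit_leaf {ψ : X → X → ℝ} (hψ : Measurable (Function.uncurry ψ)) :
    Measurable fun p : (Unit × X) × X => ψ p.1.2 p.2 := by
  have hi : Measurable fun p : (Unit × X) × X => (p.1.2, p.2) :=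
    (measurable_snd.comp measurable_fst).prodMk measurable_snd
  exact hψ.comp hi

theorem tame_pair (hH : LinB w H) {ψ : X → X → ℝ} (hψ : Measurable (Function.uncurry ψ)) {C : ℝ}
    (hC : ∀ x y, |ψ x y| ≤ C) (l : ℕ) :
    Tame w fun z (_ : X) => pairCnd γ μ H (fun _ x _ y => ψ x y) l z := by
  have hi : Measurable fun p : (Unit × (Fin k → Z)) × X => (p.1.2, p.2) :=
    (measurable_snd.comp measurable_fst).prodMk measurable_snd
  have mH : Measurable fun p : (Unit × (Fin k → Z)) × X => H p.1.2 p.2 := hH.meas.comp hi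
  have m2 : Measurable fun p : Unit × (Fin k → Z) => pairCnd γ μ H (fun _ x _ y => ψ x y) l p.2 :=
    measurable_pairCnd_prod (γ := γ) (μ := μ) (G := Unit) (H := fun _ => H) (ψ := fun _ => ψ) mH
      (measurable_unit_leaf hψ) l
  have hj : Measurable fun p : (Fin k → Z) × X => ((), p.1) := measurable_const.prodMk measurable_fst
  exact Tame.of_bdd (φ := fun z (_ : X) => pairCnd γ μ H (fun _ x _ y => ψ x y) l z) (B := C)
    (m2.comp hj) fun z _ => abs_pairCnd_le hH hψ hC l z

theorem tame_outer (hψ : X → X → ℝ) (hm : Measurable (Function.uncurry hψ)) {C : ℝ}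
    (hC : ∀ x y, |hψ x y| ≤ C) (x : X) : Tame w fun (_ : Fin k → Z) y => hψ x y :=
  Tame.of_bdd (φ := fun (_ : Fin k → Z) y => hψ x y)
    ((measurable_slice hψ hm x).comp measurable_snd) fun _ y => hC x y

theorem pairCnd_add (hH : LinB w H) {ψ φ : X → X → ℝ} (hψ : Measurable (Function.uncurry ψ))
    (hφ : Measurable (Function.uncurry φ)) {C : ℝ} (hC : ∀ x y, |ψ x y| ≤ C ∧ |φ x y| ≤ C) (l : ℕ)
    (z : Fin k → Z) :
    pairCnd γ μ H (fun _ x _ y => ψ x y + φ x y) l z
      = pairCnd γ μ H (fun _ x _ y => ψ x y) l z + pairCnd γ μ H (fun _ x _ y => φ x y) l z := by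
  unfold pairCnd
  have h1 : ∀ x, cnd γ μ H (fun _ y => ψ x y + φ x y) l z
      = cnd γ μ H (fun _ y => ψ x y) l z + cnd γ μ H (fun _ y => φ x y) l z := fun x =>
    cnd_add hH (tame_outer ψ hψ (fun a b => (hC a b).1) x) (tame_outer φ hφ (fun a b => (hC a b).2) x) l z
  simp only [h1]
  exact cnd_add hH (tame_inner hH hψ (fun a b => (hC a b).1) l z)
    (tame_inner hH hφ (fun a b => (hC a b).2) l z) l z

omit [IsProbabilityMeasure γ] [IsFiniteMeasure μ] [NeZero μ] in
theorem pairCnd_const_mul (c : ℝ) (ψ : X → X → ℝ) (l : ℕ) (z : Fin k → Z) :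
    pairCnd γ μ H (fun _ x _ y => c * ψ x y) l z = c * pairCnd γ μ H (fun _ x _ y => ψ x y) l z := by
  unfold pairCnd
  simp only [fun x => cnd_const_mul (γ := γ) (μ := μ) (H := H) (φ := fun _ y => ψ x y) c l z]
  exact cnd_const_mul (φ := fun _ x => cnd γ μ H (fun _ y => ψ x y) l z) c l z

theorem pairCnd_mono (hH : LinB w H) {ψ φ : X → X → ℝ} (hψ : Measurable (Function.uncurry ψ))
    (hφ : Measurable (Function.uncurry φ)) {C : ℝ} (hC : ∀ x y, |ψ x y| ≤ C ∧ |φ x y| ≤ C)
    (hle : ∀ x y, ψ x y ≤ φ x y) (l : ℕ) (z : Fin k → Z) :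
    pairCnd γ μ H (fun _ x _ y => ψ x y) l z ≤ pairCnd γ μ H (fun _ x _ y => φ x y) l z := by
  unfold pairCnd
  exact cnd_mono hH (tame_inner hH hψ (fun a b => (hC a b).1) l z)
    (tame_inner hH hφ (fun a b => (hC a b).2) l z)
    (fun _ x => cnd_mono hH (tame_outer ψ hψ (fun a b => (hC a b).1) x)
      (tame_outer φ hφ (fun a b => (hC a b).2) x) (fun _ y => hle x y) l z) l z

theorem pairCnd_fst (hH : LinB w H) (a : X → ℝ) (l : ℕ) (z : Fin k → Z) :
    pairCnd γ μ H (fun _ x _ _ => a x) l z = cnd γ μ H (fun _ x => a x) l z := by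
  unfold pairCnd
  simp only [cnd_const hH]

end Point

/-! ### averages over the patterns -/

variable {n M k : ℕ} {S : Leaf n} {f : ℝ → ℝ} {N L : ℝ} {σ β : ℕ → ℝ}

/-- The root average of a pair expectation, as a function of the patterns. -/
noncomputable def pairG (S : Leaf n) (f : ℝ → ℝ) (N : ℝ) (σ β : ℕ → ℝ) (k l : ℕ)
    (ψ : (Fin M → Fin n → ℝ) → S.X → S.X → ℝ) : (Fin M → Fin n → ℝ) → ℝ :=
  gibz (k := k) S f N σ β fun g z _ =>
    pairCnd (stdG (FieldIdx n)) S.μ (ham S f N σ β g) (fun _ x _ y => ψ g x y) l z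

theorem gibPair_eq_pairG (l : ℕ) (ψ : (Fin M → Fin n → ℝ) → S.X → S.X → ℝ) :
    gibPair (k := k) S f M N σ β l ψ = ∫ g, pairG S f N σ β k l ψ g ∂patterns M n := rfl

variable {ψ φ : (Fin M → Fin n → ℝ) → S.X → S.X → ℝ}

theorem pairG_facts (hm : Measurable f) (hf : ∀ u, |f u| ≤ L) (l : ℕ) (hψ : POb ψ) :
    Measurable (pairG S f N σ β k l ψ) ∧ Integrable (pairG S f N σ β k l ψ) (patterns M n) := by
  obtain ⟨m, C, hC, b⟩ := hψ
  obtain ⟨hG, hb⟩ := gibz_pair_facts (k := k) (S := S) (N := N) (σ := σ) (β := β) hm hf l (ψ := ψ) m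
  unfold pairG
  refine ⟨hG, integrable_patterns (A := C) hG fun g => (hb g C (b g)).trans ?_⟩
  exact le_mul_of_one_le_right hC (one_le_exp (mul_nonneg hC (gTot_nonneg g)))

theorem pairTame (hm : Measurable f) (hf : ∀ u, |f u| ≤ L) (l : ℕ) (hψ : POb ψ)
    (g : Fin M → Fin n → ℝ) :
    Measurable (Function.uncurry (ψ g)) ∧ Tame (gaussSize (FieldIdx n)) (fun z (_ : S.X) =>
      pairCnd (stdG (FieldIdx n)) S.μ (ham (k := k) S f N σ β g) (fun _ x _ y => ψ g x y) l z) := by
  obtain ⟨m, C, hC, b⟩ := hψ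
  have m1 : Measurable (Function.uncurry (ψ g)) := measurable_section ψ m g
  exact ⟨m1, tame_pair (linB_ham (k := k) S hm hf N σ β g) m1 (b g) l⟩

theorem pairG_add (hm : Measurable f) (hf : ∀ u, |f u| ≤ L) (l : ℕ) (hψ : POb ψ) (hφ : POb φ)
    (g : Fin M → Fin n → ℝ) :
    pairG S f N σ β k l (fun g x y => ψ g x y + φ g x y) g
      = pairG S f N σ β k l ψ g + pairG S f N σ β k l φ g := by
  obtain ⟨m1, t1⟩ := pairTame (k := k) (N := N) (σ := σ) (β := β) hm hf l hψ g
  obtain ⟨m2, t2⟩ := pairTame (k := k) (N := N) (σ := σ) (β := β) hm hf l hφ g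
  obtain ⟨-, C, hC, b⟩ := hψ
  obtain ⟨-, C', hC', b'⟩ := hφ
  have hH := linB_ham (k := k) S hm hf N σ β g
  simp only [pairG, gibz]
  rw [← cnd_add hH t1 t2]
  congr 1
  funext z _
  exact pairCnd_add (C := C + C') hH m1 m2
    (fun x y => ⟨(b g x y).trans (by linarith), (b' g x y).trans (by linarith)⟩) l z

theorem gp_add (hm : Measurable f) (hf : ∀ u, |f u| ≤ L) (l : ℕ) (hψ : POb ψ) (hφ : POb φ) :
    gibPair (k := k) S f M N σ β l (fun g x y => ψ g x y + φ g x y)
      = gibPair (k := k) S f M N σ β l ψ + gibPair (k := k) S f M N σ β l φ := by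
  simp only [gibPair_eq_pairG]
  rw [integral_congr_ae (ae_of_all _ fun g => pairG_add hm hf l hψ hφ g)]
  exact integral_add (pairG_facts hm hf l hψ).2 (pairG_facts hm hf l hφ).2

theorem gp_const_mul (c : ℝ) (l : ℕ) :
    gibPair (k := k) S f M N σ β l (fun g x y => c * ψ g x y)
      = c * gibPair (k := k) S f M N σ β l ψ := by
  simp only [gibPair_eq_pairG]
  rw [← integral_const_mul]
  refine integral_congr_ae (ae_of_all _ fun g => ?_)
  simp only [pairG, gibz, ← cnd_const_mul]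
  congr 1
  funext z _
  exact pairCnd_const_mul c (ψ g) l z

theorem gp_sub (hm : Measurable f) (hf : ∀ u, |f u| ≤ L) (l : ℕ) (hψ : POb ψ) (hφ : POb φ) :
    gibPair (k := k) S f M N σ β l (fun g x y => ψ g x y - φ g x y)
      = gibPair (k := k) S f M N σ β l ψ - gibPair (k := k) S f M N σ β l φ := by
  have h := gp_add (k := k) (N := N) (σ := σ) (β := β) hm hf l (hψ.sub hφ) hφ
  simp only [sub_add_cancel] at h
  linarith

theorem gp_mono (hm : Measurable f) (hf : ∀ u, |f u| ≤ L) (l : ℕ) (hψ : POb ψ) (hφ : POb φ)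
    (h : ∀ g x y, ψ g x y ≤ φ g x y) :
    gibPair (k := k) S f M N σ β l ψ ≤ gibPair (k := k) S f M N σ β l φ := by
  simp only [gibPair_eq_pairG]
  refine integral_mono (pairG_facts hm hf l hψ).2 (pairG_facts hm hf l hφ).2 fun g => ?_
  obtain ⟨m1, t1⟩ := pairTame (k := k) (N := N) (σ := σ) (β := β) hm hf l hψ g
  obtain ⟨m2, t2⟩ := pairTame (k := k) (N := N) (σ := σ) (β := β) hm hf l hφ g
  obtain ⟨-, C, hC, b⟩ := hψ
  obtain ⟨-, C', hC', b'⟩ := hφ
  have hH := linB_ham (k := k) S hm hf N σ β g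
  simp only [pairG, gibz]
  exact cnd_mono hH t1 t2 (fun z _ => pairCnd_mono (C := C + C') hH m1 m2
    (fun x y => ⟨(b g x y).trans (by linarith), (b' g x y).trans (by linarith)⟩) (h g) l z) 0 _

/-- Two observables within `η` have averages within the average of `η`. -/
theorem gp_close (hm : Measurable f) (hf : ∀ u, |f u| ≤ L) (l : ℕ) (hψ : POb ψ) (hφ : POb φ)
    {η : (Fin M → Fin n → ℝ) → S.X → S.X → ℝ} (hη : POb η) (h : ∀ g x y, |ψ g x y - φ g x y| ≤ η g x y) :
    |gibPair (k := k) S f M N σ β l ψ - gibPair (k := k) S f M N σ β l φ|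
      ≤ gibPair (k := k) S f M N σ β l η := by
  have h1 := gp_mono (k := k) (N := N) (σ := σ) (β := β) hm hf l (hψ.sub hφ) hη
    fun g x y => (le_abs_self _).trans (h g x y)
  have h2 := gp_mono (k := k) (N := N) (σ := σ) (β := β) hm hf l (hφ.sub hψ) hη
    fun g x y => (le_abs_self _).trans ((abs_sub_comm _ _).trans_le (h g x y))
  rw [gp_sub hm hf l hψ hφ] at h1
  rw [gp_sub hm hf l hφ hψ] at h2
  exact abs_le.2 ⟨by linarith, by linarith⟩

theorem gp_const (hm : Measurable f) (hf : ∀ u, |f u| ≤ L) (c : ℝ) (l : ℕ) :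
    gibPair (k := k) S f M N σ β l (fun _ _ _ => c) = c := by
  have : IsProbabilityMeasure (patterns M n) := by unfold patterns; infer_instance
  simp [gibPair_eq_pairG, pairG, gibz, pairCnd, cnd_const (linB_ham (k := k) S hm hf N σ β _)]

/-- An observable of the first leaf has the same average at every level. -/
theorem gp_fst (hm : Measurable f) (hf : ∀ u, |f u| ≤ L) (a : S.X → ℝ) (l : ℕ) :
    gibPair (k := k) S f M N σ β l (fun _ x _ => a x)
      = gibPair (k := k) S f M N σ β 0 (fun _ x _ => a x) := by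
  simp only [gibPair_eq_pairG]
  refine integral_congr_ae (ae_of_all _ fun g => ?_)
  have hH := linB_ham (k := k) S hm hf N σ β g
  simp only [pairG, gibz, pairCnd_fst hH, cnd_tower hH (Nat.zero_le _)]

/-- Removing one pattern costs a bounded tilt. -/
theorem gp_drop (hm : Measurable f) (hf : ∀ u, |f u| ≤ L) {l : ℕ} (hl : l ≤ k) {h : S.X → S.X → ℝ}
    (hh : Measurable (Function.uncurry h)) {C : ℝ} (hC : ∀ x y, |h x y| ≤ C) (h0 : ∀ x y, 0 ≤ h x y) :
    gibPair (k := k) S f M N σ β l (fun _ x y => h x y)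
      ≤ exp (6 * L) * gibPair (k := k) S f (M + 1) N σ β l (fun _ x y => h x y) := by
  have hψ : POb fun (_ : Fin (M + 1) → Fin n → ℝ) x y => h x y := POb.leaf hh hC
  have hψ' : POb fun (_ : Fin M → Fin n → ℝ) x y => h x y := POb.leaf hh hC
  set drop := fun (g : Fin (M + 1) → Fin n → ℝ) (a : Fin M) => g a.castSucc with hdrop
  have hd : Measurable drop := measurable_pi_lambda _ fun a => measurable_pi_apply a.castSucc
  have hp : MeasurePreserving drop (patterns (M + 1) n) (patterns M n) := by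
    have h1 := measurePreserving_piFinSuccAbove (fun _ : Fin (M + 1) => Measure.pi fun _ : Fin n =>
      gaussianReal 0 1) (Fin.last M)
    have h2 := h1.symm _
    refine ⟨hd, ?_⟩
    unfold patterns
    rw [← h2.map_eq, Measure.map_map hd h2.measurable]
    have e : drop ∘ (MeasurableEquiv.piFinSuccAbove (fun _ : Fin (M + 1) => Fin n → ℝ) (Fin.last M)).symm
        = Prod.snd := by
      funext p a
      simp [hdrop, MeasurableEquiv.piFinSuccAbove, Fin.insertNthEquiv, Fin.succAbove_last]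
    rw [e]
    exact measurePreserving_snd.map_eq
  have hG' := pairG_facts (k := k) (N := N) (σ := σ) (β := β) hm hf l hψ'
  have hG := pairG_facts (k := k) (N := N) (σ := σ) (β := β) hm hf l hψ
  simp only [gibPair_eq_pairG]
  rw [← hp.map_eq, integral_map hd.aemeasurable hG'.1.aestronglyMeasurable, ← integral_const_mul]
  refine integral_mono ?_ (hG.2.const_mul _) fun g => ?_
  · exact (hp.integrable_comp hG'.1.aestronglyMeasurable).2 hG'.2
  simp only [pairG, gibz, pairCnd]
  set H := ham (k := k) S f N σ β g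
  set H' := ham (k := k) S f N σ β (drop g)
  have hH := linB_ham (k := k) S hm hf N σ β g
  have hH' := linB_ham (k := k) S hm hf N σ β (drop g)
  have hd' : ∀ z x, |H' z x - H z x| ≤ L := fun z x => by
    simp only [H, H', ham, Fin.sum_univ_castSucc (f := fun a => f (sdot (g a) (S.pat x)))]
    rw [show ∀ a b c d e : ℝ, a + b - c + d - (a + e + b - c + d) = -e from fun a b c d e => by ring,
      abs_neg]
    exact hf _
  obtain ⟨m1, t1⟩ := pairTame (k := k) (N := N) (σ := σ) (β := β) hm hf l hψ g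
  obtain ⟨-, t2⟩ := pairTame (k := k) (N := N) (σ := σ) (β := β) hm hf l hψ' (drop g)
  have hin : ∀ z, pairCnd (stdG (FieldIdx n)) S.μ H' (fun _ x _ y => h x y) l z
      ≤ exp (4 * L) * pairCnd (stdG (FieldIdx n)) S.μ H (fun _ x _ y => h x y) l z := fun z => by
    have a1 : pairCnd (stdG (FieldIdx n)) S.μ H' (fun _ x _ y => h x y) l z
        ≤ exp (2 * L) * cnd (stdG (FieldIdx n)) S.μ H'
            (fun _ x => cnd (stdG (FieldIdx n)) S.μ H (fun _ y => h x y) l z) l z := by
      rw [pairCnd, ← cnd_const_mul]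
      exact cnd_mono hH' (tame_inner hH' hh hC l z) ((tame_inner hH hh hC l z).const_mul _)
        (fun _ x => cnd_tilt hH hH' (tame_outer h hh hC x) (fun _ y => h0 x y) hd' hl z) l z
    refine a1.trans ?_
    rw [show exp (4 * L) = exp (2 * L) * exp (2 * L) by rw [← exp_add]; ring_nf, mul_assoc]
    exact mul_le_mul_of_nonneg_left (cnd_tilt hH hH' (tame_inner hH hh hC l z)
      (fun _ x => cnd_nonneg (fun _ y => h0 x y) l z) hd' hl z) (exp_pos _).le
  have a1 : cnd (stdG (FieldIdx n)) S.μ H'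
        (fun z _ => pairCnd (stdG (FieldIdx n)) S.μ H' (fun _ x _ y => h x y) l z) 0 (fun _ _ => 0)
      ≤ exp (4 * L) * cnd (stdG (FieldIdx n)) S.μ H'
        (fun z _ => pairCnd (stdG (FieldIdx n)) S.μ H (fun _ x _ y => h x y) l z) 0 (fun _ _ => 0) := by
    rw [← cnd_const_mul]
    exact cnd_mono hH' t2 (t1.const_mul _) (fun z _ => hin z) 0 _
  have a2 := cnd_tilt (γ := stdG (FieldIdx n)) (μ := S.μ) hH hH' t1
    (fun z _ => cnd_nonneg (fun _ x => cnd_nonneg (fun _ y => h0 x y) l z) l z) hd' (Nat.zero_le k)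
    (fun _ _ => 0)
  refine a1.trans ?_
  rw [show exp (6 * L) = exp (4 * L) * exp (2 * L) by rw [← exp_add]; ring_nf, mul_assoc]
  exact mul_le_mul_of_nonneg_left a2 (exp_pos _).le

end Vale.Agent.P157.Rsb
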