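import Vale.Agent.P157.Rsb.CalcParam

/-!
# P157: derivatives of nested recursions in a parameter
-/

open MeasureTheory ProbabilityTheory Real Finset Filter Topology

namespace Vale.Agent.P157.Rsb

variable {k : ℕ} {Z X : Type} [MeasurableSpace Z] [MeasurableSpace X]
  {γ : Measure Z} {μ : Measure X} {w : Size γ}

/-- A differentiable family of Hamiltonians and observables near `s₀`. -/
structure Family (w : Size γ) (H φ : ℝ → (Fin k → Z) → X → ℝ) (dH dφ : ℝ → (Fin k → Z) → X → ℝ)
    (s₀ r : ℝ) : Prop where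
  pos : 0 < r
  measH : ∀ s, Measurable (Function.uncurry (H s))
  measdH : ∀ s, Measurable (Function.uncurry (dH s))
  measφ : ∀ s, Measurable (Function.uncurry (φ s))
  measdφ : ∀ s, Measurable (Function.uncurry (dφ s))
  bound : ∃ A, 0 ≤ A ∧ ∀ s, |s - s₀| < r → ∀ z x, |H s z x| ≤ A * (1 + w.tot z) ∧
    |dH s z x| ≤ A * exp (A * w.tot z) ∧ |φ s z x| ≤ A * exp (A * w.tot z) ∧
    |dφ s z x| ≤ A * exp (A * w.tot z)
  derivH : ∀ s, |s - s₀| < r → ∀ z x, HasDerivAt (fun t => H t z x) (dH s z x) s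
  derivφ : ∀ s, |s - s₀| < r → ∀ z x, HasDerivAt (fun t => φ t z x) (dφ s z x) s

/-- The derivative formula of a conditional expectation. -/
noncomputable def cndDer (γ : Measure Z) (μ : Measure X) (H φ dH dφ : (Fin k → Z) → X → ℝ) (j : ℕ)
    (z : Fin k → Z) : ℝ :=
  cnd γ μ H (fun z x => dφ z x + φ z x * dH z x) j z
    - mass k * ∑ l ∈ Icc (j + 1) k,
        cnd γ μ H (fun z _ => cnd γ μ H φ l z * cnd γ μ H dH l z) j z
    - lev k (j + 1) * (cnd γ μ H φ j z * cnd γ μ H dH j z)

variable [IsProbabilityMeasure γ] [IsFiniteMeasure μ] [NeZero μ]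
  {H φ dH dφ : ℝ → (Fin k → Z) → X → ℝ} {s₀ r : ℝ}

omit [IsProbabilityMeasure γ] [IsFiniteMeasure μ] [NeZero μ] in
theorem Family.linB (F : Family w H φ dH dφ s₀ r) {s : ℝ} (hs : |s - s₀| < r) : LinB w (H s) := by
  obtain ⟨A, hA, hb⟩ := F.bound
  exact ⟨F.measH s, A, hA, fun z x => (hb s hs z x).1⟩

omit [IsProbabilityMeasure γ] [IsFiniteMeasure μ] [NeZero μ] in
theorem Family.tames (F : Family w H φ dH dφ s₀ r) {s : ℝ} (hs : |s - s₀| < r) :
    Tame w (dH s) ∧ Tame w (φ s) ∧ Tame w (dφ s) := by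
  obtain ⟨A, hA, hb⟩ := F.bound
  exact ⟨⟨F.measdH s, A, hA, fun z x => (hb s hs z x).2.1⟩,
    ⟨F.measφ s, A, hA, fun z x => (hb s hs z x).2.2.1⟩,
    ⟨F.measdφ s, A, hA, fun z x => (hb s hs z x).2.2.2⟩⟩

theorem cndDer_measurable {H φ dH dφ : (Fin k → Z) → X → ℝ} (hH : LinB w H) (hφ : Tame w φ)
    (hdH : Tame w dH) (hdφ : Tame w dφ) (j : ℕ) : Measurable (cndDer γ μ H φ dH dφ j) := by
  have m1 := (cnd_regular (γ := γ) (μ := μ) hH (hdφ.add (hφ.mul hdH)) j).1
  have m2 : ∀ l, Measurable (cnd γ μ H (fun z _ => cnd γ μ H φ l z * cnd γ μ H dH l z) j) := fun l =>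
    (cnd_regular (γ := γ) (μ := μ) hH ((cnd_tame hH hφ l).mul (cnd_tame hH hdH l)) j).1
  exact (m1.sub ((Finset.measurable_sum _ fun l _ => m2 l).const_mul _)).sub
    (((cnd_regular (γ := γ) (μ := μ) hH hφ j).1.mul (cnd_regular (γ := γ) (μ := μ) hH hdH j).1).const_mul _)

theorem Family.der_bound (F : Family w H φ dH dφ s₀ r) :
    ∃ B, 0 ≤ B ∧ ∀ s, |s - s₀| < r → ∀ j, j ≤ k → ∀ z,
      |val γ μ (H s) j z| ≤ B * (1 + w.tot z) ∧
      |cnd γ μ (H s) (dH s) j z| ≤ B * exp (B * w.tot z) ∧
      |cnd γ μ (H s) (φ s) j z| ≤ B * exp (B * w.tot z) ∧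
      |cndDer γ μ (H s) (φ s) (dH s) (dφ s) j z| ≤ B * exp (B * w.tot z) := by
  obtain ⟨A, hA, hb⟩ := F.bound
  obtain ⟨A1, hA1, h1⟩ := val_bound_unif (k := k) (μ := μ) w hA
  obtain ⟨A2, hA2, h2⟩ := cnd_bound_unif (k := k) (μ := μ) w hA
  set A3 := A + A * A + 2 * A + A2 * A2 + 2 * A2 with hA3
  have hA30 : 0 ≤ A3 := by positivity
  obtain ⟨A4, hA4, h4⟩ := cnd_bound_unif (k := k) (μ := μ) w hA30
  refine ⟨A1 + A2 + A4 + (k + 1) * A4 + A2 * A2 + 2 * A2, by positivity, fun s hs j hjk z => ?_⟩
  set B := A1 + A2 + A4 + (k + 1) * A4 + A2 * A2 + 2 * A2 with hB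
  have ht := w.tot_nonneg z
  have hH := fun z x => (hb s hs z x).1
  have mono : ∀ {a c : ℝ}, 0 ≤ a → a ≤ B → c ≤ a * exp (a * w.tot z) → c ≤ B * exp (B * w.tot z) :=
    fun {a c} h0 hab hc => hc.trans (mul_le_mul hab (exp_le_exp.2 (mul_le_mul_of_nonneg_right hab ht))
      (exp_pos _).le (h0.trans hab))
  have k0 : (0 : ℝ) ≤ (k + 1) * A4 := by positivity
  have hq : 0 ≤ A2 * A2 := by positivity
  have cφ := fun l z => h2 (H s) (φ s) (F.measH s) (F.measφ s) hH (fun z x => (hb s hs z x).2.2.1) l z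
  have cd := fun l z => h2 (H s) (dH s) (F.measH s) (F.measdH s) hH (fun z x => (hb s hs z x).2.1) l z
  refine ⟨(h1 (H s) (F.measH s) hH j z).trans (mul_le_mul_of_nonneg_right (by linarith) (by linarith)),
    mono hA2 (by linarith) (cd j z), mono hA2 (by linarith) (cφ j z), ?_⟩
  have hH3 : ∀ z x, |H s z x| ≤ A3 * (1 + w.tot z) := fun z x => (hH z x).trans
    (mul_le_mul_of_nonneg_right (by nlinarith) (by linarith [w.tot_nonneg z]))
  have t1 := h4 (H s) (fun z x => dφ s z x + φ s z x * dH s z x) (F.measH s)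
    ((F.measdφ s).add ((F.measφ s).mul (F.measdH s))) hH3 (fun z x => by
      obtain ⟨-, b1, b2, b3⟩ := hb s hs z x
      have ht := w.tot_nonneg z
      refine (abs_add_le _ _).trans ?_
      rw [abs_mul]
      calc |dφ s z x| + |φ s z x| * |dH s z x|
          ≤ A * exp (A3 * w.tot z) + A * A * exp (A3 * w.tot z) := by
            refine add_le_add (b3.trans (mul_le_mul_of_nonneg_left (exp_le_exp.2
              (mul_le_mul_of_nonneg_right (by nlinarith) ht)) hA)) ?_
            refine (mul_le_mul b2 b1 (abs_nonneg _) (by positivity)).trans ?_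
            calc A * exp (A * w.tot z) * (A * exp (A * w.tot z))
                = A * A * exp (2 * A * w.tot z) := by
                  rw [show 2 * A * w.tot z = A * w.tot z + A * w.tot z by ring, exp_add]; ring
              _ ≤ _ := mul_le_mul_of_nonneg_left (exp_le_exp.2
                  (mul_le_mul_of_nonneg_right (by nlinarith) ht)) (by positivity)
        _ ≤ A3 * exp (A3 * w.tot z) := by
            rw [← add_mul]; exact mul_le_mul_of_nonneg_right (by nlinarith) (exp_pos _).le) j z
  have hsH : LinB w (H s) := F.linB hs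
  obtain ⟨hdH, hφ, -⟩ := F.tames hs
  have t2 := fun l => h4 (H s) (fun z _ => cnd γ μ (H s) (φ s) l z * cnd γ μ (H s) (dH s) l z)
    (F.measH s) ((cnd_tame hsH hφ l).meas.mul (cnd_tame hsH hdH l).meas) hH3 (fun z _ => by
      have ht := w.tot_nonneg z
      rw [abs_mul]
      calc _ ≤ A2 * exp (A2 * w.tot z) * (A2 * exp (A2 * w.tot z)) :=
            mul_le_mul (cφ l z) (cd l z) (abs_nonneg _) (by positivity)
        _ = A2 * A2 * exp (2 * A2 * w.tot z) := by
            rw [show 2 * A2 * w.tot z = A2 * w.tot z + A2 * w.tot z by ring, exp_add]; ring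
        _ ≤ A3 * exp (A3 * w.tot z) := mul_le_mul (by nlinarith)
            (exp_le_exp.2 (mul_le_mul_of_nonneg_right (by nlinarith) ht)) (exp_pos _).le hA30) j z
  have hm0 : 0 ≤ mass k := mass_pos.le
  have hm1 : mass k ≤ 1 := by
    unfold mass; rw [div_le_one (by positivity)]; linarith [(Nat.cast_nonneg k : (0 : ℝ) ≤ k)]
  have t3 : |mass k * ∑ l ∈ Icc (j + 1) k,
      cnd γ μ (H s) (fun z _ => cnd γ μ (H s) (φ s) l z * cnd γ μ (H s) (dH s) l z) j z|
      ≤ (k + 1) * (A4 * exp (A4 * w.tot z)) := by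
    rw [abs_mul, abs_of_nonneg hm0]
    refine (mul_le_of_le_one_left (abs_nonneg _) hm1).trans ?_
    refine (abs_sum_le_sum_abs _ _).trans ((sum_le_sum fun l _ => t2 l).trans ?_)
    rw [sum_const, nsmul_eq_mul]
    refine mul_le_mul_of_nonneg_right ?_ (by positivity)
    have h5 : (Icc (j + 1) k).card ≤ k + 1 := by rw [Nat.card_Icc]; omega
    exact_mod_cast h5
  have t4 : |lev k (j + 1) * (cnd γ μ (H s) (φ s) j z * cnd γ μ (H s) (dH s) j z)|
      ≤ A2 * A2 * exp (2 * A2 * w.tot z) := by
    rw [abs_mul, abs_mul, abs_of_nonneg (lev_nonneg _)]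
    refine (mul_le_of_le_one_left (by positivity) (lev_le_one (by omega))).trans ?_
    calc _ ≤ A2 * exp (A2 * w.tot z) * (A2 * exp (A2 * w.tot z)) :=
          mul_le_mul (cφ j z) (cd j z) (abs_nonneg _) (by positivity)
      _ = _ := by rw [show 2 * A2 * w.tot z = A2 * w.tot z + A2 * w.tot z by ring, exp_add]; ring
  refine ((abs_sub _ _).trans (add_le_add ((abs_sub _ _).trans (add_le_add t1 t3)) t4)).trans ?_
  have e4 : exp (A4 * w.tot z) ≤ exp (B * w.tot z) :=
    exp_le_exp.2 (mul_le_mul_of_nonneg_right (by linarith) ht)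
  have e2 : exp (2 * A2 * w.tot z) ≤ exp (B * w.tot z) :=
    exp_le_exp.2 (mul_le_mul_of_nonneg_right (by linarith) ht)
  calc _ ≤ A4 * exp (B * w.tot z) + (k + 1) * (A4 * exp (B * w.tot z))
          + A2 * A2 * exp (B * w.tot z) :=
        add_le_add (add_le_add (mul_le_mul_of_nonneg_left e4 hA4) (mul_le_mul_of_nonneg_left
          (mul_le_mul_of_nonneg_left e4 hA4) (by positivity))) (mul_le_mul_of_nonneg_left e2 hq)
    _ ≤ _ := by rw [hB]; nlinarith [exp_pos (B * w.tot z)]

/-- Differentiation under one step. -/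
theorem hasDerivAt_step {u du : ℝ → Z → ℝ} {s₀ r C : ℝ} (hr : 0 < r)
    (hum : ∀ s, |s - s₀| < r → Measurable (u s))
    (hdm : Measurable (du s₀))
    (hub : ∀ s, |s - s₀| < r → ∀ y, |u s y| ≤ C * exp (C * w.w y))
    (hdb : ∀ s, |s - s₀| < r → ∀ y, |du s y| ≤ C * exp (C * w.w y))
    (hd : ∀ s, |s - s₀| < r → ∀ y, HasDerivAt (fun t => u t y) (du s y) s) :
    HasDerivAt (fun s => ∫ y, u s y ∂γ) (∫ y, du s₀ y ∂γ) s₀ := by
  have h0 : |s₀ - s₀| < r := by simpa using hr
  have hS : {s | |s - s₀| < r} ∈ 𝓝 s₀ := by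
    simpa [Metric.ball, Real.dist_eq] using Metric.ball_mem_nhds s₀ hr
  refine (hasDerivAt_integral_of_dominated_loc_of_deriv_le (μ := γ) (F := u) (F' := du)
    (bound := fun y => C * exp (C * w.w y)) hS ?_ ?_ hdm.aestronglyMeasurable ?_
    ((w.int C).const_mul C) (ae_of_all _ fun y s hs => hd s hs y)).2
  · filter_upwards [hS] with s hs using (hum s hs).aestronglyMeasurable
  · exact Integrable.mono' ((w.int C).const_mul C) (hum s₀ h0).aestronglyMeasurable
      (ae_of_all _ fun y => by rw [Real.norm_eq_abs]; exact hub s₀ h0 y)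
  · exact ae_of_all _ fun y s hs => by rw [Real.norm_eq_abs]; exact hdb s hs y

theorem Family.leaf_deriv (F : Family w H φ dH dφ s₀ r) {s : ℝ} (hs : |s - s₀| < r) (z : Fin k → Z) :
    HasDerivAt (fun t => ∫ x, exp (H t z x) ∂μ) (∫ x, dH s z x * exp (H s z x) ∂μ) s ∧
    HasDerivAt (fun t => ∫ x, φ t z x * exp (H t z x) ∂μ)
      (∫ x, (dφ s z x + φ s z x * dH s z x) * exp (H s z x) ∂μ) s := by
  obtain ⟨A, hA, hb⟩ := F.bound
  set E := exp (A * (1 + w.tot z)) with hE
  set D := A * exp (A * w.tot z) with hD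
  have hD0 : 0 ≤ D := by positivity
  have hS : {t | |t - s₀| < r} ∈ 𝓝 s :=
    (isOpen_lt (by fun_prop) continuous_const).mem_nhds hs
  have he : ∀ t, |t - s₀| < r → ∀ x, exp (H t z x) ≤ E := fun t ht x =>
    exp_le_exp.2 (abs_le.1 (hb t ht z x).1).2
  have mH : ∀ t, Measurable (H t z) := fun t => (F.measH t).comp (measurable_const.prodMk measurable_id)
  have mdH : ∀ t, Measurable (dH t z) := fun t => (F.measdH t).comp (measurable_const.prodMk measurable_id)
  have mφ : ∀ t, Measurable (φ t z) := fun t => (F.measφ t).comp (measurable_const.prodMk measurable_id)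
  have mdφ : ∀ t, Measurable (dφ t z) := fun t => (F.measdφ t).comp (measurable_const.prodMk measurable_id)
  constructor
  · refine (hasDerivAt_integral_of_dominated_loc_of_deriv_le (μ := μ)
      (F := fun t x => exp (H t z x)) (F' := fun t x => dH t z x * exp (H t z x))
      (bound := fun _ => D * E) hS (Eventually.of_forall fun t => (mH t).exp.aestronglyMeasurable)
      (integrable_exp_leaf (F.linB hs) z) ((mdH s).mul (mH s).exp).aestronglyMeasurable
      (ae_of_all _ fun x t ht => ?_) (integrable_const _) (ae_of_all _ fun x t ht => ?_)).2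
    · rw [norm_mul, Real.norm_eq_abs, Real.norm_eq_abs, abs_of_pos (exp_pos _)]
      exact mul_le_mul (hb t ht z x).2.1 (he t ht x) (exp_pos _).le hD0
    · simpa [mul_comm] using (F.derivH t ht z x).exp
  · obtain ⟨-, hφ, -⟩ := F.tames hs
    refine (hasDerivAt_integral_of_dominated_loc_of_deriv_le (μ := μ)
      (F := fun t x => φ t z x * exp (H t z x))
      (F' := fun t x => (dφ t z x + φ t z x * dH t z x) * exp (H t z x))
      (bound := fun _ => (D + D * D) * E) hS
      (Eventually.of_forall fun t => ((mφ t).mul (mH t).exp).aestronglyMeasurable)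
      (integrable_leaf (F.linB hs) hφ z)
      (((mdφ s).add ((mφ s).mul (mdH s))).mul (mH s).exp).aestronglyMeasurable
      (ae_of_all _ fun x t ht => ?_) (integrable_const _) (ae_of_all _ fun x t ht => ?_)).2
    · rw [norm_mul, Real.norm_eq_abs, Real.norm_eq_abs, abs_of_pos (exp_pos _)]
      obtain ⟨-, b1, b2, b3⟩ := hb t ht z x
      refine mul_le_mul ((abs_add_le _ _).trans (add_le_add b3 ?_)) (he t ht x) (exp_pos _).le
        (by positivity)
      rw [abs_mul]; exact mul_le_mul b2 b1 (abs_nonneg _) hD0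
    · exact ((F.derivφ t ht z x).mul (F.derivH t ht z x).exp).congr_deriv (by ring)

theorem Family.val_deriv (F : Family w H φ dH dφ s₀ r) (j : ℕ) :
    ∀ s, |s - s₀| < r → ∀ z,
      HasDerivAt (fun t => val γ μ (H t) j z) (cnd γ μ (H s) (dH s) j z) s := by
  induction j using levels_induction (k := k) with
  | htop j hj =>
    intro s hs z
    simp only [val_of_le hj, cnd_of_le hj, val_top, cnd_top]
    exact (F.leaf_deriv hs z).1.log (integral_exp_pos (integrable_exp_leaf (F.linB hs) z)).ne'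
  | hstep j hj hjk ih =>
    intro s hs z
    obtain ⟨B, hB, hb⟩ := F.der_bound (μ := μ)
    simp only [val_step hj hjk, cnd_step hj hjk]
    set m := lev k j with hm
    have hm0 : 0 < m := lev_pos hj
    obtain ⟨hi, hp⟩ := integrable_val_step (γ := γ) (μ := μ) (F.linB hs) (j := j) z (j - 1)
    rw [← hm] at hi hp
    set Q := exp (m * B * (1 + w.tot z)) with hQ
    set P := B * exp (B * w.tot z) with hP
    set r' := r - |s - s₀| with hr'
    have hr0 : 0 < r' := by rw [hr']; linarith
    have hin : ∀ t, |t - s| < r' → |t - s₀| < r := fun t ht => by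
      rw [hr'] at ht; linarith [abs_sub_le t s s₀]
    have hev : ∀ t, |t - s| < r' → ∀ y, exp (m * val γ μ (H t) j (put z (j - 1) y))
        ≤ Q * exp (m * B * w.w y) := fun t ht y => by
      rw [hQ, ← exp_add]
      refine exp_le_exp.2 ?_
      have := (abs_le.1 (hb t (hin t ht) j hjk (put z (j - 1) y)).1).2
      have h2 := mul_le_mul_of_nonneg_left (w.tot_put z (j - 1) y) hB
      nlinarith
    set C := m * P * Q + Q + (B + m * B) with hC
    have c0 : 0 ≤ m * P * Q := by positivity
    have cQ : 0 ≤ Q := (exp_pos _).le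
    have cB : 0 ≤ B + m * B := by positivity
    have h1 := hasDerivAt_step (w := w) (γ := γ) (C := C) hr0
      (u := fun t y => exp (m * val γ μ (H t) j (put z (j - 1) y)))
      (du := fun t y => m * cnd γ μ (H t) (dH t) j (put z (j - 1) y)
        * exp (m * val γ μ (H t) j (put z (j - 1) y)))
      (fun t ht => (((val_regular (γ := γ) (μ := μ) (F.linB (hin t ht)) j).1.comp
        (measurable_put_right z (j - 1))).const_mul m).exp)
      ((((cnd_regular (γ := γ) (μ := μ) (F.linB hs) (F.tames hs).1 j).1.comp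
        (measurable_put_right z (j - 1))).const_mul m).mul
        (((val_regular (γ := γ) (μ := μ) (F.linB hs) j).1.comp
        (measurable_put_right z (j - 1))).const_mul m).exp)
      (fun t ht y => by
        rw [abs_of_pos (exp_pos _)]
        refine (hev t ht y).trans (mul_le_mul (by rw [hC]; linarith) (exp_le_exp.2 ?_) (exp_pos _).le
          (by rw [hC]; linarith))
        exact mul_le_mul_of_nonneg_right (by rw [hC]; linarith) (w.nonneg y))
      (fun t ht y => by
        rw [abs_mul, abs_mul, abs_of_pos (exp_pos _), abs_of_pos hm0]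
        calc m * |cnd γ μ (H t) (dH t) j (put z (j - 1) y)| * exp (m * val γ μ (H t) j (put z (j - 1) y))
            ≤ m * (P * exp (B * w.w y)) * (Q * exp (m * B * w.w y)) := by
              refine mul_le_mul (mul_le_mul_of_nonneg_left ?_ hm0.le) (hev t ht y) (exp_pos _).le
                (by positivity)
              refine ((hb t (hin t ht) j hjk _).2.1).trans ?_
              rw [hP, mul_assoc, ← exp_add]
              exact mul_le_mul_of_nonneg_left (exp_le_exp.2
                (by nlinarith [w.tot_put z (j - 1) y])) hB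
          _ = m * P * Q * exp ((B + m * B) * w.w y) := by rw [add_mul, exp_add]; ring
          _ ≤ C * exp (C * w.w y) := mul_le_mul (by rw [hC]; linarith)
              (exp_le_exp.2 (mul_le_mul_of_nonneg_right (by rw [hC]; linarith) (w.nonneg y)))
              (exp_pos _).le (by rw [hC]; linarith))
      (fun t ht y => ((ih t (hin t ht) (put z (j - 1) y)).const_mul m).exp.congr_deriv (by ring))
    refine ((h1.log hp.ne').div_const m).congr_deriv ?_
    have e : ∫ y, m * cnd γ μ (H s) (dH s) j (put z (j - 1) y)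
          * exp (m * val γ μ (H s) j (put z (j - 1) y)) ∂γ
        = m * ∫ y, cnd γ μ (H s) (dH s) j (put z (j - 1) y)
          * exp (m * val γ μ (H s) j (put z (j - 1) y)) ∂γ := by
      rw [← integral_const_mul]; simp only [mul_assoc]
    rw [e]; field_simp

theorem Family.cnd_deriv (F : Family w H φ dH dφ s₀ r) (j : ℕ) (hjk : j ≤ k) :
    ∀ s, |s - s₀| < r → ∀ z,
      HasDerivAt (fun t => cnd γ μ (H t) (φ t) j z)
        (cndDer γ μ (H s) (φ s) (dH s) (dφ s) j z) s := by
  induction j using levels_induction (k := k) with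
  | htop j hj =>
    intro s hs z
    have hj' : j = k := le_antisymm hjk hj
    subst hj'
    simp only [cndDer, Icc_eq_empty_of_lt (Nat.lt_succ_self _), sum_empty, mul_zero, sub_zero, lev_top,
      one_mul, cnd_top]
    have hp := integral_exp_pos (integrable_exp_leaf (μ := μ) (F.linB hs) z)
    refine ((F.leaf_deriv hs z).2.div (F.leaf_deriv hs z).1 hp.ne').congr_deriv ?_
    field_simp
  | hstep j hj hjk' ih =>
    intro s hs z
    have ih' := ih hjk'
    obtain ⟨B, hB, hb⟩ := F.der_bound (μ := μ)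
    have hH := F.linB hs
    obtain ⟨tdH, tφ, tdφ⟩ := F.tames hs
    rw [funext fun t => cnd_step (γ := γ) (μ := μ) hj hjk' z (H t) (φ t)]
    set m := lev k j with hm
    have hm0 : 0 < m := lev_pos hj
    obtain ⟨hi, hp⟩ := integrable_val_step (γ := γ) (μ := μ) hH (j := j) z (j - 1)
    rw [← hm] at hi hp
    set Q := exp (m * B * (1 + w.tot z)) with hQ
    set P := B * exp (B * w.tot z) with hP
    set r' := r - |s - s₀| with hr'
    have hr0 : 0 < r' := by rw [hr']; linarith
    have hin : ∀ t, |t - s| < r' → |t - s₀| < r := fun t ht => by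
      rw [hr'] at ht; linarith [abs_sub_le t s s₀]
    have hev : ∀ t, |t - s| < r' → ∀ y, exp (m * val γ μ (H t) j (put z (j - 1) y))
        ≤ Q * exp (m * B * w.w y) := fun t ht y => by
      rw [hQ, ← exp_add]
      refine exp_le_exp.2 ?_
      have := (abs_le.1 (hb t (hin t ht) j hjk' (put z (j - 1) y)).1).2
      have h2 := mul_le_mul_of_nonneg_left (w.tot_put z (j - 1) y) hB
      nlinarith
    have hP1 : ∀ {c : ℝ} {y : Z}, c ≤ B * exp (B * w.tot (put z (j - 1) y)) → c ≤ P * exp (B * w.w y) :=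
      fun {c y} hc => hc.trans (by
        rw [hP, mul_assoc, ← exp_add]
        exact mul_le_mul_of_nonneg_left (exp_le_exp.2 (by nlinarith [w.tot_put z (j - 1) y])) hB)
    set C := (P + m * P * P + 1) * Q + (m * P * Q + Q) + (2 * B + m * B) with hC
    have c1 : 0 ≤ (P + m * P * P + 1) * Q := by positivity
    have c2 : 0 ≤ m * P * Q + Q := by positivity
    have c3 : 0 ≤ 2 * B + m * B := by positivity
    have cP : 0 ≤ P * Q ∧ 0 ≤ m * P * Q ∧ 0 ≤ (P + m * P * P) * Q ∧ 0 ≤ Q ∧ 0 ≤ m * B := by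
      refine ⟨?_, ?_, ?_, ?_, ?_⟩ <;> positivity
    obtain ⟨cP1, cP2, cP3, cP4, cP5⟩ := cP
    have cP6 : (P + m * P * P + 1) * Q = P * Q + m * P * P * Q + Q := by ring
    have cP7 : 0 ≤ m * P * P * Q := by positivity
    have hC1 : P * Q ≤ C ∧ m * P * Q ≤ C ∧ (P + m * P * P) * Q ≤ C ∧ Q ≤ C := by
      refine ⟨?_, ?_, ?_, ?_⟩ <;> nlinarith
    have hC2 : m * B ≤ C ∧ B + m * B ≤ C ∧ 2 * B + m * B ≤ C := by
      refine ⟨?_, ?_, ?_⟩ <;> nlinarith
    have hCb : ∀ {c a e : ℝ} {y : Z}, c ≤ a * exp (e * w.w y) → a ≤ C → e ≤ C →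
        c ≤ C * exp (C * w.w y) := fun {c a e y} hc ha he => hc.trans (mul_le_mul ha
          (exp_le_exp.2 (mul_le_mul_of_nonneg_right he (w.nonneg y))) (exp_pos _).le (by linarith))
    have mV : ∀ t, |t - s₀| < r → Measurable fun y => exp (m * val γ μ (H t) j (put z (j - 1) y)) :=
      fun t ht => (((val_regular (γ := γ) (μ := μ) (F.linB ht) j).1.comp
        (measurable_put_right z (j - 1))).const_mul m).exp
    have hden := hasDerivAt_step (w := w) (γ := γ) (C := C) hr0
      (u := fun t y => exp (m * val γ μ (H t) j (put z (j - 1) y)))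
      (du := fun t y => m * cnd γ μ (H t) (dH t) j (put z (j - 1) y)
        * exp (m * val γ μ (H t) j (put z (j - 1) y)))
      (fun t ht => mV t (hin t ht))
      ((((cnd_regular (γ := γ) (μ := μ) hH tdH j).1.comp
        (measurable_put_right z (j - 1))).const_mul m).mul (mV s hs))
      (fun t ht y => by
        rw [abs_of_pos (exp_pos _)]
        exact hCb (hev t ht y) hC1.2.2.2 hC2.1)
      (fun t ht y => by
        rw [abs_mul, abs_mul, abs_of_pos (exp_pos _), abs_of_pos hm0]
        refine hCb (a := m * P * Q) (e := B + m * B) ?_ hC1.2.1 hC2.2.1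
        refine (mul_le_mul (mul_le_mul_of_nonneg_left (hP1 (hb t (hin t ht) j hjk' _).2.1) hm0.le)
          (hev t ht y) (exp_pos _).le (by positivity)).trans_eq ?_
        rw [add_mul, exp_add]; ring)
      (fun t ht y => ((F.val_deriv j t (hin t ht) (put z (j - 1) y)).const_mul m).exp.congr_deriv
        (by ring))
    have hnum := hasDerivAt_step (w := w) (γ := γ) (C := C) hr0
      (u := fun t y => cnd γ μ (H t) (φ t) j (put z (j - 1) y)
        * exp (m * val γ μ (H t) j (put z (j - 1) y)))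
      (du := fun t y => (cndDer γ μ (H t) (φ t) (dH t) (dφ t) j (put z (j - 1) y)
        + m * (cnd γ μ (H t) (φ t) j (put z (j - 1) y) * cnd γ μ (H t) (dH t) j (put z (j - 1) y)))
        * exp (m * val γ μ (H t) j (put z (j - 1) y)))
      (fun t ht => ((cnd_regular (γ := γ) (μ := μ) (F.linB (hin t ht)) (F.tames (hin t ht)).2.1 j).1.comp
        (measurable_put_right z (j - 1))).mul (mV t (hin t ht)))
      ((((cndDer_measurable (γ := γ) (μ := μ) hH tφ tdH tdφ j).comp (measurable_put_right z (j - 1))).add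
        ((((cnd_regular (γ := γ) (μ := μ) hH tφ j).1.comp (measurable_put_right z (j - 1))).mul
          ((cnd_regular (γ := γ) (μ := μ) hH tdH j).1.comp (measurable_put_right z (j - 1)))).const_mul m)).mul
        (mV s hs))
      (fun t ht y => by
        rw [abs_mul, abs_of_pos (exp_pos _)]
        refine hCb (a := P * Q) (e := B + m * B) ?_ hC1.1 hC2.2.1
        refine (mul_le_mul (hP1 (hb t (hin t ht) j hjk' _).2.2.1) (hev t ht y) (exp_pos _).le
          (by positivity)).trans_eq ?_
        rw [add_mul, exp_add]; ring)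
      (fun t ht y => by
        rw [abs_mul, abs_of_pos (exp_pos _)]
        refine hCb (a := (P + m * P * P) * Q) (e := 2 * B + m * B) ?_ hC1.2.2.1 hC2.2.2
        obtain ⟨-, b1, b2, b3⟩ := hb t (hin t ht) j hjk' (put z (j - 1) y)
        have hw := w.nonneg y
        have he : exp (B * w.w y) ≤ exp (2 * B * w.w y) := exp_le_exp.2 (by nlinarith)
        calc _ ≤ (P * exp (2 * B * w.w y) + m * (P * exp (B * w.w y) * (P * exp (B * w.w y))))
              * (Q * exp (m * B * w.w y)) := by
              refine mul_le_mul ((abs_add_le _ _).trans (add_le_add ((hP1 b3).trans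
                (mul_le_mul_of_nonneg_left he (by positivity))) ?_)) (hev t ht y) (exp_pos _).le
                (by positivity)
              rw [abs_mul, abs_of_pos hm0, abs_mul]
              exact mul_le_mul_of_nonneg_left (mul_le_mul (hP1 b2) (hP1 b1) (abs_nonneg _)
                (by positivity)) hm0.le
          _ = _ := by
              rw [show (2 * B + m * B) * w.w y = B * w.w y + B * w.w y + m * B * w.w y by ring,
                show 2 * B * w.w y = B * w.w y + B * w.w y by ring]
              simp only [exp_add]; ring)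
      (fun t ht y => ((ih' t (hin t ht) (put z (j - 1) y)).mul
        ((F.val_deriv (μ := μ) j t (hin t ht) (put z (j - 1) y)).const_mul m).exp).congr_deriv (by ring))
    refine (hnum.div hden hp.ne').congr_deriv ?_
    -- identify the formula
    set c := fun (z : Fin k → Z) => cnd γ μ (H s) (φ s) j z with hc
    set h := fun (z : Fin k → Z) => cnd γ μ (H s) (dH s) j z with hh
    have e0 : ∫ y, m * h (put z (j - 1) y) * exp (m * val γ μ (H s) j (put z (j - 1) y)) ∂γ
        = m * ∫ y, h (put z (j - 1) y) * exp (m * val γ μ (H s) j (put z (j - 1) y)) ∂γ := by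
      rw [← integral_const_mul]; simp only [mul_assoc]
    have uD : Upto j fun z => cndDer γ μ (H s) (φ s) (dH s) (dφ s) j z + m * (c z * h z) := by
      intro a b hab
      simp only [cndDer, hc, hh, cnd_upto j a b hab]
    have e1 : (∫ y, (cndDer γ μ (H s) (φ s) (dH s) (dφ s) j (put z (j - 1) y)
        + m * (c (put z (j - 1) y) * h (put z (j - 1) y)))
        * exp (m * val γ μ (H s) j (put z (j - 1) y)) ∂γ) /
        ∫ y, exp (m * val γ μ (H s) j (put z (j - 1) y)) ∂γ
        = cnd γ μ (H s) (fun z _ => cndDer γ μ (H s) (φ s) (dH s) (dφ s) j z + m * (c z * h z))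
            (j - 1) z := by
      simp only [cnd_step (H := H s) hj hjk', cnd_const_fun hH uD, ← hm]
    have tA : Tame w fun z x => dφ s z x + φ s z x * dH s z x := tdφ.add (tφ.mul tdH)
    have tL : ∀ l, Tame w fun z (_ : X) => cnd γ μ (H s) (φ s) l z * cnd γ μ (H s) (dH s) l z :=
      fun l => (cnd_tame hH tφ l).mul (cnd_tame hH tdH l)
    have e2 : cnd γ μ (H s) (fun z _ => cndDer γ μ (H s) (φ s) (dH s) (dφ s) j z + m * (c z * h z))
          (j - 1) z
        = cnd γ μ (H s) (fun z x => dφ s z x + φ s z x * dH s z x) (j - 1) z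
          - mass k * ∑ l ∈ Icc j k,
              cnd γ μ (H s) (fun z _ => cnd γ μ (H s) (φ s) l z * cnd γ μ (H s) (dH s) l z) (j - 1) z := by
      have hsplit : (fun (z : Fin k → Z) (_ : X) =>
            cndDer γ μ (H s) (φ s) (dH s) (dφ s) j z + m * (c z * h z))
          = fun z _ => cnd γ μ (H s) (fun z x => dφ s z x + φ s z x * dH s z x) j z
              + (-mass k) * ∑ l ∈ Icc j k,
                cnd γ μ (H s) (fun z _ => cnd γ μ (H s) (φ s) l z * cnd γ μ (H s) (dH s) l z) j z := by
        funext z _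
        have hd : cnd γ μ (H s) (fun z _ => cnd γ μ (H s) (φ s) j z * cnd γ μ (H s) (dH s) j z) j z
            = c z * h z := cnd_const_fun hH (c := fun z => c z * h z)
              (fun a b hab => by simp only [hc, hh, cnd_upto j a b hab]) z
        rw [← Finset.insert_Icc_add_one_left_eq_Icc hjk', sum_insert (by simp), cndDer, hd,
          lev_succ, ← hm]
        ring
      rw [hsplit, cnd_add hH (cnd_tame hH tA j)
        ((Tame.sum _ fun l _ => cnd_tame hH (tL l) j).const_mul _), cnd_const_mul,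
        cnd_finsum hH _ (fun l _ => cnd_tame hH (tL l) j), cnd_tower hH (by omega)]
      simp only [cnd_tower hH (show j - 1 ≤ j by omega)]
      ring
    have e3 : cndDer γ μ (H s) (φ s) (dH s) (dφ s) (j - 1) z
        = cnd γ μ (H s) (fun z _ => cndDer γ μ (H s) (φ s) (dH s) (dφ s) j z + m * (c z * h z)) (j - 1) z
          - m * (cnd γ μ (H s) (φ s) (j - 1) z * cnd γ μ (H s) (dH s) (j - 1) z) := by
      rw [e2, cndDer, show j - 1 + 1 = j by omega, hm]
    rw [e3, ← e1, cnd_step (H := H s) (φ := φ s) hj hjk', cnd_step (H := H s) (φ := dH s) hj hjk', e0]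
    simp only [← hm, hc, hh]
    field_simp

theorem hasDerivAt_val (F : Family w H φ dH dφ s₀ r) (j : ℕ) (z : Fin k → Z) :
    HasDerivAt (fun s => val γ μ (H s) j z) (cnd γ μ (H s₀) (dH s₀) j z) s₀ :=
  F.val_deriv j s₀ (by simpa using F.pos) z

theorem hasDerivAt_cnd (F : Family w H φ dH dφ s₀ r) {j : ℕ} (hjk : j ≤ k) (z : Fin k → Z) :
    HasDerivAt (fun s => cnd γ μ (H s) (φ s) j z)
      (cndDer γ μ (H s₀) (φ s₀) (dH s₀) (dφ s₀) j z) s₀ :=
  F.cnd_deriv j hjk s₀ (by simpa using F.pos) z

/-- The quadratic form of the formula dominates the variance. -/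
theorem cndDer_self_ge {H φ : (Fin k → Z) → X → ℝ} (hH : LinB w H) (hφ : Tame w φ) {j : ℕ}
    (hjk : j ≤ k) (z : Fin k → Z) :
    lev k (j + 1) * (cnd γ μ H (fun z x => φ z x ^ 2) j z - cnd γ μ H φ j z ^ 2)
      ≤ cndDer γ μ H φ φ (fun _ _ => 0) j z := by
  have hsq : Tame w fun z x => φ z x ^ 2 := (hφ.mul hφ).congr fun z x => (sq _).symm
  set a := cnd γ μ H (fun z x => φ z x ^ 2) j z with ha
  have hl : ∀ l ∈ Icc (j + 1) k,
      cnd γ μ H (fun z _ => cnd γ μ H φ l z * cnd γ μ H φ l z) j z ≤ a := fun l hl => by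
    rw [mem_Icc] at hl
    have h1 : cnd γ μ H (fun z _ => cnd γ μ H φ l z * cnd γ μ H φ l z) j z
        ≤ cnd γ μ H (fun z _ => cnd γ μ H (fun z x => φ z x ^ 2) l z) j z :=
      cnd_mono hH ((cnd_tame hH hφ l).mul (cnd_tame hH hφ l)) (cnd_tame hH hsq l)
        (fun z _ => by rw [← sq]; exact cnd_sq_le hH hφ l z) j z
    rwa [cnd_tower hH (by omega)] at h1
  have hsum := sum_le_sum hl
  rw [sum_const, nsmul_eq_mul, Nat.card_Icc] at hsum
  have e : mass k * ((k + 1 - (j + 1) : ℕ) : ℝ) = 1 - lev k (j + 1) := by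
    rw [Nat.cast_sub (by omega)]; unfold mass lev; push_cast; field_simp
  have e2 : (fun z x => (0 : ℝ) + φ z x * φ z x) = fun z x => φ z x ^ 2 := funext₂ fun _ _ => by ring
  simp only [cndDer, e2, ← ha]
  have h2 := mul_le_mul_of_nonneg_left hsum (mass_pos (k := k)).le
  rw [← mul_assoc, e] at h2
  nlinarith

end Vale.Agent.P157.Rsb
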