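import Vale.Agent.P150.Gauss
import Vale.Agent.P157.Rsb.CalcDeriv

/-!
# P157: Gaussian integration by parts, changes of variables and independent parts
-/

open MeasureTheory ProbabilityTheory Real Finset

namespace Vale.Agent.P157.Rsb

theorem integrable_exp_abs_gauss (c : ℝ) :
    Integrable (fun y : ℝ => exp (c * |y|)) (gaussianReal 0 1) := by
  refine Integrable.mono' ((integrable_exp_mul_gaussianReal (μ := 0) (v := 1) c).add
    (integrable_exp_mul_gaussianReal (μ := 0) (v := 1) (-c))) (by fun_prop) (ae_of_all _ fun y => ?_)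
  rw [Real.norm_eq_abs, abs_of_pos (exp_pos _)]
  simp only [Pi.add_apply]
  rcases abs_cases y with ⟨h, -⟩ | ⟨h, -⟩ <;> rw [h]
  · linarith [exp_pos (-c * y)]
  · rw [mul_neg, ← neg_mul]; linarith [exp_pos (c * y)]

/-- The sum of absolute values as a weight for standard Gaussian families. -/
noncomputable def gaussSize (ι : Type) [Fintype ι] : Size (stdG ι) where
  w y := ∑ i, |y i|
  meas := by fun_prop
  nonneg _ := by positivity
  int c := by
    have e : (fun y : ι → ℝ => exp (c * ∑ i, |y i|)) = fun y => ∏ i, exp (c * |y i|) :=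
      funext fun y => by rw [mul_sum, exp_sum]
    rw [e]
    exact Integrable.fintype_prod fun _ => integrable_exp_abs_gauss c

/-- The absolute value as a weight on the line. -/
noncomputable def lineSize : Size (gaussianReal 0 1) where
  w y := |y|
  meas := by fun_prop
  nonneg _ := abs_nonneg _
  int := integrable_exp_abs_gauss

theorem gauss_ibp {ι : Type} [Fintype ι] [DecidableEq ι] (i : ι) {G G' : (ι → ℝ) → ℝ}
    (hd : ∀ y, HasDerivAt (fun t => G (Function.update y i t)) (G' y) (y i))
    (hm : Measurable G) (hm' : Measurable G')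
    (hb : ∃ A, ∀ y, |G y| ≤ A * exp (A * ∑ a, |y a|) ∧ |G' y| ≤ A * exp (A * ∑ a, |y a|)) :
    ∫ y, y i * G y ∂stdG ι = ∫ y, G' y ∂stdG ι := by
  obtain ⟨A, hA⟩ := hb
  have hu : MeasurePreserving (fun z : (ι → ℝ) × ℝ => Function.update z.1 i z.2)
      ((stdG ι).prod (gaussianReal 0 1)) (stdG ι) := P150.measurePreserving_update (κ := ι) i
  have hA0 : 0 ≤ A := nonneg_of_mul_nonneg_left ((abs_nonneg _).trans (hA 0).1) (exp_pos _)
  have iG : Integrable G (stdG ι) := ((gaussSize ι).int A |>.const_mul A).mono'
    hm.aestronglyMeasurable (ae_of_all _ fun y => (hA y).1)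
  have iG' : Integrable G' (stdG ι) := ((gaussSize ι).int A |>.const_mul A).mono'
    hm'.aestronglyMeasurable (ae_of_all _ fun y => (hA y).2)
  have iyG : Integrable (fun y => y i * G y) (stdG ι) :=
    ((gaussSize ι).int (A + 1) |>.const_mul A).mono'
      (((measurable_pi_apply i).mul hm).aestronglyMeasurable) (ae_of_all _ fun y => by
        rw [Real.norm_eq_abs, abs_mul]
        have h1 : |y i| ≤ exp (∑ a, |y a|) :=
          (single_le_sum (fun a _ => abs_nonneg (y a)) (mem_univ i)).trans
            (by linarith [add_one_le_exp (∑ a, |y a|)])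
        calc |y i| * |G y| ≤ exp (∑ a, |y a|) * (A * exp (A * ∑ a, |y a|)) :=
              mul_le_mul h1 (hA y).1 (abs_nonneg _) (exp_pos _).le
          _ = _ := by simp only [gaussSize]; rw [add_mul, one_mul, exp_add]; ring)
  have i1 := hu.integrable_comp_of_integrable iG
  have i2 := hu.integrable_comp_of_integrable iG'
  have i3 := hu.integrable_comp_of_integrable iyG
  rw [← hu.map_eq, integral_map hu.measurable.aemeasurable (by rw [hu.map_eq]; exact iyG.1),
    integral_map hu.measurable.aemeasurable (by rw [hu.map_eq]; exact iG'.1)]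
  simp only [Function.comp_def] at i1 i2 i3
  rw [integral_prod _ i3, integral_prod _ i2]
  refine integral_congr_ae ?_
  filter_upwards [i1.prod_right_ae, i2.prod_right_ae, i3.prod_right_ae] with y h1 h2 h3
  simp only [Function.update_self] at h1 h2 h3 ⊢
  exact P150.stein (fun x => by
    have := hd (Function.update y i x)
    simpa [Function.update_idem] using this) h1 h2 h3

variable {k : ℕ} {Z X : Type} [MeasurableSpace Z] [MeasurableSpace X]
  {γ : Measure Z} {μ : Measure X}

/-- Conjugation by a map of the fields that commutes with the integrated coordinates. -/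
theorem val_cnd_comp {H φ : (Fin k → Z) → X → ℝ} {T : (Fin k → Z) → (Fin k → Z)} {j₀ : ℕ}
    (hT : ∀ i, j₀ ≤ i → ∀ z y, T (put z i y) = put (T z) i y) (j : ℕ) (hj₀ : j₀ ≤ j) (z : Fin k → Z) :
    val γ μ (fun z x => H (T z) x) j z = val γ μ H j (T z) ∧
      cnd γ μ (fun z x => H (T z) x) (fun z x => φ (T z) x) j z = cnd γ μ H φ j (T z) := by
  induction j using levels_induction (k := k) generalizing z with
  | htop j hj => simp only [val_of_le hj, cnd_of_le hj, val_top, cnd_top, and_self]
  | hstep j hj hjk ih =>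
    have h1 := fun y => (ih (by omega) (put z (j - 1) y)).1
    have h2 := fun y => (ih (by omega) (put z (j - 1) y)).2
    simp only [val_step hj hjk, cnd_step hj hjk, h1, h2, hT (j - 1) hj₀, and_self]

variable {ι : Type} [Fintype ι] [DecidableEq ι]

/-- The shift of one coordinate. -/
def shiftAt (a : Fin k) (i : ι) (s : ℝ) (z : Fin k → ι → ℝ) : Fin k → ι → ℝ :=
  Function.update z a (Function.update (z a) i (z a i + s))

theorem cnd_ibp {X : Type} [MeasurableSpace X] {μ : Measure X}
    [IsFiniteMeasure μ] [NeZero μ] {H φ dH dφ : (Fin k → ι → ℝ) → X → ℝ} (i : ι) (a : Fin k)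
    (hH : LinB (gaussSize ι) H) (hφ : Tame (gaussSize ι) φ) (hdH : Tame (gaussSize ι) dH)
    (hdφ : Tame (gaussSize ι) dφ)
    (hderH : ∀ z x, HasDerivAt (fun t => H (Function.update z a (Function.update (z a) i t)) x)
      (dH z x) (z a i))
    (hderφ : ∀ z x, HasDerivAt (fun t => φ (Function.update z a (Function.update (z a) i t)) x)
      (dφ z x) (z a i)) {j : ℕ} (hj : j ≤ a) (z : Fin k → ι → ℝ) :
    cnd (stdG ι) μ H (fun z x => z a i * φ z x) j z =
      cnd (stdG ι) μ H (fun z x => dφ z x + φ z x * dH z x) j z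
        - mass k * ∑ l ∈ Icc ((a : ℕ) + 1) k,
            cnd (stdG ι) μ H (fun z _ => cnd (stdG ι) μ H φ l z * cnd (stdG ι) μ H dH l z) j z := by
  set w := gaussSize ι with hw
  have tA : Tame w fun z x => dφ z x + φ z x * dH z x := hdφ.add (hφ.mul hdH)
  have tL : ∀ l, Tame w fun z (_ : X) => cnd (stdG ι) μ H φ l z * cnd (stdG ι) μ H dH l z :=
    fun l => (cnd_tame hH hφ l).mul (cnd_tame hH hdH l)
  -- the statement at level `a`
  suffices key : ∀ z, cnd (stdG ι) μ H (fun z x => z a i * φ z x) a z =
      cnd (stdG ι) μ H (fun z x => dφ z x + φ z x * dH z x) a z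
        - mass k * ∑ l ∈ Icc ((a : ℕ) + 1) k,
            cnd (stdG ι) μ H (fun z _ => cnd (stdG ι) μ H φ l z * cnd (stdG ι) μ H dH l z) a z by
    rw [← cnd_tower (φ := fun (z : Fin k → ι → ℝ) x => z a i * φ z x) hH hj z,
      funext₂ fun z (_ : X) => key z,
      cnd_sub hH (cnd_tame hH tA a) ((Tame.sum _ fun l _ => cnd_tame hH (tL l) a).const_mul _),
      cnd_const_mul, cnd_finsum hH _ (fun l _ => cnd_tame hH (tL l) a)]
    simp only [cnd_tower hH hj]
  intro z
  set A : ℕ := (a : ℕ) with hA
  have ha1 : 1 ≤ A + 1 := by omega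
  have ha2 : A + 1 ≤ k := a.2
  have step := cnd_step (γ := stdG ι) (μ := μ) ha1 ha2 z H
  have hput : ∀ (z : Fin k → ι → ℝ) (y : ι → ℝ), put z A y = Function.update z a y := fun z y => by
    funext b
    by_cases hb : b = a
    · subst hb; simp [put, hA]
    · rw [Function.update_of_ne hb, put, if_neg fun e => hb (Fin.ext e)]
  simp only [Nat.add_sub_cancel, hput] at step
  -- the shifted family
  set H' : ℝ → (Fin k → ι → ℝ) → X → ℝ := fun s z x => H (shiftAt a i s z) x with hH'
  have hT : ∀ s, ∀ l, A + 1 ≤ l → ∀ (z : Fin k → ι → ℝ) y,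
      shiftAt a i s (put z l y) = put (shiftAt a i s z) l y := by
    intro s l hl z y
    funext b
    by_cases hb : b = a
    · subst hb; simp [shiftAt, put, show ¬ A = l by omega, ← hA]
    · simp [shiftAt, put, Function.update_of_ne hb]
  have htot : ∀ s z, w.tot (shiftAt a i s z) ≤ w.tot z + |s| := by
    intro s z
    simp only [Size.tot, hw, gaussSize]
    rw [← Finset.add_sum_erase _ _ (mem_univ a), ← Finset.add_sum_erase _ _ (mem_univ a)]
    have e : ∑ b ∈ univ.erase a, ∑ c, |shiftAt a i s z b c| = ∑ b ∈ univ.erase a, ∑ c, |z b c| :=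
      sum_congr rfl fun b hb => by simp [shiftAt, Function.update_of_ne (ne_of_mem_erase hb)]
    rw [e]
    have : ∑ c, |shiftAt a i s z a c| ≤ ∑ c, (|z a c| + if c = i then |s| else 0) :=
      sum_le_sum fun c _ => by
        by_cases hc : c = i
        · subst hc; simp [shiftAt, abs_add_le]
        · simp [shiftAt, Function.update_of_ne hc, hc]
    rw [sum_add_distrib, sum_ite_eq'] at this
    simp only [mem_univ, if_true] at this
    linarith
  have hmT : ∀ s, Measurable (shiftAt a i s : (Fin k → ι → ℝ) → Fin k → ι → ℝ) := fun s => by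
    refine measurable_pi_lambda _ fun b => measurable_pi_lambda _ fun c => ?_
    by_cases hb : b = a
    · subst hb
      by_cases hc : c = i
      · subst hc; simp only [shiftAt, Function.update_self]; fun_prop
      · simp only [shiftAt, Function.update_self, Function.update_of_ne hc]; fun_prop
    · simp only [shiftAt, Function.update_of_ne hb]; fun_prop
  obtain ⟨B1, hB1, hb1⟩ := hH.bound
  obtain ⟨B2, hB2, hb2⟩ := hdH.bound
  obtain ⟨B3, hB3, hb3⟩ := hφ.bound
  obtain ⟨B4, hB4, hb4⟩ := hdφ.bound
  have hF : Family w H' (fun s z x => φ (shiftAt a i s z) x) (fun s z x => dH (shiftAt a i s z) x)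
      (fun s z x => dφ (shiftAt a i s z) x) 0 1 := by
    have hd : ∀ {ψ dψ : (Fin k → ι → ℝ) → X → ℝ},
        (∀ z x, HasDerivAt (fun t => ψ (Function.update z a (Function.update (z a) i t)) x)
          (dψ z x) (z a i)) →
        ∀ s z x, HasDerivAt (fun t => ψ (shiftAt a i t z) x) (dψ (shiftAt a i s z) x) s := by
      intro ψ dψ h s z x
      have h1 := h (shiftAt a i s z) x
      have e : ∀ t, Function.update (shiftAt a i s z) a (Function.update (shiftAt a i s z a) i t)
          = Function.update z a (Function.update (z a) i t) := fun t => by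
        simp [shiftAt, Function.update_idem]
      simp only [e] at h1
      rw [show shiftAt a i s z a i = z a i + s by simp [shiftAt]] at h1
      exact h1.comp_const_add (z a i) s
    set B := 2 * B1 + (B2 + B3 + B4) + (B2 * exp B2 + B3 * exp B3 + B4 * exp B4) with hB
    have p2 : 0 ≤ B2 * exp B2 := by positivity
    have p3 : 0 ≤ B3 * exp B3 := by positivity
    have p4 : 0 ≤ B4 * exp B4 := by positivity
    refine ⟨one_pos, fun s => hH.meas.comp ((hmT s).comp measurable_fst |>.prodMk measurable_snd),
      fun s => hdH.meas.comp ((hmT s).comp measurable_fst |>.prodMk measurable_snd),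
      fun s => hφ.meas.comp ((hmT s).comp measurable_fst |>.prodMk measurable_snd),
      fun s => hdφ.meas.comp ((hmT s).comp measurable_fst |>.prodMk measurable_snd),
      ⟨B, by positivity, fun s hs z x => ?_⟩, fun s _ => hd hderH s, fun s _ => hd hderφ s⟩
    rw [sub_zero] at hs
    have ht := w.tot_nonneg z
    have h1 : w.tot (shiftAt a i s z) ≤ w.tot z + 1 := (htot s z).trans (by linarith)
    have hexp : ∀ {C : ℝ}, 0 ≤ C → C ≤ B → C * exp C ≤ B →
        C * exp (C * w.tot (shiftAt a i s z)) ≤ B * exp (B * w.tot z) := fun {C} hC hCB hCB' => by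
      calc C * exp (C * w.tot (shiftAt a i s z)) ≤ C * exp (C + C * w.tot z) :=
            mul_le_mul_of_nonneg_left (exp_le_exp.2 (by nlinarith)) hC
        _ = C * exp C * exp (C * w.tot z) := by rw [exp_add]; ring
        _ ≤ _ := mul_le_mul hCB' (exp_le_exp.2 (mul_le_mul_of_nonneg_right hCB ht)) (exp_pos _).le
            (by positivity)
    refine ⟨(hb1 _ x).trans ?_, (hb2 _ x).trans (hexp hB2 (by linarith) (by linarith)),
      (hb3 _ x).trans (hexp hB3 (by linarith) (by linarith)),
      (hb4 _ x).trans (hexp hB4 (by linarith) (by linarith))⟩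
    calc B1 * (1 + w.tot (shiftAt a i s z)) ≤ B1 * (2 * (1 + w.tot z)) :=
          mul_le_mul_of_nonneg_left (by linarith) hB1
      _ = 2 * B1 * (1 + w.tot z) := by ring
      _ ≤ _ := mul_le_mul_of_nonneg_right (by linarith) (by linarith)
  set m := lev k (A + 1) with hm
  set V := val (stdG ι) μ H (A + 1) with hV
  set c := cnd (stdG ι) μ H φ (A + 1) with hc
  set h := cnd (stdG ι) μ H dH (A + 1) with hh
  set D := cndDer (stdG ι) μ H φ dH dφ (A + 1) with hD
  set G := fun y => c (Function.update z a y) * exp (m * V (Function.update z a y)) with hG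
  set G' := fun y => (D (Function.update z a y) + m * (c (Function.update z a y) * h (Function.update z a y)))
      * exp (m * V (Function.update z a y)) with hG'
  have sh0 : ∀ z, shiftAt a i 0 z = z := fun z => by simp [shiftAt]
  have hder : ∀ y, HasDerivAt (fun t => G (Function.update y i t)) (G' y) (y i) := by
    intro y
    set p := Function.update z a y
    have hv := hasDerivAt_val hF (μ := μ) (A + 1) p
    have hcd := hasDerivAt_cnd hF (μ := μ) (j := A + 1) ha2 p
    have eV : ∀ s, val (stdG ι) μ (H' s) (A + 1) p = V (shiftAt a i s p) := fun s =>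
      (val_cnd_comp (γ := stdG ι) (μ := μ) (H := H) (φ := φ) (hT s) (A + 1) le_rfl p).1
    have eC : ∀ s, cnd (stdG ι) μ (H' s) (fun z x => φ (shiftAt a i s z) x) (A + 1) p
        = c (shiftAt a i s p) := fun s =>
      (val_cnd_comp (γ := stdG ι) (μ := μ) (H := H) (φ := φ) (hT s) (A + 1) le_rfl p).2
    have eH : H' 0 = H := funext₂ fun z x => by simp only [hH', sh0]
    simp only [eV, sh0, eH] at hv
    simp only [eC, sh0, eH] at hcd
    have eP : ∀ t, Function.update z a (Function.update y i t) = shiftAt a i (t - y i) p := fun t => by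
      simp [shiftAt, p, Function.update_idem]
    simp only [hG, eP]
    have h1 : HasDerivAt (fun s => c (shiftAt a i s p) * exp (m * V (shiftAt a i s p)))
        ((D p + m * (c p * h p)) * exp (m * V p)) (y i - y i) := by
      rw [sub_self]
      refine (hcd.mul (hv.const_mul m).exp).congr_deriv ?_
      simp only [sh0, hD, hh]; ring
    exact h1.comp_sub_const (y i) (y i)
  have tw : ∀ y, w.tot (Function.update z a y) ≤ w.tot z + ∑ b, |y b| := fun y => by
    rw [← hput]; exact w.tot_put z A y
  obtain ⟨mc, A1, hA1, bc⟩ := cnd_regular (γ := stdG ι) (μ := μ) hH hφ (A + 1)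
  obtain ⟨mh, A2, hA2, bh⟩ := cnd_regular (γ := stdG ι) (μ := μ) hH hdH (A + 1)
  obtain ⟨mv, -⟩ := val_regular (γ := stdG ι) (μ := μ) hH (A + 1)
  obtain ⟨A3, hA3, bv⟩ := exp_val_bound (γ := stdG ι) (μ := μ) hH m (A + 1)
  have mD : Measurable D := cndDer_measurable hH hφ hdH hdφ _
  obtain ⟨A4, hA4, bd⟩ := hF.der_bound (μ := μ)
  have bd' : ∀ z, |D z| ≤ A4 * exp (A4 * w.tot z) := fun z => by
    have := (bd 0 (by simp) (A + 1) ha2 z).2.2.2
    simpa [hD, hH', sh0] using this
  have mU : Measurable fun y : ι → ℝ => Function.update z a y := measurable_update z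
  have hibp := gauss_ibp i (G := G) (G' := G') hder ((mc.comp mU).mul (((mv.comp mU).const_mul m).exp))
    (((mD.comp mU).add (((mc.comp mU).mul (mh.comp mU)).const_mul m)).mul
      (((mv.comp mU).const_mul m).exp)) (by
    set K1 := A1 + A2 + A3 + A4 with hK1
    set E := exp (K1 * w.tot z) with hE
    set K := A1 * A3 * E * E + (A4 * A3 * E * E + m * (A1 * A2 * A3) * E * E * E) + 3 * K1 with hK
    have hm0 : 0 ≤ m := lev_nonneg _
    have hE1 : 1 ≤ E := one_le_exp (mul_nonneg (by positivity) (w.tot_nonneg z))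
    have q1 : 0 ≤ A1 * A3 * E * E := by positivity
    have q2 : 0 ≤ A4 * A3 * E * E + m * (A1 * A2 * A3) * E * E * E := by positivity
    refine ⟨K, fun y => ?_⟩
    set S := ∑ b, |y b| with hS
    have hS0 : 0 ≤ S := by positivity
    have e1 : ∀ {C : ℝ}, 0 ≤ C → C ≤ K1 → exp (C * w.tot (Function.update z a y)) ≤ E * exp (K1 * S) :=
      fun {C} hC hCK => by
        rw [hE, ← exp_add, ← mul_add]
        exact exp_le_exp.2 (mul_le_mul hCK (tw y) (w.tot_nonneg _) (by positivity))
    have hc' := (bc (Function.update z a y)).trans (mul_le_mul_of_nonneg_left (e1 hA1 (by linarith)) hA1)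
    have hh' := (bh (Function.update z a y)).trans (mul_le_mul_of_nonneg_left (e1 hA2 (by linarith)) hA2)
    have hv' := (bv (Function.update z a y)).trans (mul_le_mul_of_nonneg_left (e1 hA3 (by linarith)) hA3)
    have hd' := (bd' (Function.update z a y)).trans (mul_le_mul_of_nonneg_left (e1 hA4 (by linarith)) hA4)
    constructor
    · simp only [hG]
      rw [abs_mul, abs_of_pos (exp_pos _)]
      refine (mul_le_mul hc' hv' (exp_pos _).le (by positivity)).trans ?_
      rw [show A1 * (E * exp (K1 * S)) * (A3 * (E * exp (K1 * S)))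
        = A1 * A3 * E * E * exp (2 * K1 * S) by
          rw [show 2 * K1 * S = K1 * S + K1 * S by ring, exp_add]; ring]
      exact mul_le_mul (by rw [hK]; linarith) (exp_le_exp.2 (mul_le_mul_of_nonneg_right
        (by rw [hK]; linarith) hS0)) (exp_pos _).le (by rw [hK]; positivity)
    · simp only [hG']
      rw [abs_mul, abs_of_pos (exp_pos _)]
      have hcm : |m * (c (Function.update z a y) * h (Function.update z a y))|
          ≤ m * (A1 * A2 * E * E * exp (2 * K1 * S)) := by
        rw [abs_mul, abs_of_nonneg hm0, abs_mul]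
        refine mul_le_mul_of_nonneg_left ((mul_le_mul hc' hh' (abs_nonneg _) (by positivity)).trans ?_) hm0
        rw [show 2 * K1 * S = K1 * S + K1 * S by ring, exp_add]
        exact le_of_eq (by ring)
      have hd2 : A4 * (E * exp (K1 * S)) ≤ A4 * E * exp (2 * K1 * S) := by
        rw [mul_assoc]
        exact mul_le_mul_of_nonneg_left (mul_le_mul_of_nonneg_left
          (exp_le_exp.2 (by nlinarith)) (exp_pos _).le) hA4
      refine (mul_le_mul ((abs_add_le _ _).trans (add_le_add (hd'.trans hd2) hcm)) hv' (exp_pos _).le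
        (by positivity)).trans ?_
      rw [show (A4 * E * exp (2 * K1 * S) + m * (A1 * A2 * E * E * exp (2 * K1 * S)))
        * (A3 * (E * exp (K1 * S)))
        = (A4 * A3 * E * E + m * (A1 * A2 * A3) * E * E * E) * exp (3 * K1 * S) by
          rw [show 3 * K1 * S = 2 * K1 * S + K1 * S by ring, exp_add]; ring]
      exact mul_le_mul (by rw [hK]; linarith) (exp_le_exp.2 (mul_le_mul_of_nonneg_right
        (by rw [hK]; linarith) hS0)) (exp_pos _).le (by rw [hK]; positivity))
  -- both sides
  have hz : Upto (A + 1) fun z : Fin k → ι → ℝ => z a i := fun u v huv => by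
    simp only [huv a (by omega)]
  have L1 : cnd (stdG ι) μ H (fun z x => z a i * φ z x) A z
      = (∫ y, y i * G y ∂stdG ι) / ∫ y, exp (m * V (Function.update z a y)) ∂stdG ι := by
    rw [step]
    simp only [cnd_pull hz, Function.update_self, hG, mul_assoc, hc, hV, hm]
  have uD : Upto (A + 1) fun z => D z + m * (c z * h z) := by
    intro u v huv
    simp only [hD, hc, hh, cndDer, cnd_upto (A + 1) u v huv]
  have L2 : (∫ y, G' y ∂stdG ι) / ∫ y, exp (m * V (Function.update z a y)) ∂stdG ι
      = cnd (stdG ι) μ H (fun z _ => D z + m * (c z * h z)) A z := by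
    rw [step]
    have e := fun y => cnd_const_fun (γ := stdG ι) (μ := μ) hH uD (Function.update z a y)
    simp only [hV, hm] at e
    simp only [hG', hV, hm, e]
  rw [L1, hibp, L2]
  have hsplit : (fun (z : Fin k → ι → ℝ) (_ : X) => D z + m * (c z * h z))
      = fun z _ => cnd (stdG ι) μ H (fun z x => dφ z x + φ z x * dH z x) (A + 1) z
          + (-mass k) * ∑ l ∈ Icc (A + 1) k,
            cnd (stdG ι) μ H (fun z _ => cnd (stdG ι) μ H φ l z * cnd (stdG ι) μ H dH l z) (A + 1) z := by
    funext z _
    have hd : cnd (stdG ι) μ H (fun z _ => cnd (stdG ι) μ H φ (A + 1) z * cnd (stdG ι) μ H dH (A + 1) z)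
        (A + 1) z = c z * h z := cnd_const_fun hH (c := fun z => c z * h z)
          (fun u v huv => by simp only [hc, hh, cnd_upto (A + 1) u v huv]) z
    rw [← Finset.insert_Icc_add_one_left_eq_Icc ha2, sum_insert (by simp), hD, cndDer, hd, lev_succ, ← hm]
    ring
  rw [hsplit, cnd_add hH (cnd_tame hH tA _)
    ((Tame.sum _ fun l _ => cnd_tame hH (tL l) _).const_mul _), cnd_const_mul,
    cnd_finsum hH _ (fun l _ => cnd_tame hH (tL l) _), cnd_tower hH (by omega)]
  simp only [cnd_tower hH (show A ≤ A + 1 by omega)]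
  ring

/-! ### change of variables and independent parts -/

theorem val_map [IsProbabilityMeasure γ] [IsFiniteMeasure μ] [NeZero μ] {w : Size γ}
    {H : (Fin k → Z) → X → ℝ} {Z' X' : Type} [MeasurableSpace Z'] [MeasurableSpace X']
    {γ' : Measure Z'} {μ' : Measure X'} {F : Z' → Z} {G : X' → X} (hF : MeasurePreserving F γ' γ)
    (hG : MeasurePreserving G μ' μ) (hH : LinB w H) (j : ℕ) (z : Fin k → Z') :
    val γ' μ' (fun z x => H (fun i => F (z i)) (G x)) j z = val γ μ H j (fun i => F (z i)) ∧
    ∀ φ, Tame w φ → cnd γ' μ' (fun z x => H (fun i => F (z i)) (G x))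
        (fun z x => φ (fun i => F (z i)) (G x)) j z = cnd γ μ H φ j (fun i => F (z i)) := by
  have hp : ∀ (z : Fin k → Z') i y, (fun b => F (put z i y b)) = put (fun b => F (z b)) i (F y) :=
    fun z i y => funext fun b => by by_cases hb : (b : ℕ) = i <;> simp [put, hb]
  have hI : ∀ {u : X → ℝ}, Measurable u → ∫ x, u (G x) ∂μ' = ∫ x, u x ∂μ := fun {u} hu => by
    rw [← hG.map_eq, integral_map hG.measurable.aemeasurable hu.aestronglyMeasurable]
  have hJ : ∀ {u : Z → ℝ}, Measurable u → ∫ y, u (F y) ∂γ' = ∫ y, u y ∂γ := fun {u} hu => by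
    rw [← hF.map_eq, integral_map hF.measurable.aemeasurable hu.aestronglyMeasurable]
  induction j using levels_induction (k := k) generalizing z with
  | htop j hj =>
    refine ⟨?_, fun φ hφ => ?_⟩
    · simp only [val_of_le hj, val_top]
      rw [hI (hH.meas_right _).exp]
    · simp only [cnd_of_le hj, cnd_top]
      rw [hI (u := fun x => φ (fun i => F (z i)) x * exp (H (fun i => F (z i)) x))
        ((hφ.meas_right _).mul (hH.meas_right _).exp), hI (hH.meas_right _).exp]
  | hstep j hj hjk ih =>
    have hv := fun (z : Fin k → Z) =>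
      (((val_regular (γ := γ) (μ := μ) hH j).1.comp (measurable_put_right z (j - 1))).const_mul (lev k j)).exp
    refine ⟨?_, fun φ hφ => ?_⟩
    · simp only [val_step hj hjk, fun y => (ih (put z (j - 1) y)).1, hp]
      rw [hJ (u := fun y => exp (lev k j * val γ μ H j (put (fun b => F (z b)) (j - 1) y))) (hv _)]
    · simp only [cnd_step hj hjk, fun y => (ih (put z (j - 1) y)).1,
        fun y => (ih (put z (j - 1) y)).2 φ hφ, hp]
      rw [hJ (u := fun y => cnd γ μ H φ j (put (fun b => F (z b)) (j - 1) y)
            * exp (lev k j * val γ μ H j (put (fun b => F (z b)) (j - 1) y)))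
          (((cnd_regular (γ := γ) (μ := μ) hH hφ j).1.comp (measurable_put_right _ (j - 1))).mul (hv _)),
        hJ (u := fun y => exp (lev k j * val γ μ H j (put (fun b => F (z b)) (j - 1) y))) (hv _)]

theorem val_prod [IsProbabilityMeasure γ] [IsFiniteMeasure μ] [NeZero μ] {w : Size γ}
    {H : (Fin k → Z) → X → ℝ} {Z' X' : Type} [MeasurableSpace Z'] [MeasurableSpace X']
    {γ' : Measure Z'} [IsProbabilityMeasure γ'] {μ' : Measure X'} [IsFiniteMeasure μ'] [NeZero μ']
    {w' : Size γ'} {K : (Fin k → Z') → X' → ℝ} (hH : LinB w H) (hK : LinB w' K) (j : ℕ)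
    (z : Fin k → Z × Z') :
    val (γ.prod γ') (μ.prod μ')
        (fun z x => H (fun i => (z i).1) x.1 + K (fun i => (z i).2) x.2) j z
      = val γ μ H j (fun i => (z i).1) + val γ' μ' K j (fun i => (z i).2) ∧
    ∀ (φ : (Fin k → Z) → X → ℝ) (ψ : (Fin k → Z') → X' → ℝ),
      cnd (γ.prod γ') (μ.prod μ')
          (fun z x => H (fun i => (z i).1) x.1 + K (fun i => (z i).2) x.2)
          (fun z x => φ (fun i => (z i).1) x.1 * ψ (fun i => (z i).2) x.2) j z
        = cnd γ μ H φ j (fun i => (z i).1) * cnd γ' μ' K ψ j (fun i => (z i).2) := by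
  have hp1 : ∀ (z : Fin k → Z × Z') i y,
      (fun b => (put z i y b).1) = put (fun b => (z b).1) i y.1 :=
    fun z i y => funext fun b => by by_cases hb : (b : ℕ) = i <;> simp [put, hb]
  have hp2 : ∀ (z : Fin k → Z × Z') i y,
      (fun b => (put z i y b).2) = put (fun b => (z b).2) i y.2 :=
    fun z i y => funext fun b => by by_cases hb : (b : ℕ) = i <;> simp [put, hb]
  induction j using levels_induction (k := k) generalizing z with
  | htop j hj =>
    refine ⟨?_, fun φ ψ => ?_⟩
    · simp only [val_of_le hj, val_top, exp_add]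
      rw [integral_prod_mul (fun x => exp (H (fun i => (z i).1) x)) (fun x => exp (K (fun i => (z i).2) x)),
        log_mul (integral_exp_pos (integrable_exp_leaf hH _)).ne'
          (integral_exp_pos (integrable_exp_leaf hK _)).ne']
    · simp only [cnd_of_le hj, cnd_top, exp_add, mul_mul_mul_comm _ (ψ _ _)]
      rw [integral_prod_mul (fun x => φ (fun i => (z i).1) x * exp (H (fun i => (z i).1) x))
          (fun x => ψ (fun i => (z i).2) x * exp (K (fun i => (z i).2) x)),
        integral_prod_mul (fun x => exp (H (fun i => (z i).1) x)) (fun x => exp (K (fun i => (z i).2) x)),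
        mul_div_mul_comm]
  | hstep j hj hjk ih =>
    refine ⟨?_, fun φ ψ => ?_⟩
    · simp only [val_step hj hjk, fun y => (ih (put z (j - 1) y)).1, hp1, hp2, mul_add, exp_add]
      rw [integral_prod_mul (fun y => exp (lev k j * val γ μ H j (put (fun b => (z b).1) (j - 1) y)))
          (fun y => exp (lev k j * val γ' μ' K j (put (fun b => (z b).2) (j - 1) y))),
        log_mul (integrable_val_step (μ := μ) hH _ _).2.ne' (integrable_val_step (μ := μ') hK _ _).2.ne',
        add_div]
    · simp only [cnd_step hj hjk, fun y => (ih (put z (j - 1) y)).1,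
        fun y => (ih (put z (j - 1) y)).2 φ ψ, hp1, hp2, mul_add, exp_add]
      simp only [mul_mul_mul_comm _ (cnd γ' μ' K ψ j _)]
      rw [integral_prod_mul
          (fun y => cnd γ μ H φ j (put (fun b => (z b).1) (j - 1) y)
            * exp (lev k j * val γ μ H j (put (fun b => (z b).1) (j - 1) y)))
          (fun y => cnd γ' μ' K ψ j (put (fun b => (z b).2) (j - 1) y)
            * exp (lev k j * val γ' μ' K j (put (fun b => (z b).2) (j - 1) y))),
        integral_prod_mul (fun y => exp (lev k j * val γ μ H j (put (fun b => (z b).1) (j - 1) y)))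
          (fun y => exp (lev k j * val γ' μ' K j (put (fun b => (z b).2) (j - 1) y))),
        mul_div_mul_comm]

end Vale.Agent.P157.Rsb
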