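import Vale.Agent.P157.Rsb.SyncRoot

/-!
# P157: fluctuations of one field energy along an interval of its amplitude

The root value is convex in the amplitude with slope the mean energy.  The derivative of the slope
dominates the thermal variance, and convexity transfers the concentration of the value to the slope.
-/

open MeasureTheory ProbabilityTheory Real Finset

namespace Vale.Agent.P157.Rsb.Lf

variable {n M k : ℕ} {f : ℝ → ℝ} {L : ℝ}

/-- The energy of one field per unit of `√N`. -/
noncomputable def eObs (S : Leaf n) (N : ℝ) (a : Fin k) (z : Fin k → FieldIdx n → ℝ) (x : S.X) : ℝ :=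
  (√N)⁻¹ * fieldDot S a z x

theorem tame_eObs (S : Leaf n) (N : ℝ) (a : Fin k) : Tame (wn n) (eObs S N a) :=
  (tame_fieldDot S a).const_mul _

theorem tame_eObs_sq (S : Leaf n) (N : ℝ) (a : Fin k) :
    Tame (wn n) fun z x => eObs S N a z x ^ 2 :=
  ((tame_eObs S N a).mul (tame_eObs S N a)).congr fun _ _ => (pow_two _).symm

/-- The mean energy. -/
noncomputable def eMean (S : Leaf n) (f : ℝ → ℝ) (N : ℝ) (σ β : ℕ → ℝ) (g : Fin M → Fin n → ℝ)
    (a : Fin k) : ℝ :=
  cnd (gn n) S.μ (ham S f N σ β g) (eObs S N a) 0 fun _ _ => 0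

/-- The thermal variance of the energy. -/
noncomputable def eVar (S : Leaf n) (f : ℝ → ℝ) (N : ℝ) (σ β : ℕ → ℝ) (g : Fin M → Fin n → ℝ)
    (a : Fin k) : ℝ :=
  cnd (gn n) S.μ (ham S f N σ β g) (fun z x => eObs S N a z x ^ 2) 0 (fun _ _ => 0)
    - eMean S f N σ β g a ^ 2

/-- The root value, with the compensation of one amplitude removed. -/
noncomputable def cval (S : Leaf n) (f : ℝ → ℝ) (N : ℝ) (σ β : ℕ → ℝ) (g : Fin M → Fin n → ℝ)
    (a : Fin k) : ℝ :=
  val (gn n) S.μ (ham (k := k) S f N σ β g) 0 (fun _ _ => 0) / N + σ ((a : ℕ) + 1) ^ 2 / 2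

theorem setAmp_self (σ : ℕ → ℝ) (a : Fin k) (s : ℝ) : setAmp σ a s ((a : ℕ) + 1) = s :=
  Function.update_self _ _ _

theorem setAmp_setAmp (σ : ℕ → ℝ) (a : Fin k) (s t : ℝ) : setAmp (setAmp σ a s) a t = setAmp σ a t :=
  Function.update_idem _ _ _

section

variable (S : Leaf n) (hu : ∀ x, sdot (S.fld x) (S.fld x) = 1) (hm : Measurable f)
  (hL : ∀ u, |f u| ≤ L) {N : ℝ} (hN : 0 < N) (σ β : ℕ → ℝ) (a : Fin k)

/-- A root bound that is uniform in the patterns and in bounded amplitudes. -/
theorem root_bound (hm : Measurable f) (hL : ∀ u, |f u| ≤ L) (N : ℝ) (β : ℕ → ℝ) (R : ℝ)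
    {φ : (Fin k → FieldIdx n → ℝ) → S.X → ℝ} (hφ : Tame (wn n) φ) :
    ∃ B, 0 ≤ B ∧ ∀ σ : ℕ → ℝ, (∀ l : Fin k, |σ ((l : ℕ) + 1)| ≤ R) → ∀ g : Fin M → Fin n → ℝ,
      |cnd (gn n) S.μ (ham S f N σ β g) φ 0 fun _ _ => 0| ≤ B := by
  obtain ⟨A, hA, hb⟩ := ham_bound (M := M) (k := k) S hL N β R
  obtain ⟨D, hD, hd⟩ := hφ.bound
  obtain ⟨A', hA0, hA'⟩ := cnd_bound_unif (k := k) (μ := S.μ) (wn n) (show 0 ≤ A + D by positivity)
  refine ⟨A' * exp (A' * (wn n).tot fun (_ : Fin k) _ => 0), by positivity, fun σ hσ g => ?_⟩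
  exact hA' _ _ (ham_meas_right S hm N σ β g) hφ.meas
    (fun z x => (hb σ hσ g z x).trans (mul_le_mul_of_nonneg_right (by linarith)
      (by linarith [(wn n).tot_nonneg z])))
    (fun z x => Tame.mono_bound hD (by linarith) hd z x) 0 _

/-- Joint measurability of the Hamiltonian in the amplitudes and the patterns. -/
theorem ham_meas_param {Q : Type} [MeasurableSpace Q] (hm : Measurable f) (N : ℝ) (β : ℕ → ℝ)
    {σf : Q → ℕ → ℝ} (hσ : ∀ l : Fin k, Measurable fun q => σf q ((l : ℕ) + 1)) :
    Measurable fun p : ((Q × (Fin M → Fin n → ℝ)) × (Fin k → FieldIdx n → ℝ)) × S.X =>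
      ham S f N (σf p.1.1.1) β p.1.1.2 p.1.2 p.2 := by
  have := S.fld_meas
  have := S.pat_meas
  have := S.aux_meas
  have := S.det_meas
  have h : ∀ l : Fin k, Measurable fun p : ((Q × (Fin M → Fin n → ℝ)) × (Fin k → FieldIdx n → ℝ)) × S.X =>
      σf p.1.1.1 ((l : ℕ) + 1) :=
    fun l => (hσ l).comp (measurable_fst.comp (measurable_fst.comp measurable_fst))
  simp only [ham, sdot]
  fun_prop

theorem meas_root {Q : Type} [MeasurableSpace Q] (hm : Measurable f) (N : ℝ) (β : ℕ → ℝ)
    {σf : Q → ℕ → ℝ} (hσ : ∀ l : Fin k, Measurable fun q => σf q ((l : ℕ) + 1))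
    {φ : Q → (Fin k → FieldIdx n → ℝ) → S.X → ℝ}
    (hφ : Measurable fun p : (Q × (Fin k → FieldIdx n → ℝ)) × S.X => φ p.1.1 p.1.2 p.2) :
    Measurable fun p : Q × (Fin M → Fin n → ℝ) =>
      cnd (gn n) S.μ (ham S f N (σf p.1) β p.2) (φ p.1) 0 fun _ _ => 0 :=
  cnd_measurable_param_at (φ := fun p : Q × (Fin M → Fin n → ℝ) => φ p.1) (ham_meas_param S hm N β hσ)
    (hφ.comp (f := fun p : ((Q × (Fin M → Fin n → ℝ)) × (Fin k → FieldIdx n → ℝ)) × S.X =>
      ((p.1.1.1, p.1.2), p.2)) (by fun_prop)) 0 _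

include hu hm hL hN

theorem eMean_eq (g : Fin M → Fin n → ℝ) :
    eMean S f N σ β g a = σ ((a : ℕ) + 1) * (1 - rootTail S f N σ β g k ((a : ℕ) + 1)) := by
  have hH := ham_linB (k := k) S hm hL N σ β g
  unfold eMean eObs
  rw [cnd_const_mul, cnd_fieldDot S hm hL N σ β g a (Nat.zero_le _)]
  simp only [hu, cnd_const hH, rootTail]
  have h0 : (√N)⁻¹ * √N = 1 := inv_mul_cancel₀ (Real.sqrt_pos.2 hN).ne'
  linear_combination (σ ((a : ℕ) + 1) * (1 - mass k * ∑ l ∈ Icc ((a : ℕ) + 1) k,
    cnd (gn n) S.μ (ham S f N σ β g) (fun z _ => mu2 S (ham S f N σ β g) l z) 0 (fun _ _ => 0))) * h0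

theorem abs_eMean_le (g : Fin M → Fin n → ℝ) : |eMean S f N σ β g a| ≤ |σ ((a : ℕ) + 1)| := by
  have hH := ham_linB (k := k) S hm hL N σ β g
  rw [eMean_eq S hu hm hL hN, abs_mul]
  refine mul_le_of_le_one_right (abs_nonneg _) ?_
  have h0 : 0 ≤ rootTail S f N σ β g k ((a : ℕ) + 1) :=
    mul_nonneg mass_pos.le (sum_nonneg fun l _ => cnd_nonneg (fun z _ => sum_nonneg fun i _ => sq_nonneg _) 0 _)
  have h1 : rootTail S f N σ β g k ((a : ℕ) + 1) ≤ 1 := by
    refine (mul_le_mul_of_nonneg_left (sum_le_card_nsmul _ _ (1 : ℝ) fun l _ => ?_) mass_pos.le).trans ?_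
    · exact (cnd_mono hH (tame_mu2 S hH l) (tame_const_fun S 1) (fun z _ => mu2_le_one S hu hH l z) 0 _).trans
        (le_of_eq (cnd_const hH 1 0 _))
    · rw [nsmul_eq_mul, mul_one, Nat.card_Icc, mass, one_div_mul_eq_div, div_le_one (by positivity)]
      exact_mod_cast Nat.sub_le _ _
  rw [abs_le]
  constructor <;> linarith

/-- The value is above its tangents. -/
theorem cval_tangent (g : Fin M → Fin n → ℝ) (s t : ℝ) :
    cval S f N (setAmp σ a s) β g a + (t - s) * eMean S f N (setAmp σ a s) β g a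
      ≤ cval S f N (setAmp σ a t) β g a := by
  have hH := ham_linB (k := k) S hm hL N (setAmp σ a s) β g
  have h := cnd_exp_le (μ := S.μ) hH (ham_linB (k := k) S hm hL N (setAmp σ a t) β g) 0 fun _ _ => 0
  have e : (fun z x => ham (k := k) S f N (setAmp σ a t) β g z x - ham S f N (setAmp σ a s) β g z x)
      = fun z x => ((t - s) * N) * eObs S N a z x - N / 2 * (t ^ 2 - s ^ 2) := funext₂ fun z x => by
    rw [ham_setAmp S f N σ β g a t, ham_setAmp S f N σ β g a s, hu, eObs]
    have : N * (√N)⁻¹ = √N := by rw [← div_eq_mul_inv, div_sqrt]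
    linear_combination (-(t - s) * fieldDot S a z x) * this
  rw [e, cnd_sub hH ((tame_eObs S N a).const_mul _) (tame_const_fun S _), cnd_const hH, cnd_const_mul] at h
  have h2 := div_le_div_of_nonneg_right h hN.le
  simp only [cval, setAmp_self, eMean]
  field_simp at h2 ⊢
  linarith

theorem eMean_mono (g : Fin M → Fin n → ℝ) :
    Monotone fun s => eMean S f N (setAmp σ a s) β g a := fun s t hst => by
  have h1 := cval_tangent S hu hm hL hN σ β a g s t
  have h2 := cval_tangent S hu hm hL hN σ β a g t s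
  rcases eq_or_lt_of_le hst with rfl | h
  · exact le_rfl
  · exact le_of_mul_le_mul_left (show (t - s) * eMean S f N (setAmp σ a s) β g a
      ≤ (t - s) * eMean S f N (setAmp σ a t) β g a by linarith) (by linarith)

omit hu hN in
theorem eVar_nonneg (g : Fin M → Fin n → ℝ) : 0 ≤ eVar S f N σ β g a :=
  sub_nonneg.2 (cnd_sq_le (ham_linB S hm hL N σ β g) (tame_eObs S N a) 0 _)

/-- The derivative of the mean energy dominates the variance. -/
theorem eMean_deriv (g : Fin M → Fin n → ℝ) (s : ℝ) :
    ∃ D, HasDerivAt (fun t => eMean S f N (setAmp σ a t) β g a) D s ∧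
      N * mass k * eVar S f N (setAmp σ a s) β g a ≤ D := by
  set H := ham (k := k) S f N (setAmp σ a s) β g
  have hH : LinB (wn n) H := ham_linB S hm hL N _ β g
  have hA := tame_eObs S N a
  have h := hasDerivAt_cnd (μ := S.μ) (family_amp S hm hL N σ β g a hA s) (Nat.zero_le k) fun _ _ => 0
  refine ⟨_, h, ?_⟩
  have hS := cndDer_self_ge (μ := S.μ) hH hA (Nat.zero_le k) fun _ _ => 0
  have hdH : ampDer S N a s = fun z x => N * eObs S N a z x - N * s := funext₂ fun z x => by
    have : N * (√N)⁻¹ = √N := by rw [← div_eq_mul_inv, div_sqrt]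
    simp only [ampDer, eObs, hu]
    linear_combination (-fieldDot S a z x) * this
  have haff : cndDer (gn n) S.μ H (eObs S N a) (ampDer S N a s) (fun _ _ => 0) 0 (fun _ _ => 0)
      = N * cndDer (gn n) S.μ H (eObs S N a) (eObs S N a) (fun _ _ => 0) 0 (fun _ _ => 0) := by
    have t1 := hA.mul hA
    have hl : ∀ l z, cnd (gn n) S.μ H (fun z x => N * eObs S N a z x - N * s) l z
        = N * cnd (gn n) S.μ H (eObs S N a) l z - N * s := fun l z => by
      rw [cnd_sub hH (hA.const_mul _) (tame_const_fun S _), cnd_const_mul, cnd_const hH]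
    have tl : ∀ l, Tame (wn n) fun z (_ : S.X) =>
        cnd (gn n) S.μ H (eObs S N a) l z * cnd (gn n) S.μ H (eObs S N a) l z :=
      fun l => (cnd_tame hH hA l).mul (cnd_tame hH hA l)
    have he : ∀ l, cnd (gn n) S.μ H (fun z _ => cnd (gn n) S.μ H (eObs S N a) l z
          * (N * cnd (gn n) S.μ H (eObs S N a) l z - N * s)) 0 (fun _ _ => 0)
        = N * cnd (gn n) S.μ H (fun z _ => cnd (gn n) S.μ H (eObs S N a) l z
            * cnd (gn n) S.μ H (eObs S N a) l z) 0 (fun _ _ => 0)
          - N * s * cnd (gn n) S.μ H (eObs S N a) 0 (fun _ _ => 0) := fun l => by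
      rw [show (fun z (_ : S.X) => cnd (gn n) S.μ H (eObs S N a) l z
          * (N * cnd (gn n) S.μ H (eObs S N a) l z - N * s))
        = fun z _ => N * (cnd (gn n) S.μ H (eObs S N a) l z * cnd (gn n) S.μ H (eObs S N a) l z)
          - N * s * cnd (gn n) S.μ H (eObs S N a) l z from funext₂ fun z _ => by ring,
        cnd_sub hH ((tl l).const_mul _) ((cnd_tame hH hA l).const_mul _), cnd_const_mul, cnd_const_mul,
        cnd_tower hH (Nat.zero_le l)]
    have e0 : cnd (gn n) S.μ H (fun z x => (0 : ℝ) + eObs S N a z x * (N * eObs S N a z x - N * s)) 0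
          (fun _ _ => 0)
        = N * cnd (gn n) S.μ H (fun z x => (0 : ℝ) + eObs S N a z x * eObs S N a z x) 0 (fun _ _ => 0)
          - N * s * cnd (gn n) S.μ H (eObs S N a) 0 (fun _ _ => 0) := by
      simp only [zero_add]
      rw [show (fun z x => eObs S N a z x * (N * eObs S N a z x - N * s))
        = fun z x => N * (eObs S N a z x * eObs S N a z x) - N * s * eObs S N a z x from
          funext₂ fun z x => by ring, cnd_sub hH (t1.const_mul _) (hA.const_mul _), cnd_const_mul,
        cnd_const_mul]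
    have hk : mass k * ((k + 1 - (0 + 1) : ℕ) : ℝ) = 1 - lev k (0 + 1) := by
      rw [Nat.cast_sub (by omega)]; unfold mass lev; push_cast; field_simp
    simp only [cndDer, hdH, hl, e0, he, sum_sub_distrib, ← mul_sum, sum_const, Nat.card_Icc, nsmul_eq_mul]
    linear_combination (N * s * cnd (gn n) S.μ H (eObs S N a) 0 (fun _ _ => 0)) * hk
  rw [haff, mul_assoc]
  refine mul_le_mul_of_nonneg_left (le_trans (le_of_eq ?_) hS) hN.le
  unfold lev mass eVar eMean
  push_cast
  ring

/-- The integrated variance along an amplitude interval. -/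
theorem int_eVar_le (g : Fin M → Fin n → ℝ) {lo hi R : ℝ} (hlh : lo ≤ hi) (hlo : |lo| ≤ R)
    (hhi : |hi| ≤ R) :
    ∫ s in Set.Icc lo hi, eVar S f N (setAmp σ a s) β g a ≤ 2 * R / (N * mass k) := by
  set P := fun t => eMean S f N (setAmp σ a t) β g a
  choose D hD hDv using fun s => eMean_deriv S hu hm hL hN σ β a g s
  have hNm : 0 < N * mass k := mul_pos hN mass_pos
  have hnn : ∀ s, 0 ≤ eVar S f N (setAmp σ a s) β g a := fun s => eVar_nonneg S hm hL _ β a g
  have hD0 : ∀ s, 0 ≤ D s := fun s => (mul_nonneg hNm.le (hnn s)).trans (hDv s)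
  have hc : ContinuousOn P (Set.Icc lo hi) := fun s _ => (hD s).continuousAt.continuousWithinAt
  have hi1 : IntegrableOn D (Set.Ioc lo hi) :=
    intervalIntegral.integrableOn_deriv_of_nonneg hc (fun s _ => hD s) fun s _ => hD0 s
  have hint : ∫ s in lo..hi, D s = P hi - P lo :=
    intervalIntegral.integral_eq_sub_of_hasDerivAt (fun s _ => hD s)
      ((intervalIntegrable_iff_integrableOn_Ioc_of_le hlh).2 hi1)
  rw [intervalIntegral.integral_of_le hlh] at hint
  rw [integral_Icc_eq_integral_Ioc]
  have h1 : ∫ s in Set.Ioc lo hi, eVar S f N (setAmp σ a s) β g a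
      ≤ ∫ s in Set.Ioc lo hi, D s / (N * mass k) :=
    integral_mono_of_nonneg (ae_of_all _ hnn) (hi1.div_const _)
      (ae_of_all _ fun s => by rw [le_div_iff₀ hNm, mul_comm]; exact hDv s)
  rw [integral_div, hint] at h1
  refine h1.trans (div_le_div_of_nonneg_right ?_ hNm.le)
  have b1 := abs_le.1 (abs_eMean_le S hu hm hL hN (setAmp σ a hi) β a g)
  have b2 := abs_le.1 (abs_eMean_le S hu hm hL hN (setAmp σ a lo) β a g)
  simp only [setAmp_self] at b1 b2
  simp only [P]
  linarith [b1.2, b2.1]

omit hu hN in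
theorem cval_integrable : Integrable (fun g => cval S f N σ β g a) (patterns M n) := by
  obtain ⟨A, hA, hb⟩ := ham_bound (M := M) (k := k) S hL N β (∑ l : Fin k, |σ ((l : ℕ) + 1)|)
  obtain ⟨A', -, hA'⟩ := val_bound_unif (k := k) (μ := S.μ) (wn n) hA
  refine ((Integrable.of_bound (val_measurable_param_at (ham_meas S hm N σ β) 0 _).aestronglyMeasurable
    (A' * (1 + (wn n).tot fun (_ : Fin k) _ => 0)) (ae_of_all _ fun g => (Real.norm_eq_abs _).trans_le
      (hA' _ (ham_meas_right S hm N σ β g) (fun z x => hb σ (fun l =>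
        single_le_sum (f := fun l : Fin k => |σ ((l : ℕ) + 1)|) (fun _ _ => abs_nonneg _) (mem_univ l))
        g z x) 0 _))).div_const N).add (integrable_const _)

/-- The predicted mean is the average mean energy. -/
theorem eMean_avg :
    ∫ g, eMean S f N σ β g a ∂patterns M n
      = σ ((a : ℕ) + 1) * (1 - tail k (qOf S f M k N σ β) ((a : ℕ) + 1)) := by
  have hi : Integrable (fun g => rootTail S f N σ β g k ((a : ℕ) + 1)) (patterns M n) :=
    (integrable_finsetSum _ fun l _ => root_mu2_integrable S hm hL N σ β l).const_mul _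
  rw [integral_congr_ae (ae_of_all _ fun g => eMean_eq S hu hm hL hN σ β a g), integral_const_mul,
    integral_sub (integrable_const _) hi, integral_const, probReal_univ, one_smul]
  congr 2
  simp only [rootTail, tail]
  rw [integral_const_mul, integral_finsetSum _ fun l _ => root_mu2_integrable S hm hL N σ β l]
  congr 1
  exact sum_congr rfl fun l hl =>
    (qOf_eq S hm hL N σ β (show l ≠ 0 by have := (mem_Icc.1 hl).1; omega)).symm

/-- The energy fluctuation from the variance and the deviation of the mean. -/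
theorem dev_root_le {θ : ℝ} (hθ : 0 < θ) (c : ℝ) (g : Fin M → Fin n → ℝ) :
    cnd (gn n) S.μ (ham S f N σ β g) (devObs S N c a) 0 (fun _ _ => 0)
      ≤ θ / 2 + eVar S f N σ β g a / (2 * θ) + |eMean S f N σ β g a - c| := by
  set H := ham (k := k) S f N σ β g
  have hH : LinB (wn n) H := ham_linB S hm hL N σ β g
  set P := eMean S f N σ β g a with hP
  have hA := tame_eObs S N a
  have t1 : Tame (wn n) fun z x => (1 / (2 * θ)) * eObs S N a z x ^ 2 :=
    (tame_eObs_sq S N a).const_mul _
  have t2 : Tame (wn n) fun z x => (P / θ) * eObs S N a z x := hA.const_mul _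
  have h := cnd_mono (μ := S.μ) hH (tame_devObs S N c a)
    ((t1.sub t2).add (tame_const_fun S (P ^ 2 / (2 * θ) + θ / 2 + |P - c|)))
    (fun z x => by
      have h1 := abs_le_half_sq (inv_pos.2 hθ) (eObs S N a z x - P)
      have e : θ⁻¹ / 2 * (eObs S N a z x - P) ^ 2 + 1 / (2 * θ⁻¹)
          = 1 / (2 * θ) * eObs S N a z x ^ 2 - P / θ * eObs S N a z x + P ^ 2 / (2 * θ) + θ / 2 := by
        field_simp; ring
      have h2 : devObs S N c a z x ≤ |eObs S N a z x - P| + |P - c| := abs_sub_le _ _ _
      linarith) 0 fun _ _ => 0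
  refine h.trans (le_of_eq ?_)
  rw [cnd_add hH (t1.sub t2) (tame_const_fun S _), cnd_sub hH t1 t2, cnd_const hH, cnd_const_mul,
    cnd_const_mul]
  simp only [eVar, hP, eMean, H]
  field_simp
  ring

/-- The mean fluctuation on an amplitude interval. -/
theorem slice_fluct_le {lo δ R h θ E : ℝ} (hδ : 0 ≤ δ) (hh : 0 < h) (hθ : 0 < θ)
    (hR : ∀ s ∈ Set.Icc (lo - h) (lo + δ + h), |s| ≤ R)
    (hE : ∀ t, ∫ g, |cval S f N (setAmp σ a t) β g a
      - ∫ g, cval S f N (setAmp σ a t) β g a ∂patterns M n| ∂patterns M n ≤ E) :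
    ∫ s in Set.Icc lo (lo + δ), fluct S f M k N (setAmp σ a s) β a
      ≤ δ * (θ / 2 + 3 * E / h) + 2 * R / (N * mass k) / (2 * θ) + 4 * R * h := by
  set P := fun s g => eMean S f N (setAmp σ a s) β g a
  set V := fun s g => cval S f N (setAmp σ a s) β g a
  set W := fun s g => eVar S f N (setAmp σ a s) β g a
  set pb := fun s => ∫ g, P s g ∂patterns M n
  set vb := fun s => ∫ g, V s g ∂patterns M n
  have hPi : ∀ s, Integrable (P s) (patterns M n) := fun s =>
    root_integrable S hm hL N _ β (tame_eObs S N a)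
  have hVi : ∀ s, Integrable (V s) (patterns M n) := fun s => cval_integrable S hm hL _ β a
  have hWi : ∀ s, Integrable (W s) (patterns M n) := fun s => by
    refine (root_integrable S hm hL N _ β (tame_eObs_sq S N a)).sub ?_
    refine Integrable.of_bound (((hPi s).aestronglyMeasurable.pow 2)) (|s| ^ 2) (ae_of_all _ fun g => ?_)
    simp only [Pi.pow_apply, Real.norm_eq_abs, abs_pow]
    refine pow_le_pow_left₀ (abs_nonneg _) ?_ 2
    simpa [setAmp_self] using abs_eMean_le S hu hm hL hN (setAmp σ a s) β a g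
  have hpm : Monotone pb := fun s t hst =>
    integral_mono (hPi s) (hPi t) fun g => eMean_mono S hu hm hL hN σ β a g hst
  have htan : ∀ s t, vb s + (t - s) * pb s ≤ vb t := fun s t => by
    have h1 := integral_mono ((hVi s).add ((hPi s).const_mul (t - s))) (hVi t)
      fun g => cval_tangent S hu hm hL hN σ β a g s t
    simp only [Pi.add_apply] at h1
    rwa [integral_add (hVi s) ((hPi s).const_mul _), integral_const_mul] at h1
  set Δ := fun s g => |V s g - vb s|
  have hΔi : ∀ s, Integrable (Δ s) (patterns M n) := fun s => ((hVi s).sub (integrable_const _)).abs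
  have hdev : ∀ s g, |P s g - pb s| ≤ (pb (s + h) - pb (s - h)) + (Δ (s + h) g + Δ s g + Δ (s - h) g) / h :=
    fun s g => by
    have u1 := cval_tangent S hu hm hL hN σ β a g s (s + h)
    have u2 := cval_tangent S hu hm hL hN σ β a g s (s - h)
    have w1 := htan (s + h) s
    have w2 := htan (s - h) s
    have m1 := hpm (show s - h ≤ s by linarith)
    have m2 := hpm (show s ≤ s + h by linarith)
    have a1 := abs_le.1 (le_refl (Δ (s + h) g))
    have a2 := abs_le.1 (le_refl (Δ s g))
    have a3 := abs_le.1 (le_refl (Δ (s - h) g))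
    have p1 : 0 ≤ Δ (s + h) g := abs_nonneg _
    have p2 : 0 ≤ Δ s g := abs_nonneg _
    have p3 : 0 ≤ Δ (s - h) g := abs_nonneg _
    have hX : h * |P s g - pb s| ≤ h * (pb (s + h) - pb (s - h)) + (Δ (s + h) g + Δ s g + Δ (s - h) g) := by
      rw [show h * |P s g - pb s| = |h * (P s g - pb s)| by rw [abs_mul, abs_of_pos hh], abs_le]
      simp only [P, V, Δ, vb] at u1 u2 w1 w2 a1 a2 a3 p1 p2 p3 ⊢
      constructor <;> nlinarith
    rw [← sub_le_iff_le_add', le_div_iff₀ hh]
    linarith
  have hlev : ∀ s, fluct S f M k N (setAmp σ a s) β a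
      ≤ (θ / 2 + 3 * E / h) + (∫ g, W s g ∂patterns M n) / (2 * θ) + (pb (s + h) - pb (s - h)) := fun s => by
    have hfl : fluct S f M k N (setAmp σ a s) β a
        = ∫ g, cnd (gn n) S.μ (ham S f N (setAmp σ a s) β g) (devObs S N (pb s) a) 0 (fun _ _ => 0)
            ∂patterns M n := by
      simp only [pb, P]
      rw [eMean_avg S hu hm hL hN (setAmp σ a s) β a, fluct, gib, devAt, dif_pos a.2]
    have hD := ((hΔi (s + h)).add (hΔi s)).add (hΔi (s - h))
    have hA := (integrable_const (μ := patterns M n) (θ / 2)).add ((hWi s).div_const (2 * θ))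
    have hB := (integrable_const (μ := patterns M n) (pb (s + h) - pb (s - h))).add (hD.div_const h)
    rw [hfl]
    refine (integral_mono_of_nonneg (ae_of_all _ fun g => cnd_nonneg (fun z x => abs_nonneg _) _ _)
      (hA.add hB) (ae_of_all _ fun g => (dev_root_le S hu hm hL hN _ β a hθ (pb s) g).trans
        (add_le_add le_rfl (hdev s g)))).trans ?_
    rw [integral_add' hA hB, integral_add' (integrable_const _) ((hWi s).div_const _),
      integral_add' (integrable_const _) (hD.div_const _), integral_div (f := W s), integral_div (f := Δ (s + h) + Δ s + Δ (s - h)),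
      integral_const, integral_const, probReal_univ, one_smul, one_smul,
      integral_add' ((hΔi (s + h)).add (hΔi s)) (hΔi (s - h)), integral_add' (hΔi (s + h)) (hΔi s)]
    have h3 : (∫ g, Δ (s + h) g ∂patterns M n) + (∫ g, Δ s g ∂patterns M n)
        + (∫ g, Δ (s - h) g ∂patterns M n) ≤ 3 * E := by
      linarith [hE (s + h), hE s, hE (s - h)]
    have h4 := div_le_div_of_nonneg_right h3 hh.le
    linarith
  -- the integral of the thermal part
  set J := Set.Icc lo (lo + δ)
  obtain ⟨B, hB0, hB⟩ := root_bound (M := M) S hm hL N β (R + ∑ l : Fin k, |σ ((l : ℕ) + 1)|)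
    (tame_eObs_sq S N a)
  have hmm : ∀ l : Fin k, Measurable fun s : ℝ => setAmp σ a s ((l : ℕ) + 1) := fun l => by
    unfold setAmp
    simp only [Function.update_apply]
    split_ifs <;> fun_prop
  have hWm : Measurable fun p : ℝ × (Fin M → Fin n → ℝ) => W p.1 p.2 :=
    (meas_root S hm N β (σf := setAmp σ a) hmm (φ := fun _ z x => eObs S N a z x ^ 2)
        ((tame_eObs_sq S N a).meas.comp
          ((measurable_snd.comp measurable_fst).prodMk measurable_snd))).sub
      ((meas_root S hm N β (σf := setAmp σ a) hmm (φ := fun _ => eObs S N a)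
        ((tame_eObs S N a).meas.comp
          ((measurable_snd.comp measurable_fst).prodMk measurable_snd))).pow_const 2)
  have hJ : IsFiniteMeasure (volume.restrict J) := isFiniteMeasure_restrict.2 measure_Icc_lt_top.ne
  have hin : ∀ s ∈ J, |s| ≤ R := fun s hs => hR s ⟨by linarith [hs.1], by linarith [hs.2]⟩
  have hWint : Integrable (Function.uncurry W) ((volume.restrict J).prod (patterns M n)) := by
    refine Integrable.of_bound hWm.aestronglyMeasurable B ?_
    filter_upwards [Measure.quasiMeasurePreserving_fst.ae (ae_restrict_mem measurableSet_Icc)] with p hp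
    rw [Function.uncurry_def, Real.norm_eq_abs, abs_of_nonneg (eVar_nonneg S hm hL _ β a p.2)]
    have h1 := (le_abs_self _).trans (hB _ (setAmp_bound σ a (hin _ hp)) p.2)
    exact (sub_le_self _ (sq_nonneg _)).trans h1
  have hW1 : ∫ s in J, ∫ g, W s g ∂patterns M n ≤ 2 * R / (N * mass k) := by
    rw [integral_integral_swap hWint]
    refine (integral_mono_of_nonneg
      (ae_of_all _ fun g => setIntegral_nonneg measurableSet_Icc fun s _ => eVar_nonneg S hm hL _ β a g)
      (integrable_const _) (ae_of_all _ fun g => int_eVar_le S hu hm hL hN σ β a g (by linarith)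
        (hin lo ⟨le_rfl, by linarith⟩) (hin _ ⟨by linarith, le_rfl⟩))).trans (le_of_eq ?_)
    rw [integral_const, probReal_univ, one_smul]
  -- the integral of the convexity part
  have hp : ∀ s t, IntervalIntegrable pb volume s t := fun s t => hpm.intervalIntegrable
  have hI1 : IntegrableOn (fun s => pb (s + h)) J :=
    (Monotone.monotoneOn (fun s t hst => hpm (by linarith)) _).integrableOn_isCompact isCompact_Icc
  have hI2 : IntegrableOn (fun s => pb (s - h)) J :=
    (Monotone.monotoneOn (fun s t hst => hpm (by linarith)) _).integrableOn_isCompact isCompact_Icc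
  have hconv : ∫ s in J, (pb (s + h) - pb (s - h)) ≤ 4 * R * h := by
    rw [integral_sub hI1 hI2, integral_Icc_eq_integral_Ioc, integral_Icc_eq_integral_Ioc,
      ← intervalIntegral.integral_of_le (by linarith), ← intervalIntegral.integral_of_le (by linarith),
      intervalIntegral.integral_comp_add_right pb h, intervalIntegral.integral_comp_sub_right pb h,
      intervalIntegral.integral_interval_sub_interval_comm' (hp _ _) (hp _ _) (hp _ _)]
    have hb : ∀ s ∈ Set.Icc (lo - h) (lo + δ + h), ‖pb s‖ ≤ R := fun s hs => by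
      refine (norm_integral_le_of_norm_le_const (μ := patterns M n) (C := R) (ae_of_all _ fun g => ?_)).trans
        (le_of_eq (by rw [probReal_univ, mul_one]))
      rw [Real.norm_eq_abs]
      refine ((abs_eMean_le S hu hm hL hN (setAmp σ a s) β a g).trans (le_of_eq ?_)).trans (hR s hs)
      rw [setAmp_self]
    have key : ∀ u v, u ∈ Set.Icc (lo - h) (lo + δ + h) → v ∈ Set.Icc (lo - h) (lo + δ + h) →
        |∫ s in u..v, pb s| ≤ R * |v - u| := fun u v hu' hv' => by
      rw [← Real.norm_eq_abs]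
      refine intervalIntegral.norm_integral_le_of_norm_le_const fun x hx => hb x ?_
      exact Set.uIcc_subset_Icc hu' hv' (Set.uIoc_subset_uIcc hx)
    have k1 := key (lo + δ - h) (lo + δ + h) ⟨by linarith, by linarith⟩ ⟨by linarith, le_rfl⟩
    have k2 := key (lo - h) (lo + h) ⟨le_rfl, by linarith⟩ ⟨by linarith, by linarith⟩
    rw [show lo + δ + h - (lo + δ - h) = 2 * h by ring, abs_of_pos (by linarith : 0 < 2 * h)] at k1
    rw [show lo + h - (lo - h) = 2 * h by ring, abs_of_pos (by linarith : 0 < 2 * h)] at k2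
    rw [abs_le] at k1 k2
    linarith
  have hWs : Integrable (fun s => ∫ g, W s g ∂patterns M n) (volume.restrict J) :=
    hWint.integral_prod_left
  have hC : IntegrableOn (fun _ : ℝ => θ / 2 + 3 * E / h) J := integrable_const _
  refine (integral_mono_of_nonneg (ae_of_all _ fun s => fluct_nonneg S f M k N _ β a)
    ((hC.add (hWs.div_const _)).add (hI1.sub hI2)) (ae_of_all _ hlev)).trans ?_
  rw [integral_add' (hC.add (hWs.div_const _)) (hI1.sub hI2), integral_add' hC (hWs.div_const _),
    integral_div, setIntegral_const, Real.volume_real_Icc_of_le (by linarith), smul_eq_mul,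
    add_sub_cancel_left]
  have h5 := div_le_div_of_nonneg_right hW1 (by positivity : 0 ≤ 2 * θ)
  simp only [Pi.sub_apply] at hconv ⊢
  linarith

end

end Vale.Agent.P157.Rsb.Lf
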