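import Vale.Agent.P157.Rsb.CavCtx
import Vale.Agent.P157.Rsb.CavPair

/-!
# P157, cavity module: the interpolation at angle zero

At angle zero the new coordinate decouples: the system is the product of the old system, in
dimension `N + 1`, and a system of one coordinate.
-/

open MeasureTheory ProbabilityTheory Real Finset

namespace Vale.Agent.P157.Rsb

/-- Weights on a product add up. -/
noncomputable def prodSize {A B : Type} [MeasurableSpace A] [MeasurableSpace B] {γ : Measure A}
    {γ' : Measure B} [IsProbabilityMeasure γ] [IsProbabilityMeasure γ'] (w : Size γ) (w' : Size γ') :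
    Size (γ.prod γ') where
  w p := w.w p.1 + w'.w p.2
  meas := (w.meas.comp measurable_fst).add (w'.meas.comp measurable_snd)
  nonneg p := add_nonneg (w.nonneg p.1) (w'.nonneg p.2)
  int c := by
    simp only [mul_add, exp_add]
    exact (w.int c).mul_prod (w'.int c)

theorem linB_split {k : ℕ} {A B X Y : Type} [MeasurableSpace A] [MeasurableSpace B] [MeasurableSpace X]
    [MeasurableSpace Y] {γ : Measure A} {γ' : Measure B} [IsProbabilityMeasure γ]
    [IsProbabilityMeasure γ'] {w : Size γ} {w' : Size γ'} {H : (Fin k → A) → X → ℝ}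
    {H' : (Fin k → B) → Y → ℝ} (hH : LinB w H) (hH' : LinB w' H') :
    LinB (prodSize w w') fun (z : Fin k → A × B) (p : X × Y) =>
      H (fun i => (z i).1) p.1 + H' (fun i => (z i).2) p.2 := by
  obtain ⟨a, ha, hb⟩ := hH.bound
  obtain ⟨a', ha', hb'⟩ := hH'.bound
  have m1 : Measurable fun q : (Fin k → A × B) × (X × Y) => ((fun i => (q.1 i).1), q.2.1) := by fun_prop
  have m2 : Measurable fun q : (Fin k → A × B) × (X × Y) => ((fun i => (q.1 i).2), q.2.2) := by fun_prop
  refine ⟨(hH.meas.comp m1).add (hH'.meas.comp m2), a + a', add_nonneg ha ha', fun z p => ?_⟩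
  have h1 := w.tot_nonneg fun i => (z i).1
  have h2 := w'.tot_nonneg fun i => (z i).2
  have e : (prodSize w w').tot z = w.tot (fun i => (z i).1) + w'.tot fun i => (z i).2 := by
    simp only [Size.tot, prodSize, sum_add_distrib]
  refine (abs_add_le _ _).trans ((add_le_add (hb _ p.1) (hb' _ p.2)).trans ?_)
  rw [e]
  nlinarith [mul_nonneg ha h2, mul_nonneg ha' h1]

/-- Relabelling the coordinates preserves standard Gaussian families. -/
theorem mp_reindex {ι ι' : Type} [Fintype ι] [Fintype ι'] (e : ι' ≃ ι) :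
    MeasurePreserving (fun (w : ι → ℝ) i => w (e i)) (stdG ι) (stdG ι') := by
  have hm : Measurable fun (w : ι → ℝ) i => w (e i) := by fun_prop
  refine ⟨hm, (Measure.pi_eq fun s hs => ?_).symm⟩
  rw [Measure.map_apply hm (MeasurableSet.univ_pi hs)]
  have h : (fun (w : ι → ℝ) i => w (e i)) ⁻¹' Set.univ.pi s = Set.univ.pi fun i => s (e.symm i) := by
    ext w
    simp only [Set.mem_preimage, Set.mem_pi, Set.mem_univ, forall_const]
    exact ⟨fun h i => by simpa using h (e.symm i), fun h i => by simpa using h (e i)⟩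
  rw [h, stdG, Measure.pi_pi]
  exact Equiv.prod_comp e.symm fun i => gaussianReal 0 1 (s i)

variable {N k M : ℕ}

/-- The indices of the old fields among those of the new ones. -/
def startIdx (N : ℕ) : FieldIdx (N + 1) ≃ Fin (N + 1 + 1) :=
  (Equiv.sumCongr (Equiv.refl _) finOneEquiv.symm).trans finSumFinEquiv

theorem startIdx_inl (i : Fin (N + 1)) : startIdx N (.inl i) = i.castSucc := rfl

/-- One level of new fields as old fields and the field of the new coordinate. -/
def startSplit (y : FieldIdx (N + 1 + 1) → ℝ) : (FieldIdx (N + 1) → ℝ) × ℝ :=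
  (fun i => y (.inl (startIdx N i)), y (.inr ()))

theorem mp_startSplit : MeasurePreserving (startSplit (N := N)) (stdG (FieldIdx (N + 1 + 1)))
    ((stdG (FieldIdx (N + 1))).prod (gaussianReal 0 1)) :=
  ((mp_reindex (startIdx N)).prod
      (measurePreserving_eval (fun _ : Unit => gaussianReal 0 1) ())).comp
    (measurePreserving_sumPiEquivProdPi (fun _ : FieldIdx (N + 1 + 1) => gaussianReal 0 1))

/-- Patterns restricted to the old coordinates. -/
def dropLast (g : Fin M → Fin (N + 1 + 1) → ℝ) : Fin M → Fin (N + 1) → ℝ := fun a i => g a i.castSucc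

theorem mp_dropLast : MeasurePreserving (dropLast (M := M) (N := N)) (patterns M (N + 1 + 1))
    (patterns M (N + 1)) := by
  have h : MeasurePreserving (fun (w : Fin (N + 1 + 1) → ℝ) (i : Fin (N + 1)) => w i.castSucc)
      (stdG (Fin (N + 1 + 1))) (stdG (Fin (N + 1))) :=
    (measurePreserving_fst (μ := Measure.pi fun _ : Fin (N + 1) => gaussianReal 0 1)
      (ν := Measure.pi fun _ : Unit => gaussianReal 0 1)).comp
      ((measurePreserving_sumPiEquivProdPi fun _ : FieldIdx (N + 1) => gaussianReal 0 1).comp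
        (mp_reindex (startIdx N)))
  unfold patterns dropLast
  exact measurePreserving_pi (fun _ : Fin M => stdG (Fin (N + 1 + 1)))
    (fun _ : Fin M => stdG (Fin (N + 1))) fun _ => h

theorem CavBase.abs_vec_le (K : CavBase N) (x : K.X0) (i : Fin (N + 1)) : |K.vec x i| ≤ 1 :=
  abs_cx_le (K := K) (x, 0) i

theorem measurable_val_root {n M k : ℕ} {X : Type} [MeasurableSpace X] {μ : Measure X} [SFinite μ]
    {H : (Fin M → Fin n → ℝ) → (Fin k → FieldIdx n → ℝ) → X → ℝ}
    (hH : Measurable fun p : ((Fin M → Fin n → ℝ) × (Fin k → FieldIdx n → ℝ)) × X => H p.1.1 p.1.2 p.2) :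
    Measurable fun g : Fin M → Fin n → ℝ => val (stdG (FieldIdx n)) μ (H g) 0 (fun _ _ => 0) := by
  have h := val_measurable_param (γ := stdG (FieldIdx n)) (μ := μ) hH 0
  have hp : Measurable fun g : Fin M → Fin n → ℝ =>
      ((g, fun _ _ => 0) : (Fin M → Fin n → ℝ) × (Fin k → FieldIdx n → ℝ)) :=
    measurable_id.prodMk measurable_const
  exact h.comp hp

/-- The old system. -/
noncomputable abbrev CavBase.old (K : CavBase N) : Leaf (N + 1) where
  X := K.X0
  μ := K.law
  prob := K.probLaw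
  pat := K.vec
  fld := K.vec
  aux _ := 0
  det _ := 0
  pat_meas := K.vec_meas
  fld_meas := K.vec_meas
  aux_meas := measurable_const
  det_meas := measurable_const
  bdd := ⟨1, fun x => ⟨K.abs_vec_le x, K.abs_vec_le x, by simp, by simp⟩⟩

variable (C : CavCtx N k)

namespace CavCtx

/-- The Hamiltonian of the new coordinate at angle zero. -/
noncomputable def oneH (z : Fin k → ℝ) (w : ℝ) : ℝ :=
  ∑ l : Fin k, C.β 0 (l + 1) * z l * clipW C.W w - (C.b - 1) * clipW C.W w ^ 2 / 2 + C.K.shift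

/-- The value of the new coordinate at angle zero. -/
noncomputable def oneVal : ℝ := val (gaussianReal 0 1) C.K.nu C.oneH 0 fun _ => 0

theorem linB_oneH : LinB lineSize C.oneH := by
  have hW : (0 : ℝ) ≤ C.W := zero_le_one.trans C.hW
  have hm := measurable_clipW C.W
  set B := (∑ l : Fin k, |C.β 0 (l + 1)|) * C.W with hB
  set B0 := |C.b - 1| * C.W ^ 2 + |C.K.shift| with hB0
  refine ⟨by unfold oneH Function.uncurry; fun_prop, B + B0, by positivity, fun z w => ?_⟩
  have hw := abs_clipW_le hW w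
  have ht := lineSize.tot_nonneg z
  have h1 : |∑ l : Fin k, C.β 0 (l + 1) * z l * clipW C.W w| ≤ B * lineSize.tot z := by
    rw [hB, sum_mul, sum_mul]
    refine (abs_sum_le_sum_abs _ _).trans (sum_le_sum fun l _ => ?_)
    rw [abs_mul, abs_mul, mul_right_comm]
    refine mul_le_mul (mul_le_mul_of_nonneg_left hw (abs_nonneg _)) ?_ (abs_nonneg _) (by positivity)
    exact single_le_sum (f := fun l => |z l|) (fun _ _ => abs_nonneg _) (mem_univ l)
  have h2 : |(C.b - 1) * clipW C.W w ^ 2 / 2| ≤ |C.b - 1| * C.W ^ 2 := by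
    rw [abs_div, abs_mul, abs_two, abs_pow]
    refine (div_le_self (by positivity) one_le_two).trans ?_
    exact mul_le_mul_of_nonneg_left (pow_le_pow_left₀ (abs_nonneg _) hw 2) (abs_nonneg _)
  unfold oneH
  refine (abs_add_le _ _).trans ((add_le_add ((abs_sub _ _).trans (add_le_add h1 h2)) le_rfl).trans ?_)
  nlinarith [mul_nonneg (show 0 ≤ |C.b - 1| * C.W ^ 2 + |C.K.shift| by positivity) ht,
    show 0 ≤ B by rw [hB]; positivity]

theorem linB_old (g : Fin M → Fin (N + 1) → ℝ) :
    LinB (gaussSize (FieldIdx (N + 1))) (ham (k := k) C.K.old C.f (dimN N) C.σ (fun _ => 0) g) :=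
  linB_ham C.K.old C.mf.1 C.bf (dimN N) C.σ _ g

/-- At angle zero the Hamiltonian splits. -/
theorem ham_start (g : Fin M → Fin (N + 1 + 1) → ℝ) (z : Fin k → FieldIdx (N + 1 + 1) → ℝ)
    (p : CavX C.K) :
    ham (C.S 0) C.f (bigN N) C.σ (C.β 0) g z p
      = ham C.K.old C.f (dimN N) C.σ (fun _ => 0) (dropLast g) (fun i => (startSplit (z i)).1) p.1
        + C.oneH (fun i => (startSplit (z i)).2) p.2 := by
  have hn : 0 < dimN N := by linarith [one_le_dimN N]
  have hA : cA (dimN N) 0 (cw C.W p) = 1 := by simp [cA]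
  have hC : cC (dimN N) 0 (cw C.W p) = √(dimN N / (dimN N + 1)) := by simp [cC]
  have hs : ∀ (h : Fin (N + 1 + 1) → ℝ) (a : ℝ),
      sdot h (joinC p a 0) = a * sdot (fun i => h i.castSucc) (C.K.vec p.1) := fun h a => by
    rw [sdot, sdot, Fin.sum_univ_castSucc, mul_sum]
    simp only [joinC, Fin.snoc_castSucc, Fin.snoc_last, mul_zero, add_zero, cx]
    exact sum_congr rfl fun i _ => by ring
  have hq : √(bigN N) * √(dimN N / (dimN N + 1)) = √(dimN N) := by
    rw [← sqrt_mul (bigN_pos (N := N)).le]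
    congr 1
    unfold bigN
    field_simp
  show (∑ a, C.f (sdot (g a) (cavPat C.W 0 p))
      + ∑ l : Fin k, (C.σ (l + 1) * √(bigN N) * sdot (fun i => z l (.inl i)) (cavFld C.W 0 p)
        + C.β 0 (l + 1) * z l (.inr ()) * cw C.W p)
      - bigN N / 2 * (∑ l : Fin k, C.σ (l + 1) ^ 2) * sdot (cavFld C.W 0 p) (cavFld C.W 0 p)
      + cavDet C.W C.b 0 p)
    = (∑ a, C.f (sdot (fun i => g a i.castSucc) (C.K.vec p.1))
      + ∑ l : Fin k, (C.σ (l + 1) * √(dimN N)
            * sdot (fun i => z l (.inl (startIdx N (.inl i)))) (C.K.vec p.1)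
        + 0 * z l (.inl (startIdx N (.inr ()))) * 0)
      - dimN N / 2 * (∑ l : Fin k, C.σ (l + 1) ^ 2) * sdot (C.K.vec p.1) (C.K.vec p.1) + 0)
      + (∑ l : Fin k, C.β 0 (l + 1) * z l (.inr ()) * cw C.W p
        - (C.b - 1) * cw C.W p ^ 2 / 2 + C.K.shift)
  rw [cavFld_sq, C.K.vec_unit, cavPat, cavFld, sin_zero, zero_mul, hA, hC, cavDet]
  simp only [hs, one_mul, startIdx_inl, cos_zero, sum_add_distrib]
  rw [show ∑ l : Fin k, C.σ (l + 1) * √(bigN N) * (√(dimN N / (dimN N + 1))
      * sdot (fun i => z l (.inl i.castSucc)) (C.K.vec p.1))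
      = ∑ l : Fin k, C.σ (l + 1) * √(dimN N) * sdot (fun i => z l (.inl i.castSucc)) (C.K.vec p.1) from
    sum_congr rfl fun l _ => by
      linear_combination (C.σ (l + 1) * sdot (fun i => z l (.inl i.castSucc)) (C.K.vec p.1)) * hq]
  have hb : bigN N * (dimN N / (dimN N + 1)) = dimN N := by unfold bigN; field_simp
  simp only [zero_mul, mul_zero, sum_const_zero, one_pow, add_zero, one_mul]
  linear_combination (-(∑ l : Fin k, C.σ (l + 1) ^ 2) / 2) * hb

theorem linB_pieces (g : Fin M → Fin (N + 1 + 1) → ℝ) :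
    LinB (prodSize (gaussSize (FieldIdx (N + 1))) lineSize)
      fun (z : Fin k → (FieldIdx (N + 1) → ℝ) × ℝ) (p : CavX C.K) =>
        ham C.K.old C.f (dimN N) C.σ (fun _ => 0) (dropLast g) (fun i => (z i).1) p.1
          + C.oneH (fun i => (z i).2) p.2 :=
  linB_split (C.linB_old _) C.linB_oneH

theorem ham_start_eq (g : Fin M → Fin (N + 1 + 1) → ℝ) :
    ham (k := k) (C.S 0) C.f (bigN N) C.σ (C.β 0) g = fun z p =>
      (fun (z : Fin k → (FieldIdx (N + 1) → ℝ) × ℝ) (p : CavX C.K) =>
        ham C.K.old C.f (dimN N) C.σ (fun _ => 0) (dropLast g) (fun i => (z i).1) p.1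
          + C.oneH (fun i => (z i).2) p.2) (fun i => startSplit (z i)) (id p) :=
  funext₂ fun z p => C.ham_start g z p

theorem val_start (g : Fin M → Fin (N + 1 + 1) → ℝ) :
    val (stdG (FieldIdx (N + 1 + 1))) (C.S 0).μ (ham (k := k) (C.S 0) C.f (bigN N) C.σ (C.β 0) g) 0
        (fun _ _ => 0)
      = val (stdG (FieldIdx (N + 1))) C.K.old.μ
          (ham (k := k) C.K.old C.f (dimN N) C.σ (fun _ => 0) (dropLast g)) 0 (fun _ _ => 0)
        + C.oneVal := by
  rw [C.ham_start_eq g, (val_map (μ' := (C.S 0).μ) mp_startSplit (MeasurePreserving.id _) (C.linB_pieces g)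
    0 fun _ _ => 0).1, (val_prod (C.linB_old (dropLast g)) C.linB_oneH 0 _).1]
  rfl

/-- An observable of the old configuration only sees the old system. -/
theorem cnd_start (g : Fin M → Fin (N + 1 + 1) → ℝ) (φ : (Fin k → FieldIdx (N + 1) → ℝ) → C.K.X0 → ℝ)
    (hφ : Measurable (Function.uncurry φ)) {B : ℝ} (hB : ∀ z x, |φ z x| ≤ B) (j : ℕ)
    (z : Fin k → FieldIdx (N + 1 + 1) → ℝ) :
    cnd (stdG (FieldIdx (N + 1 + 1))) (C.S 0).μ (ham (C.S 0) C.f (bigN N) C.σ (C.β 0) g)
        (fun z p => φ (fun i => (startSplit (z i)).1) p.1) j z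
      = cnd (stdG (FieldIdx (N + 1))) C.K.old.μ
          (ham C.K.old C.f (dimN N) C.σ (fun _ => 0) (dropLast g)) φ j (fun i => (startSplit (z i)).1) := by
  have hm : Measurable fun q : (Fin k → (FieldIdx (N + 1) → ℝ) × ℝ) × CavX C.K =>
      ((fun i => (q.1 i).1), q.2.1) := by fun_prop
  have hT : Tame (prodSize (gaussSize (FieldIdx (N + 1))) lineSize)
      fun (z : Fin k → (FieldIdx (N + 1) → ℝ) × ℝ) (p : CavX C.K) => φ (fun i => (z i).1) p.1 :=
    Tame.of_bdd (hφ.comp hm) fun z p => hB _ _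
  rw [C.ham_start_eq g]
  refine ((val_map (μ' := (C.S 0).μ) mp_startSplit (MeasurePreserving.id _) (C.linB_pieces g) j z).2 _ hT).trans ?_
  have h := (val_prod (μ := C.K.old.μ) (μ' := C.K.nu) (C.linB_old (dropLast g)) C.linB_oneH j
    (fun i => startSplit (z i))).2 φ fun _ _ => 1
  rw [cnd_const C.linB_oneH, mul_one] at h
  simpa only [mul_one] using h

theorem measurable_old_val (M : ℕ) :
    Measurable fun g : Fin M → Fin (N + 1) → ℝ => val (stdG (FieldIdx (N + 1))) C.K.old.μ
      (ham (k := k) C.K.old C.f (dimN N) C.σ (fun _ => 0) g) 0 (fun _ _ => 0) :=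
  measurable_val_root (H := fun g => ham (k := k) C.K.old C.f (dimN N) C.σ (fun _ => 0) g)
    (measurable_ham C.K.old C.mf.1 (dimN N) C.σ fun _ => 0)

theorem integrable_old_val (M : ℕ) :
    Integrable (fun g => val (stdG (FieldIdx (N + 1))) C.K.old.μ
      (ham (k := k) C.K.old C.f (dimN N) C.σ (fun _ => 0) g) 0 (fun _ _ => 0)) (patterns M (N + 1)) := by
  obtain ⟨h0m, B0, hB0⟩ := h0Of_bdd (M := M) C.K.old C.mf.1 C.bf k (dimN N) C.σ
  obtain ⟨B, hB, hBv⟩ := bcoef_vCoef (k := k) C.K.old (dimN N) C.σ (fun _ => 0)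
  obtain ⟨A', hA', hb⟩ := val_bound_unif (γ := stdG (FieldIdx (N + 1))) (μ := C.K.old.μ) (k := k)
    (gaussSize (FieldIdx (N + 1))) (A := B + |B0|) (by positivity)
  have : IsProbabilityMeasure (patterns M (N + 1)) := by unfold patterns; infer_instance
  set z0 : Fin k → FieldIdx (N + 1) → ℝ := fun _ _ => 0
  refine Integrable.of_bound (C.measurable_old_val M).aestronglyMeasurable
    (A' * (1 + (gaussSize (FieldIdx (N + 1))).tot z0)) (ae_of_all _ fun g => ?_)
  rw [Real.norm_eq_abs]
  refine hb _ (C.linB_old g).meas (fun z x => ?_) 0 z0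
  rw [ham_eq]
  have ht := (gaussSize (FieldIdx (N + 1))).tot_nonneg z
  refine (abs_add_le _ _).trans ((add_le_add (abs_linZ_le (fun a i y => (hBv a i).2 y) z x) (hB0 g x)).trans ?_)
  nlinarith [le_abs_self B0, mul_nonneg (abs_nonneg B0) ht]

/-- At angle zero the free energy is the old one plus the value of the new coordinate. -/
theorem free_start (M : ℕ) :
    bigN N * free (C.S 0) C.f M k (bigN N) C.σ (C.β 0)
      = dimN N * free C.K.old C.f M k (dimN N) C.σ (fun _ => 0) + C.oneVal := by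
  have hn : 0 < dimN N := by linarith [one_le_dimN N]
  set G := fun g : Fin M → Fin (N + 1) → ℝ => val (stdG (FieldIdx (N + 1))) C.K.old.μ
    (ham (k := k) C.K.old C.f (dimN N) C.σ (fun _ => 0) g) 0 (fun _ _ => 0) with hG
  have mG : Measurable G := C.measurable_old_val M
  have : IsProbabilityMeasure (patterns M (N + 1 + 1)) := by unfold patterns; infer_instance
  have iG : Integrable G (patterns M (N + 1)) := C.integrable_old_val M
  have iG' : Integrable (fun g => G (dropLast g)) (patterns M (N + 1 + 1)) :=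
    (mp_dropLast.integrable_comp mG.aestronglyMeasurable).2 iG
  simp only [free, mul_div_cancel₀ _ bigN_pos.ne', mul_div_cancel₀ _ hn.ne', C.val_start]
  rw [integral_add iG' (integrable_const _), integral_const, probReal_univ, one_smul,
    ← (mp_dropLast (M := M) (N := N)).map_eq,
    integral_map (mp_dropLast (M := M) (N := N)).measurable.aemeasurable mG.aestronglyMeasurable]

/-- At angle zero, pair averages of old configurations are those of the old system. -/
theorem gibPair_start (M j : ℕ) {ψ : C.K.X0 → C.K.X0 → ℝ} (hψ : Measurable (Function.uncurry ψ)) {B : ℝ}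
    (hB : ∀ x y, |ψ x y| ≤ B) :
    gibPair (k := k) (C.S 0) C.f M (bigN N) C.σ (C.β 0) j (fun _ p p' => ψ p.1 p'.1)
      = gibPair (k := k) C.K.old C.f M (dimN N) C.σ (fun _ => 0) j (fun _ x y => ψ x y) := by
  have hP : POb fun (_ : Fin M → Fin (N + 1) → ℝ) (x : C.K.old.X) (y : C.K.old.X) => ψ x y :=
    POb.leaf hψ hB
  have key : ∀ g : Fin M → Fin (N + 1 + 1) → ℝ,
      pairG (C.S 0) C.f (bigN N) C.σ (C.β 0) k j (fun _ p p' => ψ p.1 p'.1) g
        = pairG C.K.old C.f (dimN N) C.σ (fun _ => 0) k j (fun _ x y => ψ x y) (dropLast g) := fun g => by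
    have hH := C.linB_old (dropLast g)
    have hin : ∀ z, pairCnd (stdG (FieldIdx (N + 1 + 1))) (C.S 0).μ
        (ham (C.S 0) C.f (bigN N) C.σ (C.β 0) g) (fun _ p _ p' => ψ p.1 p'.1) j z
        = pairCnd (stdG (FieldIdx (N + 1))) C.K.old.μ
          (ham C.K.old C.f (dimN N) C.σ (fun _ => 0) (dropLast g)) (fun _ x _ y => ψ x y) j
            (fun i => (startSplit (z i)).1) := fun z => by
      set zo : Fin k → FieldIdx (N + 1) → ℝ := fun i => (startSplit (z i)).1
      have h1 : ∀ p : CavX C.K, cnd (stdG (FieldIdx (N + 1 + 1))) (C.S 0).μ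
          (ham (C.S 0) C.f (bigN N) C.σ (C.β 0) g) (fun _ p' => ψ p.1 p'.1) j z
          = cnd (stdG (FieldIdx (N + 1))) C.K.old.μ
            (ham C.K.old C.f (dimN N) C.σ (fun _ => 0) (dropLast g)) (fun _ y => ψ p.1 y) j zo := fun p =>
        C.cnd_start g (fun _ y => ψ p.1 y) ((measurable_slice ψ hψ p.1).comp measurable_snd)
          (fun _ y => hB p.1 y) j z
      unfold pairCnd
      simp only [h1]
      obtain ⟨hm, -⟩ := tame_inner (μ := C.K.old.μ) hH hψ hB j zo
      exact C.cnd_start g (fun _ x => cnd (stdG (FieldIdx (N + 1))) C.K.old.μ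
        (ham C.K.old C.f (dimN N) C.σ (fun _ => 0) (dropLast g)) (fun _ y => ψ x y) j zo) hm (B := B)
        (fun _ x => cnd_abs_le (φ := fun _ y => ψ x y) hH ((measurable_slice ψ hψ x).comp measurable_snd)
          (fun _ y => hB x y) j zo) j z
    simp only [pairG, gibz, hin]
    obtain ⟨hm, -⟩ := tame_pair (μ := C.K.old.μ) hH hψ hB j
    refine (C.cnd_start g (fun z _ => pairCnd (stdG (FieldIdx (N + 1))) C.K.old.μ
      (ham C.K.old C.f (dimN N) C.σ (fun _ => 0) (dropLast g)) (fun _ x _ y => ψ x y) j z) hm (B := B)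
      (fun z _ => abs_pairCnd_le (μ := C.K.old.μ) hH hψ hB j z) 0 _).trans ?_
    rfl
  obtain ⟨mG, -⟩ := pairG_facts (k := k) (N := dimN N) (σ := C.σ) (β := fun _ => 0) C.mf.1 C.bf j hP
  simp only [gibPair_eq_pairG, key]
  rw [← (mp_dropLast (M := M) (N := N)).map_eq,
    integral_map (mp_dropLast (M := M) (N := N)).measurable.aemeasurable mG.aestronglyMeasurable]

end CavCtx

end Vale.Agent.P157.Rsb
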