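import Vale.Agent.P157.Rsb.CavCtx

/-!
# P157, cavity module: the derivative along the interpolation
-/

open MeasureTheory ProbabilityTheory Real Finset

namespace Vale.Agent.P157.Rsb

/-- The pair average of an observable of the first leaf is a root average. -/
theorem pairG_fst {n M k : ℕ} {S : Leaf n} {f : ℝ → ℝ} {L N : ℝ} {σ β : ℕ → ℝ} (hm : Measurable f)
    (hf : ∀ u, |f u| ≤ L) (a : S.X → ℝ) (l : ℕ) (g : Fin M → Fin n → ℝ) :
    pairG S f N σ β k l (fun _ x _ => a x) g = gibz (k := k) S f N σ β (fun _ _ x => a x) g := by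
  have hH := linB_ham (k := k) S hm hf N σ β g
  unfold pairG gibz
  simp only [pairCnd_fst hH, cnd_tower hH (Nat.zero_le l)]

/-- The value at the root is measurable in the patterns. -/
theorem measurable_valRoot {n M k : ℕ} {S : Leaf n}
    {H : (Fin M → Fin n → ℝ) → (Fin k → FieldIdx n → ℝ) → S.X → ℝ}
    (hH : Measurable fun p : ((Fin M → Fin n → ℝ) × (Fin k → FieldIdx n → ℝ)) × S.X =>
      H p.1.1 p.1.2 p.2) :
    Measurable fun g => val (stdG (FieldIdx n)) S.μ (H g) 0 (fun _ _ => 0) := by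
  have h := val_measurable_param (γ := stdG (FieldIdx n)) (μ := S.μ) hH 0
  have hp : Measurable fun g : Fin M → Fin n → ℝ =>
      ((g, fun _ _ => 0) : (Fin M → Fin n → ℝ) × (Fin k → FieldIdx n → ℝ)) :=
    measurable_id.prodMk measurable_const
  exact h.comp hp

namespace CavCtx

variable {N k M : ℕ} (C : CavCtx N k)

/-- The mean value at angle `u` with `M` patterns. -/
noncomputable def F (M : ℕ) (u : ℝ) : ℝ :=
  ∫ g, val (stdG (FieldIdx (N + 1 + 1))) (C.S u).μ (ham (k := k) (C.S u) C.f (bigN N) C.σ (C.β u) g) 0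
    (fun _ _ => 0) ∂patterns M (N + 1 + 1)

/-- The pair average at angle `u`. -/
noncomputable def gp (M : ℕ) (u : ℝ) (l : ℕ)
    (ψ : (Fin M → Fin (N + 1 + 1) → ℝ) → CavX C.K → CavX C.K → ℝ) : ℝ :=
  gibPair (k := k) (C.S u) C.f M (bigN N) C.σ (C.β u) l ψ

/-- The mean distance of the old overlap to the path at level `l`. -/
noncomputable def err (M : ℕ) (u : ℝ) (l : ℕ) : ℝ := C.gp M u l fun _ x y => |oldOv x y - C.q l|

/-- The weighted sum of the distances. -/
noncomputable def Err (M : ℕ) (u : ℝ) : ℝ := mass k * ∑ l ∈ Icc 0 k, C.err M u l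

/-- The mean square of the new coordinate. -/
noncomputable def V (M : ℕ) (u : ℝ) : ℝ := C.gp M u 0 fun _ x _ => cw C.W x ^ 2

theorem q_mem {l : ℕ} (hl : l ≤ k) : 0 ≤ C.q l ∧ C.q l ≤ 1 := by
  obtain ⟨h0, hs, hk⟩ := C.hq
  have up : ∀ i j, i ≤ j → j ≤ k → C.q i ≤ C.q j := by
    intro i j hij
    induction j, hij using Nat.le_induction with
    | base => intro _; exact le_rfl
    | succ m _ ih => intro hm; exact (ih (by omega)).trans (hs m (by omega))
  exact ⟨h0 ▸ up 0 l (Nat.zero_le l) hl, (up l k hl le_rfl).trans hk⟩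

theorem measurable_oldOv : Measurable (Function.uncurry (oldOv (K := C.K))) :=
  measurable_sdot ((measurable_cx C.K).comp measurable_fst) ((measurable_cx C.K).comp measurable_snd)

theorem measurable_cw_mul :
    Measurable (Function.uncurry fun x y : CavX C.K => cw C.W x * cw C.W y) :=
  (measurable_cw.comp measurable_fst).mul (measurable_cw.comp measurable_snd)

theorem measurable_cw_sq :
    Measurable (Function.uncurry fun (x : CavX C.K) (_ : CavX C.K) => cw C.W x ^ 2) := by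
  have h : Measurable fun p : CavX C.K × CavX C.K => cw C.W p.1 := measurable_cw.comp measurable_fst
  exact h.pow_const 2

theorem abs_err_le (l : ℕ) (x y : CavX C.K) : |(|oldOv x y - C.q l|)| ≤ 1 + |C.q l| := by
  rw [abs_abs]
  exact (abs_sub _ _).trans (add_le_add (abs_oldOv_le x y) le_rfl)

theorem pob_err (M l : ℕ) :
    POb fun (_ : Fin M → Fin (N + 1 + 1) → ℝ) (x y : CavX C.K) => |oldOv x y - C.q l| :=
  POb.leaf (h := fun x y => |oldOv x y - C.q l|) (C.measurable_oldOv.sub_const _).abs (C.abs_err_le l)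

theorem pob_ww (M : ℕ) :
    POb fun (_ : Fin M → Fin (N + 1 + 1) → ℝ) (x y : CavX C.K) => cw C.W x * cw C.W y :=
  POb.leaf (h := fun x y => cw C.W x * cw C.W y) C.measurable_cw_mul C.cw_mul_le

theorem pob_w2 (M : ℕ) :
    POb fun (_ : Fin M → Fin (N + 1 + 1) → ℝ) (x : CavX C.K) (_ : CavX C.K) => cw C.W x ^ 2 :=
  POb.leaf (h := fun x (_ : CavX C.K) => cw C.W x ^ 2) C.measurable_cw_sq
    fun x _ => (abs_sq (cw C.W x)).le.trans (C.cw_sq_le x)

theorem err_nonneg (M : ℕ) (u : ℝ) (l : ℕ) : 0 ≤ C.err M u l := by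
  have h := gp_mono (S := C.S u) (k := k) (N := bigN N) (σ := C.σ) (β := C.β u) C.mf.1 C.bf l
    (POb.const 0) (C.pob_err M l) fun g x y => abs_nonneg _
  rwa [gp_const C.mf.1 C.bf] at h

theorem Err_nonneg (M : ℕ) (u : ℝ) : 0 ≤ C.Err M u :=
  mul_nonneg mass_pos.le (sum_nonneg fun l _ => C.err_nonneg M u l)

theorem bdd_deriv2 : ∃ B, ∀ u, |deriv (deriv C.f) u| ≤ B := by
  have h2 : ContDiff ℝ 2 C.f := C.good.1.of_le (by norm_num)
  have hc : Continuous (deriv (deriv C.f)) := by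
    have h := h2.continuous_iteratedDeriv 2 le_rfl
    rwa [iteratedDeriv_succ, iteratedDeriv_one] at h
  obtain ⟨B, hB⟩ := hc.bounded_above_of_compact_support C.good.2.deriv.deriv
  exact ⟨B, fun u => by simpa [Real.norm_eq_abs] using hB u⟩

theorem dirPat (u : ℝ) : Dir (C.S u) C.f (cavPat' C.W u) C.L C.Bf (3 * C.W ^ 3) where
  good := C.good.1.of_le (by norm_num)
  bf := C.bf
  bf' := C.bf'
  bf'' := C.bdd_deriv2
  nonneg := by have := C.hW; positivity
  meas := measurable_cavPat'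
  bd x i := (abs_coefs_le C.hW u x i).2.2.1
  bp x i := (abs_coefs_le C.hW u x i).1
  orth x := cavPat'_orth x

/-- The root mean of the derivative for fixed patterns. -/
theorem root_DH (u : ℝ) (g : Fin M → Fin (N + 1 + 1) → ℝ) :
    cnd (stdG (FieldIdx (N + 1 + 1))) (C.S u).μ (ham (k := k) (C.S u) C.f (bigN N) C.σ (C.β u) g)
        (cavDH k C.W C.f C.σ C.ρ C.e C.b g u) 0 (fun _ _ => 0)
      = gibz (k := k) (C.S u) C.f (bigN N) C.σ (C.β u) (liftObs fun g x => patD C.W C.f g u x) g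
        + sin u * cos u * (C.b - 1 - C.ρ k)
          * pairG (C.S u) C.f (bigN N) C.σ (C.β u) k 0 (fun _ x _ => cw C.W x ^ 2) g
        - mass k * ∑ l ∈ Icc 1 k, pairG (C.S u) C.f (bigN N) C.σ (C.β u) k l
            (fun _ x y => lowKer (C.dC u) (C.vC u) l x y) g := by
  set H := ham (k := k) (C.S u) C.f (bigN N) C.σ (C.β u) g
  set γ := stdG (FieldIdx (N + 1 + 1))
  set z0 : Fin k → FieldIdx (N + 1 + 1) → ℝ := fun _ _ => 0
  have hH : LinB (gaussSize (FieldIdx (N + 1 + 1))) H :=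
    linB_ham (C.S u) C.mf.1 C.bf (bigN N) C.σ (C.β u) g
  have hv : BCoef (C.vC u) := bcoef_vCoef (C.S u) (bigN N) C.σ (C.β u)
  obtain ⟨h0m, B0, hB0⟩ := h0Of_bdd (M := M) (C.S u) C.mf.1 C.bf k (bigN N) C.σ
  have eH : H = fun z x => linZ (C.vC u) z x + h0Of (C.S u) k C.f (bigN N) C.σ g x :=
    funext₂ fun z x => ham_eq (C.S u) C.f (bigN N) C.σ (C.β u) g z x
  have hlin := cnd_linZ_zero (μ := (C.S u).μ) hv (C.bcoef_dC u) (h0m g) (hB0 g) z0
  rw [← eH] at hlin
  have tP : Tame (gaussSize (FieldIdx (N + 1 + 1)))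
      (fun (_ : Fin k → FieldIdx (N + 1 + 1) → ℝ) x => patD C.W C.f g u x) :=
    tame_of_bdd (measurable_slice (fun g x => patD C.W C.f g u x) (C.measurable_patD u) g)
      (C.patD_le u g)
  have tZ : Tame (gaussSize (FieldIdx (N + 1 + 1))) (linZ (C.dC u)) := by
    obtain ⟨Bd, hBd0, hBd⟩ := C.bcoef_dC u
    refine ⟨measurable_linZ (C.bcoef_dC u), Bd + 1, by linarith, fun z x => ?_⟩
    have ht := (gaussSize (FieldIdx (N + 1 + 1))).tot_nonneg z
    calc |linZ (C.dC u) z x| ≤ Bd * (gaussSize _).tot z := abs_linZ_le (fun a i x => (hBd a i).2 x) z x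
      _ ≤ (Bd + 1) * exp ((gaussSize _).tot z) :=
          mul_le_mul (by linarith) (by linarith [add_one_le_exp ((gaussSize _).tot z)]) ht (by linarith)
      _ ≤ _ := mul_le_mul_of_nonneg_left (exp_le_exp.2 (le_mul_of_one_le_left ht (by linarith)))
          (by linarith)
  have tD : Tame (gaussSize (FieldIdx (N + 1 + 1)))
      (fun (_ : Fin k → FieldIdx (N + 1 + 1) → ℝ) x => detD k C.W C.σ C.b u x) :=
    tame_of_bdd (C.measurable_detD u) (C.detD_le u)
  obtain ⟨Bd, hBd0, hBd⟩ := C.bcoef_dC u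
  obtain ⟨Bv, hBv0, hBv⟩ := hv
  have tG : Tame (gaussSize (FieldIdx (N + 1 + 1)))
      (fun (_ : Fin k → FieldIdx (N + 1 + 1) → ℝ) x => ∑ a, ∑ i, C.dC u a i x * C.vC u a i x) :=
    tame_of_bdd (Finset.measurable_sum _ fun a _ => Finset.measurable_sum _ fun i _ =>
      (hBd a i).1.mul (hBv a i).1) ((C.kerBd u).2.1)
  have e1 : cavDH k C.W C.f C.σ C.ρ C.e C.b g u
      = fun z x => patD C.W C.f g u x + linZ (C.dC u) z x + detD k C.W C.σ C.b u x := rfl
  rw [e1, cnd_add hH (tP.add tZ) tD, cnd_add hH tP tZ, hlin]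
  have e2 : cnd γ (C.S u).μ H (fun _ x => ∑ a, ∑ i, C.dC u a i x * C.vC u a i x) 0 z0
      + cnd γ (C.S u).μ H (fun _ x => detD k C.W C.σ C.b u x) 0 z0
      = sin u * cos u * (C.b - 1 - C.ρ k)
        * pairG (C.S u) C.f (bigN N) C.σ (C.β u) k 0 (fun _ x _ => cw C.W x ^ 2) g := by
    rw [← cnd_add hH tG tD, pairG_fst C.mf.1 C.bf, gibz, ← cnd_const_mul]
    congr 1
    funext z x
    rw [C.dv_diag, detD_eq, fin_sum_all k fun i => C.σ i ^ 2, r]
    ring
  have e3 : ∀ l, pairG (C.S u) C.f (bigN N) C.σ (C.β u) k l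
      (fun (_ : Fin M → Fin (N + 1 + 1) → ℝ) x y => lowKer (C.dC u) (C.vC u) l x y) g
      = cnd γ (C.S u).μ H (fun z _ => pairCnd γ (C.S u).μ H
          (fun _ x _ y => lowKer (C.dC u) (C.vC u) l x y) l z) 0 z0 := fun l => rfl
  have e4 : gibz (k := k) (C.S u) C.f (bigN N) C.σ (C.β u) (liftObs fun g x => patD C.W C.f g u x) g
      = cnd γ (C.S u).μ H (fun _ x => patD C.W C.f g u x) 0 z0 := rfl
  simp only [e3, e4]
  linarith [e2]

theorem pob_low (u : ℝ) (l : ℕ) :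
    POb fun (_ : Fin M → Fin (N + 1 + 1) → ℝ) x y => lowKer (C.dC u) (C.vC u) l x y := by
  refine POb.leaf (h := lowKer (C.dC u) (C.vC u) l) ?_ fun x y => (C.kerBd u).2.2 l x y
  obtain ⟨Bd, -, hBd⟩ := C.bcoef_dC u
  obtain ⟨Bv, -, hBv⟩ := bcoef_vCoef (k := k) (C.S u) (bigN N) C.σ (C.β u)
  unfold lowKer Function.uncurry
  refine Finset.measurable_sum _ fun a _ => ?_
  by_cases ha : (a : ℕ) < l
  · simp only [if_pos ha]
    exact Finset.measurable_sum _ fun i _ =>
      ((hBd a i).1.comp measurable_fst).mul ((hBv a i).1.comp measurable_snd)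
  · simp only [if_neg ha]; exact measurable_const

theorem abs_root_DH_le (u : ℝ) (g : Fin M → Fin (N + 1 + 1) → ℝ) :
    |cnd (stdG (FieldIdx (N + 1 + 1))) (C.S u).μ (ham (k := k) (C.S u) C.f (bigN N) C.σ (C.β u) g)
        (cavDH k C.W C.f C.σ C.ρ C.e C.b g u) 0 (fun _ _ => 0)|
      ≤ 3 * C.W ^ 3 * C.Bf * gTot g + (|C.b - 1 - C.ρ k| * C.W ^ 2 + C.κfld) := by
  rw [C.root_DH]
  have hH := linB_ham (k := k) (C.S u) C.mf.1 C.bf (bigN N) C.σ (C.β u) g
  have hs : |mass k * ∑ l ∈ Icc 1 k, pairG (C.S u) C.f (bigN N) C.σ (C.β u) k l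
      (fun (_ : Fin M → Fin (N + 1 + 1) → ℝ) x y => lowKer (C.dC u) (C.vC u) l x y) g| ≤ C.κfld := by
    rw [abs_mul, abs_of_pos mass_pos]
    refine (mul_le_mul_of_nonneg_left (abs_sum_le_sum_abs _ _) mass_pos.le).trans
      (mass_sum_le (fun l hl => mem_Icc.2 ⟨Nat.zero_le _, (mem_Icc.1 hl).2⟩) C.κfld_nonneg fun l _ => ?_)
    exact (gibz_pair_facts (k := k) C.mf.1 C.bf l (C.pob_low (M := M) u l).meas).2 g _
      fun x y => (C.kerBd u).2.2 l x y
  refine (abs_sub _ _).trans ((add_le_add ((abs_add_le _ _).trans (add_le_add ?_ ?_)) hs).trans_eq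
    (add_assoc _ _ _))
  · exact abs_gibz_le C.mf.1 C.bf ((measurable_liftObs (C.measurable_patD u)).2 g)
      fun z x => C.patD_le u g x
  · rw [abs_mul, abs_mul]
    refine mul_le_mul (mul_le_of_le_one_left (abs_nonneg _) (abs_sin_cos_le u)) ?_ (abs_nonneg _)
      (abs_nonneg _)
    exact (gibz_pair_facts (k := k) C.mf.1 C.bf 0 (C.pob_w2 M).meas).2 g _
      fun x _ => (abs_sq (cw C.W x)).le.trans (C.cw_sq_le x)

/-- The data of a differentiable family along the path. -/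
theorem family (g : Fin M → Fin (N + 1 + 1) → ℝ) (u : ℝ) :
    Family (gaussSize (FieldIdx (N + 1 + 1)))
      (fun s => ham (k := k) (C.S s) C.f (bigN N) C.σ (C.β s) g) (fun _ _ _ => (0 : ℝ))
      (fun s => cavDH k C.W C.f C.σ C.ρ C.e C.b g s) (fun _ _ _ => (0 : ℝ)) u 1 := by
  obtain ⟨A, hA, hb⟩ := C.ham_unif M
  have hT := gTot_nonneg g
  refine ⟨one_pos, fun s => (linB_ham (C.S s) C.mf.1 C.bf (bigN N) C.σ (C.β s) g).meas, fun s => ?_,
    fun _ => measurable_const, fun _ => measurable_const,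
    ⟨A * (1 + gTot g) + 1, by positivity, fun s _ z x => ?_⟩, fun s _ z x => ?_,
    fun s _ z x => hasDerivAt_const s _⟩
  · have h2 : Measurable fun p : (Fin k → FieldIdx (N + 1 + 1) → ℝ) × CavX C.K =>
        patD C.W C.f g s p.2 + linZ (C.dC s) p.1 p.2 + detD k C.W C.σ C.b s p.2 :=
      (((measurable_slice (fun g x => patD C.W C.f g s x) (C.measurable_patD s) g).comp
        measurable_snd).add (measurable_linZ (C.bcoef_dC s))).add
        ((C.measurable_detD s).comp measurable_snd)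
    exact h2
  · set T := (gaussSize (FieldIdx (N + 1 + 1))).tot z
    have ht : 0 ≤ T := (gaussSize (FieldIdx (N + 1 + 1))).tot_nonneg z
    have h1 : A ≤ A * (1 + gTot g) + 1 := by nlinarith
    have hz : |(0 : ℝ)| ≤ (A * (1 + gTot g) + 1) * exp ((A * (1 + gTot g) + 1) * T) := by
      simp only [abs_zero]; positivity
    refine ⟨(hb g s z x).1.trans (mul_le_mul_of_nonneg_right h1 (by linarith)),
      (hb g s z x).2.trans ?_, hz, hz⟩
    calc A * (1 + gTot g + T) ≤ (A * (1 + gTot g) + 1) * exp T := by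
          nlinarith [mul_nonneg (mul_nonneg hA hT) ht,
            mul_le_mul_of_nonneg_left (add_one_le_exp T) (by positivity : 0 ≤ A * (1 + gTot g) + 1)]
      _ ≤ _ := mul_le_mul_of_nonneg_left
          (exp_le_exp.2 (le_mul_of_one_le_left ht (by nlinarith))) (by positivity)
  · exact hasDerivAt_cavH C.hW C.mf.2.2 C.σ C.hρ C.he C.b g s z x

theorem integrable_root_DH (M : ℕ) (u : ℝ) :
    Integrable (fun g : Fin M → Fin (N + 1 + 1) → ℝ =>
      gibz (k := k) (C.S u) C.f (bigN N) C.σ (C.β u) (liftObs fun g x => patD C.W C.f g u x) g)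
      (patterns M (N + 1 + 1)) := by
  have hW := C.hW
  have hBf := C.Bf_nonneg
  refine integrable_patterns (A := 3 * C.W ^ 3 * C.Bf + 1)
    (measurable_gibz C.mf.1 (measurable_liftObs (C.measurable_patD u)).1) fun g => ?_
  refine (abs_gibz_le C.mf.1 C.bf ((measurable_liftObs (C.measurable_patD u)).2 g)
    fun z x => C.patD_le u g x).trans ?_
  have hT := gTot_nonneg g
  have h1 : gTot g ≤ exp (gTot g) := by linarith [add_one_le_exp (gTot g)]
  have h0 : 0 ≤ 3 * C.W ^ 3 * C.Bf := by positivity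
  exact mul_le_mul (by linarith) (h1.trans (exp_le_exp.2 (le_mul_of_one_le_left hT (by linarith))))
    hT (by linarith)

theorem hasDerivAt_val_root (g : Fin M → Fin (N + 1 + 1) → ℝ) (s : ℝ) :
    HasDerivAt (fun t => val (stdG (FieldIdx (N + 1 + 1))) (C.S t).μ
        (ham (k := k) (C.S t) C.f (bigN N) C.σ (C.β t) g) 0 fun _ _ => 0)
      (cnd (stdG (FieldIdx (N + 1 + 1))) (C.S s).μ (ham (k := k) (C.S s) C.f (bigN N) C.σ (C.β s) g)
        (cavDH k C.W C.f C.σ C.ρ C.e C.b g s) 0 fun _ _ => 0) s := by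
  have F := C.family g s
  have h := hasDerivAt_val (γ := stdG (FieldIdx (N + 1 + 1))) (μ := (C.S s).μ) F 0 (fun _ _ => 0)
  exact h

theorem hasDerivAt_F (M : ℕ) (u : ℝ) :
    HasDerivAt (C.F M) (∫ g, cnd (stdG (FieldIdx (N + 1 + 1))) (C.S u).μ
      (ham (k := k) (C.S u) C.f (bigN N) C.σ (C.β u) g)
      (cavDH k C.W C.f C.σ C.ρ C.e C.b g u) 0 (fun _ _ => 0) ∂patterns M (N + 1 + 1)) u := by
  have : IsProbabilityMeasure (patterns M (N + 1 + 1)) := by unfold patterns; infer_instance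
  obtain ⟨A, hA, hb⟩ := C.ham_unif M
  have hW := C.hW
  have hBf := C.Bf_nonneg
  have hκ := C.κfld_nonneg
  obtain ⟨A', hA', hval⟩ := val_bound_unif (k := k) (μ := (C.S u).μ)
    (gaussSize (FieldIdx (N + 1 + 1))) hA
  have mval : ∀ s, Measurable fun g : Fin M → Fin (N + 1 + 1) → ℝ =>
      val (stdG (FieldIdx (N + 1 + 1))) (C.S s).μ (ham (k := k) (C.S s) C.f (bigN N) C.σ (C.β s) g) 0
        (fun _ _ => 0) := fun s =>
    measurable_valRoot (S := C.S s)
      (H := fun g : Fin M → Fin (N + 1 + 1) → ℝ => ham (k := k) (C.S s) C.f (bigN N) C.σ (C.β s) g)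
      (measurable_ham (C.S s) C.mf.1 (bigN N) C.σ (C.β s))
  set c := 3 * C.W ^ 3 * C.Bf + (|C.b - 1 - C.ρ k| * C.W ^ 2 + C.κfld) + 1 with hc
  have hbound : ∀ g : Fin M → Fin (N + 1 + 1) → ℝ,
      3 * C.W ^ 3 * C.Bf * gTot g + (|C.b - 1 - C.ρ k| * C.W ^ 2 + C.κfld) ≤ c * exp (c * gTot g) := by
    intro g
    have hT := gTot_nonneg g
    have q1 : 0 ≤ 3 * C.W ^ 3 * C.Bf := by positivity
    have q2 : 0 ≤ |C.b - 1 - C.ρ k| * C.W ^ 2 := by positivity
    calc 3 * C.W ^ 3 * C.Bf * gTot g + (|C.b - 1 - C.ρ k| * C.W ^ 2 + C.κfld)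
        ≤ c * gTot g + c * 1 := add_le_add (mul_le_mul_of_nonneg_right (by rw [hc]; linarith) hT)
          (by rw [hc]; linarith)
      _ = c * (gTot g + 1) := by ring
      _ ≤ _ := mul_le_mul_of_nonneg_left ((add_one_le_exp _).trans (exp_le_exp.2
          (le_mul_of_one_le_left hT (by rw [hc]; linarith)))) (by rw [hc]; positivity)
  have mDH : Measurable fun g : Fin M → Fin (N + 1 + 1) → ℝ =>
      gibz (k := k) (C.S u) C.f (bigN N) C.σ (C.β u) (liftObs fun g x => patD C.W C.f g u x) g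
        + sin u * cos u * (C.b - 1 - C.ρ k)
          * pairG (C.S u) C.f (bigN N) C.σ (C.β u) k 0 (fun _ x _ => cw C.W x ^ 2) g
        - mass k * ∑ l ∈ Icc 1 k, pairG (C.S u) C.f (bigN N) C.σ (C.β u) k l
            (fun _ x y => lowKer (C.dC u) (C.vC u) l x y) g :=
    ((measurable_gibz C.mf.1 (measurable_liftObs (C.measurable_patD u)).1).add
      ((pairG_facts (S := C.S u) C.mf.1 C.bf 0 (C.pob_w2 M)).1.const_mul _)).sub
      ((Finset.measurable_sum _ fun l _ =>
        (pairG_facts (S := C.S u) C.mf.1 C.bf l (C.pob_low (M := M) u l)).1).const_mul _)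
  refine (hasDerivAt_integral_of_dominated_loc_of_deriv_le
    (bound := fun g => c * exp (c * gTot g)) Filter.univ_mem
    (Filter.Eventually.of_forall fun s => (mval s).aestronglyMeasurable) ?_
    (F' := fun s g => cnd (stdG (FieldIdx (N + 1 + 1))) (C.S s).μ
      (ham (k := k) (C.S s) C.f (bigN N) C.σ (C.β s) g)
      (cavDH k C.W C.f C.σ C.ρ C.e C.b g s) 0 (fun _ _ => 0)) ?_ ?_
    ((integrable_exp_gTot c).const_mul c) ?_).2
  · refine Integrable.of_bound (mval u).aestronglyMeasurable (A' * (1 + 0)) (ae_of_all _ fun g => ?_)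
    rw [Real.norm_eq_abs]
    refine (hval (ham (k := k) (C.S u) C.f (bigN N) C.σ (C.β u) g)
      (linB_ham (C.S u) C.mf.1 C.bf (bigN N) C.σ (C.β u) g).meas (fun z x => (hb g u z x).1) 0
      (fun _ _ => 0)).trans_eq ?_
    simp [Size.tot, gaussSize]
  · simp only [C.root_DH]
    exact mDH.aestronglyMeasurable
  · refine ae_of_all _ fun g s _ => ?_
    rw [Real.norm_eq_abs]
    exact (C.abs_root_DH_le s g).trans (hbound g)
  · exact ae_of_all _ fun g s _ => C.hasDerivAt_val_root g s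

/-- The derivative, exactly. -/
theorem deriv_F_eq (M : ℕ) (u : ℝ) :
    HasDerivAt (C.F M)
      (-(mass k * ∑ l ∈ Icc 0 k, ∑ a : Fin M, C.gp M u l (fun g x y =>
          deriv C.f (sdot (g a) (cavPat C.W u x)) * deriv C.f (sdot (g a) (cavPat C.W u y))
            * sdot (cavPat' C.W u x) (cavPat C.W u y)))
        + sin u * cos u * (C.b - 1 - C.ρ k) * C.V M u
        - mass k * ∑ l ∈ Icc 1 k, C.gp M u l (fun _ x y => lowKer (C.dC u) (C.vC u) l x y)) u := by
  refine (C.hasDerivAt_F M u).congr_deriv ?_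
  simp only [C.root_DH]
  have i2 := (pairG_facts (k := k) (S := C.S u) (N := bigN N) (σ := C.σ) (β := C.β u)
    C.mf.1 C.bf 0 (C.pob_w2 M)).2
  have i3 : ∀ l, Integrable (pairG (C.S u) C.f (bigN N) C.σ (C.β u) k l
      (fun (_ : Fin M → Fin (N + 1 + 1) → ℝ) x y => lowKer (C.dC u) (C.vC u) l x y))
      (patterns M (N + 1 + 1)) := fun l =>
    (pairG_facts (S := C.S u) C.mf.1 C.bf l (C.pob_low (M := M) u l)).2
  have h := (C.dirPat u).patP_ibp (M := M) (k := k) (N := bigN N) (σ := C.σ) (β := C.β u) 0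
  have eK : ∀ a : Fin M, ibpKer (C.S u) C.f (cavPat' C.W u) 0 a = fun g x y =>
      deriv C.f (sdot (g a) (cavPat C.W u x)) * deriv C.f (sdot (g a) (cavPat C.W u y))
        * sdot (cavPat' C.W u x) (cavPat C.W u y) := fun a => by
    funext g x y
    rw [ibpKer, zero_mul, exp_zero, one_mul]
  simp only [eK, zero_mul, exp_zero, mul_one, zero_sub] at h
  have i23 : Integrable (fun g : Fin M → Fin (N + 1 + 1) → ℝ =>
      gibz (k := k) (C.S u) C.f (bigN N) C.σ (C.β u) (liftObs fun g x => patD C.W C.f g u x) g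
        + sin u * cos u * (C.b - 1 - C.ρ k)
          * pairG (C.S u) C.f (bigN N) C.σ (C.β u) k 0 (fun _ x _ => cw C.W x ^ 2) g)
      (patterns M (N + 1 + 1)) := (C.integrable_root_DH M u).add (i2.const_mul _)
  rw [integral_sub i23 ((integrable_finsetSum _ fun l _ => i3 l).const_mul _),
    integral_add (C.integrable_root_DH M u) (i2.const_mul _), integral_const_mul, integral_const_mul,
    integral_finsetSum _ fun l _ => i3 l]
  congr 2

/-- The constant of the derivative estimate. -/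
noncomputable def derK (W Bf L Cp R T : ℝ) : ℝ :=
  T * (4 * W ^ 6 * Bf ^ 2 + 12 * (1 + Bf ^ 2) * Cp * W ^ 6
    + (Bf ^ 2 * W ^ 2 + 4 * (1 + Bf ^ 2) * Cp * W ^ 4 * exp (6 * L)) + Bf ^ 2 * W ^ 2)
    + R * (5 * W ^ 6 + W ^ 2)

/-- The pattern kernel of one row against the one-coordinate observables. -/
theorem pat_term {Cp : ℝ} (hCp : 0 ≤ Cp) (u : ℝ) (M : ℕ)
    (hP : ∀ l ≤ k, ∀ (a b : CavX C.K → ℝ) (R : ℝ), (∀ x, |a x| ≤ R) → (∀ x, |b x| ≤ R) →
      Measurable a → Measurable b →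
      let err := fun j => C.gp M u j fun _ x y => |sdot (cavPat C.W u x) (cavPat C.W u y) - C.q j|
      |C.gp (M + 1) u l (fun g x y => a x * b y *
          (deriv C.f (sdot (g (Fin.last M)) (cavPat C.W u x))
            * deriv C.f (sdot (g (Fin.last M)) (cavPat C.W u y))))
        - gamK k C.f C.q l * C.gp M u l (fun _ x y => a x * b y)|
        ≤ Cp * R ^ 2 * (err l + mass k * ∑ i ∈ Icc 0 k, err i) ∧
      |C.gp (M + 1) u l (fun _ x y => a x * b y) - C.gp M u l (fun _ x y => a x * b y)|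
        ≤ Cp * R ^ 2 * (err l + mass k * ∑ i ∈ Icc 0 k, err i))
    (hΓ : ∀ l ≤ k, |gamK k C.f C.q l| ≤ C.Bf ^ 2) {l : ℕ} (hl : l ≤ k) (a : Fin (M + 1)) :
    |dimN N * C.gp (M + 1) u l (fun g x y =>
        deriv C.f (sdot (g a) (cavPat C.W u x)) * deriv C.f (sdot (g a) (cavPat C.W u y))
          * sdot (cavPat' C.W u x) (cavPat C.W u y))
      - sin u * cos u * gamK k C.f C.q l
        * (C.gp (M + 1) u l (fun _ x y => cw C.W x * cw C.W y) - C.q l * C.V (M + 1) u)|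
      ≤ C.Bf ^ 2 * (4 * C.W ^ 6 / dimN N) + C.Bf ^ 2 * C.W ^ 2 * C.err (M + 1) u l
        + 2 * (1 + C.Bf ^ 2) * Cp * C.W ^ 4
          * (exp (6 * C.L) * C.err (M + 1) u l + exp (6 * C.L) * C.Err (M + 1) u
            + 6 * C.W ^ 2 / dimN N) := by
  obtain ⟨mf, mf1, -⟩ := C.mf
  have hW := C.hW
  have hn0 : 0 < dimN N := by linarith [one_le_dimN N]
  have hBf := C.Bf_nonneg
  set Φ : (Fin (N + 1 + 1) → ℝ) → CavX C.K → CavX C.K → ℝ := fun v x y =>
    deriv C.f (sdot v (cavPat C.W u x)) * deriv C.f (sdot v (cavPat C.W u y)) with hΦ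
  have s1 : Measurable fun p : ((Fin (N + 1 + 1) → ℝ) × CavX C.K) × CavX C.K =>
      sdot p.1.1 (cavPat C.W u p.1.2) :=
    measurable_sdot (measurable_fst.comp measurable_fst)
      (measurable_cavPat.comp (measurable_snd.comp measurable_fst))
  have s2 : Measurable fun p : ((Fin (N + 1 + 1) → ℝ) × CavX C.K) × CavX C.K =>
      sdot p.1.1 (cavPat C.W u p.2) :=
    measurable_sdot (measurable_fst.comp measurable_fst) (measurable_cavPat.comp measurable_snd)
  have mKer : Measurable fun p : ((Fin (N + 1 + 1) → ℝ) × CavX C.K) × CavX C.K =>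
      Φ p.1.1 p.1.2 p.2 * sdot (cavPat' C.W u p.1.2) (cavPat C.W u p.2) :=
    ((mf1.comp s1).mul (mf1.comp s2)).mul (measurable_sdot
      (measurable_cavPat'.comp (measurable_snd.comp measurable_fst)) (measurable_cavPat.comp measurable_snd))
  have hrow : C.gp (M + 1) u l (fun g x y =>
        deriv C.f (sdot (g a) (cavPat C.W u x)) * deriv C.f (sdot (g a) (cavPat C.W u y))
          * sdot (cavPat' C.W u x) (cavPat C.W u y))
      = C.gp (M + 1) u l (fun g x y => Φ (g (Fin.last M)) x y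
          * sdot (cavPat' C.W u x) (cavPat C.W u y)) :=
    gibPair_row (S := C.S u) (σ := C.σ) (β := C.β u) l a
      (fun v x y => Φ v x y * sdot (cavPat' C.W u x) (cavPat C.W u y)) mf mKer
  rw [hrow]
  have hΦb : ∀ v x y, |Φ v x y| ≤ C.Bf ^ 2 := fun v x y => by
    simp only [hΦ]; rw [abs_mul, pow_two]
    exact mul_le_mul (C.bf' _) (C.bf' _) (abs_nonneg _) hBf
  set P0 := fun (g : Fin (M + 1) → Fin (N + 1 + 1) → ℝ) x y => Φ (g (Fin.last M)) x y
  have hlast : Measurable fun p : ((Fin (M + 1) → Fin (N + 1 + 1) → ℝ) × CavX C.K) × CavX C.K =>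
      ((p.1.1 (Fin.last M), p.1.2), p.2) :=
    (((measurable_pi_apply (Fin.last M)).comp (measurable_fst.comp measurable_fst)).prodMk
      (measurable_snd.comp measurable_fst)).prodMk measurable_snd
  have pP : POb P0 :=
    ⟨(((mf1.comp s1).mul (mf1.comp s2)).comp hlast), C.Bf ^ 2, sq_nonneg _, fun g x y => hΦb _ x y⟩
  have pK : POb fun (_ : Fin (M + 1) → Fin (N + 1 + 1) → ℝ) (x y : CavX C.K) =>
      sdot (cavPat' C.W u x) (cavPat C.W u y) := by
    refine POb.leaf (h := fun x y => sdot (cavPat' C.W u x) (cavPat C.W u y))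
      (measurable_sdot (measurable_cavPat'.comp measurable_fst) (measurable_cavPat.comp measurable_snd))
      (C := 6 * C.W ^ 6) fun x y => ?_
    exact (le_mul_of_one_le_left (abs_nonneg _) (one_le_dimN N)).trans (cavKer_bdd hW x y).1
  have pa := (pP.mul (C.pob_ww (M + 1)))
  have pb := (pP.mul (C.pob_w2 (M + 1))).const_mul (C.q l)
  have pe := ((C.pob_err (M + 1) l).const_mul (C.Bf ^ 2 * C.W ^ 2)).add
    (POb.const (C.Bf ^ 2 * (4 * C.W ^ 6 / dimN N)))
  -- the kernel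
  have hk := gp_close (S := C.S u) (k := k) (N := bigN N) (σ := C.σ) (β := C.β u) mf C.bf l
    ((pP.mul pK).const_mul (dimN N)) ((pa.sub pb).const_mul (sin u * cos u)) pe (fun g x y => by
      set R := oldOv x y
      set A := sdot (cavPat' C.W u x) (cavPat C.W u y)
      have h1 : |dimN N * A - sin u * cos u * (cw C.W x * cw C.W y - cw C.W x ^ 2 * R)|
          ≤ 4 * C.W ^ 6 / dimN N := cavPatKer hW x y
      have h2 : |sin u * cos u * (cw C.W x * cw C.W y - cw C.W x ^ 2 * R)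
          - sin u * cos u * (cw C.W x * cw C.W y - C.q l * cw C.W x ^ 2)|
          ≤ C.W ^ 2 * |R - C.q l| := by
        rw [show sin u * cos u * (cw C.W x * cw C.W y - cw C.W x ^ 2 * R)
          - sin u * cos u * (cw C.W x * cw C.W y - C.q l * cw C.W x ^ 2)
          = sin u * cos u * (cw C.W x ^ 2 * (C.q l - R)) by ring, abs_mul (sin u * cos u),
          abs_mul (cw C.W x ^ 2), abs_sq,
          abs_sub_comm (C.q l)]
        exact (mul_le_of_le_one_left (by positivity) (abs_sin_cos_le u)).trans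
          (mul_le_mul_of_nonneg_right (C.cw_sq_le x) (abs_nonneg _))
      calc |dimN N * (P0 g x y * A) - sin u * cos u
            * (P0 g x y * (cw C.W x * cw C.W y) - C.q l * (P0 g x y * cw C.W x ^ 2))|
          = |P0 g x y| * |dimN N * A - sin u * cos u * (cw C.W x * cw C.W y - C.q l * cw C.W x ^ 2)| := by
            rw [← abs_mul]; ring_nf
        _ ≤ C.Bf ^ 2 * (4 * C.W ^ 6 / dimN N + C.W ^ 2 * |R - C.q l|) :=
            mul_le_mul (hΦb _ x y) ((abs_sub_le _ _ _).trans (add_le_add h1 h2)) (abs_nonneg _)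
              (sq_nonneg _)
        _ = _ := by ring)
  rw [gp_add mf C.bf l ((C.pob_err (M + 1) l).const_mul _) (POb.const _), gp_const mf C.bf,
    gp_const_mul, gp_const_mul, gp_const_mul, gp_sub mf C.bf l pa pb, gp_const_mul] at hk
  -- the one-coordinate observables
  have hw2 : ∀ x : CavX C.K, |cw C.W x| ≤ C.W ^ 2 := fun x =>
    (abs_cw_le hW x).trans (le_self_pow₀ hW two_ne_zero)
  have hsq : ∀ x : CavX C.K, |cw C.W x ^ 2| ≤ C.W ^ 2 := fun x => (abs_sq _).le.trans (C.cw_sq_le x)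
  obtain ⟨hx1, hy1⟩ := hP l hl (cw C.W) (cw C.W) (C.W ^ 2) hw2 hw2 measurable_cw measurable_cw
  obtain ⟨hx2, hy2⟩ := hP l hl (fun x => cw C.W x ^ 2) (fun _ => 1) (C.W ^ 2) hsq
    (fun _ => by rw [abs_one]; exact one_le_pow₀ hW) (measurable_cw.pow_const 2) measurable_const
  simp only [mul_one] at hx2 hy2
  -- the error of the overlaps of patterns
  have herr : ∀ j ≤ k, C.gp M u j (fun _ x y => |sdot (cavPat C.W u x) (cavPat C.W u y) - C.q j|)
      ≤ exp (6 * C.L) * C.err (M + 1) u j + 3 * C.W ^ 2 / dimN N := by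
    intro j hj
    have hp : POb fun (_ : Fin M → Fin (N + 1 + 1) → ℝ) (x y : CavX C.K) =>
        |sdot (cavPat C.W u x) (cavPat C.W u y) - C.q j| :=
      POb.leaf (h := fun x y => |sdot (cavPat C.W u x) (cavPat C.W u y) - C.q j|)
        ((measurable_sdot (measurable_cavPat.comp measurable_fst)
          (measurable_cavPat.comp measurable_snd)).sub_const _).abs
        (C := 3 * C.W ^ 2 / dimN N + (1 + |C.q j|)) fun x y => by
          rw [abs_abs]
          refine (abs_sub_le _ (oldOv x y) _).trans (add_le_add (cavPatOv hW x y) ?_)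
          exact (abs_sub _ _).trans (add_le_add (abs_oldOv_le x y) le_rfl)
    refine (gp_mono (S := C.S u) mf C.bf j hp ((C.pob_err M j).add (POb.const (3 * C.W ^ 2 / dimN N)))
      fun g x y => ?_).trans ?_
    · have := cavPatOv (u := u) hW x y
      linarith [abs_sub_le (sdot (cavPat C.W u x) (cavPat C.W u y)) (oldOv x y) (C.q j)]
    · rw [gp_add mf C.bf j (C.pob_err M j) (POb.const _), gp_const mf C.bf]
      exact add_le_add_left (gp_drop (S := C.S u) (k := k) (N := bigN N) (σ := C.σ) (β := C.β u) mf C.bf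
        (h := fun x y => |oldOv x y - C.q j|) hj (C.measurable_oldOv.sub_const _).abs
        (C.abs_err_le j) fun x y => abs_nonneg _) _
  set E := C.gp M u l (fun _ x y => |sdot (cavPat C.W u x) (cavPat C.W u y) - C.q l|)
    + mass k * ∑ i ∈ Icc 0 k, C.gp M u i (fun _ x y => |sdot (cavPat C.W u x) (cavPat C.W u y) - C.q i|)
    with hE
  have hEle : E ≤ exp (6 * C.L) * C.err (M + 1) u l + exp (6 * C.L) * C.Err (M + 1) u
      + 6 * C.W ^ 2 / dimN N := by
    have hs : mass k * ∑ i ∈ Icc 0 k,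
        C.gp M u i (fun _ x y => |sdot (cavPat C.W u x) (cavPat C.W u y) - C.q i|)
        ≤ exp (6 * C.L) * C.Err (M + 1) u + 3 * C.W ^ 2 / dimN N := by
      refine (mul_le_mul_of_nonneg_left (sum_le_sum fun i hi => herr i (mem_Icc.1 hi).2)
        mass_pos.le).trans_eq ?_
      rw [sum_add_distrib, sum_const, ← mul_sum, nsmul_eq_mul, mul_add, ← mul_assoc (mass k) _ (3 * _ / _),
        mass_mul_card, one_mul, Err]
      ring
    calc E ≤ (exp (6 * C.L) * C.err (M + 1) u l + 3 * C.W ^ 2 / dimN N)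
          + (exp (6 * C.L) * C.Err (M + 1) u + 3 * C.W ^ 2 / dimN N) := add_le_add (herr l hl) hs
      _ = _ := by ring
  obtain ⟨hq0, hq1⟩ := C.q_mem hl
  set Γ := gamK k C.f C.q l
  have hG : |Γ| ≤ C.Bf ^ 2 := hΓ l hl
  set X1 := C.gp (M + 1) u l (fun g x y => cw C.W x * cw C.W y * P0 g x y)
  set X2 := C.gp (M + 1) u l (fun g x y => cw C.W x ^ 2 * P0 g x y)
  set Y1 := C.gp (M + 1) u l (fun _ x y => cw C.W x * cw C.W y)
  set Y2 := C.gp (M + 1) u l (fun _ x _ => cw C.W x ^ 2)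
  set Z1 := C.gp M u l (fun _ x y => cw C.W x * cw C.W y)
  set Z2 := C.gp M u l (fun _ x _ => cw C.W x ^ 2)
  have e1 : C.gp (M + 1) u l (fun g x y => P0 g x y * (cw C.W x * cw C.W y)) = X1 := by
    simp only [X1, mul_comm (P0 _ _ _)]
  have e2 : C.gp (M + 1) u l (fun g x y => P0 g x y * cw C.W x ^ 2) = X2 := by
    simp only [X2, mul_comm (P0 _ _ _)]
  have eV : C.V (M + 1) u = Y2 :=
    (gp_fst (S := C.S u) mf C.bf (fun x => cw C.W x ^ 2) l).symm
  have bX : ∀ {X Y Z : ℝ}, |X - Γ * Z| ≤ Cp * (C.W ^ 2) ^ 2 * E → |Y - Z| ≤ Cp * (C.W ^ 2) ^ 2 * E →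
      |X - Γ * Y| ≤ (1 + C.Bf ^ 2) * Cp * C.W ^ 4 * E := fun {X Y Z} h1 h2 => by
    calc |X - Γ * Y| ≤ |X - Γ * Z| + |Γ * Z - Γ * Y| := abs_sub_le _ _ _
      _ ≤ Cp * (C.W ^ 2) ^ 2 * E + C.Bf ^ 2 * (Cp * (C.W ^ 2) ^ 2 * E) := by
          refine add_le_add h1 ?_
          rw [← mul_sub, abs_mul, abs_sub_comm Z]
          exact mul_le_mul hG h2 (abs_nonneg _) (sq_nonneg _)
      _ = _ := by ring
  have b1 : |X1 - Γ * Y1| ≤ (1 + C.Bf ^ 2) * Cp * C.W ^ 4 * E := bX hx1 hy1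
  have b2 : |X2 - Γ * Y2| ≤ (1 + C.Bf ^ 2) * Cp * C.W ^ 4 * E := bX hx2 hy2
  have hE0 : 0 ≤ (1 + C.Bf ^ 2) * Cp * C.W ^ 4 := by positivity
  have hk' : |dimN N * C.gp (M + 1) u l (fun g x y => P0 g x y * sdot (cavPat' C.W u x) (cavPat C.W u y))
      - sin u * cos u * (X1 - C.q l * X2)|
      ≤ C.Bf ^ 2 * C.W ^ 2 * C.err (M + 1) u l + C.Bf ^ 2 * (4 * C.W ^ 6 / dimN N) := by
    rw [← e1, ← e2]; exact hk
  have h3 : |sin u * cos u * (X1 - C.q l * X2) - sin u * cos u * Γ * (Y1 - C.q l * C.V (M + 1) u)|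
      ≤ 2 * (1 + C.Bf ^ 2) * Cp * C.W ^ 4 * E := by
    rw [eV, show sin u * cos u * (X1 - C.q l * X2) - sin u * cos u * Γ * (Y1 - C.q l * Y2)
      = sin u * cos u * ((X1 - Γ * Y1) - C.q l * (X2 - Γ * Y2)) by ring, abs_mul]
    refine (mul_le_of_le_one_left (abs_nonneg _) (abs_sin_cos_le u)).trans ((abs_sub _ _).trans ?_)
    rw [abs_mul, abs_of_nonneg hq0]
    calc |X1 - Γ * Y1| + C.q l * |X2 - Γ * Y2|
        ≤ (1 + C.Bf ^ 2) * Cp * C.W ^ 4 * E + 1 * ((1 + C.Bf ^ 2) * Cp * C.W ^ 4 * E) :=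
          add_le_add b1 (mul_le_mul hq1 b2 (abs_nonneg _) zero_le_one)
      _ = _ := by ring
  have h4 : 2 * (1 + C.Bf ^ 2) * Cp * C.W ^ 4 * E ≤ 2 * (1 + C.Bf ^ 2) * Cp * C.W ^ 4
      * (exp (6 * C.L) * C.err (M + 1) u l + exp (6 * C.L) * C.Err (M + 1) u + 6 * C.W ^ 2 / dimN N) :=
    mul_le_mul_of_nonneg_left hEle (by linarith)
  calc _ ≤ _ := abs_sub_le _ (sin u * cos u * (X1 - C.q l * X2)) _
    _ ≤ _ := by linarith

/-- The field kernel against the one-coordinate observables. -/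
theorem fld_term (u : ℝ) (M : ℕ) {l : ℕ} (hl : l ≤ k) :
    |C.gp M u l (fun _ x y => lowKer (C.dC u) (C.vC u) l x y)
      - sin u * cos u * (C.r l * C.q l * (1 - C.V M u)
        - (C.ρ l - C.r l) * C.gp M u l (fun _ x y => cw C.W x * cw C.W y))|
      ≤ C.r k * (5 * C.W ^ 6 / dimN N) + C.r k * C.W ^ 2 * C.err M u l := by
  have mf := C.mf.1
  have hW := C.hW
  have pA := ((POb.const (n := N + 1 + 1) (M := M) (X := CavX C.K) 1).sub (C.pob_w2 M)).const_mul
    (C.r l * C.q l)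
  have pB := (C.pob_ww M).const_mul (C.ρ l - C.r l)
  have pe := ((C.pob_err M l).const_mul (C.r k * C.W ^ 2)).add
    (POb.const (C.r k * (5 * C.W ^ 6 / dimN N)))
  have hk := gp_close (S := C.S u) (k := k) (N := bigN N) (σ := C.σ) (β := C.β u) mf C.bf l
    (C.pob_low (M := M) u l) ((pA.sub pB).const_mul (sin u * cos u)) pe (fun g x y => by
      rw [C.dv_low u hl]
      set R := oldOv x y
      set A := bigN N * sdot (cavFld' C.W u x) (cavFld C.W u y)
      have h1 : |A - sin u * cos u * ((1 - cw C.W x ^ 2) * R + cw C.W x * cw C.W y)|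
          ≤ 5 * C.W ^ 6 / dimN N := cavFldKer hW x y
      have h2 : |(1 - cw C.W x ^ 2) * (R - C.q l)| ≤ C.W ^ 2 * |R - C.q l| := by
        rw [abs_mul]
        refine mul_le_mul_of_nonneg_right (abs_le.2 ⟨?_, ?_⟩) (abs_nonneg _)
        · linarith [C.cw_sq_le x, sq_nonneg (cw C.W x)]
        · nlinarith [one_le_pow₀ (n := 2) hW, sq_nonneg (cw C.W x)]
      have h3 : |(A - sin u * cos u * ((1 - cw C.W x ^ 2) * R + cw C.W x * cw C.W y))
          + sin u * cos u * ((1 - cw C.W x ^ 2) * (R - C.q l))|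
          ≤ 5 * C.W ^ 6 / dimN N + C.W ^ 2 * |R - C.q l| := by
        refine (abs_add_le _ _).trans (add_le_add h1 ?_)
        rw [abs_mul]
        exact (mul_le_of_le_one_left (abs_nonneg _) (abs_sin_cos_le u)).trans h2
      calc |C.r l * A - sin u * cos u * C.ρ l * (cw C.W x * cw C.W y) - sin u * cos u
            * (C.r l * C.q l * (1 - cw C.W x ^ 2) - (C.ρ l - C.r l) * (cw C.W x * cw C.W y))|
          = C.r l * |(A - sin u * cos u * ((1 - cw C.W x ^ 2) * R + cw C.W x * cw C.W y))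
            + sin u * cos u * ((1 - cw C.W x ^ 2) * (R - C.q l))| := by
            rw [← abs_of_nonneg (C.r_nonneg l), ← abs_mul, abs_of_nonneg (C.r_nonneg l)]
            ring_nf
        _ ≤ C.r k * (5 * C.W ^ 6 / dimN N + C.W ^ 2 * |R - C.q l|) :=
            mul_le_mul (C.r_mono hl) h3 (abs_nonneg _) (C.r_nonneg k)
        _ = _ := by ring)
  rw [gp_add mf C.bf l ((C.pob_err M l).const_mul _) (POb.const _), gp_const mf C.bf, gp_const_mul,
    gp_const_mul, gp_sub mf C.bf l pA pB, gp_const_mul, gp_const_mul,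
    gp_sub mf C.bf l (POb.const 1) (C.pob_w2 M), gp_const mf C.bf] at hk
  have eV : C.V M u = C.gp M u l (fun _ x _ => cw C.W x ^ 2) :=
    (gp_fst (S := C.S u) mf C.bf (fun x => cw C.W x ^ 2) l).symm
  rw [eV, add_comm (C.r k * (5 * C.W ^ 6 / dimN N))]
  exact hk

theorem V_le (M : ℕ) (u : ℝ) {l : ℕ} :
    |C.gp M u l (fun _ x y => cw C.W x * cw C.W y)| ≤ C.W ^ 2 := by
  have h := gp_close (S := C.S u) (k := k) (N := bigN N) (σ := C.σ) (β := C.β u) C.mf.1 C.bf l
    (C.pob_ww M) (POb.const 0) (POb.const (C.W ^ 2)) fun g x y => by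
      rw [sub_zero]; exact C.cw_mul_le x y
  rwa [gp_const C.mf.1 C.bf, gp_const C.mf.1 C.bf, sub_zero] at h

/-- The derivative is close to that of `-c sin u ^ 2 / 2`. -/
theorem deriv_F_near (hΦ : PhiStmt) {Cp : ℝ} (hCp : 0 ≤ Cp)
    (hP : ∀ (M : ℕ) (u : ℝ), ∀ l ≤ k, ∀ (a b : CavX C.K → ℝ) (R : ℝ), (∀ x, |a x| ≤ R) →
      (∀ x, |b x| ≤ R) → Measurable a → Measurable b →
      let err := fun j => C.gp M u j fun _ x y => |sdot (cavPat C.W u x) (cavPat C.W u y) - C.q j|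
      |C.gp (M + 1) u l (fun g x y => a x * b y *
          (deriv C.f (sdot (g (Fin.last M)) (cavPat C.W u x))
            * deriv C.f (sdot (g (Fin.last M)) (cavPat C.W u y))))
        - gamK k C.f C.q l * C.gp M u l (fun _ x y => a x * b y)|
        ≤ Cp * R ^ 2 * (err l + mass k * ∑ i ∈ Icc 0 k, err i) ∧
      |C.gp (M + 1) u l (fun _ x y => a x * b y) - C.gp M u l (fun _ x y => a x * b y)|
        ≤ Cp * R ^ 2 * (err l + mass k * ∑ i ∈ Icc 0 k, err i))
    {M : ℕ} {R T : ℝ} (hR : C.r k ≤ R) (hT : (M : ℝ) / dimN N ≤ T)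
    (hρ : ∀ l ∈ Icc 1 k, C.ρ l = C.r l + (M : ℝ) / dimN N * gamK k C.f C.q l)
    (hb : C.b - 1 - C.ρ k = -(mass k * ∑ l ∈ Icc 1 k, C.ρ l * C.q l)) (u : ℝ) :
    ∃ d, HasDerivAt (C.F M) d u ∧
      |d + sin u * cos u * (mass k * ∑ l ∈ Icc 1 k, C.r l * C.q l)|
        ≤ derK C.W C.Bf C.L Cp R T * (mass k + 1 / dimN N + C.Err M u) := by
  refine ⟨_, C.deriv_F_eq M u, ?_⟩
  set t := (M : ℝ) / dimN N
  set sc := sin u * cos u
  set n := dimN N
  set Γ := gamK k C.f C.q
  set Wl := fun l => C.gp M u l (fun _ x y => cw C.W x * cw C.W y)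
  set VV := C.V M u
  have hn1 : 1 ≤ n := one_le_dimN N
  have hn0 : 0 < n := by linarith
  have hW := C.hW
  have hW0 : 0 ≤ C.W := by linarith
  have hBf := C.Bf_nonneg
  have ht0 : 0 ≤ t := by positivity
  have hT0 : 0 ≤ T := ht0.trans hT
  have hR0 : 0 ≤ R := (C.r_nonneg k).trans hR
  have hE := C.Err_nonneg M u
  have hΓ : ∀ l ≤ k, |Γ l| ≤ C.Bf ^ 2 := fun l hl => by
    obtain ⟨-, -, h, -⟩ := hΦ.1 C.f C.Bf C.good C.bf' k C.q C.q C.hq C.hq
    rw [abs_of_nonneg (h l hl).1]; exact (h l hl).2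
  set D1 := 4 * C.W ^ 6 * C.Bf ^ 2 + 12 * (1 + C.Bf ^ 2) * Cp * C.W ^ 6
  set D2 := C.Bf ^ 2 * C.W ^ 2 + 4 * (1 + C.Bf ^ 2) * Cp * C.W ^ 4 * exp (6 * C.L)
  have hD1 : 0 ≤ D1 := by positivity
  have hD2 : 0 ≤ D2 := by positivity
  -- patterns
  have hpat : |mass k * ∑ l ∈ Icc 0 k, ∑ a : Fin M, C.gp M u l (fun g x y =>
        deriv C.f (sdot (g a) (cavPat C.W u x)) * deriv C.f (sdot (g a) (cavPat C.W u y))
          * sdot (cavPat' C.W u x) (cavPat C.W u y))
      - t * sc * (mass k * ∑ l ∈ Icc 0 k, Γ l * (Wl l - C.q l * VV))|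
      ≤ T * (D1 * (1 / n) + D2 * C.Err M u) := by
    obtain rfl | ⟨M', rfl⟩ : M = 0 ∨ ∃ M', M = M' + 1 := by
      rcases M with _ | M'
      · exact Or.inl rfl
      · exact Or.inr ⟨M', rfl⟩
    · simp [t]; positivity
    set E := C.Err (M' + 1) u
    set B0 := C.Bf ^ 2 * (4 * C.W ^ 6 / n) + 2 * (1 + C.Bf ^ 2) * Cp * C.W ^ 4
      * (exp (6 * C.L) * E + 6 * C.W ^ 2 / n)
    set B1 := C.Bf ^ 2 * C.W ^ 2 + 2 * (1 + C.Bf ^ 2) * Cp * C.W ^ 4 * exp (6 * C.L)
    set G := fun l (a : Fin (M' + 1)) => C.gp (M' + 1) u l (fun g x y =>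
      deriv C.f (sdot (g a) (cavPat C.W u x)) * deriv C.f (sdot (g a) (cavPat C.W u y))
        * sdot (cavPat' C.W u x) (cavPat C.W u y))
    have hone : ∀ l ∈ Icc 0 k, |∑ a, G l a - t * sc * (Γ l * (Wl l - C.q l * VV))|
        ≤ T * (B0 + B1 * C.err (M' + 1) u l) := by
      intro l hl
      have hl' := (mem_Icc.1 hl).2
      have he : t * sc * (Γ l * (Wl l - C.q l * VV))
          = ∑ _a : Fin (M' + 1), sc * Γ l * (Wl l - C.q l * VV) / n := by
        simp only [sum_const, card_univ, Fintype.card_fin, nsmul_eq_mul, t]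
        push_cast
        ring
      rw [he, ← sum_sub_distrib]
      refine (abs_sum_le_sum_abs _ _).trans ((sum_le_sum
        (g := fun _ => (B0 + B1 * C.err (M' + 1) u l) / n) fun a _ => ?_).trans ?_)
      · rw [le_div_iff₀ hn0]
        calc |G l a - sc * Γ l * (Wl l - C.q l * VV) / n| * n
            = |(G l a - sc * Γ l * (Wl l - C.q l * VV) / n) * n| := by rw [abs_mul, abs_of_pos hn0]
          _ = |n * G l a - sc * Γ l * (Wl l - C.q l * VV)| := by
              rw [sub_mul, div_mul_cancel₀ _ hn0.ne', mul_comm]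
          _ ≤ _ := C.pat_term hCp u M' (hP M' u) hΓ hl' a
          _ = _ := by simp only [B0, B1, E, n]; ring
      · have := C.err_nonneg (M' + 1) u l
        simp only [sum_const, card_univ, Fintype.card_fin, nsmul_eq_mul, mul_div_assoc']
        rw [mul_div_right_comm]
        exact mul_le_mul_of_nonneg_right hT (by positivity)
    rw [mul_left_comm, mul_sum (Icc 0 k) _ (t * sc), ← mul_sub, ← sum_sub_distrib, abs_mul,
      abs_of_pos mass_pos]
    refine (mul_le_mul_of_nonneg_left ((abs_sum_le_sum_abs _ _).trans (sum_le_sum hone))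
      mass_pos.le).trans_eq ?_
    rw [← mul_sum, sum_add_distrib, sum_const, nsmul_eq_mul, ← mul_sum, mul_left_comm, mul_add,
      ← mul_assoc (mass k), mass_mul_card, one_mul, mul_left_comm (mass k) B1,
      show mass k * ∑ l ∈ Icc 0 k, C.err (M' + 1) u l = E from rfl]
    simp only [B0, B1, D1, D2, E]
    ring
  -- fields
  have hfld : |mass k * ∑ l ∈ Icc 1 k, C.gp M u l (fun _ x y => lowKer (C.dC u) (C.vC u) l x y)
      - mass k * ∑ l ∈ Icc 1 k, sc * (C.r l * C.q l * (1 - VV) - (C.ρ l - C.r l) * Wl l)|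
      ≤ R * (5 * C.W ^ 6 * (1 / n) + C.W ^ 2 * C.Err M u) := by
    rw [← mul_sub, ← sum_sub_distrib, abs_mul, abs_of_pos mass_pos]
    refine (mul_le_mul_of_nonneg_left ((abs_sum_le_sum_abs _ _).trans
      ((sum_le_sum fun l hl => C.fld_term u M (mem_Icc.1 hl).2).trans
        (sum_le_sum_of_subset_of_nonneg (Icc_subset_Icc (Nat.zero_le 1) le_rfl)
          fun l _ _ => ?_))) mass_pos.le).trans ?_
    · have := C.err_nonneg M u l
      have := C.r_nonneg k
      positivity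
    · rw [sum_add_distrib, sum_const, nsmul_eq_mul, ← mul_sum, mul_add, ← mul_assoc, mass_mul_card,
        one_mul, mul_left_comm, show mass k * ∑ l ∈ Icc 0 k, C.err M u l = C.Err M u from rfl]
      calc C.r k * (5 * C.W ^ 6 / n) + C.r k * C.W ^ 2 * C.Err M u
          = C.r k * (5 * C.W ^ 6 * (1 / n) + C.W ^ 2 * C.Err M u) := by ring
        _ ≤ _ := mul_le_mul_of_nonneg_right hR (by positivity)
  -- the cancellation
  have hsplit : ∀ F : ℕ → ℝ, ∑ l ∈ Icc 0 k, F l = F 0 + ∑ l ∈ Icc 1 k, F l := fun F => by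
    rw [← Finset.insert_Icc_add_one_left_eq_Icc (Nat.zero_le k), sum_insert (by simp), zero_add]
  have hc : mass k * ∑ l ∈ Icc 1 k, C.ρ l * C.q l
      = mass k * ∑ l ∈ Icc 1 k, C.r l * C.q l + t * (mass k * ∑ l ∈ Icc 1 k, Γ l * C.q l) := by
    rw [mul_left_comm t (mass k), ← mul_add, mul_sum _ _ t, ← sum_add_distrib]
    refine congrArg _ (sum_congr rfl fun l hl => ?_)
    rw [hρ l hl]; ring
  have hq0 : C.q 0 = 0 := C.hq.1
  have key : -(t * sc * (mass k * ∑ l ∈ Icc 0 k, Γ l * (Wl l - C.q l * VV)))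
      + sc * (C.b - 1 - C.ρ k) * VV
      - mass k * ∑ l ∈ Icc 1 k, sc * (C.r l * C.q l * (1 - VV) - (C.ρ l - C.r l) * Wl l)
      + sc * (mass k * ∑ l ∈ Icc 1 k, C.r l * C.q l) = -(t * sc * mass k * Γ 0 * Wl 0) := by
    have e1 : ∑ l ∈ Icc 1 k, sc * (C.r l * C.q l * (1 - VV) - (C.ρ l - C.r l) * Wl l)
        = sc * (1 - VV) * ∑ l ∈ Icc 1 k, C.r l * C.q l - sc * t * ∑ l ∈ Icc 1 k, Γ l * Wl l := by
      rw [mul_sum, mul_sum, ← sum_sub_distrib]
      exact sum_congr rfl fun l hl => by rw [hρ l hl]; ring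
    have e2 : ∑ l ∈ Icc 1 k, Γ l * (Wl l - C.q l * VV)
        = ∑ l ∈ Icc 1 k, Γ l * Wl l - VV * ∑ l ∈ Icc 1 k, Γ l * C.q l := by
      rw [mul_sum, ← sum_sub_distrib]
      exact sum_congr rfl fun l _ => by ring
    rw [hsplit, hq0, e1, e2, hb, hc]
    ring
  have hres : |t * sc * mass k * Γ 0 * Wl 0| ≤ T * C.Bf ^ 2 * C.W ^ 2 * mass k := by
    rw [show t * sc * mass k * Γ 0 * Wl 0 = sc * (t * (Γ 0 * Wl 0) * mass k) by ring, abs_mul]
    refine (mul_le_of_le_one_left (abs_nonneg _) (abs_sin_cos_le u)).trans ?_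
    rw [abs_mul, abs_mul, abs_mul, abs_of_nonneg ht0, abs_of_pos mass_pos, mul_assoc T (C.Bf ^ 2)]
    refine mul_le_mul_of_nonneg_right (mul_le_mul hT (mul_le_mul (hΓ 0 (Nat.zero_le k)) (C.V_le M u)
      (abs_nonneg _) (sq_nonneg _)) (by positivity) hT0) mass_pos.le
  set K := derK C.W C.Bf C.L Cp R T with hK
  have hKe : K = T * (D1 + D2 + C.Bf ^ 2 * C.W ^ 2) + R * (5 * C.W ^ 6 + C.W ^ 2) := rfl
  have hCT : 0 ≤ T * (C.Bf ^ 2 * C.W ^ 2) := by positivity
  have hTD1 : 0 ≤ T * D1 := by positivity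
  have hTD2 : 0 ≤ T * D2 := by positivity
  have hRW6 : 0 ≤ R * (5 * C.W ^ 6) := by positivity
  have hRW2 : 0 ≤ R * C.W ^ 2 := by positivity
  have hm : 0 < mass k := mass_pos
  calc _ ≤ T * (D1 * (1 / n) + D2 * C.Err M u) + R * (5 * C.W ^ 6 * (1 / n) + C.W ^ 2 * C.Err M u)
        + T * C.Bf ^ 2 * C.W ^ 2 * mass k := by
        rw [abs_le] at hpat hfld hres ⊢
        constructor <;> linarith [hpat.1, hpat.2, hfld.1, hfld.2, hres.1, hres.2, key]
    _ = T * (C.Bf ^ 2 * C.W ^ 2) * mass k + (T * D1 + R * (5 * C.W ^ 6)) * (1 / n)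
        + (T * D2 + R * C.W ^ 2) * C.Err M u := by ring
    _ ≤ K * mass k + K * (1 / n) + K * C.Err M u := by
        gcongr <;> (rw [hKe, mul_add T, mul_add T, mul_add R]; linarith)
    _ = _ := by ring

end CavCtx

end Vale.Agent.P157.Rsb
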