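import Vale.Agent.P157.Rsb.CavPair

/-!
# P157, cavity module: the derivative of a pair average against the average itself

Along a differentiable family of Hamiltonians the root average of a pair observable with values in
`[0, 2]` has a derivative bounded by a multiple of the average plus a small multiple of an exponential
moment of the derivative of the Hamiltonian.
-/

open MeasureTheory ProbabilityTheory Real Finset

namespace Vale.Agent.P157.Rsb

/-- Young's inequality in the form used for the derivative. -/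
theorem young_log {p a δ : ℝ} (h0 : 0 ≤ p) (h2 : p ≤ 2) (hδ : 0 < δ) (hδ1 : δ ≤ 1) :
    p * |a| ≤ -log δ * p + 2 * (δ * exp |a|) := by
  have hL : 0 ≤ -log δ := neg_nonneg.2 (log_nonpos hδ.le hδ1)
  have hE : 0 ≤ δ * exp |a| := mul_nonneg hδ.le (exp_pos _).le
  rcases le_total |a| (-log δ) with h | h
  · nlinarith [mul_le_mul_of_nonneg_left h h0]
  · have e : exp (|a| - -log δ) = δ * exp |a| := by
      rw [sub_neg_eq_add, exp_add, exp_log hδ, mul_comm]
    have h1 : |a| - -log δ ≤ δ * exp |a| := by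
      rw [← e]; linarith [add_one_le_exp (|a| - -log δ)]
    nlinarith [mul_le_mul_of_nonneg_right h2 (sub_nonneg.2 h)]

theorem measurable_diag {A : Type} [MeasurableSpace A] (F : A → A → ℝ)
    (h : Measurable fun p : A × A => F p.1 p.2) : Measurable fun a => F a a := by
  have hd : Measurable fun a : A => (a, a) := measurable_id.prodMk measurable_id
  exact h.comp hd

theorem measurable_fix_snd {A B : Type} [MeasurableSpace A] [MeasurableSpace B] (F : A → B → ℝ)
    (h : Measurable fun p : A × B => F p.1 p.2) (b : B) :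
    Measurable (Function.uncurry fun (_ : B) (a : A) => F a b) := by
  have hd : Measurable fun q : B × A => (q.2, b) := measurable_snd.prodMk measurable_const
  exact h.comp hd

section Young

variable {k : ℕ} {Z X : Type} [MeasurableSpace Z] [MeasurableSpace X] {γ : Measure Z} {μ : Measure X}
  [IsProbabilityMeasure γ] [IsFiniteMeasure μ] [NeZero μ] {w : Size γ} {H : (Fin k → Z) → X → ℝ}

theorem Tame.abs {φ : (Fin k → Z) → X → ℝ} (h : Tame w φ) : Tame w fun z x => |φ z x| := by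
  obtain ⟨A, hA, hb⟩ := h.bound
  exact ⟨h.meas.abs, A, hA, fun z x => by rw [abs_abs]; exact hb z x⟩

theorem Tame.const (c : ℝ) : Tame w fun (_ : Fin k → Z) (_ : X) => c :=
  Tame.of_bdd (φ := fun (_ : Fin k → Z) (_ : X) => c) measurable_const fun _ _ => le_rfl

theorem cnd_abs_le_abs (hH : LinB w H) {φ : (Fin k → Z) → X → ℝ} (hφ : Tame w φ) (j : ℕ)
    (z : Fin k → Z) : |cnd γ μ H φ j z| ≤ cnd γ μ H (fun z x => |φ z x|) j z := by
  refine abs_le.2 ⟨?_, cnd_mono hH hφ hφ.abs (fun z x => le_abs_self _) j z⟩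
  have h := cnd_mono (γ := γ) (μ := μ) hH (hφ.const_mul (-1)) hφ.abs
    (fun z x => by rw [neg_one_mul]; exact neg_le_abs _) j z
  rw [cnd_const_mul] at h
  linarith

/-- Jensen's inequality for the exponential. -/
theorem exp_cnd_le (hH : LinB w H) {φ : (Fin k → Z) → X → ℝ} (hφ : Tame w φ)
    (hE : Tame w fun z x => exp (φ z x)) (j : ℕ) (z : Fin k → Z) :
    exp (cnd γ μ H φ j z) ≤ cnd γ μ H (fun z x => exp (φ z x)) j z := by
  set c := cnd γ μ H φ j z with hc
  have h := cnd_mono (γ := γ) (μ := μ) hH ((hφ.const_mul (exp c)).add (Tame.const (exp c * (1 - c)))) hE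
    (fun z x => ?_) j z
  · rw [cnd_add hH (hφ.const_mul _) (Tame.const _), cnd_const_mul, cnd_const hH, ← hc] at h
    linarith
  · have h1 := mul_le_mul_of_nonneg_left (add_one_le_exp (φ z x - c)) (exp_pos c).le
    rw [← exp_add, add_sub_cancel] at h1
    linarith

/-- The derivative formula of an observable in `[0, 2]` against the observable. -/
theorem abs_cndDer_young (hH : LinB w H) {φ dH dφ : (Fin k → Z) → X → ℝ}
    (hφ : Measurable (Function.uncurry φ)) (h0 : ∀ z x, 0 ≤ φ z x) (h2 : ∀ z x, φ z x ≤ 2)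
    (hdH : Tame w dH) (hdφ : Tame w dφ) {lam : ℝ} (hlam : 0 < lam)
    (hE : Tame w fun z x => exp (lam * |dH z x|)) {δ : ℝ} (hδ : 0 < δ) (hδ1 : δ ≤ 1) {j : ℕ}
    (hj : j ≤ k) (z : Fin k → Z) :
    |cndDer γ μ H φ dH dφ j z| ≤ cnd γ μ H (fun z x => |dφ z x|) j z
      + 3 * ((-log δ * cnd γ μ H φ j z
        + 2 * (δ * cnd γ μ H (fun z x => exp (lam * |dH z x|)) j z)) / lam) := by
  set E := fun z x => exp (lam * |dH z x|)
  set Q := fun z' => (-log δ * cnd γ μ H φ j z' + 2 * (δ * cnd γ μ H E j z')) / lam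
  have tφ : Tame w φ := Tame.of_bdd hφ (B := 2) fun z x => abs_le.2 ⟨by linarith [h0 z x], h2 z x⟩
  set Y := fun z x => (-log δ / lam) * φ z x + (2 * δ / lam) * E z x
  have tY : Tame w Y := (tφ.const_mul _).add (hE.const_mul _)
  have hY : ∀ z', cnd γ μ H Y j z' = Q z' := fun z' => by
    simp only [Y, Q]
    rw [cnd_add hH (tφ.const_mul _) (hE.const_mul _), cnd_const_mul, cnd_const_mul]
    ring
  have young : ∀ {p a : ℝ}, 0 ≤ p → p ≤ 2 →
      p * |a| ≤ (-log δ / lam) * p + (2 * δ / lam) * exp (lam * |a|) := fun {p a} hp hp2 => by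
    have h := young_log (a := lam * a) hp hp2 hδ hδ1
    rw [abs_mul, abs_of_pos hlam] at h
    rw [← mul_le_mul_iff_right₀ hlam]
    calc lam * (p * |a|) = p * (lam * |a|) := by ring
      _ ≤ _ := h
      _ = _ := by field_simp
  have a1 : |cnd γ μ H (fun z x => dφ z x + φ z x * dH z x) j z|
      ≤ cnd γ μ H (fun z x => |dφ z x|) j z + Q z := by
    refine (cnd_abs_le_abs hH (hdφ.add (tφ.mul hdH)) j z).trans ?_
    rw [← hY, ← cnd_add hH hdφ.abs tY]
    refine cnd_mono hH (hdφ.add (tφ.mul hdH)).abs (hdφ.abs.add tY) (fun z x => ?_) j z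
    refine (abs_add_le _ _).trans (add_le_add_right ?_ _)
    rw [abs_mul, abs_of_nonneg (h0 z x)]
    exact young (h0 z x) (h2 z x)
  have hb : ∀ l z', 0 ≤ cnd γ μ H φ l z' ∧ cnd γ μ H φ l z' ≤ 2 := fun l z' =>
    ⟨cnd_nonneg h0 l z', (cnd_mono hH tφ (Tame.const 2) h2 l z').trans_eq (cnd_const hH 2 l z')⟩
  have hprod : ∀ l z', |cnd γ μ H φ l z' * cnd γ μ H dH l z'| ≤ cnd γ μ H Y l z' := fun l z' => by
    rw [abs_mul, abs_of_nonneg (hb l z').1]
    refine (young (hb l z').1 (hb l z').2).trans ?_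
    simp only [Y]
    rw [cnd_add hH (tφ.const_mul _) (hE.const_mul _), cnd_const_mul, cnd_const_mul]
    refine add_le_add_right (mul_le_mul_of_nonneg_left ?_ (by positivity)) _
    refine (exp_le_exp.2 (mul_le_mul_of_nonneg_left (cnd_abs_le_abs hH hdH l z') hlam.le)).trans ?_
    rw [← cnd_const_mul]
    exact exp_cnd_le hH (hdH.abs.const_mul lam) hE l z'
  have a2 : |mass k * ∑ l ∈ Icc (j + 1) k,
      cnd γ μ H (fun z _ => cnd γ μ H φ l z * cnd γ μ H dH l z) j z| ≤ Q z := by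
    rw [abs_mul, abs_of_pos mass_pos]
    have hQ0 : 0 ≤ Q z := by
      have := (hb j z).1
      have := cnd_nonneg (γ := γ) (μ := μ) (H := H) (φ := E) (fun z x => (exp_pos _).le) j z
      have := neg_nonneg.2 (log_nonpos hδ.le hδ1)
      simp only [Q]
      positivity
    refine (mul_le_mul_of_nonneg_left (abs_sum_le_sum_abs _ _) mass_pos.le).trans
      (mass_sum_le (fun l hl => mem_Icc.2 ⟨Nat.zero_le _, (mem_Icc.1 hl).2⟩) hQ0 fun l hl => ?_)
    have tp : Tame w fun z (_ : X) => cnd γ μ H φ l z * cnd γ μ H dH l z :=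
      (cnd_tame hH tφ l).mul (cnd_tame hH hdH l)
    refine (cnd_abs_le_abs hH tp j z).trans ?_
    rw [← hY, ← cnd_tower (φ := Y) hH (show j ≤ l by linarith [(mem_Icc.1 hl).1])]
    exact cnd_mono hH tp.abs (cnd_tame hH tY l) (fun z' _ => hprod l z') j z
  have a3 : |lev k (j + 1) * (cnd γ μ H φ j z * cnd γ μ H dH j z)| ≤ Q z := by
    rw [abs_mul, abs_of_nonneg (lev_nonneg _)]
    exact (mul_le_of_le_one_left (abs_nonneg _) (lev_le_one (by omega))).trans
      ((hprod j z).trans_eq (hY z))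
  calc |cndDer γ μ H φ dH dφ j z|
      ≤ (cnd γ μ H (fun z x => |dφ z x|) j z + Q z) + Q z + Q z :=
        (abs_sub _ _).trans (add_le_add ((abs_sub _ _).trans (add_le_add a1 a2)) a3)
    _ = _ := by simp only [Q]; ring

theorem Tame.of_linear {φ : (Fin k → Z) → X → ℝ} (hm : Measurable (Function.uncurry φ)) {A : ℝ}
    (hA : 0 ≤ A) (h : ∀ z x, |φ z x| ≤ A * (1 + w.tot z)) : Tame w φ := by
  refine ⟨hm, A + 1, by linarith, fun z x => ?_⟩
  have ht := w.tot_nonneg z
  have h1 : w.tot z ≤ (A + 1) * w.tot z := le_mul_of_one_le_left ht (by linarith)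
  have h2 : 1 + w.tot z ≤ exp ((A + 1) * w.tot z) := by linarith [add_one_le_exp ((A + 1) * w.tot z)]
  exact (h z x).trans (mul_le_mul (by linarith) h2 (by linarith) (by linarith))

/-- A family from bounds that are uniform in the parameter. -/
theorem family_of_bdd {Hs dHs φ dφ : ℝ → (Fin k → Z) → X → ℝ}
    (mH : ∀ s, Measurable (Function.uncurry (Hs s))) (mdH : ∀ s, Measurable (Function.uncurry (dHs s)))
    {A : ℝ} (hA : 0 ≤ A)
    (hb : ∀ s z x, |Hs s z x| ≤ A * (1 + w.tot z) ∧ |dHs s z x| ≤ A * (1 + w.tot z))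
    (hd : ∀ s z x, HasDerivAt (fun t => Hs t z x) (dHs s z x) s)
    (m1 : ∀ s, Measurable (Function.uncurry (φ s))) (m2 : ∀ s, Measurable (Function.uncurry (dφ s)))
    {B : ℝ} (hB : 0 ≤ B)
    (hbd : ∀ s z x, |φ s z x| ≤ B * exp (B * w.tot z) ∧ |dφ s z x| ≤ B * exp (B * w.tot z))
    (hder : ∀ s z x, HasDerivAt (fun t => φ t z x) (dφ s z x) s) (s : ℝ) :
    Family w Hs φ dHs dφ s 1 := by
  refine ⟨one_pos, mH, mdH, m1, m2, ⟨A + B + 1, by positivity, fun t _ z x => ?_⟩,
    fun t _ z x => hd t z x, fun t _ z x => hder t z x⟩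
  have ht := w.tot_nonneg z
  have up : B * exp (B * w.tot z) ≤ (A + B + 1) * exp ((A + B + 1) * w.tot z) :=
    mul_le_mul (by linarith) (exp_le_exp.2 (mul_le_mul_of_nonneg_right (by linarith) ht))
      (exp_pos _).le (by linarith)
  have h1 : w.tot z ≤ (A + B + 1) * w.tot z := le_mul_of_one_le_left ht (by linarith)
  have h2 : 1 + w.tot z ≤ exp ((A + B + 1) * w.tot z) := by
    linarith [add_one_le_exp ((A + B + 1) * w.tot z)]
  exact ⟨(hb t z x).1.trans (mul_le_mul_of_nonneg_right (by linarith) (by linarith)),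
    (hb t z x).2.trans (mul_le_mul (by linarith) h2 (by linarith) (by linarith)),
    (hbd t z x).1.trans up, (hbd t z x).2.trans up⟩

/-- A uniform bound of the exponential moment of the derivative. -/
theorem exp_moment_bdd (lam : ℝ) (hlam : 0 ≤ lam) {A : ℝ} (hA : 0 ≤ A) :
    ∃ A2, 0 ≤ A2 ∧ ∀ H dH : (Fin k → Z) → X → ℝ, Measurable (Function.uncurry H) →
      Measurable (Function.uncurry dH) → (∀ z x, |H z x| ≤ A * (1 + w.tot z)) →
      (∀ z x, |dH z x| ≤ A * (1 + w.tot z)) →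
      Tame w (fun z x => exp (lam * |dH z x|)) ∧
        ∀ j z, cnd γ μ H (fun z x => exp (lam * |dH z x|)) j z ≤ A2 * exp (A2 * w.tot z) := by
  set A0 := A + exp (lam * A) + lam * A + 1 with hA0def
  have hA00 : 0 ≤ A0 := by positivity
  obtain ⟨A2, hA2, hc⟩ := cnd_bound_unif (k := k) (μ := μ) w hA00
  refine ⟨A2, hA2, fun H dH mH mdH bH bdH => ?_⟩
  have hE : ∀ z x, |exp (lam * |dH z x|)| ≤ A0 * exp (A0 * w.tot z) := fun z x => by
    have ht := w.tot_nonneg z
    rw [abs_exp]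
    calc exp (lam * |dH z x|) ≤ exp (lam * A) * exp (lam * A * w.tot z) := by
          rw [← exp_add]; exact exp_le_exp.2 (by nlinarith [bdH z x])
      _ ≤ _ := mul_le_mul (by rw [hA0def]; nlinarith [mul_nonneg hlam hA])
          (exp_le_exp.2 (mul_le_mul_of_nonneg_right (by rw [hA0def]; linarith [exp_pos (lam * A)]) ht))
          (exp_pos _).le hA00
  have mE : Measurable (Function.uncurry fun z x => exp (lam * |dH z x|)) := (mdH.abs.const_mul lam).exp
  refine ⟨⟨mE, A0, hA00, hE⟩, fun j z => (le_abs_self _).trans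
    (hc H (fun z x => exp (lam * |dH z x|)) mH mE (fun z x => (bH z x).trans ?_) hE j z)⟩
  exact mul_le_mul_of_nonneg_right (by rw [hA0def]; linarith [exp_pos (lam * A), mul_nonneg hlam hA])
    (by linarith [w.tot_nonneg z])

/-- The derivative of a pair expectation. -/
noncomputable def pairDer (γ : Measure Z) (μ : Measure X) (H dH : (Fin k → Z) → X → ℝ)
    (ψ : X → X → ℝ) (l : ℕ) (z : Fin k → Z) : ℝ :=
  cndDer γ μ H (fun _ x => cnd γ μ H (fun _ y => ψ x y) l z) dH
    (fun _ x => cndDer γ μ H (fun _ y => ψ x y) dH (fun _ _ => 0) l z) l z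

omit [IsProbabilityMeasure γ] [IsFiniteMeasure μ] [NeZero μ] in
theorem measurable_pairDer [SFinite γ] [SFinite μ] {H dH : (Fin k → Z) → X → ℝ}
    (mH : Measurable (Function.uncurry H)) (mdH : Measurable (Function.uncurry dH)) {ψ : X → X → ℝ}
    (hψ : Measurable (Function.uncurry ψ)) (l : ℕ) :
    (Measurable fun q : X × (Fin k → Z) => cndDer γ μ H (fun _ y => ψ q.1 y) dH (fun _ _ => 0) l q.2) ∧
      Measurable (pairDer γ μ H dH ψ l) := by
  have e2 : Measurable fun q : (X × (Fin k → Z)) × X => (q.1.1, q.2) :=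
    (measurable_fst.comp measurable_fst).prodMk measurable_snd
  have e3 : Measurable fun q : (X × (Fin k → Z)) × X => (q.1.2, q.2) :=
    (measurable_snd.comp measurable_fst).prodMk measurable_snd
  have eswap : Measurable fun q : ((Fin k → Z) × (Fin k → Z)) × X => (q.2, q.1.1) :=
    measurable_snd.prodMk (measurable_fst.comp measurable_fst)
  have esec : Measurable fun q : ((Fin k → Z) × (Fin k → Z)) × X => (q.1.2, q.2) :=
    (measurable_snd.comp measurable_fst).prodMk measurable_snd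
  have ediag : Measurable fun z : Fin k → Z => (z, z) := measurable_id.prodMk measurable_id
  have m0 : Measurable fun q : X × (Fin k → Z) => cnd γ μ H (fun _ y => ψ q.1 y) l q.2 :=
    cnd_measurable_param (γ := γ) (μ := μ) (H := fun _ : X => H) (φ := fun x _ y => ψ x y)
      (mH.comp e3) (hψ.comp e2) l
  have m1 : Measurable fun q : X × (Fin k → Z) =>
      cndDer γ μ H (fun _ y => ψ q.1 y) dH (fun _ _ => 0) l q.2 :=
    cndDer_measurable_param (γ := γ) (μ := μ) (H := fun _ : X => H) (φ := fun x _ y => ψ x y)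
      (dH := fun _ : X => dH) (dφ := fun (_ : X) _ _ => (0 : ℝ)) (mH.comp e3) (hψ.comp e2)
      (mdH.comp e3) measurable_const l
  refine ⟨m1, ?_⟩
  have hH : Measurable fun p : ((Fin k → Z) × (Fin k → Z)) × X => H p.1.2 p.2 := mH.comp esec
  have hdH : Measurable fun p : ((Fin k → Z) × (Fin k → Z)) × X => dH p.1.2 p.2 := mdH.comp esec
  have h0 : Measurable fun p : ((Fin k → Z) × (Fin k → Z)) × X =>
      cnd γ μ H (fun _ y => ψ p.2 y) l p.1.1 := m0.comp eswap
  have h1 : Measurable fun p : ((Fin k → Z) × (Fin k → Z)) × X =>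
      cndDer γ μ H (fun _ y => ψ p.2 y) dH (fun _ _ => 0) l p.1.1 := m1.comp eswap
  have h2 := cndDer_measurable_param (γ := γ) (μ := μ) (H := fun _ : Fin k → Z => H)
    (φ := fun g _ x => cnd γ μ H (fun _ y => ψ x y) l g) (dH := fun _ : Fin k → Z => dH)
    (dφ := fun g _ x => cndDer γ μ H (fun _ y => ψ x y) dH (fun _ _ => 0) l g) hH h0 hdH h1 l
  exact measurable_diag (fun g z => cndDer γ μ H (fun _ x => cnd γ μ H (fun _ y => ψ x y) l g) dH
    (fun _ x => cndDer γ μ H (fun _ y => ψ x y) dH (fun _ _ => 0) l g) l z) h2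

/-- The derivative of a pair expectation of an observable in `[0, 2]`. -/
theorem pair_level_deriv {Hs dHs : ℝ → (Fin k → Z) → X → ℝ}
    (mH : ∀ s, Measurable (Function.uncurry (Hs s))) (mdH : ∀ s, Measurable (Function.uncurry (dHs s)))
    {A : ℝ} (hA : 0 ≤ A)
    (hb : ∀ s z x, |Hs s z x| ≤ A * (1 + w.tot z) ∧ |dHs s z x| ≤ A * (1 + w.tot z))
    (hd : ∀ s z x, HasDerivAt (fun t => Hs t z x) (dHs s z x) s)
    {ψ : X → X → ℝ} (hψ : Measurable (Function.uncurry ψ)) (hψ0 : ∀ x y, 0 ≤ ψ x y)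
    (hψ2 : ∀ x y, ψ x y ≤ 2) {lam : ℝ} (hlam : 0 < lam) {δ : ℝ} (hδ : 0 < δ) (hδ1 : δ ≤ 1) {l : ℕ}
    (hl : l ≤ k) (s : ℝ) (z : Fin k → Z) :
    HasDerivAt (fun t => pairCnd γ μ (Hs t) (fun _ x _ y => ψ x y) l z)
        (pairDer γ μ (Hs s) (dHs s) ψ l z) s ∧
      |pairDer γ μ (Hs s) (dHs s) ψ l z|
        ≤ 6 * ((-log δ * pairCnd γ μ (Hs s) (fun _ x _ y => ψ x y) l z
          + 2 * (δ * cnd γ μ (Hs s) (fun z x => exp (lam * |dHs s z x|)) l z)) / lam) ∧
      0 ≤ pairCnd γ μ (Hs s) (fun _ x _ y => ψ x y) l z ∧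
      pairCnd γ μ (Hs s) (fun _ x _ y => ψ x y) l z ≤ 2 := by
  have hL : 0 ≤ -log δ := neg_nonneg.2 (log_nonpos hδ.le hδ1)
  have hlin : ∀ s, LinB w (Hs s) := fun s => ⟨mH s, A, hA, fun z x => (hb s z x).1⟩
  have tdH : ∀ s, Tame w (dHs s) := fun s => Tame.of_linear (mdH s) hA fun z x => (hb s z x).2
  obtain ⟨A2, hA2, hE⟩ := exp_moment_bdd (γ := γ) (μ := μ) (w := w) (k := k) lam hlam.le hA
  have hE' := fun s => hE (Hs s) (dHs s) (mH s) (mdH s) (fun z x => (hb s z x).1) fun z x => (hb s z x).2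
  have mψx : ∀ x, Measurable (Function.uncurry fun (_ : Fin k → Z) y => ψ x y) := fun x =>
    (measurable_slice ψ hψ x).comp measurable_snd
  have hψb : ∀ x y, |ψ x y| ≤ 2 := fun x y => abs_le.2 ⟨by linarith [hψ0 x y], hψ2 x y⟩
  set i0 := fun t x => cnd γ μ (Hs t) (fun _ y => ψ x y) l z with hi0
  set i1 := fun t x => cndDer γ μ (Hs t) (fun _ y => ψ x y) (dHs t) (fun _ _ => 0) l z with hi1
  have di : ∀ t x, HasDerivAt (fun v => i0 v x) (i1 t x) t := fun t x =>
    hasDerivAt_cnd (family_of_bdd (φ := fun _ _ y => ψ x y) (dφ := fun _ _ _ => 0) mH mdH hA hb hd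
      (fun _ => mψx x) (fun _ => measurable_const) (B := 2) two_pos.le (fun t z y => by
        have h1 : (2 : ℝ) ≤ 2 * exp (2 * w.tot z) :=
          le_mul_of_one_le_right two_pos.le (one_le_exp (by linarith [w.tot_nonneg z]))
        exact ⟨(hψb x y).trans h1, by rw [abs_zero]; linarith⟩)
      (fun t z y => hasDerivAt_const t _) t) hl z
  have bi : ∀ t x, 0 ≤ i0 t x ∧ i0 t x ≤ 2 := fun t x =>
    ⟨cnd_nonneg (fun _ y => hψ0 x y) l z, (le_abs_self _).trans
      (cnd_abs_le (φ := fun _ y => ψ x y) (hlin t) (mψx x) (fun _ y => hψb x y) l z)⟩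
  have di1 : ∀ t x, |i1 t x| ≤ 3 * ((-log δ * i0 t x
      + 2 * (δ * cnd γ μ (Hs t) (fun z x => exp (lam * |dHs t z x|)) l z)) / lam) := fun t x => by
    have h := abs_cndDer_young (γ := γ) (μ := μ) (φ := fun _ y => ψ x y) (dφ := fun _ _ => (0 : ℝ))
      (hlin t) (mψx x) (fun _ y => hψ0 x y) (fun _ y => hψ2 x y) (tdH t) (Tame.const 0) hlam (hE' t).1
      hδ hδ1 hl z
    simp only [abs_zero, cnd_const (hlin t), zero_add] at h
    exact h
  set c := 3 * ((-log δ * 2 + 2 * (δ * (A2 * exp (A2 * w.tot z)))) / lam) + 2 with hc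
  have bi1 : ∀ t x, |i1 t x| ≤ c := fun t x => by
    refine (di1 t x).trans ((mul_le_mul_of_nonneg_left ?_ (by norm_num)).trans
      (le_add_of_nonneg_right two_pos.le))
    gcongr
    · exact (bi t x).2
    · exact (hE' t).2 l z
  have mφ0 : ∀ t, Measurable (Function.uncurry fun (_ : Fin k → Z) x => i0 t x) := fun t => by
    have e2 : Measurable fun q : (X × (Fin k → Z)) × X => (q.1.1, q.2) :=
      (measurable_fst.comp measurable_fst).prodMk measurable_snd
    have e3 : Measurable fun q : (X × (Fin k → Z)) × X => (q.1.2, q.2) :=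
      (measurable_snd.comp measurable_fst).prodMk measurable_snd
    have hH : Measurable fun p : (X × (Fin k → Z)) × X => Hs t p.1.2 p.2 := (mH t).comp e3
    have hP : Measurable fun p : (X × (Fin k → Z)) × X => ψ p.1.1 p.2 := hψ.comp e2
    exact measurable_fix_snd (fun x z => cnd γ μ (Hs t) (fun _ y => ψ x y) l z)
      (cnd_measurable_param (γ := γ) (μ := μ) (H := fun _ : X => Hs t) (φ := fun x _ y => ψ x y) hH hP l) z
  have mφ1 : ∀ t, Measurable (Function.uncurry fun (_ : Fin k → Z) x => i1 t x) := fun t =>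
    measurable_fix_snd (fun x z => cndDer γ μ (Hs t) (fun _ y => ψ x y) (dHs t) (fun _ _ => 0) l z)
      ((measurable_pairDer (γ := γ) (μ := μ) (mH t) (mdH t) hψ l).1) z
  have tφ0 : Tame w fun (_ : Fin k → Z) x => i0 s x :=
    Tame.of_bdd (mφ0 s) fun _ x => abs_le.2 ⟨by linarith [(bi s x).1], (bi s x).2⟩
  have tφ1 : Tame w fun (_ : Fin k → Z) x => i1 s x := Tame.of_bdd (mφ1 s) fun _ x => bi1 s x
  have hc2 : (2 : ℝ) ≤ c := le_add_of_nonneg_left (by positivity)
  have hone : ∀ z' : Fin k → Z, c ≤ c * exp (c * w.tot z') := fun z' => le_mul_of_one_le_right (by linarith)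
    (one_le_exp (mul_nonneg (by linarith) (w.tot_nonneg z')))
  refine ⟨hasDerivAt_cnd (family_of_bdd (φ := fun t _ x => i0 t x) (dφ := fun t _ x => i1 t x) mH mdH hA
      hb hd mφ0 mφ1 (B := c) (by linarith) (fun t z' x => by
        refine ⟨?_, (bi1 t x).trans (hone z')⟩
        rw [abs_of_nonneg (bi t x).1]
        exact ((bi t x).2.trans hc2).trans (hone z'))
      (fun t _ x => di t x) s) hl z, ?_,
    cnd_nonneg (fun _ x => (bi s x).1) l z, (le_abs_self _).trans
      (cnd_abs_le (φ := fun _ x => i0 s x) (hlin s) (mφ0 s)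
        (fun _ x => abs_le.2 ⟨by linarith [(bi s x).1], (bi s x).2⟩) l z)⟩
  have h := abs_cndDer_young (γ := γ) (μ := μ) (φ := fun _ x => i0 s x) (dφ := fun _ x => i1 s x)
    (hlin s) (mφ0 s) (fun _ x => (bi s x).1) (fun _ x => (bi s x).2) (tdH s) tφ1 hlam (hE' s).1 hδ hδ1
    hl z
  set q := cnd γ μ (Hs s) (fun z x => exp (lam * |dHs s z x|)) l z
  have h1 : cnd γ μ (Hs s) (fun _ x => |i1 s x|) l z
      ≤ 3 * ((-log δ * cnd γ μ (Hs s) (fun _ x => i0 s x) l z + 2 * (δ * q)) / lam) := by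
    refine (cnd_mono (hlin s) tφ1.abs (ψ := fun _ x => 3 * -log δ / lam * i0 s x
      + 6 * (δ * q) / lam) ((tφ0.const_mul _).add (Tame.const _))
      (fun _ x => (di1 s x).trans_eq (by ring)) l z).trans_eq ?_
    rw [cnd_add (hlin s) (tφ0.const_mul _) (Tame.const _), cnd_const_mul, cnd_const (hlin s)]
    ring
  change |cndDer γ μ (Hs s) (fun _ x => i0 s x) (dHs s) (fun _ x => i1 s x) l z|
    ≤ 6 * ((-log δ * cnd γ μ (Hs s) (fun _ x => i0 s x) l z + 2 * (δ * q)) / lam)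
  linarith

/-- The root average of a pair observable along a family: its derivative. -/
theorem pair_root_deriv {Hs dHs : ℝ → (Fin k → Z) → X → ℝ}
    (mH : ∀ s, Measurable (Function.uncurry (Hs s))) (mdH : ∀ s, Measurable (Function.uncurry (dHs s)))
    {A : ℝ} (hA : 0 ≤ A)
    (hb : ∀ s z x, |Hs s z x| ≤ A * (1 + w.tot z) ∧ |dHs s z x| ≤ A * (1 + w.tot z))
    (hd : ∀ s z x, HasDerivAt (fun t => Hs t z x) (dHs s z x) s)
    {ψ : X → X → ℝ} (hψ : Measurable (Function.uncurry ψ)) (hψ0 : ∀ x y, 0 ≤ ψ x y)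
    (hψ2 : ∀ x y, ψ x y ≤ 2) {lam : ℝ} (hlam : 0 < lam) {δ : ℝ} (hδ : 0 < δ) (hδ1 : δ ≤ 1) {l : ℕ}
    (hl : l ≤ k) (z0 : Fin k → Z) (s₀ : ℝ) :
    ∃ d, HasDerivAt (fun s => cnd γ μ (Hs s)
        (fun z _ => pairCnd γ μ (Hs s) (fun _ x _ y => ψ x y) l z) 0 z0) d s₀ ∧
      |d| ≤ 9 * ((-log δ * cnd γ μ (Hs s₀)
          (fun z _ => pairCnd γ μ (Hs s₀) (fun _ x _ y => ψ x y) l z) 0 z0
        + 2 * (δ * cnd γ μ (Hs s₀) (fun z x => exp (lam * |dHs s₀ z x|)) 0 z0)) / lam) := by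
  have hL : 0 ≤ -log δ := neg_nonneg.2 (log_nonpos hδ.le hδ1)
  have hlin : ∀ s, LinB w (Hs s) := fun s => ⟨mH s, A, hA, fun z x => (hb s z x).1⟩
  have tdH : Tame w (dHs s₀) := Tame.of_linear (mdH s₀) hA fun z x => (hb s₀ z x).2
  obtain ⟨A2, hA2, hE⟩ := exp_moment_bdd (γ := γ) (μ := μ) (w := w) (k := k) lam hlam.le hA
  have hE' := fun s => hE (Hs s) (dHs s) (mH s) (mdH s) (fun z x => (hb s z x).1) fun z x => (hb s z x).2
  have P := fun s z => pair_level_deriv (γ := γ) (μ := μ) mH mdH hA hb hd hψ hψ0 hψ2 hlam hδ hδ1 hl s z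
  set p0 := fun s z => pairCnd γ μ (Hs s) (fun _ x _ y => ψ x y) l z
  set p1 := fun s z => pairDer γ μ (Hs s) (dHs s) ψ l z
  have mp0 : ∀ s, Measurable (Function.uncurry fun z (_ : X) => p0 s z) := fun s =>
    (tame_pair (hlin s) hψ (C := 2)
      (fun x y => abs_le.2 ⟨by linarith [hψ0 x y], hψ2 x y⟩) l).meas
  have mp1 : ∀ s, Measurable (Function.uncurry fun z (_ : X) => p1 s z) := fun s =>
    ((measurable_pairDer (γ := γ) (μ := μ) (mH s) (mdH s) hψ l).2).comp measurable_fst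
  set D := 2 + 6 * ((-log δ * 2 + 2 * δ * A2) / lam) + A2 with hD
  have hq0 : 0 ≤ 6 * ((-log δ * 2 + 2 * δ * A2) / lam) := by positivity
  have hbound : ∀ s z, |p1 s z| ≤ D * exp (D * w.tot z) := fun s z => by
    have ht := w.tot_nonneg z
    have h1 : (1 : ℝ) ≤ exp (A2 * w.tot z) := one_le_exp (mul_nonneg hA2 ht)
    refine (P s z).2.1.trans ?_
    calc 6 * ((-log δ * p0 s z + 2 * (δ * cnd γ μ (Hs s) (fun z x => exp (lam * |dHs s z x|)) l z))
          / lam)
        ≤ 6 * ((-log δ * 2 + 2 * (δ * (A2 * exp (A2 * w.tot z)))) / lam) := by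
          gcongr
          · exact (P s z).2.2.2
          · exact (hE' s).2 l z
      _ ≤ 6 * ((-log δ * 2 + 2 * δ * A2) / lam) * exp (A2 * w.tot z) := by
          rw [mul_assoc, div_mul_eq_mul_div]
          gcongr
          nlinarith [le_mul_of_one_le_right hL h1]
      _ ≤ _ := mul_le_mul (by rw [hD]; linarith)
          (exp_le_exp.2 (mul_le_mul_of_nonneg_right (by rw [hD]; linarith) ht))
          (exp_pos _).le (by linarith)
  have hD2 : (2 : ℝ) ≤ D := by rw [hD]; linarith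
  have tp1 : Tame w fun z (_ : X) => p1 s₀ z :=
    ⟨mp1 s₀, D, by linarith, fun z _ => hbound s₀ z⟩
  refine ⟨_, hasDerivAt_cnd (γ := γ) (μ := μ) (family_of_bdd (φ := fun t z (_ : X) => p0 t z)
    (dφ := fun t z (_ : X) => p1 t z) mH mdH hA hb hd mp0 mp1 (B := D) (by linarith) (fun t z x => by
      refine ⟨?_, hbound t z⟩
      rw [abs_of_nonneg (P t z).2.2.1]
      exact ((P t z).2.2.2.trans hD2).trans (le_mul_of_one_le_right (by linarith)
        (one_le_exp (mul_nonneg (by linarith) (w.tot_nonneg z)))))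
    (fun t z _ => (P t z).1) s₀) (Nat.zero_le k) z0, ?_⟩
  have h := abs_cndDer_young (γ := γ) (μ := μ) (φ := fun z (_ : X) => p0 s₀ z)
    (dφ := fun z (_ : X) => p1 s₀ z) (hlin s₀) (mp0 s₀)
    (fun z _ => (P s₀ z).2.2.1) (fun z _ => (P s₀ z).2.2.2) tdH tp1 hlam (hE' s₀).1 hδ hδ1
    (Nat.zero_le k) z0
  have tp0 : Tame w fun z (_ : X) => p0 s₀ z :=
    Tame.of_bdd (mp0 s₀) fun z _ => abs_le.2 ⟨by linarith [(P s₀ z).2.2.1], (P s₀ z).2.2.2⟩
  set E := fun z x => exp (lam * |dHs s₀ z x|)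
  set R := cnd γ μ (Hs s₀) (fun z (_ : X) => p0 s₀ z) 0 z0
  set G := cnd γ μ (Hs s₀) E 0 z0
  have h1 : cnd γ μ (Hs s₀) (fun z _ => |p1 s₀ z|) 0 z0
      ≤ 6 * ((-log δ * R + 2 * (δ * G)) / lam) := by
    refine (cnd_mono (hlin s₀) tp1.abs (ψ := fun z _ => 6 * -log δ / lam * p0 s₀ z
      + 12 * δ / lam * cnd γ μ (Hs s₀) E l z)
      ((tp0.const_mul _).add ((cnd_tame (hlin s₀) (hE' s₀).1 l).const_mul _))
      (fun z _ => (P s₀ z).2.1.trans_eq (by ring)) 0 z0).trans_eq ?_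
    rw [cnd_add (hlin s₀) (tp0.const_mul _) ((cnd_tame (hlin s₀) (hE' s₀).1 l).const_mul _),
      cnd_const_mul, cnd_const_mul, cnd_tower (hlin s₀) (Nat.zero_le l)]
    ring
  change _ ≤ 9 * ((-log δ * R + 2 * (δ * G)) / lam)
  linarith

end Young

end Vale.Agent.P157.Rsb
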