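import Vale.Agent.P157.Rsb.CavDeriv
import Vale.Agent.P157.Rsb.CavYoung

/-!
# P157, cavity module: the overlap errors along the interpolation

Exponential moments of the derivative of the Hamiltonian, and Gronwall's inequality for the errors:
for `0 < δ ≤ 1` the error at any angle is at most `(Err 0 + δ K) / √δ`.
-/

open MeasureTheory ProbabilityTheory Real Finset

namespace Vale.Agent.P157.Rsb

/-- A linear differential inequality on a half line. -/
theorem gronwall_lin {E E' : ℝ → ℝ} {a b : ℝ} (ha : 0 ≤ a) (hb : 0 ≤ b)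
    (hd : ∀ u, HasDerivAt E (E' u) u) (hle : ∀ u, E' u ≤ a * E u + b) {u : ℝ} (hu : 0 ≤ u) :
    E u ≤ exp (a * u) * (E 0 + b * u) := by
  set W := fun s => E s * exp (-(a * s)) - b * s
  have hW : ∀ s, HasDerivAt W ((E' s - a * E s) * exp (-(a * s)) - b) s := fun s =>
    (((hd s).mul ((hasDerivAt_id s).const_mul a).neg.exp).sub
      ((hasDerivAt_id s).const_mul b)).congr_deriv (by simp; ring)
  have hmono : AntitoneOn W (Set.Ici 0) := antitoneOn_of_deriv_nonpos (convex_Ici 0)
    (continuous_iff_continuousAt.2 fun s => (hW s).continuousAt).continuousOn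
    (fun s _ => (hW s).differentiableAt.differentiableWithinAt) fun s hs => by
      rw [interior_Ici, Set.mem_Ioi] at hs
      rw [(hW s).deriv]
      have h1 : exp (-(a * s)) ≤ 1 := exp_le_one_iff.2 (by nlinarith)
      nlinarith [hle s, exp_pos (-(a * s))]
  have h := hmono Set.self_mem_Ici (Set.mem_Ici.2 hu) hu
  simp only [W, mul_zero, neg_zero, exp_zero, mul_one, sub_zero] at h
  have e1 : exp (-(a * u)) * exp (a * u) = 1 := by rw [← exp_add]; simp
  calc E u = E u * exp (-(a * u)) * exp (a * u) := by rw [mul_assoc, e1, mul_one]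
    _ ≤ (E 0 + b * u) * exp (a * u) := mul_le_mul_of_nonneg_right (by linarith) (exp_pos _).le
    _ = _ := mul_comm _ _

/-! ### moments of the pattern part -/

section Moments

variable {n M k : ℕ} {S : Leaf n} {f : ℝ → ℝ} {L N : ℝ} {σ β : ℕ → ℝ} {d : S.X → Fin n → ℝ}
  {Bf B : ℝ}

theorem sdot_neg {m : ℕ} (x y : Fin m → ℝ) : sdot (fun i => -x i) y = -sdot x y := by
  simp [sdot, sum_neg_distrib]

theorem sdot_neg_neg {m : ℕ} (x y : Fin m → ℝ) : sdot (fun i => -x i) (fun i => -y i) = sdot x y := by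
  simp [sdot]

theorem Dir.neg (h : Dir S f d L Bf B) : Dir S f (fun x i => -d x i) L Bf B where
  good := h.good
  bf := h.bf
  bf' := h.bf'
  bf'' := h.bf''
  nonneg := h.nonneg
  meas := measurable_pi_iff.2 fun i => (measurable_pi_iff.1 h.meas i).neg
  bd x i := by rw [abs_neg]; exact h.bd x i
  bp := h.bp
  orth x := by rw [sdot_neg, h.orth, neg_zero]

theorem patP_neg (g : Fin M → Fin n → ℝ) (x : S.X) :
    patP S f (fun x i => -d x i) g x = -patP S f d g x := by
  simp [patP, sdot, sum_neg_distrib]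

/-- The exponential weight of the pattern part. -/
noncomputable def patE (S : Leaf n) (f : ℝ → ℝ) (d : S.X → Fin n → ℝ) (t : ℝ) (g : Fin M → Fin n → ℝ)
    (x : S.X) : ℝ :=
  exp (t * patP S f d g x)

theorem Dir.patE_facts (h : Dir S f d L Bf B) (t : ℝ) :
    (∀ g : Fin M → Fin n → ℝ, ∀ x, |patE S f d t g x| ≤ exp (|t| * (Bf * B) * gTot g)) ∧
      (Measurable fun p : (Fin M → Fin n → ℝ) × S.X => patE S f d t p.1 p.2) := by
  refine ⟨fun g x => ?_, ((h.measurable_patP (M := M)).const_mul t).exp⟩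
  rw [patE, abs_exp]
  refine exp_le_exp.2 ((le_abs_self _).trans ((abs_mul _ _).le.trans ?_))
  rw [mul_assoc]
  exact mul_le_mul_of_nonneg_left (h.abs_patP_le g x) (abs_nonneg t)

theorem Dir.integrable_patE (h : Dir S f d L Bf B) (t : ℝ) :
    Integrable (gibz (k := k) S f N σ β (liftObs (patE S f d t))) (patterns M n) := by
  obtain ⟨hb, hm⟩ := h.patE_facts (M := M) t
  have hBf := h.bf0
  have hB := h.nonneg
  refine integrable_patterns (A := |t| * (Bf * B) + 1) (measurable_gibz h.mf.1 (measurable_liftObs hm).1)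
    fun g => (abs_gibz_le h.mf.1 h.bf ((measurable_liftObs hm).2 g) fun z x => hb g x).trans ?_
  have h0 : 0 ≤ |t| * (Bf * B) := by positivity
  exact (exp_le_exp.2 (mul_le_mul_of_nonneg_right (le_add_of_nonneg_right zero_le_one)
    (gTot_nonneg g))).trans (le_mul_of_one_le_left (exp_pos _).le (by linarith))

theorem Dir.hasDerivAt_patE (h : Dir S f d L Bf B) (t : ℝ) :
    HasDerivAt (fun s => ∫ g, gibz (k := k) S f N σ β (liftObs (patE S f d s)) g ∂patterns M n)
      (∫ g, gibz (k := k) S f N σ β (liftObs fun g x => patP S f d g x * exp (t * patP S f d g x)) g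
        ∂patterns M n) t := by
  obtain ⟨mf, -⟩ := h.mf
  have hBf := h.bf0
  have hB := h.nonneg
  set K := Bf * B with hK
  have hK0 : 0 ≤ K := mul_nonneg hBf hB
  have mP := h.measurable_patP (M := M)
  have mPs : ∀ g : Fin M → Fin n → ℝ, Measurable fun x => patP S f d g x := fun g =>
    measurable_slice (fun g x => patP S f d g x) mP g
  have hPe : ∀ s, Measurable fun p : (Fin M → Fin n → ℝ) × S.X =>
      patP S f d p.1 p.2 * exp (s * patP S f d p.1 p.2) := fun s => mP.mul (mP.const_mul s).exp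
  have bnd : ∀ s, |s - t| < 1 → ∀ (g : Fin M → Fin n → ℝ) x,
      |patP S f d g x * exp (s * patP S f d g x)| ≤ exp ((K + (|t| + 1) * K) * gTot g) := by
    intro s hs g x
    have h1 := h.abs_patP_le g x
    have hs' : |s| ≤ |t| + 1 := by linarith [abs_sub_abs_le_abs_sub s t]
    have h2 : |patP S f d g x| ≤ exp (K * gTot g) := h1.trans (by linarith [add_one_le_exp (K * gTot g)])
    rw [abs_mul, abs_exp, add_mul, exp_add]
    refine mul_le_mul h2 (exp_le_exp.2 ?_) (exp_pos _).le (exp_pos _).le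
    calc s * patP S f d g x ≤ |s| * |patP S f d g x| := (le_abs_self _).trans (abs_mul _ _).le
      _ ≤ (|t| + 1) * (K * gTot g) := mul_le_mul hs' h1 (abs_nonneg _) (by positivity)
      _ = _ := by ring
  have hint := h.integrable_patE (M := M) (k := k) (N := N) (σ := σ) (β := β) t
  refine (hasDerivAt_integral_of_dominated_loc_of_deriv_le (μ := patterns M n)
    (F := fun s g => gibz (k := k) S f N σ β (liftObs (patE S f d s)) g)
    (F' := fun s g => gibz (k := k) S f N σ β
      (liftObs fun g x => patP S f d g x * exp (s * patP S f d g x)) g)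
    (bound := fun g => exp ((K + (|t| + 1) * K) * gTot g))
    (Metric.ball_mem_nhds t one_pos)
    (Filter.Eventually.of_forall fun s =>
      (measurable_gibz mf (measurable_liftObs (h.patE_facts (M := M) s).2).1).aestronglyMeasurable)
    hint (measurable_gibz mf (measurable_liftObs (hPe t)).1).aestronglyMeasurable
    (ae_of_all _ fun g s hs => ?_) (integrable_exp_gTot _) (ae_of_all _ fun g s hs => ?_)).2
  · rw [Metric.mem_ball, Real.dist_eq] at hs
    rw [Real.norm_eq_abs]
    exact abs_gibz_le mf h.bf ((measurable_liftObs (hPe s)).2 g) fun z x => bnd s hs g x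
  · rw [Metric.mem_ball, Real.dist_eq] at hs
    have hH := linB_ham (k := k) S mf h.bf N σ β g
    obtain ⟨A0, hA0, hb0⟩ := hH.bound
    set A := A0 + exp ((|s| + 2) * K * gTot g) + exp ((K + (|s| + 2) * K) * gTot g) with hA
    have F : Family (gaussSize (FieldIdx n)) (fun _ => ham (k := k) S f N σ β g)
        (fun v _ x => exp (v * patP S f d g x)) (fun _ _ _ => 0)
        (fun v _ x => patP S f d g x * exp (v * patP S f d g x)) s 1 := by
      refine ⟨one_pos, fun _ => hH.meas, fun _ => measurable_const,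
        fun v => ((mPs g).const_mul v).exp.comp measurable_snd,
        fun v => ((mPs g).mul ((mPs g).const_mul v).exp).comp measurable_snd,
        ⟨A, by positivity, fun v hv z x => ?_⟩, fun v _ z x => hasDerivAt_const v _,
        fun v _ z x => by
          simpa [mul_comm] using ((hasDerivAt_id v).mul_const (patP S f d g x)).exp⟩
      have hz := (gaussSize (FieldIdx n)).tot_nonneg z
      have hA0' : A0 ≤ A := by
        rw [hA]; linarith [exp_pos ((|s| + 2) * K * gTot g), exp_pos ((K + (|s| + 2) * K) * gTot g)]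
      have up : ∀ {a : ℝ}, a ≤ A → a ≤ A * exp (A * (gaussSize (FieldIdx n)).tot z) := fun ha =>
        ha.trans (le_mul_of_one_le_right (hA0.trans hA0')
          (one_le_exp (mul_nonneg (hA0.trans hA0') hz)))
      have hP := h.abs_patP_le g x
      have hv' : |v| ≤ |s| + 2 := by linarith [abs_sub_abs_le_abs_sub v s]
      have e1 : exp (v * patP S f d g x) ≤ exp ((|s| + 2) * K * gTot g) := by
        refine exp_le_exp.2 ((le_abs_self _).trans ((abs_mul _ _).le.trans ?_))
        rw [mul_assoc]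
        exact mul_le_mul hv' hP (abs_nonneg _) (by positivity)
      refine ⟨(hb0 z x).trans (mul_le_mul_of_nonneg_right hA0' (by linarith)),
        by simp only [abs_zero]; positivity, up ?_, up ?_⟩
      · rw [abs_exp, hA]
        linarith [exp_pos ((K + (|s| + 2) * K) * gTot g)]
      · rw [abs_mul, abs_exp, hA]
        have h2 : |patP S f d g x| ≤ exp (K * gTot g) :=
          hP.trans (by linarith [add_one_le_exp (K * gTot g)])
        have h3 := mul_le_mul h2 e1 (exp_pos _).le (exp_pos _).le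
        rw [← exp_add, show K * gTot g + (|s| + 2) * K * gTot g = (K + (|s| + 2) * K) * gTot g by ring]
          at h3
        linarith [exp_pos ((|s| + 2) * K * gTot g)]
    have hd := hasDerivAt_cnd (γ := stdG (FieldIdx n)) (μ := S.μ) F (Nat.zero_le k) (fun _ _ => 0)
    simp only [cndDer, mul_zero, add_zero, cnd_const hH 0, sum_const_zero, sub_zero] at hd
    exact hd

/-- The exponential moment of the pattern part. -/
theorem Dir.patP_exp_le (h : Dir S f d L Bf B) {D κ : ℝ}
    (hD : ∀ x, (M : ℝ) * Bf ^ 2 * sdot (d x) (d x) ≤ D)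
    (hκ : ∀ x y, (M : ℝ) * Bf ^ 2 * |sdot (d x) (S.pat y)| ≤ κ) {t : ℝ} (ht : 0 ≤ t) :
    ∫ g, gibz (k := k) S f N σ β (liftObs (patE S f d t)) g ∂patterns M n
      ≤ exp (t ^ 2 * D / 2 + κ * t) := by
  obtain ⟨mf, m1, -⟩ := h.mf
  have : IsProbabilityMeasure (patterns M n) := by unfold patterns; infer_instance
  set G := fun s => ∫ g, gibz (k := k) S f N σ β (liftObs (patE S f d s)) g ∂patterns M n
  have hkey : ∀ s, 0 ≤ s →
      ∫ g, gibz (k := k) S f N σ β (liftObs fun g x => patP S f d g x * exp (s * patP S f d g x)) g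
        ∂patterns M n ≤ (s * D + κ) * G s := by
    intro s hs
    rw [h.patP_ibp s]
    obtain ⟨hEb, hEm⟩ := h.patE_facts (M := M) s
    obtain ⟨mO, A2, -, bO⟩ := h.diag_facts (M := M) s
    have iE := h.integrable_patE (M := M) (k := k) (N := N) (σ := σ) (β := β) s
    have tE : ∀ g, Tame (gaussSize (FieldIdx n))
        (fun (_ : Fin k → FieldIdx n → ℝ) x => patE S f d s g x) := fun g =>
      tame_of_bdd (measurable_slice (patE S f d s) hEm g) (hEb g)
    have hH := fun g : Fin M → Fin n → ℝ => linB_ham (k := k) S mf h.bf N σ β g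
    have iO : Integrable (gibz (k := k) S f N σ β (liftObs (ibpDiag S f d s))) (patterns M n) :=
      integrable_patterns (measurable_gibz mf (measurable_liftObs mO).1) fun g =>
        abs_gibz_le mf h.bf ((measurable_liftObs mO).2 g) fun z x => bO g x
    have hdiag : ∫ g, gibz (k := k) S f N σ β (liftObs (ibpDiag S f d s)) g ∂patterns M n ≤ D * G s := by
      rw [← integral_const_mul]
      refine integral_mono iO (iE.const_mul _) fun g => ?_
      simp only [gibz]
      rw [← cnd_const_mul]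
      refine cnd_mono (hH g) (tame_of_bdd (measurable_slice (ibpDiag S f d s) mO g) (bO g))
        ((tE g).const_mul D) (fun z x => ?_) 0 _
      refine mul_le_mul_of_nonneg_right ?_ (exp_pos _).le
      refine le_trans ?_ (hD x)
      refine mul_le_mul_of_nonneg_right ?_ (sum_nonneg fun i _ => mul_self_nonneg _)
      refine (sum_le_sum (g := fun _ => Bf ^ 2) fun a _ => ?_).trans_eq (by simp)
      rw [← sq_abs]
      exact pow_le_pow_left₀ (abs_nonneg _) (h.bf' _) 2
    have hG0 : 0 ≤ G s := integral_nonneg fun g => cnd_nonneg (fun z x => (exp_pos _).le) 0 _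
    have hker : ∀ l, -(κ * G s) ≤ ∑ a : Fin M, gibPair (k := k) S f M N σ β l (ibpKer S f d s a) := by
      intro l
      obtain hM | hM := Nat.eq_zero_or_pos M
      · subst hM
        simp only [univ_eq_empty, sum_empty, Left.neg_nonpos_iff]
        refine mul_nonneg ?_ hG0
        rcases isEmpty_or_nonempty S.X with hX | ⟨⟨x⟩⟩
        · exact absurd (measure_univ (μ := S.μ)) (by simp [Measure.eq_zero_of_isEmpty S.μ])
        · exact le_trans (by positivity) (hκ x x)
      have hM0 : (0 : ℝ) < M := by exact_mod_cast hM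
      have hrow : ∀ a : Fin M, -(κ / M * G s) ≤ gibPair (k := k) S f M N σ β l (ibpKer S f d s a) := by
        intro a
        obtain ⟨mK, K, bK⟩ := h.ker_facts (M := M) s a
        change _ ≤ ∫ g, ibpPair S f N σ β d s k a l g ∂patterns M n
        rw [← neg_mul, ← integral_const_mul]
        refine integral_mono (iE.const_mul _) (h.pair_integrable s a l) fun g => ?_
        have mψ : Measurable (Function.uncurry (ibpKer S f d s a g)) := measurable_section _ mK g
        have mE2 : Measurable (Function.uncurry fun (x _y : S.X) => -(κ / M) * patE S f d s g x) :=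
          ((measurable_slice (patE S f d s) hEm g).comp measurable_fst).const_mul _
        set C0 := max (K * exp (K * gTot g)) (|κ / M| * exp (|s| * (Bf * B) * gTot g))
        have hC0 : ∀ x y, |(-(κ / M)) * patE S f d s g x| ≤ C0 ∧ |ibpKer S f d s a g x y| ≤ C0 :=
          fun x y => ⟨by
            rw [abs_mul, abs_neg]
            exact (mul_le_mul_of_nonneg_left (hEb g x) (abs_nonneg _)).trans (le_max_right _ _),
            (bK g x y).trans (le_max_left _ _)⟩
        have hpt : ∀ x y, -(κ / M) * patE S f d s g x ≤ ibpKer S f d s a g x y := fun x y => by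
          rw [ibpKer, patE, mul_comm (-(κ / M))]
          refine mul_le_mul_of_nonneg_left ?_ (exp_pos _).le
          have hb2 : |deriv f (sdot (g a) (S.pat x)) * deriv f (sdot (g a) (S.pat y))
              * sdot (d x) (S.pat y)| ≤ κ / M := by
            rw [abs_mul, abs_mul, le_div_iff₀ hM0]
            calc |deriv f (sdot (g a) (S.pat x))| * |deriv f (sdot (g a) (S.pat y))|
                  * |sdot (d x) (S.pat y)| * M
                ≤ Bf * Bf * |sdot (d x) (S.pat y)| * M := by
                  gcongr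
                  · exact h.bf0
                  · exact h.bf' _
                  · exact h.bf' _
              _ = (M : ℝ) * Bf ^ 2 * |sdot (d x) (S.pat y)| := by ring
              _ ≤ κ := hκ x y
          linarith [(abs_le.1 hb2).1]
        have hp := fun z => pairCnd_mono (γ := stdG (FieldIdx n)) (μ := S.μ) (hH g) mE2 mψ hC0 hpt l z
        have hfst : ∀ z, pairCnd (stdG (FieldIdx n)) S.μ (ham (k := k) S f N σ β g)
            (fun _ x _ _ => -(κ / M) * patE S f d s g x) l z
            = -(κ / M) * cnd (stdG (FieldIdx n)) S.μ (ham (k := k) S f N σ β g)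
              (fun _ x => patE S f d s g x) l z := fun z => by
          rw [pairCnd_fst (hH g), cnd_const_mul]
        simp only [ibpPair, gibz]
        rw [← cnd_tower (φ := liftObs (patE S f d s) g) (hH g) (Nat.zero_le l), ← cnd_const_mul]
        exact cnd_mono (hH g) ((cnd_tame (hH g) (tE g) l).const_mul _)
          (tame_pair (hH g) mψ (fun x y => (hC0 x y).2) l) (fun z _ => (hfst z).symm.trans_le (hp z)) 0 _
      calc -(κ * G s) = ∑ _a : Fin M, -(κ / M * G s) := by
            simp only [sum_const, card_univ, Fintype.card_fin, nsmul_eq_mul]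
            field_simp
        _ ≤ _ := sum_le_sum fun a _ => hrow a
    have hsum : -(κ * G s) ≤ mass k * ∑ l ∈ Icc 0 k, ∑ a : Fin M,
        gibPair (k := k) S f M N σ β l (ibpKer S f d s a) := by
      refine le_trans ?_ (mul_le_mul_of_nonneg_left (sum_le_sum fun l _ => hker l) mass_pos.le)
      rw [sum_const, nsmul_eq_mul, ← mul_assoc, mass_mul_card, one_mul]
    nlinarith [mul_le_mul_of_nonneg_left hdiag hs]
  have hG1 : G 0 = 1 := by
    have h0 : ∀ g : Fin M → Fin n → ℝ, gibz (k := k) S f N σ β (liftObs (patE S f d 0)) g = 1 := fun g => by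
      have hc := cnd_const (γ := stdG (FieldIdx n)) (μ := S.μ) (linB_ham (k := k) S mf h.bf N σ β g) 1 0
        (fun _ _ => 0)
      have e : (liftObs (patE S f d 0) g : (Fin k → FieldIdx n → ℝ) → S.X → ℝ) = fun _ _ => (1 : ℝ) :=
        funext₂ fun z x => by simp [liftObs, patE]
      rw [gibz, e]
      exact hc
    simp only [G, h0]
    simp
  set W := fun s => G s * exp (-(s ^ 2 * D / 2 + κ * s))
  have hW : ∀ s, HasDerivAt W (((∫ g, gibz (k := k) S f N σ β
      (liftObs fun g x => patP S f d g x * exp (s * patP S f d g x)) g ∂patterns M n)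
      - (s * D + κ) * G s) * exp (-(s ^ 2 * D / 2 + κ * s))) s := fun s =>
    ((h.hasDerivAt_patE s).mul ((((hasDerivAt_pow 2 s).mul_const D).div_const 2).add
      ((hasDerivAt_id s).const_mul κ)).neg.exp).congr_deriv (by simp [G]; ring)
  have hmono : AntitoneOn W (Set.Ici 0) := antitoneOn_of_deriv_nonpos (convex_Ici 0)
    (continuous_iff_continuousAt.2 fun s => (hW s).continuousAt).continuousOn
    (fun s _ => (hW s).differentiableAt.differentiableWithinAt) fun s hs => by
      rw [interior_Ici, Set.mem_Ioi] at hs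
      rw [(hW s).deriv]
      exact mul_nonpos_of_nonpos_of_nonneg (by linarith [hkey s hs.le]) (exp_pos _).le
  have h0 := hmono Set.self_mem_Ici (Set.mem_Ici.2 ht) ht
  simp only [W, hG1] at h0
  norm_num at h0
  have e1 : exp (-(κ * t) + -(t ^ 2 * D / 2)) * exp (t ^ 2 * D / 2 + κ * t) = 1 := by
    rw [← exp_add]; ring_nf; exact exp_zero
  calc G t = G t * exp (-(κ * t) + -(t ^ 2 * D / 2)) * exp (t ^ 2 * D / 2 + κ * t) := by
        rw [mul_assoc, e1, mul_one]
    _ ≤ 1 * exp (t ^ 2 * D / 2 + κ * t) := mul_le_mul_of_nonneg_right h0 (exp_pos _).le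
    _ = _ := one_mul _

end Moments

/-- The constant of the error bound. -/
noncomputable def errK (W Bf T R P B : ℝ) : ℝ :=
  exp (9 * π * (B * W ^ 2 + R))
    * (exp (162 * π ^ 2 * (5 * T * Bf ^ 2 * W ^ 6) + 18 * π * (6 * T * Bf ^ 2 * W ^ 6))
      + exp (162 * π ^ 2 * (10 * R * W ^ 6 + P * W ^ 2) + 36 * π * (8 * R * W ^ 6 + P * W ^ 2)))

theorem errK_pos (W Bf T R P B : ℝ) : 0 < errK W Bf T R P B :=
  mul_pos (exp_pos _) (add_pos (exp_pos _) (exp_pos _))

namespace CavCtx

variable {N k M : ℕ} (C : CavCtx N k)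

/-- The exponential moment of the derivative of the Hamiltonian, for fixed patterns. -/
theorem gibz_exp_DH_le (u : ℝ) (g : Fin M → Fin (N + 1 + 1) → ℝ) {lam : ℝ} (hlam : 0 ≤ lam) :
    gibz (k := k) (C.S u) C.f (bigN N) C.σ (C.β u)
        (fun g z x => exp (lam * |cavDH k C.W C.f C.σ C.ρ C.e C.b g u z x|)) g
      ≤ exp (lam * C.detBd) * (2⁻¹ * (gibz (k := k) (C.S u) C.f (bigN N) C.σ (C.β u)
            (liftObs (patE (C.S u) C.f (cavPat' C.W u) (2 * lam))) g
          + gibz (k := k) (C.S u) C.f (bigN N) C.σ (C.β u)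
            (liftObs (patE (C.S u) C.f (fun x i => -cavPat' C.W u x i) (2 * lam))) g)
        + exp (2 * lam ^ 2 * C.Dfld + 4 * C.κfld * lam)) := by
  set H := ham (k := k) (C.S u) C.f (bigN N) C.σ (C.β u) g
  set z0 : Fin k → FieldIdx (N + 1 + 1) → ℝ := fun _ _ => 0
  set γ := stdG (FieldIdx (N + 1 + 1))
  have hH : LinB (gaussSize (FieldIdx (N + 1 + 1))) H :=
    linB_ham (C.S u) C.mf.1 C.bf (bigN N) C.σ (C.β u) g
  have hv : BCoef (C.vC u) := bcoef_vCoef (C.S u) (bigN N) C.σ (C.β u)
  obtain ⟨h0m, B0, hB0⟩ := h0Of_bdd (M := M) (C.S u) C.mf.1 C.bf k (bigN N) C.σ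
  have eH : H = fun z x => linZ (C.vC u) z x + h0Of (C.S u) k C.f (bigN N) C.σ g x :=
    funext₂ fun z x => ham_eq (C.S u) C.f (bigN N) C.σ (C.β u) g z x
  have hd := C.bcoef_dC u
  have hdn : BCoef fun a i x => -C.dC u a i x := by
    obtain ⟨Bd, hBd0, hBd⟩ := id hd
    exact ⟨Bd, hBd0, fun a i => ⟨(hBd a i).1.neg, fun x => by rw [abs_neg]; exact (hBd a i).2 x⟩⟩
  have hzle : ∀ {d : Fin k → FieldIdx (N + 1 + 1) → CavX C.K → ℝ}, BCoef d →
      KerBd d (C.vC u) C.Dfld C.κfld →
      cnd γ (C.S u).μ H (fun z x => exp (2 * lam * linZ d z x)) 0 z0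
        ≤ exp (2 * lam ^ 2 * C.Dfld + 4 * C.κfld * lam) := fun {d} hb hK => by
    have h := cnd_exp_linZ_le (μ := (C.S u).μ) hv hb (h0m g) (hB0 g) hK
      (mul_nonneg two_pos.le hlam) z0
    rw [eH]
    refine h.trans_eq ?_
    ring_nf
  have hz1 := hzle hd (C.kerBd u)
  have hz2 := hzle hdn (C.kerBd u).neg
  obtain ⟨bp1, mp1⟩ := (C.dirPat u).patE_facts (M := M) (2 * lam)
  obtain ⟨bp2, mp2⟩ := (C.dirPat u).neg.patE_facts (M := M) (2 * lam)
  have t1 : Tame (gaussSize (FieldIdx (N + 1 + 1))) fun (_ : Fin k → FieldIdx (N + 1 + 1) → ℝ) x =>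
      patE (C.S u) C.f (cavPat' C.W u) (2 * lam) g x :=
    tame_of_bdd (measurable_slice _ mp1 g) (bp1 g)
  have t2 : Tame (gaussSize (FieldIdx (N + 1 + 1))) fun (_ : Fin k → FieldIdx (N + 1 + 1) → ℝ) x =>
      patE (C.S u) C.f (fun x i => -cavPat' C.W u x i) (2 * lam) g x :=
    tame_of_bdd (measurable_slice _ mp2 g) (bp2 g)
  have tz : ∀ {d : Fin k → FieldIdx (N + 1 + 1) → CavX C.K → ℝ}, BCoef d →
      Tame (gaussSize (FieldIdx (N + 1 + 1))) fun z x => exp (2 * lam * linZ d z x) := fun {d} hb =>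
    (tame_mul_exp hb (2 * lam) (g := fun _ => (1 : ℝ)) measurable_const (B := 1)
      (fun _ => by simp)).congr fun z x => one_mul _
  set c := exp (lam * C.detBd)
  have hc : 0 ≤ c := (exp_pos _).le
  have hpt : ∀ z x, exp (lam * |cavDH k C.W C.f C.σ C.ρ C.e C.b g u z x|)
      ≤ c / 2 * patE (C.S u) C.f (cavPat' C.W u) (2 * lam) g x
        + c / 2 * patE (C.S u) C.f (fun x i => -cavPat' C.W u x i) (2 * lam) g x
        + (c / 2 * exp (2 * lam * linZ (C.dC u) z x)
          + c / 2 * exp (2 * lam * linZ (fun a i x => -C.dC u a i x) z x)) := by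
    intro z x
    set a := patD C.W C.f g u x
    set b := linZ (C.dC u) z x
    have ea : patE (C.S u) C.f (cavPat' C.W u) (2 * lam) g x = exp (2 * lam * a) := rfl
    have ea2 : patE (C.S u) C.f (fun x i => -cavPat' C.W u x i) (2 * lam) g x
        = exp (2 * lam * -a) := by rw [patE, patP_neg]; rfl
    have eb : linZ (fun a i x => -C.dC u a i x) z x = -b := by
      simp only [linZ, b, mul_neg, sum_neg_distrib]
    rw [ea, ea2, eb]
    have h1 : |cavDH k C.W C.f C.σ C.ρ C.e C.b g u z x| ≤ |a| + |b| + C.detBd :=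
      (abs_add_le _ _).trans (add_le_add (abs_add_le _ _) (C.detD_le u x))
    have h2 : ∀ v : ℝ, exp (2 * lam * |v|) ≤ exp (2 * lam * v) + exp (2 * lam * -v) := fun v => by
      rcases abs_choice v with h | h <;> rw [h] <;>
        linarith [exp_pos (2 * lam * v), exp_pos (2 * lam * -v)]
    have h4 : exp (lam * |a|) * exp (lam * |b|) ≤ 2⁻¹ * (exp (2 * lam * |a|) + exp (2 * lam * |b|)) := by
      have e : ∀ v : ℝ, exp (2 * lam * v) = exp (lam * v) * exp (lam * v) := fun v => by
        rw [← exp_add]; ring_nf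
      rw [e, e]
      nlinarith [sq_nonneg (exp (lam * |a|) - exp (lam * |b|))]
    calc exp (lam * |cavDH k C.W C.f C.σ C.ρ C.e C.b g u z x|)
        ≤ exp (lam * (|a| + |b| + C.detBd)) := exp_le_exp.2 (mul_le_mul_of_nonneg_left h1 hlam)
      _ = c * (exp (lam * |a|) * exp (lam * |b|)) := by
          rw [← exp_add, ← exp_add]; ring_nf
      _ ≤ c * (2⁻¹ * ((exp (2 * lam * a) + exp (2 * lam * -a))
            + (exp (2 * lam * b) + exp (2 * lam * -b)))) :=
          mul_le_mul_of_nonneg_left (h4.trans (mul_le_mul_of_nonneg_left (add_le_add (h2 a) (h2 b))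
            (by norm_num))) hc
      _ = _ := by ring
  obtain ⟨A, hA, hb⟩ := C.ham_unif M
  have mDH : Measurable (Function.uncurry fun z x => cavDH k C.W C.f C.σ C.ρ C.e C.b g u z x) :=
    (C.family g u).measdH u
  have hg := gTot_nonneg g
  obtain ⟨A2, -, hE⟩ := exp_moment_bdd (γ := γ) (μ := (C.S u).μ)
    (w := gaussSize (FieldIdx (N + 1 + 1))) (k := k) lam hlam
    (show 0 ≤ A * (1 + gTot g) by positivity)
  have tL : Tame (gaussSize (FieldIdx (N + 1 + 1)))
      fun z x => exp (lam * |cavDH k C.W C.f C.σ C.ρ C.e C.b g u z x|) :=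
    (hE H _ hH.meas mDH
      (fun z x => (hb g u z x).1.trans (mul_le_mul_of_nonneg_right (by nlinarith)
        (by linarith [(gaussSize (FieldIdx (N + 1 + 1))).tot_nonneg z])))
      (fun z x => (hb g u z x).2.trans (by
        nlinarith [mul_nonneg (mul_nonneg hA hg) ((gaussSize (FieldIdx (N + 1 + 1))).tot_nonneg z)]))).1
  have tP := (t1.const_mul (c / 2)).add (t2.const_mul (c / 2))
  have tZ := ((tz hd).const_mul (c / 2)).add ((tz hdn).const_mul (c / 2))
  refine (cnd_mono hH tL (tP.add tZ) hpt 0 z0).trans ?_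
  rw [cnd_add hH tP tZ, cnd_add hH (t1.const_mul _) (t2.const_mul _),
    cnd_add hH ((tz hd).const_mul _) ((tz hdn).const_mul _), cnd_const_mul, cnd_const_mul, cnd_const_mul,
    cnd_const_mul]
  unfold gibz liftObs
  linarith [mul_le_mul_of_nonneg_left (add_le_add hz1 hz2)
    (by positivity : (0 : ℝ) ≤ c / 2)]

/-- One error along the path: its derivative. -/
theorem err_deriv {T R P B : ℝ} (hT : (M : ℝ) / dimN N ≤ T) (hR : C.r k ≤ R) (hP : C.ρ k ≤ P)
    (hB : |C.b - 1| ≤ B) {δ : ℝ} (hδ : 0 < δ) (hδ1 : δ ≤ 1) {l : ℕ} (hl : l ≤ k) (u : ℝ) :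
    ∃ d, HasDerivAt (fun s => C.err M s l) d u ∧
      d ≤ -log δ / π * C.err M u l + 2 * (δ * errK C.W C.Bf T R P B) / π := by
  have hW := C.hW
  have hπ := pi_pos
  have hL : 0 ≤ -log δ := neg_nonneg.2 (log_nonpos hδ.le hδ1)
  set lam := 9 * π with hlamdef
  have hlam : 0 < lam := by positivity
  obtain ⟨A, hA, hb⟩ := C.ham_unif M
  set ψ := fun x y : CavX C.K => |oldOv x y - C.q l|
  have mψ : Measurable (Function.uncurry ψ) := (C.measurable_oldOv.sub_const _).abs
  have hψ2 : ∀ x y, ψ x y ≤ 2 := fun x y => by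
    have := abs_le.1 (abs_oldOv_le x y)
    obtain ⟨hq0, hq1⟩ := C.q_mem hl
    exact abs_le.2 ⟨by linarith, by linarith⟩
  have hψb : ∀ x y, |ψ x y| ≤ 2 := fun x y =>
    abs_le.2 ⟨by linarith [abs_nonneg (oldOv x y - C.q l)], hψ2 x y⟩
  set h := fun s (g : Fin M → Fin (N + 1 + 1) → ℝ) => pairG (C.S s) C.f (bigN N) C.σ (C.β s) k l
    (fun _ x y => ψ x y) g
  set Ge := fun s (g : Fin M → Fin (N + 1 + 1) → ℝ) => gibz (k := k) (C.S s) C.f (bigN N) C.σ (C.β s)
    (fun g z x => exp (lam * |cavDH k C.W C.f C.σ C.ρ C.e C.b g s z x|)) g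
  have key : ∀ g s, ∃ d, HasDerivAt (fun v => h v g) d s ∧
      |d| ≤ 9 * ((-log δ * h s g + 2 * (δ * Ge s g)) / lam) := fun g s => by
    have hg := gTot_nonneg g
    exact pair_root_deriv (γ := stdG (FieldIdx (N + 1 + 1))) (μ := (C.S s).μ)
      (w := gaussSize (FieldIdx (N + 1 + 1)))
      (Hs := fun v => ham (k := k) (C.S v) C.f (bigN N) C.σ (C.β v) g)
      (dHs := fun v => cavDH k C.W C.f C.σ C.ρ C.e C.b g v)
      (fun v => (C.family g v).measH v) (fun v => (C.family g v).measdH v)
      (A := A * (1 + gTot g)) (by positivity)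
      (fun v z x => by
        have ht := (gaussSize (FieldIdx (N + 1 + 1))).tot_nonneg z
        exact ⟨(hb g v z x).1.trans (mul_le_mul_of_nonneg_right (by nlinarith) (by linarith)),
          (hb g v z x).2.trans (by nlinarith [mul_nonneg (mul_nonneg hA hg) ht])⟩)
      (fun v z x => (C.family g v).derivH v (by simp) z x)
      mψ (fun x y => abs_nonneg _) hψ2 hlam hδ hδ1 hl (fun _ _ => 0) s
  choose F' hF' hF'b using key
  set c9 := 3 * C.W ^ 3 * C.Bf
  have hc9 : 0 ≤ c9 := by have := C.Bf_nonneg; positivity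
  set K0 := exp (2 * lam ^ 2 * C.Dfld + 4 * C.κfld * lam)
  have hK0 : 0 ≤ K0 := (exp_pos _).le
  set gb := fun g : Fin M → Fin (N + 1 + 1) → ℝ =>
    exp (lam * C.detBd) * (exp (2 * lam * c9 * gTot g) + K0)
  have hgib : ∀ s g, Ge s g ≤ gb g := fun s g => by
    refine (C.gibz_exp_DH_le s g hlam.le).trans (mul_le_mul_of_nonneg_left ?_ (exp_pos _).le)
    refine add_le_add ?_ le_rfl
    have hb1 : ∀ {d : CavX C.K → Fin (N + 1 + 1) → ℝ}, Dir (C.S s) C.f d C.L C.Bf (3 * C.W ^ 3) →
        gibz (k := k) (C.S s) C.f (bigN N) C.σ (C.β s) (liftObs (patE (C.S s) C.f d (2 * lam))) g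
          ≤ exp (2 * lam * c9 * gTot g) := fun {d} hd => by
      obtain ⟨bp, mp⟩ := hd.patE_facts (M := M) (2 * lam)
      refine ((le_abs_self _).trans (abs_gibz_le C.mf.1 C.bf ((measurable_liftObs mp).2 g)
        fun z x => bp g x)).trans (exp_le_exp.2 (le_of_eq ?_))
      rw [abs_of_pos (by linarith : 0 < 2 * lam)]
      ring
    linarith [hb1 (C.dirPat s), hb1 (C.dirPat s).neg]
  have hh : ∀ s g, 0 ≤ h s g ∧ h s g ≤ 2 := fun s g =>
    ⟨cnd_nonneg (fun z x => cnd_nonneg (fun _ x' => cnd_nonneg (fun _ y => abs_nonneg _) _ _) _ _) _ _,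
      (le_abs_self _).trans ((gibz_pair_facts (k := k) C.mf.1 C.bf l
        (POb.leaf (M := M) (n := N + 1 + 1) mψ hψb).meas).2 g 2 hψb)⟩
  have hmeas : ∀ s, Measurable (h s) ∧ Integrable (h s) (patterns M (N + 1 + 1)) := fun s =>
    pairG_facts C.mf.1 C.bf l (POb.leaf (M := M) (n := N + 1 + 1) mψ hψb)
  have hseq : Filter.Tendsto (fun m : ℕ => u + 1 / ((m : ℝ) + 1)) Filter.atTop
      (nhdsWithin u {u}ᶜ) := by
    refine tendsto_nhdsWithin_iff.2 ⟨?_, Filter.Eventually.of_forall fun m => ?_⟩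
    · simpa using (tendsto_const_nhds (x := u)).add tendsto_one_div_add_atTop_nhds_zero_nat
    · have : (0 : ℝ) < 1 / ((m : ℝ) + 1) := by positivity
      simp only [Set.mem_compl_iff, Set.mem_singleton_iff]
      linarith
  have mF' : Measurable fun g => F' g u := by
    refine measurable_of_tendsto_metrizable
      (f := fun (m : ℕ) g => slope (fun v => h v g) u (u + 1 / ((m : ℝ) + 1))) (fun m => ?_)
      (tendsto_pi_nhds.2 fun g => (hasDerivAt_iff_tendsto_slope.1 (hF' g u)).comp hseq)
    simp only [slope_def_field]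
    exact ((hmeas _).1.sub (hmeas u).1).div_const _
  have : IsProbabilityMeasure (patterns M (N + 1 + 1)) := by unfold patterns; infer_instance
  have ib : Integrable (fun g => 9 * ((-log δ * 2 + 2 * (δ * gb g)) / lam))
      (patterns M (N + 1 + 1)) :=
    (((integrable_const (-log δ * 2)).add
      (((((integrable_exp_gTot (2 * lam * c9)).add (integrable_const K0)).const_mul
        (exp (lam * C.detBd))).const_mul δ).const_mul 2)).div_const lam).const_mul 9
  have hder : HasDerivAt (fun s => ∫ g, h s g ∂patterns M (N + 1 + 1))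
      (∫ g, F' g u ∂patterns M (N + 1 + 1)) u :=
    (hasDerivAt_integral_of_dominated_loc_of_deriv_le (μ := patterns M (N + 1 + 1))
      (F := h) (F' := fun s g => F' g s)
      (bound := fun g => 9 * ((-log δ * 2 + 2 * (δ * gb g)) / lam)) Filter.univ_mem
      (Filter.Eventually.of_forall fun s => (hmeas s).1.aestronglyMeasurable) (hmeas u).2
      mF'.aestronglyMeasurable
      (ae_of_all _ fun g s _ => by
        rw [Real.norm_eq_abs]
        refine (hF'b g s).trans ?_
        gcongr
        · exact (hh s g).2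
        · exact hgib s g)
      ib (ae_of_all _ fun g s _ => hF' g s)).2
  refine ⟨_, hder, ?_⟩
  have hT0 : 0 ≤ T := le_trans (div_nonneg (Nat.cast_nonneg M) (by linarith [one_le_dimN N])) hT
  set E1 := exp ((2 * lam) ^ 2 * (5 * T * C.Bf ^ 2 * C.W ^ 6) / 2
    + 6 * T * C.Bf ^ 2 * C.W ^ 6 * (2 * lam))
  have hpat : ∀ {d : CavX C.K → Fin (N + 1 + 1) → ℝ}, Dir (C.S u) C.f d C.L C.Bf (3 * C.W ^ 3) →
      (∀ x, dimN N * sdot (d x) (d x) ≤ 5 * C.W ^ 6) →
      (∀ (x y : CavX C.K), dimN N * |sdot (d x) (cavPat C.W u y)| ≤ 6 * C.W ^ 6) →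
      ∫ g, gibz (k := k) (C.S u) C.f (bigN N) C.σ (C.β u)
        (liftObs (patE (C.S u) C.f d (2 * lam))) g ∂patterns M (N + 1 + 1) ≤ E1 := by
    intro d hd h1 h2
    have hn : 0 < dimN N := by linarith [one_le_dimN N]
    have scale : ∀ {a c : ℝ}, 0 ≤ c → dimN N * c ≤ a → 0 ≤ a →
        (M : ℝ) * C.Bf ^ 2 * c ≤ T * C.Bf ^ 2 * a := fun {a c} hc hle ha => by
      calc (M : ℝ) * C.Bf ^ 2 * c = (M : ℝ) / dimN N * C.Bf ^ 2 * (dimN N * c) := by field_simp
        _ ≤ T * C.Bf ^ 2 * a := mul_le_mul (mul_le_mul_of_nonneg_right hT (sq_nonneg _)) hle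
            (mul_nonneg hn.le hc) (by positivity)
    refine (hd.patP_exp_le (D := 5 * T * C.Bf ^ 2 * C.W ^ 6) (κ := 6 * T * C.Bf ^ 2 * C.W ^ 6)
      (fun x => ?_) (fun x y => ?_) (by positivity)).trans_eq rfl
    · exact (scale (sum_nonneg fun i _ => mul_self_nonneg _) (h1 x) (by positivity)).trans_eq
        (by ring)
    · exact (scale (abs_nonneg _) (h2 x y) (by positivity)).trans_eq (by ring)
  have hp1 := hpat (C.dirPat u) (fun x => (cavPat'_sq_le hW x).1) fun x y => (cavKer_bdd hW x y).1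
  have hp2 := hpat (C.dirPat u).neg (fun x => by rw [sdot_neg_neg]; exact (cavPat'_sq_le hW x).1)
    fun x y => by rw [sdot_neg, abs_neg]; exact (cavKer_bdd hW x y).1
  have iP1 := (C.dirPat u).integrable_patE (M := M) (k := k) (N := bigN N) (σ := C.σ) (β := C.β u)
    (2 * lam)
  have iP2 := (C.dirPat u).neg.integrable_patE (M := M) (k := k) (N := bigN N) (σ := C.σ) (β := C.β u)
    (2 * lam)
  have hD : C.Dfld ≤ 10 * R * C.W ^ 6 + P * C.W ^ 2 := by
    rw [Dfld, show 10 * R * C.W ^ 6 = R * (10 * C.W ^ 6) by ring]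
    gcongr
  have hκ : C.κfld ≤ 8 * R * C.W ^ 6 + P * C.W ^ 2 := by
    rw [κfld, show 8 * R * C.W ^ 6 = R * (8 * C.W ^ 6) by ring]
    gcongr
  have hdet : C.detBd ≤ B * C.W ^ 2 + R := by
    rw [detBd]
    gcongr
  have hK : exp (lam * C.detBd) * (2⁻¹ * (E1 + E1) + K0) ≤ errK C.W C.Bf T R P B := by
    rw [errK]
    refine mul_le_mul (exp_le_exp.2 ?_) (add_le_add (le_of_eq ?_) (exp_le_exp.2 ?_)) (by positivity)
      (exp_pos _).le
    · rw [hlamdef]; exact mul_le_mul_of_nonneg_left hdet (by positivity)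
    · rw [show 2⁻¹ * (E1 + E1) = E1 by ring]
      simp only [E1, hlamdef]
      ring_nf
    · rw [hlamdef]
      nlinarith [mul_le_mul_of_nonneg_left hD (sq_nonneg π), mul_le_mul_of_nonneg_left hκ pi_pos.le]
  have iG : Integrable (fun g => exp (lam * C.detBd) * (2⁻¹ * (gibz (k := k) (C.S u) C.f (bigN N) C.σ
        (C.β u) (liftObs (patE (C.S u) C.f (cavPat' C.W u) (2 * lam))) g
      + gibz (k := k) (C.S u) C.f (bigN N) C.σ (C.β u)
        (liftObs (patE (C.S u) C.f (fun x i => -cavPat' C.W u x i) (2 * lam))) g) + K0))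
      (patterns M (N + 1 + 1)) :=
    (((iP1.add iP2).const_mul 2⁻¹).add (integrable_const K0)).const_mul _
  have iF : Integrable (fun g => F' g u) (patterns M (N + 1 + 1)) :=
    ib.mono' mF'.aestronglyMeasurable (ae_of_all _ fun g => by
      rw [Real.norm_eq_abs]
      refine (hF'b g u).trans ?_
      gcongr
      · exact (hh u g).2
      · exact hgib u g)
  refine (integral_mono iF ((((hmeas u).2.const_mul (-log δ)).add ((iG.const_mul δ).const_mul 2))
    |>.div_const lam |>.const_mul 9) fun g => ?_).trans ?_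
  · refine (le_abs_self _).trans ((hF'b g u).trans ?_)
    simp only [Pi.add_apply]
    gcongr
    exact C.gibz_exp_DH_le u g hlam.le
  · simp only [Pi.add_apply]
    rw [integral_const_mul, integral_div, integral_add ((hmeas u).2.const_mul _)
      ((iG.const_mul δ).const_mul 2), integral_const_mul, integral_const_mul, integral_const_mul,
      integral_const_mul]
    have i12 : Integrable (fun g => gibz (k := k) (C.S u) C.f (bigN N) C.σ (C.β u)
          (liftObs (patE (C.S u) C.f (cavPat' C.W u) (2 * lam))) g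
        + gibz (k := k) (C.S u) C.f (bigN N) C.σ (C.β u)
          (liftObs (patE (C.S u) C.f (fun x i => -cavPat' C.W u x i) (2 * lam))) g)
        (patterns M (N + 1 + 1)) := iP1.add iP2
    rw [integral_add (i12.const_mul 2⁻¹) (integrable_const K0), integral_const_mul,
      integral_add iP1 iP2, integral_const, probReal_univ, one_smul]
    change _ ≤ -log δ / π * C.err M u l + _
    have e : ∫ g, h u g ∂patterns M (N + 1 + 1) = C.err M u l := rfl
    rw [e]
    set G1 := ∫ g, gibz (k := k) (C.S u) C.f (bigN N) C.σ (C.β u)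
      (liftObs (patE (C.S u) C.f (cavPat' C.W u) (2 * lam))) g ∂patterns M (N + 1 + 1)
    set G2 := ∫ g, gibz (k := k) (C.S u) C.f (bigN N) C.σ (C.β u)
      (liftObs (patE (C.S u) C.f (fun x i => -cavPat' C.W u x i) (2 * lam))) g ∂patterns M (N + 1 + 1)
    have h1 : δ * (exp (lam * C.detBd) * (2⁻¹ * (G1 + G2) + K0)) ≤ δ * errK C.W C.Bf T R P B :=
      mul_le_mul_of_nonneg_left
        ((mul_le_mul_of_nonneg_left (add_le_add (mul_le_mul_of_nonneg_left (add_le_add hp1 hp2)
          (by norm_num)) le_rfl) (exp_pos _).le).trans hK) hδ.le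
    calc 9 * ((-log δ * C.err M u l + 2 * (δ * (exp (lam * C.detBd) * (2⁻¹ * (G1 + G2) + K0)))) / lam)
        ≤ 9 * ((-log δ * C.err M u l + 2 * (δ * errK C.W C.Bf T R P B)) / lam) := by gcongr
      _ = _ := by rw [hlamdef]; field_simp

/-- The errors along the interpolation. -/
theorem Err_le {T R P B : ℝ} (hT : (M : ℝ) / dimN N ≤ T) (hR : C.r k ≤ R) (hP : C.ρ k ≤ P)
    (hB : |C.b - 1| ≤ B) {δ : ℝ} (hδ : 0 < δ) (hδ1 : δ ≤ 1) {u : ℝ} (hu : 0 ≤ u) (hu1 : u ≤ π / 2) :
    C.Err M u ≤ (C.Err M 0 + δ * errK C.W C.Bf T R P B) / √δ := by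
  have key := fun s l (hl : l ∈ Icc 0 k) =>
    C.err_deriv (M := M) hT hR hP hB hδ hδ1 (mem_Icc.1 hl).2 s
  choose d hd hdle using key
  set K := errK C.W C.Bf T R P B
  have hK : 0 < K := errK_pos _ _ _ _ _ _
  set a := -log δ / π
  have ha : 0 ≤ a := div_nonneg (neg_nonneg.2 (log_nonpos hδ.le hδ1)) pi_pos.le
  set b := 2 * (δ * K) / π
  have hb : 0 ≤ b := by positivity
  set E' := fun s => mass k * ∑ l ∈ (Icc 0 k).attach, d s l.1 l.2
  have hE : ∀ s, HasDerivAt (C.Err M) (E' s) s := fun s => by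
    have e : C.Err M = fun s => mass k * ∑ l ∈ (Icc 0 k).attach, C.err M s l.1 := funext fun s => by
      rw [sum_attach (Icc 0 k) fun l => C.err M s l]; rfl
    rw [e]
    exact (HasDerivAt.fun_sum fun l _ => hd s l.1 l.2).const_mul _
  have hle : ∀ s, E' s ≤ a * C.Err M s + b := fun s => by
    calc E' s ≤ mass k * ∑ l ∈ (Icc 0 k).attach, (a * C.err M s l.1 + b) :=
          mul_le_mul_of_nonneg_left (sum_le_sum fun l _ => hdle s l.1 l.2) mass_pos.le
      _ = a * C.Err M s + (mass k * #(Icc 0 k)) * b := by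
          rw [sum_add_distrib, sum_const, card_attach, nsmul_eq_mul, ← mul_sum,
            sum_attach (Icc 0 k) fun l => C.err M s l, Err]
          ring
      _ = _ := by rw [mass_mul_card, one_mul]
  refine (gronwall_lin ha hb hE hle hu).trans ?_
  have he : exp (a * u) ≤ (√δ)⁻¹ := by
    rw [← exp_log (inv_pos.2 (sqrt_pos.2 hδ)), log_inv, log_sqrt hδ.le]
    refine exp_le_exp.2 ((mul_le_mul_of_nonneg_left hu1 ha).trans_eq ?_)
    simp only [a]
    field_simp
  have hb1 : b * u ≤ δ * K := by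
    refine (mul_le_mul_of_nonneg_left hu1 hb).trans_eq ?_
    simp only [b]
    field_simp
  have h0 := C.Err_nonneg M 0
  rw [div_eq_inv_mul (C.Err M 0 + δ * K)]
  exact mul_le_mul he (by linarith) (by positivity) (inv_nonneg.2 (sqrt_nonneg _))

end CavCtx

end Vale.Agent.P157.Rsb
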