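import Mathlib

/-!
# P157: a random number of patterns growing with the dimension

`mix a θ t h M₀` is the average of `h` after `t` steps from `M₀`, each step adding `a` with weight
`1 - θ` and `a + 1` with weight `θ`.
-/

namespace Vale.Agent.P157.Rsb

/-- The average of `h` after `t` steps of mean `a + θ`. -/
def mix (a : ℕ) (θ : ℝ) : ℕ → (ℕ → ℝ) → ℕ → ℝ
  | 0, h, M₀ => h M₀
  | t + 1, h, M₀ => mix a θ t (fun M => (1 - θ) * h (M + a) + θ * h (M + a + 1)) M₀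

variable {a : ℕ} {θ : ℝ}

theorem mix_mono (h0 : 0 ≤ θ) (h1 : θ ≤ 1) (t : ℕ) (M₀ : ℕ) :
    ∀ h h' : ℕ → ℝ, (∀ M ≤ M₀ + (a + 1) * t, h M ≤ h' M) → mix a θ t h M₀ ≤ mix a θ t h' M₀ := by
  induction t with
  | zero => intro h h' hh; exact hh M₀ (by simp)
  | succ t ih =>
    intro h h' hh
    refine ih _ _ fun M hM => ?_
    have e : (a + 1) * (t + 1) = (a + 1) * t + (a + 1) := by ring
    exact add_le_add (mul_le_mul_of_nonneg_left (hh _ (by omega)) (by linarith))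
      (mul_le_mul_of_nonneg_left (hh _ (by omega)) h0)

theorem mix_add (t : ℕ) (M₀ : ℕ) :
    ∀ h h' : ℕ → ℝ, mix a θ t (fun M => h M + h' M) M₀ = mix a θ t h M₀ + mix a θ t h' M₀ := by
  induction t with
  | zero => intro h h'; rfl
  | succ t ih =>
    intro h h'
    simp only [mix, ← ih]
    congr 1
    funext M; ring

theorem mix_const (t : ℕ) (M₀ : ℕ) : ∀ c : ℝ, mix a θ t (fun _ => c) M₀ = c := by
  induction t with
  | zero => intro c; rfl
  | succ t ih =>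
    intro c
    simp only [mix]
    rw [show (fun _ : ℕ => (1 - θ) * c + θ * c) = fun _ => c from funext fun _ => by ring, ih]

theorem mix_mul (t : ℕ) (M₀ : ℕ) (c : ℝ) :
    ∀ h : ℕ → ℝ, mix a θ t (fun M => c * h M) M₀ = c * mix a θ t h M₀ := by
  induction t with
  | zero => intro h; rfl
  | succ t ih =>
    intro h
    simp only [mix, ← ih]
    congr 1
    funext M; ring

/-- The variance grows at most by one per step. -/
theorem mix_var (h0 : 0 ≤ θ) (h1 : θ ≤ 1) (t : ℕ) (M₀ : ℕ) :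
    mix a θ t (fun M => ((M : ℝ) - (M₀ + ((a : ℝ) + θ) * t)) ^ 2) M₀ ≤ t := by
  induction t with
  | zero => simp [mix]
  | succ t ih =>
    have e : (fun M : ℕ => (1 - θ) * (((M + a : ℕ) : ℝ) - (M₀ + ((a : ℝ) + θ) * (t + 1 : ℕ))) ^ 2
        + θ * (((M + a + 1 : ℕ) : ℝ) - (M₀ + ((a : ℝ) + θ) * (t + 1 : ℕ))) ^ 2)
        = fun M : ℕ => ((M : ℝ) - (M₀ + ((a : ℝ) + θ) * t)) ^ 2 + θ * (1 - θ) :=
      funext fun M => by push_cast; ring
    simp only [mix]
    rw [e, mix_add, mix_const]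
    have h2 : θ * (1 - θ) ≤ 1 := mul_le_one₀ h1 (by linarith) (by linarith)
    push_cast
    linarith

/-- The mean distance from a point near the centre is of order `√t`. -/
theorem mix_dist (h0 : 0 ≤ θ) (h1 : θ ≤ 1) (t : ℕ) (M₀ : ℕ) {c d s : ℝ} (hs : 0 < s)
    (hc : |(M₀ + ((a : ℝ) + θ) * t) - c| ≤ d) :
    mix a θ t (fun M => |(M : ℝ) - c|) M₀ ≤ t / (2 * s) + s / 2 + d := by
  refine (mix_mono h0 h1 t M₀ _
    (fun M : ℕ => 1 / (2 * s) * ((M : ℝ) - (M₀ + ((a : ℝ) + θ) * t)) ^ 2 + (s / 2 + d))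
    fun M _ => ?_).trans ?_
  · set m : ℝ := (M₀ + ((a : ℝ) + θ) * t)
    have h3 : |(M : ℝ) - m| ≤ 1 / (2 * s) * ((M : ℝ) - m) ^ 2 + s / 2 := by
      rw [← sq_abs ((M : ℝ) - m)]
      have : 0 ≤ (|(M : ℝ) - m| - s) ^ 2 / (2 * s) := by positivity
      have e : (|(M : ℝ) - m| - s) ^ 2 / (2 * s)
          = 1 / (2 * s) * |(M : ℝ) - m| ^ 2 + s / 2 - |(M : ℝ) - m| := by field_simp; ring
      linarith
    linarith [abs_sub_le (M : ℝ) m c]
  · rw [mix_add, mix_const, mix_mul]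
    have := mul_le_mul_of_nonneg_left (mix_var h0 h1 t M₀ (a := a)) (show 0 ≤ 1 / (2 * s) by positivity)
    have e : 1 / (2 * s) * (t : ℝ) = t / (2 * s) := by ring
    linarith

/-- Telescoping along the growing dimension. -/
theorem mix_telescope (h0 : 0 ≤ θ) (h1 : θ ≤ 1) {g : ℕ → ℕ → ℝ} {n₀ M₀ : ℕ} {V : ℝ} (t : ℕ)
    (hstep : ∀ s < t, ∀ M ≤ M₀ + (a + 1) * s,
      g (n₀ + s) M + V ≤ (1 - θ) * g (n₀ + s + 1) (M + a) + θ * g (n₀ + s + 1) (M + a + 1)) :
    g n₀ M₀ + t * V ≤ mix a θ t (g (n₀ + t)) M₀ := by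
  induction t with
  | zero => simp [mix]
  | succ t ih =>
    have h := mix_mono h0 h1 t M₀ _ _ (hstep t (by omega))
    rw [mix_add, mix_const] at h
    have := ih fun s hs => hstep s (by omega)
    simp only [mix, ← add_assoc]
    push_cast
    linarith

end Vale.Agent.P157.Rsb
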