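import Vale.Agent.P157.Rsb.Upper
import Vale.Agent.P157.Rsb.LowerMix

/-!
# P157: the lower bound on every grid

`lower : LowerStmt` from the other interface statements.  The pressure of dimension `n` is compared
with a telescoping sum of one-coordinate increments along a number of patterns that grows by
`⌊α⌋` or `⌊α⌋ + 1` per step.  Each step is bounded below by the variational value: the cavity value
is a field functional at a nearly self-consistent kernel, hence at least the functional of a nearby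
path.
-/

open MeasureTheory ProbabilityTheory Real Finset

namespace Vale.Agent.P157.Rsb

/-- Mean overlaps are within the mean distance of overlaps from any number. -/
def DistStmt : Prop :=
  ∀ (f : ℝ → ℝ) (L : ℝ), Measurable f → (∀ u, |f u| ≤ L) →
    ∀ (N M k : ℕ) (σ c : ℕ → ℝ) (j : ℕ), 0 ≤ ovErr f N M k σ c j ∧
      (1 ≤ j → j ≤ k → |sphQ f N M k σ j - c j| ≤ ovErr f N M k σ c j)

variable {k : ℕ} {f : ℝ → ℝ}

/-! ### elementary facts -/

theorem mass_card (k : ℕ) : mass k * k ≤ 1 := by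
  unfold mass; rw [one_div_mul_eq_div, div_le_one (by positivity)]; linarith

theorem overlap_bound (N : ℕ) (x y : (sphereLeaf N).X) :
    |sdot ((sphereLeaf N).fld x) ((sphereLeaf N).fld y)| ≤ 1 := by
  have hx : ∑ i, (sphereLeaf N).fld x i ^ 2 = 1 := by
    simpa [sdot, sq, sphereLeaf, ← pow_two] using sphere_unit N x
  have hy : ∑ i, (sphereLeaf N).fld y i ^ 2 = 1 := by
    simpa [sdot, sq, sphereLeaf, ← pow_two] using sphere_unit N y
  have h := Finset.sum_mul_sq_le_sq_mul_sq univ ((sphereLeaf N).fld x) ((sphereLeaf N).fld y)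
  rw [hx, hy, one_mul] at h
  exact (sq_le_one_iff_abs_le_one _).1 h

theorem sum_sq_lift_le {y : Fin k → ℝ} {η : ℝ} (hy : ∀ i, 0 ≤ y i ∧ y i ≤ η) (j : ℕ) (hj : j ≤ k) :
    ∑ i ∈ Finset.Icc 1 j, lift y i ^ 2 ≤ k * η ^ 2 := by
  rcases Nat.eq_zero_or_pos k with hk | hk
  · subst hk
    rw [show j = 0 by omega]; simp
  have hη : 0 ≤ η := (hy ⟨0, hk⟩).1.trans (hy ⟨0, hk⟩).2
  have hb : ∀ i ∈ Finset.Icc 1 j, lift y i ^ 2 ≤ η ^ 2 := fun i _ =>
    pow_le_pow_left₀ (lift_bound hη hy i).1 (lift_bound hη hy i).2 2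
  refine (sum_le_sum hb).trans ?_
  rw [sum_const, Nat.card_Icc, nsmul_eq_mul]
  exact mul_le_mul_of_nonneg_right (by exact_mod_cast (by omega : j + 1 - 1 ≤ k)) (sq_nonneg η)

theorem quarter_bound {C εs : ℝ} (hC : 0 ≤ C) (hε : 0 ≤ εs) (k : ℕ) :
    √(C / √((k : ℝ) + 1) + εs + mass k)
      ≤ √(C + 1) / ((k : ℝ) + 1) ^ (1 / 4 : ℝ) + √εs := by
  have hK : (1 : ℝ) ≤ (k : ℝ) + 1 := by linarith [(Nat.cast_nonneg k : (0 : ℝ) ≤ k)]
  have h1 : mass k ≤ 1 / √((k : ℝ) + 1) := by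
    unfold mass
    refine one_div_le_one_div_of_le (by positivity) ?_
    rw [Real.sqrt_le_left (by positivity), pow_two]
    exact le_mul_of_one_le_left (by positivity) hK
  have h2 : C / √((k : ℝ) + 1) + εs + mass k ≤ (C + 1) / √((k : ℝ) + 1) + εs := by
    rw [add_div]; linarith
  refine (Real.sqrt_le_sqrt h2).trans ?_
  have h3 : √((C + 1) / √((k : ℝ) + 1)) = √(C + 1) / ((k : ℝ) + 1) ^ (1 / 4 : ℝ) := by
    rw [Real.sqrt_div (by linarith)]
    congr 1
    rw [Real.sqrt_eq_rpow, Real.sqrt_eq_rpow, ← Real.rpow_mul (by linarith)]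
    norm_num
  rw [← h3]
  set A := (C + 1) / √((k : ℝ) + 1)
  have hA : 0 ≤ A := by positivity
  rw [Real.sqrt_le_left (by positivity)]
  nlinarith [Real.sq_sqrt hA, Real.sq_sqrt hε, mul_nonneg (sqrt_nonneg A) (sqrt_nonneg εs)]

section Facts

variable (hP : PathStmt) (hR : RegStmt) (hd : DistStmt) {L : ℝ} (hm : Measurable f)
  (hL : ∀ u, |f u| ≤ L)
include hd hm hL

theorem totErr_nonneg (N M : ℕ) (σ : ℕ → ℝ) : 0 ≤ totErr f N M k σ :=
  mul_nonneg (by unfold mass; positivity) (sum_nonneg fun j _ => (hd f L hm hL N M k σ _ j).1)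

include hR in
theorem le_root (N M : ℕ) (σ : ℕ → ℝ) :
    totErr f N M k σ + mass k ≤ 2 * √(totErr f N M k σ + mass k) := by
  have h0 : 0 ≤ totErr f N M k σ + mass k :=
    add_nonneg (totErr_nonneg hd hm hL N M σ) (by unfold mass; positivity)
  have h1 : mass k ≤ 1 := by
    unfold mass; rw [div_le_one (by positivity)]; linarith [(Nat.cast_nonneg k : (0 : ℝ) ≤ k)]
  have h2 := (le_abs_self _).trans ((hR f L hm hL N M k).2 σ)
  nlinarith [Real.sq_sqrt h0, sqrt_nonneg (totErr f N M k σ + mass k)]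

include hP in
/-- One added pattern moves the path by at most the overlap error. -/
theorem path_step {Cp : ℝ} (hCp : 0 ≤ Cp)
    (htilt : ∀ (n M k : ℕ) (S : Leaf n) (N : ℝ) (σ β : ℕ → ℝ) (q : ℕ → ℝ), 0 < N → IsPath k q →
      (∀ x, sdot (S.pat x) (S.pat x) = 1) →
      ∀ j ≤ k, ∀ (ψ : S.X → S.X → ℝ) (R : ℝ), (∀ x y, 0 ≤ ψ x y ∧ ψ x y ≤ R) →
        Measurable (Function.uncurry ψ) →
        gibPair (k := k) S f (M + 1) N σ β j (fun _ x y => ψ x y)
          ≤ Cp * gibPair (k := k) S f M N σ β j (fun _ x y => ψ x y))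
    (N M : ℕ) (σ : ℕ → ℝ) :
    mass k * ∑ j ∈ Finset.Icc 1 k, |sphQ f N (M + 1) k σ j - sphQ f N M k σ j|
      ≤ Cp * totErr f N M k σ := by
  set q := sphQ f N M k σ with hq
  have hqp : IsPath k q := hP f L hm hL N M k σ
  have hj : ∀ j ∈ Finset.Icc 1 k,
      |sphQ f N (M + 1) k σ j - q j| ≤ Cp * ovErr f N M k σ q j := fun j hj => by
    rw [Finset.mem_Icc] at hj
    refine ((hd f L hm hL N (M + 1) k σ q j).2 hj.1 hj.2).trans ?_
    have hmf : Measurable (sphereLeaf N).fld := (sphereLeaf N).fld_meas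
    refine htilt (N + 1) M k (sphereLeaf N) ((N : ℝ) + 1) σ (fun _ => 0) q (by positivity) hqp
      (sphere_unit N) j hj.2
      (fun x y => |sdot ((sphereLeaf N).fld x) ((sphereLeaf N).fld y) - q j|) (1 + |q j|)
      (fun x y => ⟨abs_nonneg _, (abs_sub _ _).trans (add_le_add (overlap_bound N x y) le_rfl)⟩) ?_
    refine ((Finset.measurable_sum _ fun i _ => ?_).sub_const _).abs
    exact (((measurable_pi_apply i).comp (hmf.comp measurable_fst))).mul
      ((measurable_pi_apply i).comp (hmf.comp measurable_snd))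
  refine (mul_le_mul_of_nonneg_left (sum_le_sum hj) (by unfold mass; positivity)).trans ?_
  rw [← mul_sum, totErr]
  have : ∑ j ∈ Finset.Icc 1 k, ovErr f N M k σ q j ≤ ∑ j ∈ Finset.Icc 0 k, ovErr f N M k σ q j :=
    sum_le_sum_of_subset_of_nonneg (Finset.Icc_subset_Icc_left zero_le_one)
      fun j _ _ => (hd f L hm hL N M k σ q j).1
  calc mass k * (Cp * ∑ j ∈ Finset.Icc 1 k, ovErr f N M k σ q j)
      = Cp * (mass k * ∑ j ∈ Finset.Icc 1 k, ovErr f N M k σ q j) := by ring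
    _ ≤ _ := mul_le_mul_of_nonneg_left
        (mul_le_mul_of_nonneg_left this (by unfold mass; positivity)) hCp

end Facts

/-- The properties of the constants used at one step. -/
structure Consts (f : ℝ → ℝ) (k : ℕ) (α T A D R Ca C1 Cn Cw Cv W εt εc : ℝ) (N : ℕ) : Prop where
  α0 : 0 ≤ α
  T0 : 0 ≤ T
  C10 : 0 ≤ C1
  Cn0 : 0 ≤ Cn
  Ca0 : 0 < Ca
  R0 : 1 + T * D ^ 2 ≤ R
  phi : ∀ q, IsPath k q → |phiK k f q| ≤ A
  der : ∀ u, |deriv f u| ≤ D
  alg : ∀ (ρ q : ℕ → ℝ), IsPath k q → ρ 0 = 0 → (∀ j < k, ρ j ≤ ρ (j + 1)) → ρ k ≤ R →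
    let e := mass k * ∑ j ∈ Finset.Icc 1 k, |defect k ρ q j| + mass k
    Ca * e ≤ 1 →
      1 ≤ Ca * dOf k (bOf k ρ q) (incr ρ) 0 ∧
      ∃ q' : ℕ → ℝ, IsPath k q' ∧ q' k < 1 ∧ mass k * ∑ j ∈ Finset.Icc 1 k, |q j - q' j| ≤ Ca * e ∧
        entS k q' - (∑ j ∈ Finset.Icc 1 k, tail k q' j * incr ρ j) / 2
          ≤ fieldG k (bOf k ρ q) (incr ρ) + Ca * e
  cons : ∀ (M : ℕ) (σ : ℕ → ℝ), (M : ℝ) ≤ T * N → (∀ l, 0 ≤ σ l ∧ σ l ≤ 1) → ∀ j ∈ Finset.Icc 1 k,
    |defect k (rhoOf k f ((M : ℝ) / (N + 1)) σ (sphQ f N M k σ)) (sphQ f N M k σ) j|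
      ≤ C1 * (1 + (M : ℝ) / (N + 1) + ∑ i ∈ Finset.Icc 1 k, σ i ^ 2) *
          (ovErr f N M k σ (sphQ f N M k σ) j + totErr f N M k σ + mass k) + Cn
  cavity : ∀ (M : ℕ) (σ : ℕ → ℝ), (M : ℝ) ≤ T * N → (∀ l, 0 ≤ σ l) →
    ∑ i ∈ Finset.Icc 1 k, σ i ^ 2 ≤ 1 →
      cavW W k (bOf k (rhoOf k f ((M : ℝ) / (N + 1)) σ (sphQ f N M k σ)) (sphQ f N M k σ))
          (incr (rhoOf k f ((M : ℝ) / (N + 1)) σ (sphQ f N M k σ)))
        - (mass k * ∑ l ∈ Finset.Icc 1 k, (∑ i ∈ Finset.Icc 1 l, σ i ^ 2) * sphQ f N M k σ l) / 2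
        - Cv * √(totErr f N M k σ + mass k) - εc
      ≤ ((N : ℝ) + 2) * sphFree f (N + 1) M k σ - ((N : ℝ) + 1) * sphFree f N M k σ
  trunc : ∀ (b : ℝ) (Δ : ℕ → ℝ), (∀ j, 0 ≤ Δ j) → ∑ j ∈ Finset.Icc 1 k, Δ j ≤ 1 + R → |b| ≤ 1 + R →
    1 / Ca ≤ dOf k b Δ 0 →
      fieldG k b Δ - (b - 1 - ∑ j ∈ Finset.Icc 1 k, Δ j) / 2 - εt ≤ cavW W k b Δ
  crude : ∀ (b : ℝ) (Δ : ℕ → ℝ), (∀ j, 0 ≤ Δ j) → ∑ j ∈ Finset.Icc 1 k, Δ j ≤ 1 + R → |b| ≤ 1 + R →
    -Cw ≤ cavW W k b Δ
  εt0 : 0 ≤ εt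

/-- The one-coordinate increment is at least the variational value, at fixed amplitudes. -/
theorem cavity_value (hP : PathStmt) (hPhi : PhiStmt) (hA : AlgebraStmt) (hR : RegStmt)
    (hd : DistStmt) {L : ℝ} (hm : Measurable f) (hL : ∀ u, |f u| ≤ L) (hf : Good f)
    {α T A D R Ca C1 Cn Cw Cv W εt εc : ℝ} {N : ℕ}
    (K : Consts f k α T A D R Ca C1 Cn Cw Cv W εt εc N) {M : ℕ} (hM : (M : ℝ) ≤ T * N)
    {σ : ℕ → ℝ} (hσ : ∀ l, 0 ≤ σ l ∧ σ l ≤ 1) {β : ℝ} (hβ1 : β ≤ 1)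
    (hβ : ∀ j ≤ k, ∑ i ∈ Finset.Icc 1 j, σ i ^ 2 ≤ β) :
    valK k f α - α * phiK k f (sphQ f N M k σ)
        - (εt + β / 2 + εc)
        - (Cv + (1 + R / 2 + α * D ^ 2 + |Cw| + 2 * α * A) * Ca * (2 * (2 * C1 * (2 + T) + 1)))
          * √(totErr f N M k σ + mass k)
        - (1 + R / 2 + α * D ^ 2 + |Cw| + 2 * α * A) * Ca * Cn
      ≤ ((N : ℝ) + 2) * sphFree f (N + 1) M k σ - ((N : ℝ) + 1) * sphFree f N M k σ := by
  set q := sphQ f N M k σ with hqdef
  set t := (M : ℝ) / (N + 1) with htdef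
  set ρ := rhoOf k f t σ q with hρdef
  set s := √(totErr f N M k σ + mass k) with hs
  have hqp : IsPath k q := hP f L hm hL N M k σ
  have hphi := hPhi.1 f D hf K.der k q q hqp hqp
  have hm0 : (0 : ℝ) ≤ mass k := by unfold mass; positivity
  have ht0 : 0 ≤ t := by rw [htdef]; positivity
  have htT : t ≤ T := by
    rw [htdef, div_le_iff₀ (by positivity)]
    linarith [mul_add T (N : ℝ) 1, K.T0]
  have hgam : ∀ j ≤ k, 0 ≤ gamK k f q j ∧ gamK k f q j ≤ D ^ 2 := hphi.2.2.1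
  have hρ0 : ρ 0 = 0 := by simp [hρdef, rhoOf]
  have hρnn : ∀ j ≤ k, 0 ≤ ρ j := fun j hj => by
    simp only [hρdef, rhoOf]
    split_ifs
    · exact le_rfl
    · exact add_nonneg (sum_nonneg fun i _ => sq_nonneg _) (mul_nonneg ht0 (hgam j hj).1)
  have hρmono : ∀ j < k, ρ j ≤ ρ (j + 1) := fun j hj => by
    rcases Nat.eq_zero_or_pos j with h | h
    · subst h; rw [hρ0]; exact hρnn 1 hj
    · simp only [hρdef, rhoOf, if_neg h.ne', if_neg (Nat.succ_ne_zero j)]
      refine add_le_add ?_ (mul_le_mul_of_nonneg_left (hphi.2.2.2 j hj) ht0)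
      exact sum_le_sum_of_subset_of_nonneg (Finset.Icc_subset_Icc_right (by omega))
        fun i _ _ => sq_nonneg _
  have hβ0 : 0 ≤ β := by simpa using hβ 0 (Nat.zero_le k)
  have hρle : ∀ j ≤ k, ρ j ≤ R := fun j hj => by
    simp only [hρdef, rhoOf]
    have h1 := mul_le_mul htT (hgam j hj).2 (hgam j hj).1 K.T0
    have := K.R0
    split_ifs
    · linarith [mul_nonneg K.T0 (sq_nonneg D)]
    · linarith [hβ j hj]
  have hR0 : 0 ≤ R := by linarith [K.R0, mul_nonneg K.T0 (sq_nonneg D)]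
  have hincr : ∀ j, j ≤ k → 0 ≤ incr ρ j := fun j hj => by
    simp only [incr]
    rcases Nat.eq_zero_or_pos j with h | h
    · subst h; simp
    · have := hρmono (j - 1) (by omega)
      rw [show j - 1 + 1 = j by omega] at this
      linarith
  have hρtop : ∀ j, j ≤ k → ρ j ≤ ρ k := fun j hj => by
    induction hj using Nat.decreasingInduction with
    | self => exact le_rfl
    | of_succ j hj ih => exact (hρmono j hj).trans ih
  -- the bilinear sums
  have hbil : ∀ p : ℕ → ℝ, IsPath k p →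
      0 ≤ mass k * ∑ l ∈ Finset.Icc 1 k, ρ l * p l ∧
      mass k * ∑ l ∈ Finset.Icc 1 k, ρ l * p l ≤ ρ k := fun p hp => by
    refine ⟨mul_nonneg hm0 (sum_nonneg fun l hl => mul_nonneg (hρnn l (Finset.mem_Icc.1 hl).2)
      (path_mem hp (Finset.mem_Icc.1 hl).2).1), ?_⟩
    have h1 : ∑ l ∈ Finset.Icc 1 k, ρ l * p l ≤ ∑ _l ∈ Finset.Icc 1 k, ρ k := sum_le_sum fun l hl =>
      (mul_le_of_le_one_right (hρnn l (Finset.mem_Icc.1 hl).2) (path_mem hp (Finset.mem_Icc.1 hl).2).2).trans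
        (hρtop l (Finset.mem_Icc.1 hl).2)
    rw [sum_const, Nat.card_Icc, nsmul_eq_mul] at h1
    refine (mul_le_mul_of_nonneg_left h1 hm0).trans ?_
    rw [← mul_assoc]
    exact mul_le_of_le_one_left (hρnn k le_rfl) (by simpa using mass_card k)
  set c := mass k * ∑ l ∈ Finset.Icc 1 k, ρ l * q l with hc
  have hc0 := hbil q hqp
  have hb : bOf k ρ q = 1 + ρ k - c := rfl
  set incr' : ℕ → ℝ := fun j => if j ≤ k then incr ρ j else 0 with hi'
  have hsum : ∑ j ∈ Finset.Icc 1 k, incr ρ j = ρ k := by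
    rw [sum_Icc_one, ← sub_zero (ρ k), ← hρ0, ← sum_range_sub ρ k]
    exact sum_congr rfl fun i _ => by simp [incr]
  -- replace the increments outside the grid by zero
  have hnest : ∀ {Δ Δ' : ℕ → ℝ}, (∀ j, 1 ≤ j → j ≤ k → Δ j = Δ' j) → ∀ b : ℝ,
      cavW W k b Δ = cavW W k b Δ' ∧ fieldG k b Δ = fieldG k b Δ' ∧ dOf k b Δ 0 = dOf k b Δ' 0 := by
    intro Δ Δ' h b
    have hd : ∀ j, dOf k b Δ j = dOf k b Δ' j := fun j => by
      simp only [dOf]
      congr 1
      exact sum_congr rfl fun i hi => by rw [h (i + 1) (by omega) (by have := (Finset.mem_Ico.1 hi).2; omega)]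
    refine ⟨?_, ?_, hd 0⟩
    · simp only [cavW, h _ (Nat.succ_pos _) (Fin.is_lt _)]
    · simp only [fieldG, hd]
      rw [sum_congr rfl fun j hj => h j (Finset.mem_Icc.1 hj).1 (Finset.mem_Icc.1 hj).2]
  obtain ⟨eW, eG, eD⟩ := hnest (Δ := incr ρ) (Δ' := incr') (fun j _ hj => by simp [hi', hj]) (bOf k ρ q)
  have hi0 : ∀ j, 0 ≤ incr' j := fun j => by
    simp only [hi']; split_ifs with h
    · exact hincr j h
    · exact le_rfl
  have hisum : ∑ j ∈ Finset.Icc 1 k, incr' j = ρ k := by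
    rw [← hsum]
    exact sum_congr rfl fun j hj => by simp [hi', (Finset.mem_Icc.1 hj).2]
  have hbR : |bOf k ρ q| ≤ 1 + R := by
    rw [hb, abs_le]; constructor <;> linarith [hρle k le_rfl, hc0.1, hc0.2]
  have hsum' : ∑ j ∈ Finset.Icc 1 k, incr' j ≤ 1 + R := by rw [hisum]; linarith [hρle k le_rfl]
  have hX := K.cavity M σ hM (fun l => (hσ l).1) ((hβ k le_rfl).trans hβ1)
  have hrq : mass k * ∑ l ∈ Finset.Icc 1 k, (∑ i ∈ Finset.Icc 1 l, σ i ^ 2) * q l ≤ β := by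
    have h1 : ∀ l ∈ Finset.Icc 1 k, (∑ i ∈ Finset.Icc 1 l, σ i ^ 2) * q l ≤ β := fun l hl =>
      (mul_le_of_le_one_right (sum_nonneg fun i _ => sq_nonneg _)
        (path_mem hqp (Finset.mem_Icc.1 hl).2).2).trans (hβ l (Finset.mem_Icc.1 hl).2)
    have h2 := sum_le_sum h1
    rw [sum_const, Nat.card_Icc, nsmul_eq_mul] at h2
    refine (mul_le_mul_of_nonneg_left h2 hm0).trans ?_
    rw [← mul_assoc]
    exact mul_le_of_le_one_left hβ0 (by simpa using mass_card k)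
  -- the total defect
  set e := mass k * ∑ j ∈ Finset.Icc 1 k, |defect k ρ q j| + mass k with he
  have htot := totErr_nonneg (k := k) hd hm hL N M σ
  have heb : e ≤ (2 * C1 * (2 + T) + 1) * (totErr f N M k σ + mass k) + Cn := by
    have h1 := sum_le_sum (K.cons M σ hM hσ)
    rw [← hqdef, ← htdef, ← hρdef, sum_add_distrib, ← mul_sum, sum_add_distrib, sum_add_distrib,
      sum_const, sum_const, sum_const, Nat.card_Icc, nsmul_eq_mul, nsmul_eq_mul, nsmul_eq_mul] at h1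
    have h2 : mass k * ∑ j ∈ Finset.Icc 1 k, ovErr f N M k σ q j ≤ totErr f N M k σ :=
      mul_le_mul_of_nonneg_left (sum_le_sum_of_subset_of_nonneg (Finset.Icc_subset_Icc_left zero_le_one)
        fun j _ _ => (hd f L hm hL N M k σ q j).1) hm0
    have h3 : mass k * (k : ℝ) ≤ 1 := mass_card k
    have h4 := mul_le_mul_of_nonneg_left h1 hm0
    simp only [Nat.add_sub_cancel] at h4
    have hfac : 0 ≤ C1 * (1 + t + ∑ i ∈ Finset.Icc 1 k, σ i ^ 2) ∧
        C1 * (1 + t + ∑ i ∈ Finset.Icc 1 k, σ i ^ 2) ≤ C1 * (2 + T) :=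
      ⟨mul_nonneg K.C10 (by positivity),
        mul_le_mul_of_nonneg_left (by linarith [hβ k le_rfl]) K.C10⟩
    set S1 := ∑ j ∈ Finset.Icc 1 k, ovErr f N M k σ q j
    set F := C1 * (1 + t + ∑ i ∈ Finset.Icc 1 k, σ i ^ 2)
    have h5 : mass k * (F * (S1 + k * totErr f N M k σ + k * mass k) + k * Cn)
        ≤ C1 * (2 + T) * (2 * totErr f N M k σ + mass k) + Cn := by
      have u1 : mass k * S1 + mass k * k * totErr f N M k σ + mass k * k * mass k
          ≤ 2 * totErr f N M k σ + mass k := by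
        have := mul_le_of_le_one_left htot h3
        have := mul_le_of_le_one_left hm0 h3
        linarith
      have hp : 0 ≤ mass k * S1 + mass k * k * totErr f N M k σ + mass k * k * mass k := by
        have : 0 ≤ S1 := sum_nonneg fun j _ => (hd f L hm hL N M k σ q j).1
        positivity
      calc mass k * (F * (S1 + k * totErr f N M k σ + k * mass k) + k * Cn)
          = F * (mass k * S1 + mass k * k * totErr f N M k σ + mass k * k * mass k)
            + mass k * k * Cn := by ring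
        _ ≤ _ := add_le_add (mul_le_mul hfac.2 u1 hp (mul_nonneg K.C10 (by linarith [K.T0])))
            (mul_le_of_le_one_left K.Cn0 h3)
    have h6 : 0 ≤ C1 * (2 + T) * mass k := mul_nonneg (mul_nonneg K.C10 (by linarith [K.T0])) hm0
    rw [he]
    linarith
  have he0 : 0 ≤ e := by positivity
  have hes : Ca * e ≤ Ca * (2 * (2 * C1 * (2 + T) + 1)) * s + Ca * Cn := by
    have h7 := mul_le_mul_of_nonneg_left (le_root hR hd hm hL (k := k) N M σ)
      (show 0 ≤ 2 * C1 * (2 + T) + 1 by nlinarith [K.C10, K.T0])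
    have := mul_le_mul_of_nonneg_left heb K.Ca0.le
    have := mul_le_mul_of_nonneg_left h7 K.Ca0.le
    rw [← hs] at *
    linarith
  set Kb := 1 + R / 2 + α * D ^ 2 + |Cw| + 2 * α * A with hKb
  have hA0 : 0 ≤ A := (abs_nonneg _).trans (K.phi q hqp)
  have hαA := mul_nonneg K.α0 hA0
  have hαD : 0 ≤ α * D ^ 2 := mul_nonneg K.α0 (sq_nonneg D)
  have hgoal : valK k f α - α * phiK k f q - εt - β / 2 - Kb * (Ca * e)
      ≤ cavW W k (bOf k ρ q) (incr ρ)
        - (mass k * ∑ l ∈ Finset.Icc 1 k, (∑ i ∈ Finset.Icc 1 l, σ i ^ 2) * q l) / 2 := by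
    have hbdd : BddBelow ((fun p => wFun k f α (fun _ => 0) p) '' {p | IsPath k p ∧ p k < 1}) := by
      refine ⟨-(α * A), ?_⟩
      rintro _ ⟨p, ⟨hp, hp1⟩, rfl⟩
      obtain ⟨b, -, hb, hle⟩ := hA.1 k p (fun _ => 0) hp hp1 fun _ => le_rfl
      simp only [dOf, fieldG, mul_zero, Finset.sum_const_zero, sub_zero] at hb hle
      simp only [div_self hb.ne', log_one, zero_div, Finset.sum_const_zero, add_zero] at hle
      have := mul_le_mul_of_nonneg_left (abs_le.1 (K.phi p hp)).1 K.α0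
      simp only [wFun_zero]
      linarith [log_le_sub_one_of_pos hb]
    by_cases hgood : Ca * e ≤ 1
    · obtain ⟨hd0, q', hq', hq1, hdist, hS⟩ := K.alg ρ q hqp hρ0 hρmono (hρle k le_rfl) hgood
      have htr := K.trunc (bOf k ρ q) incr' hi0 hsum' hbR
        (by rw [← eD, div_le_iff₀ K.Ca0]; linarith)
      rw [hisum, ← eG, ← eW, hb] at htr
      rw [hb] at hS ⊢
      have hpair : ∑ j ∈ Finset.Icc 1 k, tail k q' j * incr ρ j
          = mass k * ∑ l ∈ Finset.Icc 1 k, ρ l * q' l := by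
        rw [sum_tail_eq_pair hρ0 (fun i _ => by simp [incr]), RsbAlg.pair, sum_Icc_one]
        simp only [mass, RsbAlg.wid, mul_comm (q' _)]
      rw [hpair] at hS
      have hv : valK k f α ≤ entS k q' + α * phiK k f q' := by
        have : valK k f α ≤ wFun k f α (fun _ => 0) q' := csInf_le hbdd ⟨q', ⟨hq', hq1⟩, rfl⟩
        rwa [wFun_zero] at this
      have hΦ := (abs_le.1 (hPhi.1 f D hf K.der k q q' hqp hq').1).1
      have hcd : c - mass k * ∑ l ∈ Finset.Icc 1 k, ρ l * q' l ≥ -(R * (Ca * e)) := by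
        rw [hc, ← mul_sub, ← sum_sub_distrib]
        have h1 : ∑ l ∈ Finset.Icc 1 k, -(R * |q l - q' l|) ≤
            ∑ l ∈ Finset.Icc 1 k, (ρ l * q l - ρ l * q' l) := sum_le_sum fun l hl => by
          have hlk := (Finset.mem_Icc.1 hl).2
          have h2 := mul_le_mul_of_nonneg_right (hρle l hlk) (abs_nonneg (q l - q' l))
          have h3 := neg_abs_le (q l - q' l)
          have h4 := mul_le_mul_of_nonneg_left h3 (hρnn l hlk)
          linarith
        rw [sum_neg_distrib, ← mul_sum] at h1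
        have h5 := mul_le_mul_of_nonneg_left h1 hm0
        have h6 := mul_le_mul_of_nonneg_left hdist hR0
        linarith
      have h8 : α * (D ^ 2 * mass k * ∑ j ∈ Finset.Icc 1 k, |q j - q' j|) ≤ α * D ^ 2 * (Ca * e) := by
        rw [mul_assoc (D ^ 2), ← mul_assoc α]
        exact mul_le_mul_of_nonneg_left hdist hαD
      have h9 := mul_le_mul_of_nonneg_left hΦ K.α0
      have h10 : 0 ≤ (|Cw| + 2 * α * A) * (Ca * e) :=
        mul_nonneg (by linarith [abs_nonneg Cw]) (mul_nonneg K.Ca0.le he0)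
      rw [hKb]
      linarith
    · have hcr := K.crude (bOf k ρ q) incr' hi0 hsum' hbR
      rw [← eW] at hcr
      have hv : valK k f α ≤ α * A := by
        have : valK k f α ≤ wFun k f α (fun _ => 0) (fun _ => 0) :=
          csInf_le hbdd ⟨fun _ => 0, ⟨isPath_zero k, one_pos⟩, rfl⟩
        have h0 : entS k (fun _ => 0) = 0 := by simp [entS, vOf]
        rw [wFun_zero, h0, zero_add] at this
        exact this.trans (mul_le_mul_of_nonneg_left (abs_le.1 (K.phi _ (isPath_zero k))).2 K.α0)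
      have h1 := mul_le_mul_of_nonneg_left (abs_le.1 (K.phi q hqp)).1 K.α0
      have hKb0 : 0 ≤ Kb := by rw [hKb]; linarith [abs_nonneg Cw]
      have h2 := mul_le_mul_of_nonneg_left (le_of_not_ge hgood) hKb0
      have h3 := le_abs_self Cw
      rw [mul_one] at h2
      rw [hKb] at h2 ⊢
      linarith [K.εt0]
  have hKb0 : 0 ≤ Kb := by rw [hKb]; linarith [abs_nonneg Cw]
  have := mul_le_mul_of_nonneg_left hes hKb0
  rw [← hqdef, ← htdef, ← hρdef] at hX
  linarith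

/-- One step of the dimension with `⌊α⌋` or `⌊α⌋ + 1` patterns, at fixed amplitudes. -/
theorem step_value (hP : PathStmt) (hPhi : PhiStmt) (hR : RegStmt) (hd : DistStmt) {L : ℝ}
    (hm : Measurable f) (hL : ∀ u, |f u| ≤ L) (hf : Good f) {D Cp α θ V c K1 : ℝ} {a N M : ℕ}
    {σ : ℕ → ℝ} (hCp : 0 ≤ Cp) (hD : ∀ u, |deriv f u| ≤ D) (hα : α = a + θ) (hθ0 : 0 ≤ θ)
    (hθ1 : θ ≤ 1) (hK1 : 0 ≤ K1)
    (hinc : ∀ M', ((N : ℝ) + 1) * (sphFree f N (M' + 1) k σ - sphFree f N M' k σ)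
      ≥ phiK k f (sphQ f N M' k σ) - Cp * totErr f N M' k σ)
    (hpath : ∀ M', mass k * ∑ j ∈ Finset.Icc 1 k, |sphQ f N (M' + 1) k σ j - sphQ f N M' k σ j|
      ≤ Cp * totErr f N M' k σ)
    (hcav : ∀ b ≤ a + 1, V - α * phiK k f (sphQ f N (M + b) k σ) - c
        - K1 * √(totErr f N (M + b) k σ + mass k)
      ≤ ((N : ℝ) + 2) * sphFree f (N + 1) (M + b) k σ - ((N : ℝ) + 1) * sphFree f N (M + b) k σ) :
    V - c - (K1 + 2 * (Cp + (α + a + 1) * (D ^ 2 * Cp)))
          * ∑ i ∈ Finset.range (a + 2), √(totErr f N (M + i) k σ + mass k)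
      ≤ (1 - θ) * (((N : ℝ) + 2) * sphFree f (N + 1) (M + a) k σ)
        + θ * (((N : ℝ) + 2) * sphFree f (N + 1) (M + a + 1) k σ)
        - ((N : ℝ) + 1) * sphFree f N M k σ := by
  set u := fun i => √(totErr f N (M + i) k σ + mass k) with hu
  set τ := fun i => totErr f N (M + i) k σ with hτ
  have hτ0 : ∀ i, 0 ≤ τ i := fun i => totErr_nonneg hd hm hL N _ σ
  have hα0 : 0 ≤ α := by rw [hα]; positivity
  have hDp : 0 ≤ D ^ 2 * Cp := mul_nonneg (sq_nonneg D) hCp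
  set U := ∑ i ∈ Finset.range (a + 2), u i with hU
  have hτU : ∀ b ≤ a + 2, ∑ i ∈ Finset.range b, τ i ≤ 2 * U := fun b hb => by
    rw [hU, mul_sum]
    refine (sum_le_sum fun i _ => ?_).trans (sum_le_sum_of_subset_of_nonneg
      (Finset.range_mono hb) fun i _ _ => by positivity)
    have := le_root (k := k) hR hd hm hL N (M + i) σ
    have hm0 : (0 : ℝ) ≤ mass k := by unfold mass; positivity
    simp only [hτ, hu]; linarith
  -- the one-pattern functional along the added patterns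
  have hphi : ∀ b ≤ a + 1, |phiK k f (sphQ f N (M + b) k σ) - phiK k f (sphQ f N M k σ)|
      ≤ D ^ 2 * Cp * (2 * U) := by
    intro b hb
    refine le_trans ?_ (mul_le_mul_of_nonneg_left (hτU b (by omega)) hDp)
    clear hb
    induction b with
    | zero => simp
    | succ b ih =>
      have h1 := (hPhi.1 f D hf hD k _ _ (hP f L hm hL N (M + b + 1) k σ)
        (hP f L hm hL N (M + b) k σ)).1
      have h2 : D ^ 2 * (mass k * ∑ j ∈ Finset.Icc 1 k,
          |sphQ f N (M + b + 1) k σ j - sphQ f N (M + b) k σ j|) ≤ D ^ 2 * (Cp * τ b) :=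
        mul_le_mul_of_nonneg_left (hpath (M + b)) (sq_nonneg D)
      rw [Finset.sum_range_succ, mul_add, ← add_assoc]
      refine (abs_sub_le _ (phiK k f (sphQ f N (M + b) k σ)) _).trans ?_
      linarith
  have hpat : ∀ b ≤ a + 1, b * phiK k f (sphQ f N M k σ) - (b * (D ^ 2 * Cp) + Cp) * (2 * U)
      ≤ ((N : ℝ) + 1) * (sphFree f N (M + b) k σ - sphFree f N M k σ) := by
    intro b hb
    have key : b * phiK k f (sphQ f N M k σ) - b * (D ^ 2 * Cp * (2 * U))
        - Cp * ∑ i ∈ Finset.range b, τ i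
        ≤ ((N : ℝ) + 1) * (sphFree f N (M + b) k σ - sphFree f N M k σ) := by
      induction b with
      | zero => simp
      | succ b ih =>
        have h1 := hinc (M + b)
        have h2 := (abs_le.1 (hphi b (by omega))).1
        have h3 := ih (by omega)
        rw [Finset.sum_range_succ]
        push_cast
        simp only [hτ, add_assoc] at h1 h3 ⊢
        linarith
    have := mul_le_mul_of_nonneg_left (hτU b (by omega)) hCp
    linarith
  have hub : ∀ b ≤ a + 1, u b ≤ U := fun b hb =>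
    single_le_sum (f := u) (fun i _ => sqrt_nonneg _) (mem_range.2 (by omega))
  have hstep : ∀ b ≤ a + 1, V - c + ((b : ℝ) - α) * phiK k f (sphQ f N M k σ)
      - (K1 + 2 * (Cp + (α + a + 1) * (D ^ 2 * Cp))) * U
      ≤ ((N : ℝ) + 2) * sphFree f (N + 1) (M + b) k σ - ((N : ℝ) + 1) * sphFree f N M k σ := by
    intro b hb
    have h1 := hcav b hb
    have h2 := hpat b hb
    have h3 := mul_le_mul_of_nonneg_left (abs_le.1 (hphi b hb)).2 hα0
    have h4 := mul_le_mul_of_nonneg_left (hub b hb) hK1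
    have hbr : (b : ℝ) ≤ a + 1 := by exact_mod_cast hb
    have hU0 : 0 ≤ U := sum_nonneg fun i _ => sqrt_nonneg _
    have h5 := mul_le_mul_of_nonneg_right hbr (mul_nonneg hDp (mul_nonneg (zero_le_two (α := ℝ)) hU0))
    simp only [hu] at h4
    linarith
  have s0 := mul_le_mul_of_nonneg_left (hstep a (by omega)) (show 0 ≤ 1 - θ by linarith)
  have s1 := mul_le_mul_of_nonneg_left (hstep (a + 1) le_rfl) hθ0
  have e : M + a + 1 = M + (a + 1) := by omega
  rw [e]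
  push_cast at s0 s1 ⊢
  simp only [hU, hu] at s0 s1 ⊢
  rw [hα] at s0 s1
  rw [hα]
  linarith

/-- The box average of the root of the error. -/
theorem boxAvg_root (hR : RegStmt) (hd : DistStmt) {L : ℝ} (hm : Measurable f)
    (hL : ∀ u, |f u| ≤ L) {N M : ℕ} {a : Fin k → ℝ} {δ S : ℝ} (hδ : 0 < δ)
    (hS : boxAvg k a δ (fun σ => totErr f N M k σ) ≤ S) :
    Integrable (fun y => √(totErr f N M k (lift y) + mass k)) (boxP a δ) ∧
      ∫ y, √(totErr f N M k (lift y) + mass k) ∂boxP a δ ≤ √(S + mass k) := by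
  obtain ⟨hp, -⟩ := boxP_facts a hδ
  have hm0 : (0 : ℝ) < mass k := by unfold mass; positivity
  obtain ⟨hmeas, hb⟩ := hR f L hm hL N M k
  have hi : Integrable (fun y => totErr f N M k (lift y)) (boxP a δ) :=
    Integrable.of_bound hmeas.aestronglyMeasurable 2 (ae_of_all _ fun y => (Real.norm_eq_abs _).trans_le (hb _))
  have hroot : Integrable (fun y => √(totErr f N M k (lift y) + mass k)) (boxP a δ) := by
    refine Integrable.of_bound (hmeas.add_const _).sqrt.aestronglyMeasurable √(2 + mass k)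
      (ae_of_all _ fun y => ?_)
    rw [Real.norm_eq_abs, abs_of_nonneg (sqrt_nonneg _)]
    exact Real.sqrt_le_sqrt (by linarith [(abs_le.1 (hb (lift y))).2])
  refine ⟨hroot, ?_⟩
  have hI0 : 0 ≤ ∫ y, totErr f N M k (lift y) ∂boxP a δ :=
    integral_nonneg fun y => totErr_nonneg hd hm hL N M _
  rw [boxAvg_eq] at hS
  set s := √(S + mass k) with hs
  have hs0 : 0 < s := Real.sqrt_pos.2 (by linarith)
  have hpt : ∀ y : Fin k → ℝ, √(totErr f N M k (lift y) + mass k)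
      ≤ (totErr f N M k (lift y) + mass k) / (2 * s) + s / 2 := fun y => by
    set x := totErr f N M k (lift y) + mass k with hx
    have hx0 : 0 ≤ x := add_nonneg (totErr_nonneg hd hm hL N M _) hm0.le
    rw [div_add_div _ _ (by positivity) (by norm_num), le_div_iff₀ (by positivity)]
    nlinarith [sq_nonneg (√x - s), Real.sq_sqrt hx0]
  have hi' : Integrable (fun y => (totErr f N M k (lift y) + mass k) / (2 * s)) (boxP a δ) :=
    (hi.add (integrable_const _)).div_const _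
  have hint := integral_mono hroot (hi'.add (integrable_const _)) hpt
  simp only [Pi.add_apply] at hint
  rw [integral_add hi' (integrable_const _), integral_div,
    integral_add hi (integrable_const _), integral_const, integral_const, probReal_univ, one_smul,
    one_smul] at hint
  refine hint.trans ?_
  have h2 : (∫ y, totErr f N M k (lift y) ∂boxP a δ + mass k) / (2 * s) ≤ s / 2 := by
    rw [div_le_iff₀ (by positivity), hs]
    nlinarith [Real.sq_sqrt (show 0 ≤ S + mass k by linarith)]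
  linarith

/-- The average of one step over the box. -/
theorem step_avg (hR : RegStmt) (hd : DistStmt) {L : ℝ} (hm : Measurable f) (hL : ∀ u, |f u| ≤ L)
    {N M a : ℕ} {θ c0 K2 S δ : ℝ} {bx : Fin k → ℝ} (hδ : 0 < δ) (_hθ0 : 0 ≤ θ) (_hθ1 : θ ≤ 1)
    (hK2 : 0 ≤ K2) (hGint : ∀ N M, Integrable (fun y => sphFree f N M k (lift y)) (boxP bx δ))
    (hpt : ∀ y ∈ boxSet bx δ,
      c0 - K2 * ∑ i ∈ Finset.range (a + 2), √(totErr f N (M + i) k (lift y) + mass k)
        ≤ (1 - θ) * (((N : ℝ) + 2) * sphFree f (N + 1) (M + a) k (lift y))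
          + θ * (((N : ℝ) + 2) * sphFree f (N + 1) (M + a + 1) k (lift y))
          - ((N : ℝ) + 1) * sphFree f N M k (lift y))
    (hroot : ∀ i ∈ Finset.range (a + 2), boxAvg k bx δ (fun σ => totErr f N (M + i) k σ) ≤ S) :
    c0 - K2 * (a + 2 : ℕ) * √(S + mass k)
      ≤ (1 - θ) * (((N : ℝ) + 2) * boxAvg k bx δ (sphFree f (N + 1) (M + a) k))
        + θ * (((N : ℝ) + 2) * boxAvg k bx δ (sphFree f (N + 1) (M + a + 1) k))
        - ((N : ℝ) + 1) * boxAvg k bx δ (sphFree f N M k) := by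
  obtain ⟨hp, hbae⟩ := boxP_facts bx hδ
  have hu := fun i hi => boxAvg_root hR hd hm hL hδ (hroot i hi)
  have iU : Integrable (fun y => ∑ i ∈ Finset.range (a + 2),
      √(totErr f N (M + i) k (lift y) + mass k)) (boxP bx δ) :=
    integrable_finsetSum _ fun i hi => (hu i hi).1
  have i1 := ((hGint (N + 1) (M + a)).const_mul ((N : ℝ) + 2)).const_mul (1 - θ)
  have i2 := ((hGint (N + 1) (M + a + 1)).const_mul ((N : ℝ) + 2)).const_mul θ
  have i3 := (hGint N M).const_mul ((N : ℝ) + 1)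
  have i12 : Integrable (fun y => (1 - θ) * (((N : ℝ) + 2) * sphFree f (N + 1) (M + a) k (lift y))
      + θ * (((N : ℝ) + 2) * sphFree f (N + 1) (M + a + 1) k (lift y))) (boxP bx δ) := i1.add i2
  have hint := integral_mono_ae ((integrable_const c0).sub (iU.const_mul K2)) (i12.sub i3)
    (by filter_upwards [hbae] with y hy using hpt y hy)
  simp only [Pi.sub_apply] at hint
  rw [integral_sub (integrable_const _) (iU.const_mul _), integral_sub i12 i3,
    integral_add i1 i2] at hint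
  simp only [integral_const_mul, integral_const, probReal_univ, one_smul, smul_eq_mul, one_mul] at hint
  rw [integral_finsetSum _ (fun i hi => (hu i hi).1)] at hint
  simp only [← boxAvg_eq] at hint
  have hsum := sum_le_sum fun i hi => (hu i hi).2
  rw [sum_const, card_range, nsmul_eq_mul] at hsum
  have := mul_le_mul_of_nonneg_left hsum hK2
  rw [mul_assoc]
  linarith

/-- Averages are Lipschitz in the number of patterns. -/
theorem avg_lip {A δ : ℝ} {bx : Fin k → ℝ} (hδ : 0 < δ) (hA0 : 0 ≤ A)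
    (hGint : ∀ N M, Integrable (fun y => sphFree f N M k (lift y)) (boxP bx δ))
    (hclose : ∀ (N M : ℕ) σ,
      |((N : ℝ) + 1) * sphFree f N (M + 1) k σ - ((N : ℝ) + 1) * sphFree f N M k σ| ≤ A)
    (n M M' : ℕ) (hn : 1 ≤ n) :
    |(n : ℝ) * boxAvg k bx δ (sphFree f (n - 1) M k)
      - (n : ℝ) * boxAvg k bx δ (sphFree f (n - 1) M' k)| ≤ A * |(M : ℝ) - M'| := by
  obtain ⟨hbp, -⟩ := boxP_facts bx hδ
  obtain ⟨N, rfl⟩ : ∃ N, n = N + 1 := ⟨n - 1, by omega⟩
  simp only [Nat.add_sub_cancel]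
  have h1 : ∀ d M, |((N + 1 : ℕ) : ℝ) * boxAvg k bx δ (sphFree f N (M + d) k)
      - ((N + 1 : ℕ) : ℝ) * boxAvg k bx δ (sphFree f N M k)| ≤ A * d := by
    intro d
    induction d with
    | zero => intro M; simp
    | succ d ih =>
      intro M
      refine (abs_sub_le _ (((N + 1 : ℕ) : ℝ) * boxAvg k bx δ (sphFree f N (M + d) k)) _).trans ?_
      have h2 : |((N + 1 : ℕ) : ℝ) * boxAvg k bx δ (sphFree f N (M + d + 1) k)
          - ((N + 1 : ℕ) : ℝ) * boxAvg k bx δ (sphFree f N (M + d) k)| ≤ A := by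
        simp only [boxAvg_eq]
        rw [← mul_sub, ← integral_sub (hGint _ _) (hGint _ _), ← integral_const_mul,
          ← Real.norm_eq_abs]
        refine (norm_integral_le_of_norm_le_const (C := A) (ae_of_all _ fun y => ?_)).trans_eq
          (by rw [probReal_univ, mul_one])
        rw [Real.norm_eq_abs, mul_sub]
        push_cast
        exact hclose N (M + d) (lift y)
      have := ih M
      push_cast at this h2 ⊢
      rw [add_assoc M d 1] at h2
      linarith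
  rcases le_total M M' with h | h
  · obtain ⟨d, rfl⟩ := Nat.exists_eq_add_of_le h
    rw [abs_sub_comm, abs_sub_comm (M : ℝ)]
    simpa using h1 d M
  · obtain ⟨d, rfl⟩ := Nat.exists_eq_add_of_le h
    simpa using h1 d M'

/-- The telescoping sum: per-step bounds give a bound at the final dimension. -/
theorem telescope_bound {g : ℕ → ℕ → ℝ} {α θ A V P δ : ℝ} {a n₀ n : ℕ} (hα : 0 ≤ α)
    (hθ : θ = α - a) (hθ0 : 0 ≤ θ) (hθ1 : θ ≤ 1) (hA0 : 0 ≤ A) (hn₀ : n₀ ≤ n) (hn : 1 ≤ n)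
    (hgM : ∀ n M M' : ℕ, 1 ≤ n → |g n M - g n M'| ≤ A * |(M : ℝ) - M'|)
    (hstep : ∀ s, ∀ M ≤ ⌊α * n₀⌋₊ + (a + 1) * s,
      g (n₀ + s) M + V ≤ (1 - θ) * g (n₀ + s + 1) (M + a) + θ * g (n₀ + s + 1) (M + a + 1))
    (hz : g n ⌊α * n⌋₊ ≤ n * P + n * δ) (hA1 : A * √n ≤ n * δ) (hA3 : 3 * A ≤ n * δ)
    (hE : |g n₀ ⌊α * n₀⌋₊| + n₀ * |V| ≤ n * δ) : V ≤ P + 4 * δ := by
  obtain ⟨t, rfl⟩ := Nat.exists_eq_add_of_le hn₀
  set M₀ := ⌊α * n₀⌋₊ with hM₀
  have hn0 : (0 : ℝ) < (n₀ + t : ℕ) := by exact_mod_cast hn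
  have htel := mix_telescope (a := a) hθ0 hθ1 (g := g) (n₀ := n₀) (M₀ := M₀) (V := V) t
    (fun s _ => hstep s)
  set n := n₀ + t with hn'
  set c := ((⌊α * n⌋₊ : ℕ) : ℝ) with hc
  have hcm : mix a θ t (g n) M₀ ≤ g n ⌊α * n⌋₊ + A * mix a θ t (fun M => |(M : ℝ) - c|) M₀ := by
    rw [← mix_mul]
    have := mix_mono (a := a) hθ0 hθ1 t M₀ (g n)
      (fun M => g n ⌊α * n⌋₊ + A * |(M : ℝ) - c|)
      fun M _ => by linarith [(abs_le.1 (hgM n M ⌊α * n⌋₊ hn)).2]
    rwa [mix_add, mix_const] at this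
  have h4 : (n : ℝ) = n₀ + t := by rw [hn']; push_cast; ring
  have hdist : mix a θ t (fun M => |(M : ℝ) - c|) M₀ ≤ √n + 3 := by
    refine (mix_dist hθ0 hθ1 t M₀ (d := 3) (s := √n) (Real.sqrt_pos.2 hn0) ?_).trans ?_
    · have e : (M₀ : ℝ) + ((a : ℝ) + θ) * t = M₀ + α * t := by rw [hθ]; ring
      rw [e, abs_le]
      have h1 := Nat.floor_le (show 0 ≤ α * n₀ by positivity)
      have h2 := Nat.lt_floor_add_one (α * n₀)
      have h3 := Nat.floor_le (show 0 ≤ α * n by positivity)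
      have h4' := Nat.lt_floor_add_one (α * n)
      have h5 : α * n = α * n₀ + α * t := by rw [h4]; ring
      rw [hc, hM₀]
      constructor <;> linarith
    · have h1 : (t : ℝ) ≤ n := Nat.cast_le.2 (by omega)
      have h2 : (t : ℝ) / (2 * √n) ≤ √n / 2 := by
        rw [div_le_iff₀ (by positivity), show √(n : ℝ) / 2 * (2 * √n) = √n * √n by ring,
          Real.mul_self_sqrt hn0.le]
        exact h1
      linarith
  have h1 := mul_le_mul_of_nonneg_left hdist hA0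
  have h2 : (n₀ : ℝ) * V ≤ n₀ * |V| :=
    mul_le_mul_of_nonneg_left (le_abs_self V) (Nat.cast_nonneg _)
  refine le_of_mul_le_mul_left ?_ hn0
  have := neg_abs_le (g n₀ M₀)
  have h5 : (n : ℝ) * V = n₀ * V + t * V := by rw [h4]; ring
  linarith

/-- The numbers of patterns used along the telescope are proportional to the dimension. -/
theorem patterns_le {α : ℝ} {n₀ s N M b : ℕ} (hα : 0 ≤ α)
    (hM : M ≤ ⌊α * n₀⌋₊ + (⌊α⌋₊ + 1) * s) (hN : n₀ + s = N + 1) (hb : b ≤ ⌊α⌋₊ + 1)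
    (hbig : α + 2 * (⌊α⌋₊ : ℕ) + 2 ≤ (N : ℝ)) :
    ((M + b : ℕ) : ℝ) ≤ (α + 2) * N := by
  have h2 : ((⌊α * n₀⌋₊ : ℕ) : ℝ) ≤ α * n₀ := Nat.floor_le (by positivity)
  have h3 : ((M : ℕ) : ℝ) ≤ ((⌊α * n₀⌋₊ + (⌊α⌋₊ + 1) * s : ℕ) : ℝ) := Nat.cast_le.2 hM
  have h4 : (n₀ : ℝ) + s = N + 1 := by exact_mod_cast hN
  have h5 : ((⌊α⌋₊ : ℕ) : ℝ) ≤ α := Nat.floor_le hα
  have h6 : (b : ℝ) ≤ (⌊α⌋₊ : ℕ) + 1 := by exact_mod_cast hb
  have h7 : (s : ℝ) ≤ N + 1 := by linarith [(Nat.cast_nonneg n₀ : (0 : ℝ) ≤ n₀)]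
  push_cast at h3 ⊢
  have h8 := mul_le_mul_of_nonneg_right (show ((⌊α⌋₊ : ℕ) : ℝ) + 1 ≤ α + 1 by linarith)
    (Nat.cast_nonneg s : (0 : ℝ) ≤ s)
  have h10 : α * n₀ + (α + 1) * s ≤ (α + 1) * (N + 1) := by
    rw [← h4]; linarith [(Nat.cast_nonneg n₀ : (0 : ℝ) ≤ n₀)]
  linarith

/-- One step of the dimension averaged over the box. -/
theorem box_step (hP : PathStmt) (hPhi : PhiStmt) (hA : AlgebraStmt) (hR : RegStmt)
    (hd : DistStmt) {L : ℝ} (hm : Measurable f) (hL : ∀ u, |f u| ≤ L) (hf : Good f)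
    {α T A D R Ca C1 Cn Cw Cv W εt εc Cp θ S η β : ℝ} {a N M : ℕ}
    (K : Consts f k α T A D R Ca C1 Cn Cw Cv W εt εc N) (hCv : 0 ≤ Cv) (hCp : 0 ≤ Cp)
    (hθ : θ = α - a) (hθ0 : 0 ≤ θ) (hθ1 : θ ≤ 1) (hη : 0 < η) (hη1 : η ≤ 1 / 2) (hβ1 : β ≤ 1)
    (hβ : (k : ℝ) * 4 * η ^ 2 ≤ β) (hMb : ∀ b ≤ a + 1, ((M + b : ℕ) : ℝ) ≤ T * N)
    (hGint : ∀ N M, Integrable (fun y => sphFree f N M k (lift y)) (boxP (fun _ : Fin k => η) η))
    (hinc : ∀ M' σ, |((N : ℝ) + 1) * (sphFree f N (M' + 1) k σ - sphFree f N M' k σ)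
      - phiK k f (sphQ f N M' k σ)| ≤ Cp * totErr f N M' k σ)
    (htilt : ∀ (n M k : ℕ) (S : Leaf n) (N : ℝ) (σ β : ℕ → ℝ) (q : ℕ → ℝ), 0 < N → IsPath k q →
      (∀ x, sdot (S.pat x) (S.pat x) = 1) →
      ∀ j ≤ k, ∀ (ψ : S.X → S.X → ℝ) (R : ℝ), (∀ x y, 0 ≤ ψ x y ∧ ψ x y ≤ R) →
        Measurable (Function.uncurry ψ) →
        gibPair (k := k) S f (M + 1) N σ β j (fun _ x y => ψ x y)
          ≤ Cp * gibPair (k := k) S f M N σ β j (fun _ x y => ψ x y))
    (hroot : ∀ i ∈ Finset.range (a + 2),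
      boxAvg k (fun _ : Fin k => η) η (fun σ => totErr f N (M + i) k σ) ≤ S) :
    valK k f α - (εt + β / 2 + εc + (1 + R / 2 + α * D ^ 2 + |Cw| + 2 * α * A) * Ca * Cn)
        - (Cv + (1 + R / 2 + α * D ^ 2 + |Cw| + 2 * α * A) * Ca * (2 * (2 * C1 * (2 + T) + 1))
            + 2 * (Cp + (α + a + 1) * (D ^ 2 * Cp))) * (a + 2 : ℕ) * √(S + mass k)
      ≤ (1 - θ) * (((N : ℝ) + 2) * boxAvg k (fun _ : Fin k => η) η (sphFree f (N + 1) (M + a) k))
        + θ * (((N : ℝ) + 2)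
          * boxAvg k (fun _ : Fin k => η) η (sphFree f (N + 1) (M + a + 1) k))
        - ((N : ℝ) + 1) * boxAvg k (fun _ : Fin k => η) η (sphFree f N M k) := by
  have hA0 : 0 ≤ A := (abs_nonneg _).trans (K.phi _ (isPath_zero k))
  have hR0 : 0 ≤ R := by linarith [K.R0, mul_nonneg K.T0 (sq_nonneg D)]
  have hKb : 0 ≤ 1 + R / 2 + α * D ^ 2 + |Cw| + 2 * α * A := by
    linarith [abs_nonneg Cw, mul_nonneg K.α0 (sq_nonneg D), mul_nonneg K.α0 hA0]
  have hK1 : 0 ≤ Cv + (1 + R / 2 + α * D ^ 2 + |Cw| + 2 * α * A) * Ca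
      * (2 * (2 * C1 * (2 + T) + 1)) := by
    have := K.C10; have := K.T0; have := K.Ca0.le
    positivity
  refine step_avg hR hd hm hL hη hθ0 hθ1 (by have := K.α0; positivity) hGint (fun y hy => ?_) hroot
  have hy2 : ∀ i, 0 ≤ y i ∧ y i ≤ 2 * η := fun i => by
    have := hy i trivial
    simp only [Set.mem_Icc] at this
    exact ⟨by linarith, by linarith⟩
  refine step_value hP hPhi hR hd hm hL hf hCp K.der (by rw [hθ]; ring) hθ0 hθ1 hK1
    (fun M' => by linarith [(abs_le.1 (hinc M' (lift y))).1])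
    (fun M' => path_step hP hd hm hL hCp htilt N M' _) fun b hb => ?_
  have hv := cavity_value hP hPhi hA hR hd hm hL hf K (hMb b hb) (σ := lift y)
    (fun l => lift_bound zero_le_one (fun i => ⟨(hy2 i).1, by linarith [(hy2 i).2]⟩) l)
    (β := β) hβ1 (fun j hj => (sum_sq_lift_le hy2 j hj).trans (by linarith))
  linarith

/-- `LowerStmt` from the other interface statements. -/
theorem lower (hD : DerivStmt) (hS : SyncStmt) (hP : PathStmt) (hPat : PatternStmt)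
    (hPhi : PhiStmt) (hA : AlgebraStmt) (hTr : TruncStmt) (hCav : CavityStmt) (hCon : ConsistStmt)
    (hR : RegStmt) (hd : DistStmt) : LowerStmt := by
  intro f α hf hα ε' hε'
  obtain ⟨L, hL⟩ := hf.2.exists_bound_of_continuous hf.1.continuous
  simp only [Real.norm_eq_abs] at hL
  obtain ⟨D, hDer⟩ := hf.2.deriv.exists_bound_of_continuous (hf.1.continuous_deriv (by norm_num))
  simp only [Real.norm_eq_abs] at hDer
  have hm : Measurable f := hf.1.continuous.measurable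
  have hL0 : 0 ≤ L := (abs_nonneg _).trans (hL 0)
  obtain ⟨Cp, hCp0, hCp⟩ := hPat f hf
  obtain ⟨Cs, hCs0, hCs⟩ := hS
  set T : ℝ := α + 2 with hT
  set R : ℝ := 1 + T * D ^ 2 with hRdef
  obtain ⟨Ca, hCa0, hCa⟩ := hA.2 R
  obtain ⟨W₀, hW₀⟩ := hTr.1 (1 + R) (1 / Ca) ε' (by positivity) hε'
  set W := max W₀ 1 with hW
  obtain ⟨Cw, hCw⟩ := hTr.2 (1 + R)
  obtain ⟨Cv, hCv⟩ := hCav f T 1 W hf (le_max_right _ _)
  obtain ⟨C1, hC10, hC1⟩ := hCon f hf
  set A := exp (8 * L) * L + 2 * Cp with hAdef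
  have hA0 : 0 ≤ A := by positivity
  set Kb := 1 + R / 2 + α * D ^ 2 + |Cw| + 2 * α * A with hKb
  have hT0 : 0 ≤ T := by linarith
  have hR0 : 0 ≤ R := by positivity
  have hKb0 : 0 ≤ Kb := by positivity
  set a := ⌊α⌋₊ with ha
  set θ := α - a with hθ
  have hθ0 : 0 ≤ θ := by rw [hθ]; linarith [Nat.floor_le hα.le]
  have hθ1 : θ ≤ 1 := by rw [hθ]; linarith [Nat.lt_floor_add_one α]
  set K1 := |Cv| + Kb * Ca * (2 * (2 * C1 * (2 + T) + 1)) with hK1
  have hK10 : 0 ≤ K1 := by positivity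
  set Kt := (K1 + 2 * (Cp + (α + a + 1) * (D ^ 2 * Cp))) * (a + 2 : ℕ) with hKt
  have hKt0 : 0 ≤ Kt := by positivity
  refine ⟨Kt * √(Cs + 1), fun k ε hε => ?_⟩
  obtain ⟨η, hη, hη1, hη2⟩ : ∃ η : ℝ, 0 < η ∧ η ≤ 1 / 2 ∧ (k : ℝ) * 4 * η ^ 2 ≤ min 1 (ε / 8) := by
    refine ⟨min (1 / 2) (min 1 (ε / 8) / ((k : ℝ) * 4 + 1)), by positivity, min_le_left _ _, ?_⟩
    set η := min (1 / 2) (min 1 (ε / 8) / ((k : ℝ) * 4 + 1)) with h
    have h2 : η ≤ min 1 (ε / 8) / ((k : ℝ) * 4 + 1) := min_le_right _ _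
    rw [le_div_iff₀ (by positivity)] at h2
    have h0 : 0 ≤ η := by positivity
    have h1 : η ≤ 1 := (min_le_left _ _).trans (by norm_num)
    have h3 : (k : ℝ) * 4 * η ^ 2 ≤ k * 4 * η := by
      rw [pow_two, ← mul_assoc]; exact mul_le_of_le_one_right (by positivity) h1
    linarith
  set εs := (ε / (8 * (Kt + 1))) ^ 2 with hεs
  have hεs0 : 0 < εs := by positivity
  obtain ⟨C1', hC1'⟩ := hC1 k 1 T
  obtain ⟨N₁, hN₁⟩ := hCs f L hm hL k η η η T εs hη hη hεs0
  obtain ⟨N₂, hN₂⟩ := hCv k (ε / 8) (by linarith)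
  obtain ⟨N₃, hN₃⟩ := exists_nat_ge (max (Kb * Ca * |C1'| / (ε / 8)) (α + 2 * a + 2))
  rw [max_le_iff] at hN₃
  set n₀ := max N₁ (max N₂ N₃) + 1 with hn₀
  set M₀ := ⌊α * n₀⌋₊ with hM₀
  set bx : Fin k → ℝ := fun _ => η with hbx
  set G := fun N M => boxAvg k bx η (sphFree f N M k) with hG
  set g := fun (n M : ℕ) => (n : ℝ) * G (n - 1) M with hg
  set S := Cs / √((k : ℝ) + 1) + εs with hS
  set V := valK k f α - ε' - 3 * (ε / 8) - Kt * √(S + mass k) with hV
  have hbox : ∀ i, 0 ≤ bx i ∧ bx i + η ≤ 2 * η := fun i => ⟨hη.le, by simp [hbx]; linarith⟩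
  obtain ⟨hbp, hbae⟩ := boxP_facts bx hη
  have hGint : ∀ N M, Integrable (fun y => sphFree f N M k (lift y)) (boxP bx η) := fun N M =>
    integrable_sphFree hD hP hm hL hη (R := 2 * η) (by positivity) hbox
  have hinc : ∀ (N M : ℕ) σ, |((N : ℝ) + 1) * (sphFree f N (M + 1) k σ - sphFree f N M k σ)
      - phiK k f (sphQ f N M k σ)| ≤ Cp * totErr f N M k σ := fun N M σ =>
    pattern_step hP hm hL (fun n M k S N σ β p h1 h2 h3 => (hCp n M k S N σ β p h1 h2 h3).1) N M σ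
  have hclose : ∀ (N M : ℕ) σ, |((N : ℝ) + 1) * sphFree f N (M + 1) k σ - ((N : ℝ) + 1) * sphFree f N M k σ|
      ≤ A := by
    intro N M σ
    rw [← mul_sub]
    have h1 := hinc N M σ
    have h2 := abs_phiK_le hPhi hm hL (hP f L hm hL N M k σ)
    have h3 := mul_le_mul_of_nonneg_left ((le_abs_self _).trans ((hR f L hm hL N M k).2 σ)) hCp0
    rw [abs_le] at h1 h2 ⊢
    constructor <;> linarith
  have hgM : ∀ n M M' : ℕ, 1 ≤ n → |g n M - g n M'| ≤ A * |(M : ℝ) - M'| :=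
    avg_lip hη hA0 hGint hclose
  -- one step
  have hstep : ∀ s, ∀ M ≤ M₀ + (a + 1) * s,
      g (n₀ + s) M + V ≤ (1 - θ) * g (n₀ + s + 1) (M + a) + θ * g (n₀ + s + 1) (M + a + 1) := by
    intro s M hM
    obtain ⟨N, hN⟩ : ∃ N, n₀ + s = N + 1 := ⟨n₀ + s - 1, by omega⟩
    have hNb : N₁ ≤ N ∧ N₂ ≤ N ∧ (N₃ : ℝ) ≤ N := ⟨by omega, by omega, Nat.cast_le.2 (by omega)⟩
    have hMb : ∀ b ≤ a + 1, ((M + b : ℕ) : ℝ) ≤ T * N := fun b hb =>
      patterns_le hα.le hM hN hb (hN₃.2.trans hNb.2.2)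
    set Cn := |C1'| / ((N : ℝ) + 1) with hCn
    have hCnε : Kb * Ca * Cn ≤ ε / 8 := by
      have h1 : Kb * Ca * |C1'| / (ε / 8) ≤ (N : ℝ) + 1 := by linarith [hN₃.1, hNb.2.2]
      rw [div_le_iff₀ (by positivity)] at h1
      rw [hCn, ← mul_div_assoc, div_le_iff₀ (by positivity)]
      linarith
    have hK : Consts f k α T A D R Ca C1 Cn Cw |Cv| W ε' (ε / 8) N :=
      { α0 := hα.le
        T0 := hT0
        C10 := hC10
        Cn0 := by positivity
        Ca0 := hCa0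
        R0 := le_rfl
        phi := fun q hq => (abs_phiK_le hPhi hm hL hq).trans (by linarith)
        der := hDer
        alg := fun ρ q h1 h2 h3 h4 h5 => hCa k ρ q h1 h2 h3 h4 h5
        cons := fun M' σ h1 h2 j hj => (hC1' N M' σ h1 h2 j hj).trans (add_le_add le_rfl (by
          rw [hCn]; exact div_le_div_of_nonneg_right (le_abs_self _) (by positivity)))
        cavity := fun M' σ h1 h2 h3 => le_trans (by
          have := mul_le_mul_of_nonneg_right (le_abs_self Cv)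
            (sqrt_nonneg (totErr f N M' k σ + mass k))
          linarith) (hN₂ N hNb.2.1 M' h1 σ h2 h3)
        trunc := fun b Δ => hW₀ W (le_max_left _ _) k b Δ
        crude := fun b Δ => hCw W (le_max_right _ _) k b Δ
        εt0 := hε'.le }
    have hint := box_step hP hPhi hA hR hd hm hL hf hK (abs_nonneg Cv) hCp0 hθ hθ0 hθ1 hη hη1
      (β := min 1 (ε / 8)) (min_le_left _ _) hη2 hMb hGint (fun M' σ => hinc N M' σ)
      (fun n M k S N σ β q h1 h2 h3 => (hCp n M k S N σ β q h1 h2 h3).2.2)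
      (fun i hi => hN₁ N hNb.1 (M + i) (hMb i (by have := mem_range.1 hi; omega)) bx
        fun _ => ⟨le_rfl, le_rfl⟩)
    rw [← hKb, ← hK1, ← hKt] at hint
    have hβε : min 1 (ε / 8) ≤ ε / 8 := min_le_right _ _
    have hβ0 : 0 ≤ min 1 (ε / 8) := by positivity
    simp only [hg, hG]
    rw [show n₀ + s + 1 - 1 = N + 1 by omega, show n₀ + s - 1 = N by omega, hN]
    push_cast
    rw [hV]
    linarith
  -- the telescoping sum
  rw [Filter.eventually_atTop]
  set E := |g n₀ M₀| + n₀ * |V| with hE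
  obtain ⟨n₁, hn₁⟩ := exists_nat_ge (max (E / (ε / 8)) (max ((A / (ε / 8)) ^ 2) (3 * A / (ε / 8))))
  rw [max_le_iff, max_le_iff] at hn₁
  refine ⟨max n₀ n₁ + 1, fun n hn => ?_⟩
  have hn0 : (0 : ℝ) < n := Nat.cast_pos.2 (by omega)
  have hn1 : (n₁ : ℝ) ≤ n := Nat.cast_le.2 (by omega)
  have hz : g n ⌊α * n⌋₊ ≤ n * pressureSphere f α n + n * (ε / 8) := by
    obtain ⟨N, hN⟩ : ∃ N, n = N + 1 := ⟨n - 1, by omega⟩
    rw [hN]
    simp only [hg, hG, Nat.add_sub_cancel]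
    rw [pressureSphere_eq_sphFree f α N k, ← mul_add]
    refine mul_le_mul_of_nonneg_left ?_ (Nat.cast_nonneg _)
    have := (abs_le.1 (zero_close (k := k) hD hP hm hL hη hη le_rfl (N := N)
      ⌊α * ((N + 1 : ℕ) : ℝ)⌋₊)).2
    push_cast at this ⊢
    linarith [min_le_right 1 (ε / 8)]
  have hA1 : A * √n ≤ n * (ε / 8) := by
    have h1 : A / (ε / 8) ≤ √n := by
      rw [Real.le_sqrt (by positivity) hn0.le]; linarith [hn₁.2.1]
    rw [div_le_iff₀ (by positivity)] at h1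
    calc A * √n ≤ √n * (ε / 8) * √n := mul_le_mul_of_nonneg_right h1 (sqrt_nonneg _)
      _ = √n * √n * (ε / 8) := by ring
      _ = _ := by rw [Real.mul_self_sqrt hn0.le]
  have hA3 : 3 * A ≤ n * (ε / 8) := by
    have h1 := hn₁.2.2
    rw [div_le_iff₀ (by positivity)] at h1
    linarith [mul_le_mul_of_nonneg_right hn1 (show (0 : ℝ) ≤ ε / 8 by linarith)]
  have hE1 : E ≤ n * (ε / 8) := by
    have h1 := hn₁.1
    rw [div_le_iff₀ (by positivity)] at h1
    linarith [mul_le_mul_of_nonneg_right hn1 (show (0 : ℝ) ≤ ε / 8 by linarith)]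
  have h6 : V ≤ pressureSphere f α n + 4 * (ε / 8) :=
    telescope_bound hα.le hθ hθ0 hθ1 hA0 (by omega) (by omega) hgM hstep hz hA1 hA3 hE1
  have hq := quarter_bound hCs0 hεs0.le k
  have hq' := mul_le_mul_of_nonneg_left hq hKt0
  rw [mul_add] at hq'
  have hKε : Kt * √εs ≤ ε / 8 := by
    rw [hεs, Real.sqrt_sq (by positivity), ← mul_div_assoc, div_le_iff₀ (by positivity)]
    linarith
  have h7 : Kt * (√(Cs + 1) / ((k : ℝ) + 1) ^ (1 / 4 : ℝ))
      = Kt * √(Cs + 1) / ((k : ℝ) + 1) ^ (1 / 4 : ℝ) := by ring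
  rw [hV, hS] at h6
  linarith

end Vale.Agent.P157.Rsb
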