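import Vale.Agent.P157.Rsb.Upper

/-!
# P157: two measure-theoretic tools for synchronization

`efron_stein`: bounded differences bound the variance by the number of coordinates times the squared
step.  `boxP_slice_le`: a box average is at most a bound on the averages over its lines in one
coordinate direction.
-/

open MeasureTheory Finset

namespace Vale.Agent.P157.Rsb.Lf

section EfronStein

variable {α : Type*} [MeasurableSpace α] (P : Measure α) [IsProbabilityMeasure P]

theorem abs_integral_le_of_bound {β : Type*} [MeasurableSpace β] {μ : Measure β}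
    [IsProbabilityMeasure μ] {g : β → ℝ} {B : ℝ} (h : ∀ x, |g x| ≤ B) : |∫ x, g x ∂μ| ≤ B := by
  have h' := norm_integral_le_of_norm_le_const (μ := μ) (f := g) (C := B) (ae_of_all _ h)
  simpa [probReal_univ] using h'

theorem efron_stein {A c : ℝ} : ∀ {M : ℕ} (F : (Fin M → α) → ℝ), Measurable F →
    (∀ g, |F g| ≤ A) → (∀ g i v, |F (Function.update g i v) - F g| ≤ c) →
    ∫ g, (F g - ∫ h, F h ∂(Measure.pi fun _ : Fin M => P)) ^ 2
      ∂(Measure.pi fun _ : Fin M => P) ≤ M * c ^ 2 := by
  intro M
  induction M with
  | zero =>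
    intro F _ _ _
    have hF : F = fun _ => F (fun i => Fin.elim0 i) :=
      funext fun g => congrArg F (Subsingleton.elim _ _)
    rw [hF]
    simp
  | succ M ih =>
    intro F hF hA hc
    have hmp := (measurePreserving_piFinSuccAbove (fun _ : Fin (M + 1) => P) 0).symm
      (MeasurableEquiv.piFinSuccAbove (fun _ : Fin (M + 1) => α) 0)
    have hcons : Measurable fun p : α × (Fin M → α) => (Fin.cons p.1 p.2 : Fin (M + 1) → α) :=
      measurable_pi_lambda _ fun j => by
        refine Fin.cases ?_ (fun l => ?_) j
        · simpa using measurable_fst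
        · simp only [Fin.cons_succ]
          exact (measurable_pi_apply l).comp measurable_snd
    have key : ∀ (H : (Fin (M + 1) → α) → ℝ) (B : ℝ), Measurable H → (∀ g, |H g| ≤ B) →
        ∫ g, H g ∂(Measure.pi fun _ : Fin (M + 1) => P)
          = ∫ r, (∫ x, H (Fin.cons x r) ∂P) ∂(Measure.pi fun _ : Fin M => P) := by
      intro H B hH hB
      rw [← hmp.integral_comp' H]
      have he : ∀ p : α × (Fin M → α),
          (MeasurableEquiv.piFinSuccAbove (fun _ : Fin (M + 1) => α) 0).symm p
            = Fin.cons p.1 p.2 := fun p => by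
        simp [MeasurableEquiv.piFinSuccAbove_symm_apply]
        rfl
      simp only [he]
      exact integral_prod_symm (fun p : α × (Fin M → α) => H (Fin.cons p.1 p.2))
        (Integrable.of_bound (hH.comp hcons).aestronglyMeasurable B
          (ae_of_all _ fun p => hB _))
    obtain ⟨G, hG⟩ : ∃ G : (Fin M → α) → ℝ, ∀ r, G r = ∫ x, F (Fin.cons x r) ∂P :=
      ⟨fun r => ∫ x, F (Fin.cons x r) ∂P, fun _ => rfl⟩
    have hGm : Measurable G := by
      rw [funext hG]
      exact ((hF.comp hcons).stronglyMeasurable.integral_prod_left' (μ := P)).measurable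
    have hFr : ∀ r : Fin M → α, Measurable fun x => F (Fin.cons x r) := fun r =>
      hF.comp (hcons.comp measurable_prodMk_right)
    have hint : ∀ r : Fin M → α, Integrable (fun x => F (Fin.cons x r)) P := fun r =>
      Integrable.of_bound (hFr r).aestronglyMeasurable A (ae_of_all _ fun x => hA _)
    have hGA : ∀ r, |G r| ≤ A := fun r => hG r ▸ abs_integral_le_of_bound fun x => hA _
    have hGc : ∀ r i v, |G (Function.update r i v) - G r| ≤ c := fun r i v => by
      rw [hG, hG, ← integral_sub (hint _) (hint _)]
      refine abs_integral_le_of_bound fun x => ?_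
      rw [Fin.cons_update]
      exact hc _ _ _
    have hFG : ∀ r x, |F (Fin.cons x r) - G r| ≤ c := fun r x => by
      have h1 : F (Fin.cons x r) - G r
          = ∫ z, (F (Fin.cons x r) - F (Fin.cons z r)) ∂P := by
        rw [integral_sub (integrable_const _) (hint r), integral_const, probReal_univ, one_smul,
          hG]
      rw [h1]
      refine abs_integral_le_of_bound fun z => ?_
      have hu : (Fin.cons x r : Fin (M + 1) → α) = Function.update (Fin.cons z r) 0 x :=
        (Fin.update_cons_zero (α := fun _ : Fin (M + 1) => α) z r x).symm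
      rw [hu]
      exact hc _ _ _
    have hm : ∫ g, F g ∂(Measure.pi fun _ : Fin (M + 1) => P)
        = ∫ r, G r ∂(Measure.pi fun _ : Fin M => P) := by
      rw [key F A hF hA, funext hG]
    rw [hm]
    set m := ∫ r, G r ∂(Measure.pi fun _ : Fin M => P) with hmdef
    have hmA : |m| ≤ A := abs_integral_le_of_bound hGA
    have hsq : ∀ u : ℝ, |u| ≤ A → |(u - m) ^ 2| ≤ (A + A) ^ 2 := fun u hu => by
      rw [abs_pow]
      exact pow_le_pow_left₀ (abs_nonneg _) ((abs_sub u m).trans (add_le_add hu hmA)) 2
    rw [key (fun g => (F g - m) ^ 2) ((A + A) ^ 2) ((hF.sub_const m).pow_const 2)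
      fun g => hsq _ (hA g)]
    have hpt : ∀ r, ∫ x, (F (Fin.cons x r) - m) ^ 2 ∂P ≤ c ^ 2 + (G r - m) ^ 2 := by
      intro r
      have i2 : Integrable (fun x => (F (Fin.cons x r) - m) ^ 2) P :=
        Integrable.of_bound (((hFr r).sub_const m).pow_const 2).aestronglyMeasurable ((A + A) ^ 2)
          (ae_of_all _ fun x => hsq _ (hA _))
      have i3 : Integrable (fun x => c ^ 2 + 2 * (G r - m) * (F (Fin.cons x r) - G r)
          + (G r - m) ^ 2) P :=
        ((integrable_const _).add (((hint r).sub (integrable_const _)).const_mul _)).add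
          (integrable_const _)
      refine (integral_mono i2 i3 fun x => ?_).trans (le_of_eq ?_)
      · have h := sq_le_sq' (abs_le.1 (hFG r x)).1 (abs_le.1 (hFG r x)).2
        have he : (F (Fin.cons x r) - m) ^ 2 = (F (Fin.cons x r) - G r) ^ 2
            + 2 * (G r - m) * (F (Fin.cons x r) - G r) + (G r - m) ^ 2 := by ring
        show (F (Fin.cons x r) - m) ^ 2 ≤ _
        rw [he]
        linarith
      · have j1 : Integrable (fun x => 2 * (G r - m) * (F (Fin.cons x r) - G r)) P :=
          ((hint r).sub (integrable_const _)).const_mul _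
        rw [integral_add ((integrable_const _).fun_add j1) (integrable_const _),
          integral_add (integrable_const _) j1, integral_const_mul,
          integral_sub (hint r) (integrable_const _), ← hG]
        simp
    have iL : Integrable (fun r => ∫ x, (F (Fin.cons x r) - m) ^ 2 ∂P)
        (Measure.pi fun _ : Fin M => P) :=
      Integrable.of_bound
        ((((hF.sub_const m).pow_const 2).comp hcons).stronglyMeasurable.integral_prod_left'
          (μ := P)).aestronglyMeasurable ((A + A) ^ 2)
        (ae_of_all _ fun r => abs_integral_le_of_bound fun x => hsq _ (hA _))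
    have iR : Integrable (fun r => (G r - m) ^ 2) (Measure.pi fun _ : Fin M => P) :=
      Integrable.of_bound ((hGm.sub_const m).pow_const 2).aestronglyMeasurable ((A + A) ^ 2)
        (ae_of_all _ fun r => hsq _ (hGA r))
    refine (integral_mono iL ((integrable_const _).add iR) hpt).trans ?_
    simp only [Pi.add_apply]
    rw [integral_add (integrable_const _) iR, integral_const, probReal_univ, one_smul]
    have := ih G hGm hGA hGc
    rw [← hmdef] at this
    push_cast
    linarith

end EfronStein

/-- If the average over every line in direction `i` is at most `c`, so is the box average. -/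
theorem boxP_slice_le {k : ℕ} {a : Fin k → ℝ} {δ A c : ℝ} (hδ : 0 < δ) (i : Fin k)
    {Ψ : (Fin k → ℝ) → ℝ} (hΨ : Measurable Ψ) (hA : ∀ y ∈ boxSet a δ, |Ψ y| ≤ A)
    (h : ∀ y ∈ boxSet a δ, ∫ s in Set.Icc (a i) (a i + δ), Ψ (Function.update y i s) ≤ δ * c) :
    ∫ y, Ψ y ∂boxP a δ ≤ c := by
  obtain ⟨n, rfl⟩ : ∃ n, k = n + 1 := ⟨k - 1, by have := i.2; omega⟩
  set μ : Fin (n + 1) → Measure ℝ := fun j => volume.restrict (Set.Icc (a j) (a j + δ)) with hμ
  have hfin : ∀ j, IsFiniteMeasure (μ j) := fun j =>
    ⟨by simp [hμ, Real.volume_Icc]⟩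
  have hres : (volume : Measure (Fin (n + 1) → ℝ)).restrict (boxSet a δ) = Measure.pi μ := by
    rw [volume_pi, boxSet, Measure.restrict_pi_pi]
  have hmp := (measurePreserving_piFinSuccAbove μ i).symm
    (MeasurableEquiv.piFinSuccAbove (fun _ : Fin (n + 1) => ℝ) i)
  have hins : Measurable fun p : ℝ × (Fin n → ℝ) => (i.insertNth p.1 p.2 : Fin (n + 1) → ℝ) :=
    (MeasurableEquiv.piFinSuccAbove (fun _ : Fin (n + 1) => ℝ) i).symm.measurable
  have hmemR : ∀ᵐ r ∂Measure.pi (fun j => μ (i.succAbove j)),
      ∀ j, r j ∈ Set.Icc (a (i.succAbove j)) (a (i.succAbove j) + δ) := by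
    have h0 : Measure.pi (fun j => μ (i.succAbove j))
        = (Measure.pi fun _ : Fin n => (volume : Measure ℝ)).restrict
          (Set.univ.pi fun j => Set.Icc (a (i.succAbove j)) (a (i.succAbove j) + δ)) := by
      rw [Measure.restrict_pi_pi]
    rw [h0]
    filter_upwards [ae_restrict_mem (MeasurableSet.univ_pi fun _ => measurableSet_Icc)]
      with r hr using fun j => hr j (Set.mem_univ j)
  have hmem : ∀ r : Fin n → ℝ,
      (∀ j, r j ∈ Set.Icc (a (i.succAbove j)) (a (i.succAbove j) + δ)) →
      ∀ x ∈ Set.Icc (a i) (a i + δ), (i.insertNth x r : Fin (n + 1) → ℝ) ∈ boxSet a δ := by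
    intro r hr x hx j _
    refine Fin.succAboveCases i ?_ (fun l => ?_) j
    · simpa using hx
    · simpa using hr l
  have hint : Integrable (fun p : ℝ × (Fin n → ℝ) => Ψ (i.insertNth p.1 p.2))
      ((μ i).prod (Measure.pi fun j => μ (i.succAbove j))) := by
    refine Integrable.of_bound (hΨ.comp hins).aestronglyMeasurable A ?_
    filter_upwards [Measure.quasiMeasurePreserving_fst.ae (ae_restrict_mem measurableSet_Icc),
      Measure.quasiMeasurePreserving_snd.ae hmemR] with p hp1 hp2
    exact hA _ (hmem _ hp2 _ hp1)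
  have hsplit : ∫ y, Ψ y ∂(Measure.pi μ)
      = ∫ r, (∫ x, Ψ (i.insertNth x r) ∂μ i) ∂(Measure.pi fun j => μ (i.succAbove j)) := by
    rw [← hmp.integral_comp' Ψ]
    exact integral_prod_symm (fun p : ℝ × (Fin n → ℝ) => Ψ (i.insertNth p.1 p.2)) hint
  have hle : ∫ y, Ψ y ∂(Measure.pi μ) ≤ δ ^ (n + 1) * c := by
    rw [hsplit]
    refine (integral_mono_ae hint.integral_prod_right (integrable_const (δ * c)) ?_).trans
      (le_of_eq ?_)
    · filter_upwards [hmemR] with r hr
      have h1 := h _ (hmem r hr (a i) ⟨le_rfl, by linarith⟩)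
      simpa [Fin.update_insertNth, hμ] using h1
    · rw [integral_const, smul_eq_mul, measureReal_def, Measure.pi_univ]
      simp [hμ, Real.volume_Icc, hδ.le, pow_succ]
      ring
  have hw : (Measure.pi μ) Set.univ = ENNReal.ofReal δ ^ (n + 1) := by
    rw [Measure.pi_univ]
    simp [hμ, Real.volume_Icc]
  rw [boxP, hres, integral_smul_measure, hw, ENNReal.toReal_inv, ENNReal.toReal_pow,
    ENNReal.toReal_ofReal hδ.le, smul_eq_mul, inv_mul_le_iff₀ (by positivity)]
  exact hle

end Vale.Agent.P157.Rsb.Lf
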