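import Vale.Agent.P157.Rsb.SyncConc
import Vale.Agent.P157.Rsb.SyncTools

/-!
# P157: overlaps given the branch level are deterministic on average over amplitudes

`sync_leaf` is the statement for every leaf space of unit field vectors.
-/

open MeasureTheory ProbabilityTheory Real Finset

namespace Vale.Agent.P157.Rsb.Lf

variable {n M k : ℕ} {f : ℝ → ℝ} {L : ℝ}

/-- Bounded differences of the root value in the patterns. -/
theorem cval_dev_le (S : Leaf n) (hm : Measurable f) (hL : ∀ u, |f u| ≤ L) {N : ℝ} (hN : 0 < N)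
    (σ β : ℕ → ℝ) (a : Fin k) {θ : ℝ} (hθ : 0 < θ) :
    ∫ g, |cval S f N σ β g a - ∫ g, cval S f N σ β g a ∂patterns M n| ∂patterns M n
      ≤ θ / 2 + (M : ℝ) * (2 * L / N) ^ 2 / (2 * θ) := by
  obtain ⟨A, hA, hb⟩ := ham_bound (M := M) (k := k) S hL N β (∑ l : Fin k, |σ ((l : ℕ) + 1)|)
  obtain ⟨A', -, hA'⟩ := val_bound_unif (k := k) (μ := S.μ) (wn n) hA
  set F := fun g : Fin M → Fin n → ℝ => cval S f N σ β g a
  set C := (A' * (1 + (wn n).tot fun (_ : Fin k) _ => 0)) / N + σ ((a : ℕ) + 1) ^ 2 / 2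
  have hFm : Measurable F :=
    ((val_measurable_param_at (ham_meas S hm N σ β) 0 _).div_const N).add_const _
  have hFA : ∀ g, |F g| ≤ C := fun g => by
    refine (abs_add_le _ _).trans (add_le_add ?_ (le_of_eq (abs_of_nonneg (by positivity))))
    rw [abs_div, abs_of_pos hN]
    exact div_le_div_of_nonneg_right (hA' _ (ham_meas_right S hm N σ β g) (fun z x => hb σ (fun l =>
      single_le_sum (f := fun l : Fin k => |σ ((l : ℕ) + 1)|) (fun _ _ => abs_nonneg _) (mem_univ l))
      g z x) 0 _) hN.le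
  have hFc : ∀ g i v, |F (Function.update g i v) - F g| ≤ 2 * L / N := fun g i v => by
    simp only [F, cval]
    rw [show ∀ u w c : ℝ, u / N + c - (w / N + c) = (u - w) / N from fun u w c => by ring,
      abs_div, abs_of_pos hN]
    refine div_le_div_of_nonneg_right (val_close (ham_linB S hm hL N σ β g)
      (ham_linB S hm hL N σ β _) (fun z x => ?_) 0 _) hN.le
    have e : ∑ b, f (sdot (Function.update g i v b) (S.pat x))
        = ∑ b, f (sdot (g b) (S.pat x)) + (f (sdot v (S.pat x)) - f (sdot (g i) (S.pat x))) := by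
      rw [← add_sum_erase _ _ (mem_univ i),
        ← add_sum_erase _ (fun b => f (sdot (g b) (S.pat x))) (mem_univ i), Function.update_self,
        sum_congr rfl fun b hb => by rw [Function.update_of_ne (ne_of_mem_erase hb)]]
      ring
    simp only [ham, e]
    rw [show ∀ p q r u w : ℝ, p + q + r - u + w - (p + r - u + w) = q from fun _ _ _ _ _ => by ring]
    exact (abs_sub _ _).trans (by linarith [hL (sdot v (S.pat x)), hL (sdot (g i) (S.pat x))])
  have hes : ∫ g, (F g - ∫ g, F g ∂patterns M n) ^ 2 ∂patterns M n ≤ (M : ℝ) * (2 * L / N) ^ 2 :=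
    efron_stein (Measure.pi fun _ : Fin n => gaussianReal 0 1) F hFm hFA hFc
  have hsq : Integrable (fun g => (F g - ∫ g, F g ∂patterns M n) ^ 2) (patterns M n) :=
    Integrable.of_bound ((hFm.sub_const _).pow_const 2).aestronglyMeasurable
      ((C + |∫ g, F g ∂patterns M n|) ^ 2) (ae_of_all _ fun g => by
        rw [Real.norm_eq_abs, abs_pow]
        exact pow_le_pow_left₀ (abs_nonneg _) ((abs_sub _ _).trans (add_le_add (hFA g) le_rfl)) 2)
  refine (integral_mono_of_nonneg (ae_of_all _ fun g => abs_nonneg _)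
    ((hsq.const_mul (θ⁻¹ / 2)).add (integrable_const (1 / (2 * θ⁻¹))))
    (ae_of_all _ fun g => abs_le_half_sq (inv_pos.2 hθ) _)).trans ?_
  rw [integral_add' (hsq.const_mul _) (integrable_const _), integral_const_mul, integral_const,
    probReal_univ, one_smul]
  have h2 := mul_le_mul_of_nonneg_left hes (by positivity : 0 ≤ θ⁻¹ / 2)
  have e1 : 1 / (2 * θ⁻¹) = θ / 2 := by field_simp
  have e2 : θ⁻¹ / 2 * ((M : ℝ) * (2 * L / N) ^ 2) = (M : ℝ) * (2 * L / N) ^ 2 / (2 * θ) := by
    field_simp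
  linarith

theorem fluct_eq (S : Leaf n) (hu : ∀ x, sdot (S.fld x) (S.fld x) = 1) (hm : Measurable f)
    (hL : ∀ u, |f u| ≤ L) {N : ℝ} (hN : 0 < N) (σ β : ℕ → ℝ) (a : Fin k) :
    fluct S f M k N σ β a = ∫ g, cnd (gn n) S.μ (ham S f N σ β g)
      (devObs S N (∫ g, eMean (M := M) S f N σ β g a ∂patterns M n) a) 0 (fun _ _ => 0)
        ∂patterns M n := by
  rw [eMean_avg S hu hm hL hN, fluct, gib, devAt, dif_pos a.2]

/-- The mean fluctuation is measurable in the amplitudes. -/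
theorem fluct_meas (S : Leaf n) (hu : ∀ x, sdot (S.fld x) (S.fld x) = 1) (hm : Measurable f)
    (hL : ∀ u, |f u| ≤ L) {N : ℝ} (hN : 0 < N) (β : ℕ → ℝ) (a : Fin k) :
    Measurable fun y : Fin k → ℝ => fluct S f M k N (lift y) β a := by
  have hσ : ∀ l : Fin k, Measurable fun y : Fin k → ℝ => lift y ((l : ℕ) + 1) := fun l => by
    simp only [lift_succ]
    exact measurable_pi_apply l
  have hfd : Measurable fun p : ((Fin k → ℝ) × (Fin k → FieldIdx n → ℝ)) × S.X =>
      eObs S N a p.1.2 p.2 :=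
    (tame_eObs S N a).meas.comp ((measurable_snd.comp measurable_fst).prodMk measurable_snd)
  have hc : Measurable fun y : Fin k → ℝ => ∫ g, eMean (M := M) S f N (lift y) β g a ∂patterns M n :=
    (StronglyMeasurable.integral_prod_right' (ν := patterns M n)
      (meas_root (M := M) S hm N β (σf := fun y : Fin k → ℝ => lift y) hσ
        (φ := fun _ => eObs S N a) hfd).stronglyMeasurable).measurable
  simp only [fluct_eq S hu hm hL hN]
  refine (StronglyMeasurable.integral_prod_right' (ν := patterns M n)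
    (meas_root (M := M) S hm N β (σf := fun y : Fin k → ℝ => lift y) hσ
      (φ := fun y => devObs S N (∫ g, eMean (M := M) S f N (lift y) β g a ∂patterns M n) a)
      ?_).stronglyMeasurable).measurable
  exact continuous_abs.measurable.comp (hfd.sub (hc.comp (measurable_fst.comp measurable_fst)))

/-- The mean fluctuation is bounded on bounded amplitudes. -/
theorem fluct_bdd (S : Leaf n) (hu : ∀ x, sdot (S.fld x) (S.fld x) = 1) (hm : Measurable f)
    (hL : ∀ u, |f u| ≤ L) {N : ℝ} (hN : 0 < N) (β : ℕ → ℝ) (R : ℝ) (a : Fin k) :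
    ∃ A, ∀ σ : ℕ → ℝ, (∀ l : Fin k, |σ ((l : ℕ) + 1)| ≤ R) → |fluct S f M k N σ β a| ≤ A := by
  obtain ⟨A, hA, hb⟩ := root_bound (M := M) S hm hL N β R (tame_devObs (k := k) S N 0 a)
  refine ⟨A + R, fun σ hσ => ?_⟩
  rw [abs_of_nonneg (fluct_nonneg _ _ _ _ _ _ _ _), fluct_eq S hu hm hL hN]
  set c := ∫ g, eMean (M := M) S f N σ β g a ∂patterns M n
  have hc : |c| ≤ R := by
    rw [← Real.norm_eq_abs]
    refine (norm_integral_le_of_norm_le_const (μ := patterns M n) (C := R) (ae_of_all _ fun g => ?_)).trans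
      (le_of_eq (by rw [probReal_univ, mul_one]))
    exact (Real.norm_eq_abs _).trans_le ((abs_eMean_le S hu hm hL hN σ β a g).trans (hσ a))
  refine (integral_mono_of_nonneg (ae_of_all _ fun g => cnd_nonneg (fun z x => abs_nonneg _) _ _)
    (integrable_const (A + R)) (ae_of_all _ fun g => ?_)).trans
    (le_of_eq (by rw [integral_const, probReal_univ, one_smul]))
  have hH := ham_linB (k := k) S hm hL N σ β g
  refine (cnd_mono hH (tame_devObs S N c a) ((tame_devObs S N 0 a).add (tame_const_fun S R))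
    (fun z x => ?_) 0 _).trans ?_
  · simp only [devObs, sub_zero]
    exact (abs_sub _ _).trans (add_le_add le_rfl hc)
  · rw [cnd_add hH (tame_devObs S N 0 a) (tame_const_fun S R), cnd_const hH]
    exact add_le_add ((le_abs_self _).trans (hb σ hσ g)) le_rfl

/-- The box average of one fluctuation. -/
theorem box_fluct_le (S : Leaf n) (hu : ∀ x, sdot (S.fld x) (S.fld x) = 1) (hm : Measurable f)
    (hL : ∀ u, |f u| ≤ L) {N : ℝ} (hN : 0 < N) (β : ℕ → ℝ) {a : Fin k → ℝ} {δ h θ R : ℝ}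
    (hδ : 0 < δ) (hh : 0 < h) (hθ : 0 < θ)
    (hR : ∀ (i : Fin k), ∀ s ∈ Set.Icc (a i - h) (a i + δ + h), |s| ≤ R) (i : Fin k) :
    Integrable (fun y => fluct S f M k N (lift y) β i) (boxP a δ) ∧
    ∫ y, fluct S f M k N (lift y) β i ∂boxP a δ
      ≤ θ / 2 + 3 * (θ / 2 + (M : ℝ) * (2 * L / N) ^ 2 / (2 * θ)) / h
        + (2 * R / (N * mass k) / (2 * θ) + 4 * R * h) / δ := by
  obtain ⟨hp, hbox⟩ := boxP_facts a hδ
  obtain ⟨A, hA⟩ := fluct_bdd (M := M) S hu hm hL hN β R i
  have hin : ∀ y ∈ boxSet a δ, ∀ l : Fin k, |lift y ((l : ℕ) + 1)| ≤ R := fun y hy l => by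
    rw [lift_succ]
    exact hR l _ ⟨by linarith [(hy l trivial).1], by linarith [(hy l trivial).2]⟩
  refine ⟨Integrable.of_bound (fluct_meas S hu hm hL hN β i).aestronglyMeasurable A
    (hbox.mono fun y hy => (Real.norm_eq_abs _).trans_le (hA _ (hin y hy))), ?_⟩
  refine boxP_slice_le hδ i (fluct_meas S hu hm hL hN β i) (fun y hy => hA _ (hin y hy)) fun y _ => ?_
  simp only [lift_update]
  refine (slice_fluct_le S hu hm hL hN (lift y) β i (E := θ / 2 + (M : ℝ) * (2 * L / N) ^ 2 / (2 * θ))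
    hδ.le hh hθ (hR i) fun t => cval_dev_le S hm hL hN _ β i hθ).trans (le_of_eq ?_)
  field_simp
  ring

/-- Overlaps given the branch level are deterministic, on average over a box of amplitudes. -/
theorem sync_leaf (hm : Measurable f) (hL : ∀ u, |f u| ≤ L) (k : ℕ) (η B δ T ε : ℝ) (hη : 0 < η)
    (hδ : 0 < δ) (hε : 0 < ε) :
    ∃ N₀ : ℝ, ∀ (n : ℕ) (S : Leaf n), (∀ x, sdot (S.fld x) (S.fld x) = 1) → ∀ N : ℝ, N₀ ≤ N →
      ∀ M : ℕ, (M : ℝ) ≤ T * N → ∀ a : Fin k → ℝ, (∀ i, η ≤ a i ∧ a i ≤ B) →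
        boxAvg k a δ (fun σ => mass k * ∑ j ∈ Icc 0 k, gibPair (k := k) S f M N σ (fun _ => 0) j
            (fun _ x y => |sdot (S.fld x) (S.fld y) - qOf S f M k N σ (fun _ => 0) j|))
          ≤ 8 / √((k : ℝ) + 1) + ε := by
  set K : ℝ := (k : ℝ) + 1 with hK
  set R := |B| + δ + 1 with hR
  have hK0 : 0 < K := by positivity
  have hR0 : 0 < R := by positivity
  set h := min 1 (ε * δ * η / (16 * R * K)) with hhdef
  have hh : 0 < h := lt_min one_pos (by positivity)
  have hh1 : h ≤ 1 := min_le_left _ _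
  have hh2 : 16 * R * K * h ≤ ε * δ * η := by
    have := min_le_right 1 (ε * δ * η / (16 * R * K))
    rw [← hhdef, le_div_iff₀ (by positivity)] at this
    linarith
  set D := 3 / 2 * √K * K / η + 2 * K / η * (1 / 2 + 3 * (1 / 2 + 2 * |T| * L ^ 2) / h + R * K / δ)
  refine ⟨max 1 ((2 * D / ε) ^ 2), fun n S hu N hN M hM a ha => ?_⟩
  have hN1 : 1 ≤ N := (le_max_left _ _).trans hN
  have hN0 : 0 < N := zero_lt_one.trans_le hN1
  set r := √N
  have hr : 0 < r := Real.sqrt_pos.2 hN0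
  have hrr : r * r = N := Real.mul_self_sqrt hN0.le
  have hDr : 2 * D / ε ≤ r := Real.le_sqrt_of_sq_le ((le_max_right _ _).trans hN)
  set θ := 1 / r
  have hθ : 0 < θ := by positivity
  have hbnd : ∀ i : Fin k, ∀ s ∈ Set.Icc (a i - h) (a i + δ + h), |s| ≤ R := fun i s hs => by
    have h1 := ha i
    have h2 := le_abs_self B
    rw [abs_le]
    constructor <;> linarith [hs.1, hs.2, abs_nonneg B, h1.1, h1.2]
  set β : ℕ → ℝ := fun _ => 0
  obtain ⟨hp, hbox⟩ := boxP_facts a hδ
  set c := θ / 2 + 3 * (θ / 2 + (M : ℝ) * (2 * L / N) ^ 2 / (2 * θ)) / h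
    + (2 * R / (N * mass k) / (2 * θ) + 4 * R * h) / δ
  have hF : ∀ j ∈ range k, Integrable (fun y => fluct S f M k N (lift y) β j) (boxP a δ) ∧
      ∫ y, fluct S f M k N (lift y) β j ∂boxP a δ ≤ c := fun j hj =>
    box_fluct_le S hu hm hL hN0 β hδ hh hθ hbnd ⟨j, mem_range.1 hj⟩
  rw [boxAvg_eq]
  have hnn : ∀ y : Fin k → ℝ, 0 ≤ mass k * ∑ j ∈ Icc 0 k, gibPair (k := k) S f M N (lift y) β j
      (fun _ x y' => |sdot (S.fld x) (S.fld y') - qOf S f M k N (lift y) β j|) := fun y =>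
    mul_nonneg mass_pos.le (sum_nonneg fun j _ => integral_nonneg fun g =>
      cnd_nonneg (fun z _ => cnd_nonneg (fun z x => cnd_nonneg (fun _ _ => abs_nonneg _) _ _) _ _) _ _)
  have hle : ∀ᵐ y ∂boxP a δ, mass k * ∑ j ∈ Icc 0 k, gibPair (k := k) S f M N (lift y) β j
      (fun _ x y' => |sdot (S.fld x) (S.fld y') - qOf S f M k N (lift y) β j|)
      ≤ 8 / √K + 3 / 2 * √K * K / (η * r) + 2 / η * ∑ j ∈ range k, fluct S f M k N (lift y) β j :=
    hbox.mono fun y hy => tot_le S hu hm hL hN0 (lift y) β hη fun l => by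
      rw [lift_succ]
      exact (ha l).1.trans (hy l trivial).1
  have hsum : Integrable (fun y => ∑ j ∈ range k, fluct S f M k N (lift y) β j) (boxP a δ) :=
    integrable_finsetSum _ fun j hj => (hF j hj).1
  refine (integral_mono_of_nonneg (ae_of_all _ hnn) ((integrable_const _).add (hsum.const_mul _)) hle).trans ?_
  rw [integral_add' (integrable_const _) (hsum.const_mul _), integral_const, probReal_univ, one_smul,
    integral_const_mul, integral_finsetSum _ fun j hj => (hF j hj).1]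
  have hs : ∑ j ∈ range k, ∫ y, fluct S f M k N (lift y) β j ∂boxP a δ ≤ K * c := by
    refine (sum_le_card_nsmul _ _ c fun j hj => (hF j hj).2).trans ?_
    rw [card_range, nsmul_eq_mul]
    refine mul_le_mul_of_nonneg_right (by simp [hK]) ?_
    have : 0 < mass k := mass_pos
    positivity
  have hMN : (M : ℝ) * (2 * L / N) ^ 2 / (2 * θ) ≤ 2 * |T| * L ^ 2 / r := by
    have e : (M : ℝ) * (2 * L / N) ^ 2 / (2 * θ) = (M / N) * (2 * L ^ 2 / r) := by
      simp only [θ]
      field_simp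
      rw [pow_two r, hrr]
    rw [e, show 2 * |T| * L ^ 2 / r = |T| * (2 * L ^ 2 / r) by ring]
    refine mul_le_mul_of_nonneg_right ?_ (by positivity)
    rw [div_le_iff₀ hN0]
    exact hM.trans (mul_le_mul_of_nonneg_right (le_abs_self T) hN0.le)
  have hth : 2 * R / (N * mass k) / (2 * θ) = R * K / r := by
    simp only [θ, mass, ← hK]
    field_simp
    rw [pow_two r, hrr]
  have hc : c ≤ (1 / 2 + 3 * (1 / 2 + 2 * |T| * L ^ 2) / h + R * K / δ) / r + 4 * R * h / δ := by
    have h1 := div_le_div_of_nonneg_right (mul_le_mul_of_nonneg_left (add_le_add le_rfl hMN)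
      (by norm_num : (0 : ℝ) ≤ 3)) hh.le (a := 3 * (θ / 2 + (M : ℝ) * (2 * L / N) ^ 2 / (2 * θ)))
      (b := 3 * (θ / 2 + 2 * |T| * L ^ 2 / r))
    have e : (1 / 2 + 3 * (1 / 2 + 2 * |T| * L ^ 2) / h + R * K / δ) / r + 4 * R * h / δ
        = θ / 2 + 3 * (θ / 2 + 2 * |T| * L ^ 2 / r) / h + (R * K / r + 4 * R * h) / δ := by
      simp only [θ]; ring
    rw [e]
    simp only [c, hth]
    linarith
  have h2 := mul_le_mul_of_nonneg_left (hs.trans (mul_le_mul_of_nonneg_left hc hK0.le))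
    (by positivity : 0 ≤ 2 / η)
  have h3 : 2 / η * (K * (4 * R * h / δ)) ≤ ε / 2 := by
    rw [show 2 / η * (K * (4 * R * h / δ)) = 8 * R * K * h / (η * δ) by ring, div_le_iff₀ (by positivity)]
    linarith
  have h4 : D / r ≤ ε / 2 := by
    rw [div_le_iff₀ hr]
    rw [div_le_iff₀ hε] at hDr
    linarith
  have e : D / r = 3 / 2 * √K * K / (η * r)
      + 2 / η * (K * ((1 / 2 + 3 * (1 / 2 + 2 * |T| * L ^ 2) / h + R * K / δ) / r)) := by
    simp only [D]; ring
  rw [mul_add] at h2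
  linarith

end Vale.Agent.P157.Rsb.Lf
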