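import Vale.Agent.P157.Rsb.PatEnds
import Vale.Agent.P157.Rsb.Variation

/-!
# P157: adding one pattern
-/

open MeasureTheory ProbabilityTheory Real Finset

namespace Vale.Agent.P157.Rsb

/-- The rows with a new last one. -/
def joinRow {M n : ℕ} (g : Fin n → ℝ) (g0 : Fin M → Fin n → ℝ) : Fin (M + 1) → Fin n → ℝ :=
  (MeasurableEquiv.piFinSuccAbove (fun _ : Fin (M + 1) => Fin n → ℝ) (Fin.last M)).symm (g, g0)

theorem joinRow_parts {M n : ℕ} (g : Fin n → ℝ) (g0 : Fin M → Fin n → ℝ) :
    joinRow g g0 (Fin.last M) = g ∧ (fun a : Fin M => joinRow g g0 a.castSucc) = g0 := by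
  have h := (MeasurableEquiv.piFinSuccAbove (fun _ : Fin (M + 1) => Fin n → ℝ) (Fin.last M)).apply_symm_apply
    (g, g0)
  refine ⟨congrArg Prod.fst h, ?_⟩
  funext a
  have h2 := congrFun (congrArg Prod.snd h) a
  rw [← Fin.succAbove_last_apply a]
  exact h2

theorem integral_rows {M n : ℕ} {X : (Fin (M + 1) → Fin n → ℝ) → ℝ} (hm : Measurable X) {B : ℝ}
    (hb : ∀ G, |X G| ≤ B) :
    ∫ G, X G ∂patterns (M + 1) n = ∫ g0, ∫ g, X (joinRow g g0) ∂stdG (Fin n) ∂patterns M n ∧
      Measurable (fun g0 => ∫ g, X (joinRow g g0) ∂stdG (Fin n)) ∧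
      ∀ g0, |∫ g, X (joinRow g g0) ∂stdG (Fin n)| ≤ B := by
  set e := MeasurableEquiv.piFinSuccAbove (fun _ : Fin (M + 1) => Fin n → ℝ) (Fin.last M) with he
  have hp : MeasurePreserving e (patterns (M + 1) n) ((stdG (Fin n)).prod (patterns M n)) :=
    measurePreserving_piFinSuccAbove (fun _ : Fin (M + 1) => stdG (Fin n)) (Fin.last M)
  have : IsProbabilityMeasure (patterns M n) := by unfold patterns; infer_instance
  have hj : Measurable fun p : (Fin M → Fin n → ℝ) × (Fin n → ℝ) => X (joinRow p.2 p.1) :=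
    hm.comp (e.symm.measurable.comp measurable_swap)
  refine ⟨?_, (StronglyMeasurable.integral_prod_right' hj.stronglyMeasurable).measurable, fun g0 => ?_⟩
  · rw [← (hp.symm e).map_eq, integral_map_equiv]
    exact integral_prod_symm (fun p : (Fin n → ℝ) × (Fin M → Fin n → ℝ) => X (joinRow p.1 p.2))
      (Integrable.of_bound (hm.comp e.symm.measurable).aestronglyMeasurable B (ae_of_all _ fun p => hb _))
  · rw [← Real.norm_eq_abs]
    exact (norm_integral_le_of_norm_le_const (ae_of_all _ fun g => hb _)).trans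
      (le_of_eq (by rw [probReal_univ, mul_one]))

/-- A comparison given at every old rows passes to the averages. -/
theorem rows_compare {M n : ℕ} {X : (Fin (M + 1) → Fin n → ℝ) → ℝ} {Y W : (Fin M → Fin n → ℝ) → ℝ}
    (hX : Measurable X) {B : ℝ} (hXb : ∀ G, |X G| ≤ B) (hY : Measurable Y) {B' : ℝ}
    (hYb : ∀ g, |Y g| ≤ B') (hW : Integrable W (patterns M n)) {c : ℝ}
    (h : ∀ g0, |∫ g, X (joinRow g g0) ∂stdG (Fin n) - c * Y g0| ≤ W g0) :
    |∫ G, X G ∂patterns (M + 1) n - c * ∫ g, Y g ∂patterns M n| ≤ ∫ g, W g ∂patterns M n := by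
  have : IsProbabilityMeasure (patterns M n) := by unfold patterns; infer_instance
  obtain ⟨e, m, b⟩ := integral_rows hX hXb
  have i1 : Integrable (fun g0 => ∫ g, X (joinRow g g0) ∂stdG (Fin n)) (patterns M n) :=
    Integrable.of_bound m.aestronglyMeasurable B (ae_of_all _ b)
  have i2 : Integrable (fun g0 => c * Y g0) (patterns M n) :=
    (Integrable.of_bound hY.aestronglyMeasurable B' (ae_of_all _ hYb)).const_mul c
  rw [e, ← integral_const_mul, ← integral_sub i1 i2]
  exact abs_integral_le_integral_abs.trans (integral_mono (i1.sub i2).abs hW h)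

namespace Slot

variable {n k : ℕ} (S : Leaf n) {f f1 f2 f3 : ℝ → ℝ} {R B : ℝ} (N : ℝ) (σ β : ℕ → ℝ)

theorem rootPair_meas {M : ℕ} (hP : Pot R B f f1 f2 f3)
    {ψ : (Fin M → Fin n → ℝ) → S.X → S.X → ℝ}
    (hψ : Measurable fun p : (Fin M → Fin n → ℝ) × S.X × S.X => ψ p.1 p.2.1 p.2.2) {Bψ : ℝ}
    (hb : ∀ g x y, |ψ g x y| ≤ Bψ) (j : ℕ) :
    Measurable (fun g => rootPair (stdG (FieldIdx n)) S.μ (ham (k := k) S f N σ β g) (ψ g) j (fun _ _ => 0))
      ∧ ∀ g, |rootPair (stdG (FieldIdx n)) S.μ (ham (k := k) S f N σ β g) (ψ g) j (fun _ _ => 0)| ≤ Bψ := by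
  have hL := fun g => Vale.Agent.P157.Rsb.linB_ham (k := k) (M := M) S hP.hf.meas hP.hf.bound N σ β g
  have hH := Vale.Agent.P157.Rsb.measurable_ham (M := M) (k := k) S hP.hf.meas N σ β
  have hi : Measurable fun p : ((Fin M → Fin n → ℝ) × (Fin k → FieldIdx n → ℝ)) × S.X =>
      cnd (stdG (FieldIdx n)) S.μ (ham S f N σ β p.1.1) (fun _ y => ψ p.1.1 p.2 y) j p.1.2 :=
    (cnd_measurable_param (G := (Fin M → Fin n → ℝ) × S.X) (γ := stdG (FieldIdx n)) (μ := S.μ)
      (H := fun q => ham S f N σ β q.1) (φ := fun q _ y => ψ q.1 q.2 y)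
      (hH.comp (f := fun p : (((Fin M → Fin n → ℝ) × S.X) × (Fin k → FieldIdx n → ℝ)) × S.X =>
        ((p.1.1.1, p.1.2), p.2)) (by fun_prop))
      (hψ.comp (f := fun p : (((Fin M → Fin n → ℝ) × S.X) × (Fin k → FieldIdx n → ℝ)) × S.X =>
        (p.1.1.1, p.1.1.2, p.2)) (by fun_prop)) j).comp
      (f := fun p : ((Fin M → Fin n → ℝ) × (Fin k → FieldIdx n → ℝ)) × S.X => ((p.1.1, p.2), p.1.2))
      (by fun_prop)
  refine ⟨?_, fun g => ?_⟩
  · rw [funext fun g => rootPair_eq (hL g) (ψ g) j (fun _ _ => 0)]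
    exact cnd_measurable_param_at (P := Fin M → Fin n → ℝ) (H := fun g => ham S f N σ β g)
      (φ := fun g z x => cnd (stdG (FieldIdx n)) S.μ (ham S f N σ β g) (fun _ y => ψ g x y) j z) hH hi 0 _
  · rw [rootPair_eq (hL g)]
    exact cnd_abs_le (φ := fun z x => cnd (stdG (FieldIdx n)) S.μ (ham S f N σ β g) (fun _ y => ψ g x y) j z) (hL g)
      (hi.comp (f := fun p : (Fin k → FieldIdx n → ℝ) × S.X => ((g, p.1), p.2)) (by fun_prop))
      (fun z x => cnd_abs_le (φ := fun _ y => ψ g x y) (hL g)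
        (hψ.comp (f := fun p : (Fin k → FieldIdx n → ℝ) × S.X => (g, x, p.2)) (by fun_prop))
        (fun _ y => hb g x y) j z) 0 _

theorem root_val_meas {M : ℕ} (hP : Pot R B f f1 f2 f3) :
    Measurable (fun g : Fin M → Fin n → ℝ =>
      val (stdG (FieldIdx n)) S.μ (ham (k := k) S f N σ β g) 0 (fun _ _ => 0)) ∧
    ∃ V, ∀ g : Fin M → Fin n → ℝ,
      |val (stdG (FieldIdx n)) S.μ (ham (k := k) S f N σ β g) 0 (fun _ _ => 0)| ≤ V := by
  refine ⟨val_measurable_param_at (P := Fin M → Fin n → ℝ) (H := fun g => ham S f N σ β g)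
    (Vale.Agent.P157.Rsb.measurable_ham S hP.hf.meas N σ β) 0 _,
    2 * M * B + |val (stdG (FieldIdx n)) S.μ (ham (k := k) S f N σ β (0 : Fin M → Fin n → ℝ)) 0 (fun _ _ => 0)|,
    fun g => ?_⟩
  have hL := fun g => Vale.Agent.P157.Rsb.linB_ham (k := k) (M := M) S hP.hf.meas hP.hf.bound N σ β g
  have h := val_close (γ := stdG (FieldIdx n)) (μ := S.μ) (hL 0) (hL g) (L := 2 * M * B) (fun z x => by
    simp only [ham]
    have e : ∀ a b c d : ℝ, a + b - c + d - ((∑ i : Fin M, f (sdot ((0 : Fin M → Fin n → ℝ) i) (S.pat x)))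
        + b - c + d) = a - ∑ i : Fin M, f (sdot ((0 : Fin M → Fin n → ℝ) i) (S.pat x)) := fun a b c d => by
      ring
    rw [e, ← sum_sub_distrib]
    refine (abs_sum_le_sum_abs _ _).trans ((sum_le_sum (g := fun _ => B + B) fun i _ =>
      (abs_sub _ _).trans (add_le_add (hP.hf.bound _) (hP.hf.bound _))).trans (le_of_eq ?_))
    simp; ring) 0 (fun _ _ => 0)
  exact sub_le_iff_le_add.1 ((abs_sub_abs_le_abs_sub _ _).trans h)

/-- The comparison at fixed old rows, and averaged. -/
theorem pattern_bound {M : ℕ} (hP : Pot R B f f1 f2 f3) {q : ℕ → ℝ} (hq : IsPath k q)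
    (hu : ∀ x, sdot (S.pat x) (S.pat x) = 1) :
    let err := fun j => gibPair (k := k) S f M N σ β j fun _ x y => |sdot (S.pat x) (S.pat y) - q j|
    (|(∫ G, val (stdG (FieldIdx n)) S.μ (ham (k := k) S f N σ β G) 0 (fun _ _ => 0) ∂patterns (M + 1) n)
        - (∫ g, val (stdG (FieldIdx n)) S.μ (ham (k := k) S f N σ β g) 0 (fun _ _ => 0) ∂patterns M n)
        - phiK k f q| ≤ 2 * (B * exp (4 * B) * B) * (mass k * ∑ l ∈ Icc 0 k, err l)) ∧
    ∀ (e e' gh gh' : ℝ → ℝ), Obs R B e e' → Cpt R B gh → Cpt R B gh' →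
      (∀ u, HasDerivAt gh (gh' u) u) → (∀ u, e' u + e u * f1 u = gh u) →
      ∀ j ≤ k, ∀ (a a' : S.X → ℝ) (R0 : ℝ), Measurable a → Measurable a' → (∀ x, |a x| ≤ R0) →
        (∀ x, |a' x| ≤ R0) →
        |gibPair (k := k) S f (M + 1) N σ β j (fun G x y => a x * e (sdot (G (Fin.last M)) (S.pat x))
            * (a' y * e (sdot (G (Fin.last M)) (S.pat y))))
          - cnd (gaussianReal 0 1) (gaussianReal 0 1) (phiH k f q)
              (fun z _ => cnd (gaussianReal 0 1) (gaussianReal 0 1) (phiH k f q) (phiH k e q) j z ^ 2) 0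
              (fun _ => 0) * gibPair (k := k) S f M N σ β j (fun _ x y => a x * a' y)|
          ≤ 2 * (16 * (54 * exp (4 * B) * B ^ 7 * R0 ^ 2))
            * (err j + mass k * ∑ l ∈ Icc 0 k, err l) := by
  intro err
  have : IsProbabilityMeasure (patterns M n) := by unfold patterns; infer_instance
  set E := fun (l : ℕ) (g0 : Fin M → Fin n → ℝ) => rootPair (stdG (FieldIdx n)) S.μ
    (ham (k := k) S f N σ β g0) (fun x y => |sdot (S.pat x) (S.pat y) - q l|) l (fun _ _ => 0) with hE
  obtain ⟨b, hb⟩ := S.bdd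
  have hEm : ∀ l, Measurable (E l) ∧ ∀ g, |E l g| ≤ |b| * |b| * n + |q l| := fun l =>
    rootPair_meas (M := M) S N σ β hP (ψ := fun _ x y => |sdot (S.pat x) (S.pat y) - q l|)
      (((Vale.Agent.P157.Rsb.measurable_sdot (S.pat_meas.comp (measurable_fst.comp measurable_snd))
        (S.pat_meas.comp (measurable_snd.comp measurable_snd))).sub_const _).abs)
      (fun _ x y => by
        rw [abs_abs]
        refine (abs_sub _ _).trans (add_le_add ?_ le_rfl)
        refine (abs_sum_le_sum_abs _ _).trans ((sum_le_sum (g := fun _ => |b| * |b|) fun i _ => ?_).trans_eq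
          (by simp [mul_comm]))
        rw [abs_mul]
        exact mul_le_mul (((hb x).1 i).trans (le_abs_self b)) (((hb y).1 i).trans (le_abs_self b))
          (abs_nonneg _) (abs_nonneg _)) l
  have hEi : ∀ l, Integrable (E l) (patterns M n) := fun l =>
    Integrable.of_bound (hEm l).1.aestronglyMeasurable _ (ae_of_all _ (hEm l).2)
  have herr : ∀ l, err l = ∫ g, E l g ∂patterns M n := fun l => rfl
  have hTi : Integrable (fun g => mass k * ∑ l ∈ Icc 0 k, E l g) (patterns M n) :=
    (integrable_finsetSum _ fun l _ => hEi l).const_mul _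
  have hT : ∫ g, mass k * ∑ l ∈ Icc 0 k, E l g ∂patterns M n = mass k * ∑ l ∈ Icc 0 k, err l := by
    rw [integral_const_mul, integral_finsetSum _ fun l _ => hEi l]
    simp only [herr]
  have hD : ∀ l, (0 : ℝ) ≤ (fun _ : ℕ => (0 : ℝ)) l := fun _ => le_rfl
  have hD' := dq_nonneg hq
  have hbal : ∀ (g0 : Fin M → Fin n → ℝ) (x : S.X), (1 : ℝ) ^ 2
      * sdot ((patCas (k := k) S hP N σ β g0).p x) ((patCas (k := k) S hP N σ β g0).p x)
      = ∑ a ∈ range (k + 1), (dq k q (a + 1) - (fun _ : ℕ => (0 : ℝ)) (a + 1)) := fun g0 x => by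
    simp only [sub_zero, sum_dq_all hq, patCas, one_pow, one_mul, hu]
  have hterr : ∀ g0, terr S.μ (patCas (k := k) S hP N σ β g0) 1 (fun _ => 0) (dq k q)
      = mass k * ∑ l ∈ Icc 0 k, E l g0 := fun g0 => by
    unfold terr
    rw [sum_congr rfl fun l hl => berr_old S hP N σ β g0 hq (mem_Icc.1 hl).2]
  have hB0 : 0 ≤ B := zero_le_one.trans hP.one_le
  constructor
  · obtain ⟨mX, VX, bX⟩ := root_val_meas (k := k) (M := M + 1) S N σ β hP
    obtain ⟨mY, VY, bY⟩ := root_val_meas (k := k) (M := M) S N σ β hP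
    have key := rows_compare
      (X := fun G => val (stdG (FieldIdx n)) S.μ (ham (k := k) S f N σ β G) 0 (fun _ _ => 0))
      (Y := fun g => val (stdG (FieldIdx n)) S.μ (ham (k := k) S f N σ β g) 0 (fun _ _ => 0) + phiK k f q)
      (W := fun g => 2 * (B * exp (4 * B) * B) * (mass k * ∑ l ∈ Icc 0 k, E l g))
      mX bX (mY.add_const _) (B' := VY + |phiK k f q|)
      (fun g => (abs_add_le _ _).trans (add_le_add (bY g) le_rfl)) (hTi.const_mul _) (c := 1)
      fun g0 => by
        have h := interp_val (μ0 := S.μ) (patCas (k := k) S hP N σ β g0) 1 (fun _ => 0) (dq k q) hP hD hD'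
          (hbal g0)
        have e1 : pVal S.μ (patCas (k := k) S hP N σ β g0) 1 (fun _ => 0) (dq k q) f (π / 2)
            = val (stdG (FieldIdx n)) S.μ (ham (k := k) S f N σ β g0) 0 (fun _ _ => 0) + phiK k f q := by
          unfold pVal
          rw [integral_congr_ae (ae_of_all _ fun g => stop_val S hP N σ β g0 g), integral_const,
            probReal_univ, one_smul]
        have e0 : pVal S.μ (patCas (k := k) S hP N σ β g0) 1 (fun _ => 0) (dq k q) f 0
            = ∫ g, val (stdG (FieldIdx n)) S.μ (ham (k := k) S f N σ β (joinRow g g0)) 0 (fun _ _ => 0)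
              ∂stdG (Fin n) := by
          refine integral_congr_ae (ae_of_all _ fun g => ?_)
          have := start_val (k := k) (q := q) S hP N σ β g0 (G := joinRow g g0) (joinRow_parts g g0).2
          rwa [(joinRow_parts g g0).1] at this
        rw [e1, e0, hterr, abs_sub_comm] at h
        rw [one_mul]
        linarith
    rw [one_mul, integral_add (Integrable.of_bound mY.aestronglyMeasurable VY (ae_of_all _ bY))
      (integrable_const _), integral_const, probReal_univ, one_smul, integral_const_mul, hT] at key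
    rwa [← sub_sub] at key
  · intro e e' gh gh' he hg hg' hgd heq j hj a a' R0 ha ha' hab hab'
    set K := 2 * (16 * (54 * exp (4 * B) * B ^ 7 * R0 ^ 2)) with hK
    have hψ : Measurable fun p : (Fin (M + 1) → Fin n → ℝ) × S.X × S.X =>
        a p.2.1 * e (sdot (p.1 (Fin.last M)) (S.pat p.2.1))
          * (a' p.2.2 * e (sdot (p.1 (Fin.last M)) (S.pat p.2.2))) := by
      have h1 : Measurable fun p : (Fin (M + 1) → Fin n → ℝ) × S.X => a p.2 * e (sdot (p.1 (Fin.last M)) (S.pat p.2)) :=
        (ha.comp measurable_snd).mul (he.meas.comp (Vale.Agent.P157.Rsb.measurable_sdot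
          ((measurable_pi_apply (Fin.last M)).comp measurable_fst) (S.pat_meas.comp measurable_snd)))
      have h2 : Measurable fun p : (Fin (M + 1) → Fin n → ℝ) × S.X => a' p.2 * e (sdot (p.1 (Fin.last M)) (S.pat p.2)) :=
        (ha'.comp measurable_snd).mul (he.meas.comp (Vale.Agent.P157.Rsb.measurable_sdot
          ((measurable_pi_apply (Fin.last M)).comp measurable_fst) (S.pat_meas.comp measurable_snd)))
      exact (h1.comp (f := fun p : (Fin (M + 1) → Fin n → ℝ) × S.X × S.X => (p.1, p.2.1)) (by fun_prop)).mul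
        (h2.comp (f := fun p : (Fin (M + 1) → Fin n → ℝ) × S.X × S.X => (p.1, p.2.2)) (by fun_prop))
    obtain ⟨mX, bX⟩ := rootPair_meas (k := k) (M := M + 1) S N σ β hP
      (ψ := fun G x y => a x * e (sdot (G (Fin.last M)) (S.pat x))
        * (a' y * e (sdot (G (Fin.last M)) (S.pat y)))) hψ (Bψ := (|R0| * B) * (|R0| * B))
      (fun G x y => by
        rw [abs_mul, abs_mul, abs_mul]
        exact mul_le_mul (mul_le_mul ((hab x).trans (le_abs_self _)) (he.bound _) (abs_nonneg _) (abs_nonneg _))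
          (mul_le_mul ((hab' y).trans (le_abs_self _)) (he.bound _) (abs_nonneg _) (abs_nonneg _))
          (mul_nonneg (abs_nonneg _) (abs_nonneg _)) (by positivity)) j
    obtain ⟨mY, bY⟩ := rootPair_meas (k := k) (M := M) S N σ β hP (ψ := fun _ x y => a x * a' y)
      ((ha.comp (measurable_fst.comp measurable_snd)).mul (ha'.comp (measurable_snd.comp measurable_snd)))
      (Bψ := |R0| * |R0|) (fun _ x y => by
        rw [abs_mul]
        exact mul_le_mul ((hab x).trans (le_abs_self _)) ((hab' y).trans (le_abs_self _)) (abs_nonneg _)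
          (abs_nonneg _)) j
    have key := rows_compare
      (X := fun G => rootPair (stdG (FieldIdx n)) S.μ (ham (k := k) S f N σ β G)
        (fun x y => a x * e (sdot (G (Fin.last M)) (S.pat x))
          * (a' y * e (sdot (G (Fin.last M)) (S.pat y)))) j (fun _ _ => 0))
      (Y := fun g => rootPair (stdG (FieldIdx n)) S.μ (ham (k := k) S f N σ β g) (fun x y => a x * a' y) j
        (fun _ _ => 0))
      (W := fun g => K * (E j g + mass k * ∑ l ∈ Icc 0 k, E l g))
      mX bX mY bY (((hEi j).add hTi).const_mul K)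
      (c := cnd (gaussianReal 0 1) (gaussianReal 0 1) (phiH k f q)
        (fun z _ => cnd (gaussianReal 0 1) (gaussianReal 0 1) (phiH k f q) (phiH k e q) j z ^ 2) 0
        (fun _ => 0))
      fun g0 => by
        have h := interp_pair (μ0 := S.μ) (patCas (k := k) S hP N σ β g0) 1 (fun _ => 0) (dq k q) hP hD hD'
          (hbal g0) he hg hg' hgd heq ha ha' hab hab' hj
        have e1 : pPair S.μ (patCas (k := k) S hP N σ β g0) 1 (fun _ => 0) (dq k q) f a a' e j (π / 2)
            = cnd (gaussianReal 0 1) (gaussianReal 0 1) (phiH k f q)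
              (fun z _ => cnd (gaussianReal 0 1) (gaussianReal 0 1) (phiH k f q) (phiH k e q) j z ^ 2) 0
              (fun _ => 0) * rootPair (stdG (FieldIdx n)) S.μ (ham (k := k) S f N σ β g0)
                (fun x y => a x * a' y) j (fun _ _ => 0) := by
          unfold pPair
          rw [integral_congr_ae (ae_of_all _ fun g =>
            stop_pair (k := k) (q := q) S hP N σ β g0 g he.meas he.bound ha ha' hab hab' j),
            integral_const, probReal_univ, one_smul, mul_comm]
        have e0 : pPair S.μ (patCas (k := k) S hP N σ β g0) 1 (fun _ => 0) (dq k q) f a a' e j 0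
            = ∫ g, rootPair (stdG (FieldIdx n)) S.μ (ham (k := k) S f N σ β (joinRow g g0))
              (fun x y => a x * e (sdot (joinRow g g0 (Fin.last M)) (S.pat x))
                * (a' y * e (sdot (joinRow g g0 (Fin.last M)) (S.pat y)))) j (fun _ _ => 0)
              ∂stdG (Fin n) := by
          refine integral_congr_ae (ae_of_all _ fun g => ?_)
          have := start_pair (k := k) (q := q) S hP N σ β g0 (G := joinRow g g0) (joinRow_parts g g0).2
            he.meas he.bound ha ha' hab hab' j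
          simp only [(joinRow_parts g g0).1] at this ⊢
          exact this
        rw [e1, e0, hterr, berr_old S hP N σ β g0 hq hj, abs_sub_comm] at h
        refine h.trans (le_of_eq ?_)
        simp only [hK, hE]
        ring
    rw [integral_const_mul, integral_add (hEi j) hTi, hT, ← herr] at key
    exact key

end Slot

/-- Adding one pattern, and observables of two leaves in an added pattern. -/
theorem patternStmt : PatternStmt := by
  intro f hf
  obtain ⟨R, B0, hP0⟩ := Slot.exists_pot hf.1 hf.2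
  have hB1 := hP0.one_le
  set B := 3 * B0 ^ 2 with hB
  have hle : B0 ≤ B := by rw [hB]; nlinarith
  have h1B : 1 ≤ B := hB1.trans hle
  have hP := hP0.mono hle
  have hB0 : (0 : ℝ) ≤ B := by linarith
  set C := 2 * (16 * (54 * exp (4 * B) * B ^ 7)) with hC
  have hC0 : 0 ≤ C := by positivity
  have hC1 : 2 * (B * exp (4 * B) * B) ≤ C := by
    have : B * B ≤ B ^ 7 := by
      rw [← pow_two]; exact pow_le_pow_right₀ h1B (by norm_num)
    rw [hC]
    nlinarith [mul_le_mul_of_nonneg_left this (exp_pos (4 * B)).le,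
      mul_nonneg (exp_pos (4 * B)).le (pow_nonneg hB0 7)]
  have hC2 : exp (4 * B) ≤ C := by
    rw [hC]
    nlinarith [mul_le_mul_of_nonneg_left (one_le_pow₀ h1B : 1 ≤ B ^ 7) (exp_pos (4 * B)).le,
      (exp_pos (4 * B)).le]
  refine ⟨C, hC0, fun n M k S N σ β q hN hq hu => ?_⟩
  intro err
  obtain ⟨h1, h2⟩ := Slot.pattern_bound (k := k) (M := M) S N σ β hP hq hu
  have herr0 : ∀ l, 0 ≤ err l := fun l => integral_nonneg fun g =>
    cnd_nonneg (fun z x => cnd_nonneg (fun z' x' => cnd_nonneg (fun _ _ => abs_nonneg _) _ _) _ _) _ _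
  have hT0 : 0 ≤ mass k * ∑ l ∈ Icc 0 k, err l := mul_nonneg mass_pos.le (sum_nonneg fun l _ => herr0 l)
  refine ⟨?_, fun j hj a b R' ha hb ham hbm => ⟨?_, ?_⟩, fun j hj ψ R' hψ hψm => ?_⟩
  · have e : N * (free S f (M + 1) k N σ β - free S f M k N σ β)
        = (∫ G, val (stdG (FieldIdx n)) S.μ (ham (k := k) S f N σ β G) 0 (fun _ _ => 0) ∂patterns (M + 1) n)
          - ∫ g, val (stdG (FieldIdx n)) S.μ (ham (k := k) S f N σ β g) 0 (fun _ _ => 0) ∂patterns M n := by
      simp only [free]
      rw [← sub_div, mul_div_cancel₀ _ hN.ne']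
    rw [e, mul_assoc C]
    exact h1.trans (mul_le_mul_of_nonneg_right hC1 hT0)
  · have hh' : ∀ u, |deriv (deriv (deriv f)) u + 2 * (deriv f u * deriv (deriv f) u)| ≤ B := fun u => by
      refine (abs_add_le _ _).trans ?_
      rw [abs_mul, abs_mul, abs_two, hB]
      nlinarith [hP0.hf3.bound u, hP0.hf2.bound u, hP0.hf1.bound u, abs_nonneg (deriv f u),
        abs_nonneg (deriv (deriv f) u), mul_le_mul (hP0.hf1.bound u) (hP0.hf2.bound u) (abs_nonneg _)
          (by linarith : (0:ℝ) ≤ B0)]
    have h := h2 (deriv f) (deriv (deriv f)) (fun u => deriv (deriv f) u + deriv f u * deriv f u)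
      (fun u => deriv (deriv (deriv f)) u + 2 * (deriv f u * deriv (deriv f) u))
      ⟨hP.hf1.meas, hP.hf1.bound, hP.d2, hP.hf2⟩
      ⟨hP.hf2.meas.add (hP.hf1.meas.mul hP.hf1.meas), fun u => by
        refine (abs_add_le _ _).trans ?_
        rw [abs_mul, hB]
        nlinarith [hP0.hf2.bound u, mul_le_mul (hP0.hf1.bound u) (hP0.hf1.bound u) (abs_nonneg _)
          (by linarith : (0:ℝ) ≤ B0)],
        fun u h => by simp [hP.hf1.zero u h, hP.hf2.zero u h]⟩
      ⟨hP.hf3.meas.add ((hP.hf1.meas.mul hP.hf2.meas).const_mul 2), hh',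
        fun u h => by simp [hP.hf1.zero u h, hP.hf3.zero u h]⟩
      (fun u => ((hP.d3 u).add ((hP.d2 u).mul (hP.d2 u))).congr_deriv (by ring))
      (fun u => rfl) j hj a b R' ham hbm ha hb
    rw [← Slot.gamK_def] at h
    have e : (fun (G : Fin (M + 1) → Fin n → ℝ) x y => a x * deriv f (sdot (G (Fin.last M)) (S.pat x))
        * (b y * deriv f (sdot (G (Fin.last M)) (S.pat y))))
        = fun G x y => a x * b y * (deriv f (sdot (G (Fin.last M)) (S.pat x))
          * deriv f (sdot (G (Fin.last M)) (S.pat y))) := by funext G x y; ring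
    rw [e] at h
    refine h.trans (le_of_eq ?_)
    simp only [hC]
    ring
  · have hone : ∀ z, cnd (gaussianReal 0 1) (gaussianReal 0 1) (Slot.phiH k f q)
        (Slot.phiH k (fun _ => (1 : ℝ)) q) j z = 1 := fun z =>
      cnd_const (Slot.phiH_linB hP.hf.meas hP.hf.bound q) 1 j z
    have h := h2 (fun _ => 1) (fun _ => 0) (deriv f) (deriv (deriv f))
      ⟨measurable_const, fun _ => by simpa using h1B, fun u => hasDerivAt_const u 1,
        ⟨measurable_const, fun _ => by simpa using hB0, fun _ _ => rfl⟩⟩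
      hP.hf1 hP.hf2 hP.d2 (fun u => by simp) j hj a b R' ham hbm ha hb
    simp only [hone, one_pow, mul_one, cnd_const (γ := gaussianReal 0 1) (μ := gaussianReal 0 1)
      (Slot.phiH_linB (k := k) hP.hf.meas hP.hf.bound q), one_mul] at h
    refine h.trans (le_of_eq ?_)
    simp only [hC]
    ring
  · haveI : IsProbabilityMeasure (patterns M n) := by unfold patterns; infer_instance
    have hψb : ∀ x y, |ψ x y| ≤ R' := fun x y => by rw [abs_of_nonneg (hψ x y).1]; exact (hψ x y).2
    obtain ⟨mX, bX⟩ := Slot.rootPair_meas (k := k) (M := M + 1) S N σ β hP (ψ := fun _ => ψ)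
      (hψm.comp measurable_snd) (fun _ => hψb) j
    obtain ⟨mY, bY⟩ := Slot.rootPair_meas (k := k) (M := M) S N σ β hP (ψ := fun _ => ψ)
      (hψm.comp measurable_snd) (fun _ => hψb) j
    obtain ⟨e1, m1, b1⟩ := integral_rows mX bX
    show ∫ G, Slot.rootPair (stdG (FieldIdx n)) S.μ (ham (k := k) S f N σ β G) ψ j (fun _ _ => 0)
        ∂patterns (M + 1) n
      ≤ C * ∫ g, Slot.rootPair (stdG (FieldIdx n)) S.μ (ham (k := k) S f N σ β g) ψ j (fun _ _ => 0)
        ∂patterns M n
    rw [e1, ← integral_const_mul]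
    refine integral_mono (Integrable.of_bound m1.aestronglyMeasurable R' (ae_of_all _ b1))
      ((Integrable.of_bound mY.aestronglyMeasurable R' (ae_of_all _ bY)).const_mul C) fun g0 => ?_
    have hY0 : 0 ≤ Slot.rootPair (stdG (FieldIdx n)) S.μ (ham (k := k) S f N σ β g0) ψ j (fun _ _ => 0) :=
      cnd_nonneg (fun z x => cnd_nonneg (fun z' x' => cnd_nonneg (fun _ y => (hψ x' y).1) _ _) _ _) _ _
    have hg : ∀ g, Slot.rootPair (stdG (FieldIdx n)) S.μ (ham (k := k) S f N σ β (joinRow g g0)) ψ j (fun _ _ => 0)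
        ≤ exp (4 * B) * Slot.rootPair (stdG (FieldIdx n)) S.μ (ham (k := k) S f N σ β g0) ψ j (fun _ _ => 0) := by
      intro g
      have hL := linB_ham (k := k) (M := M + 1) S hP.hf.meas hP.hf.bound N σ β (joinRow g g0)
      have hL0 := linB_ham (k := k) (M := M) S hP.hf.meas hP.hf.bound N σ β g0
      have hd : ∀ z x, |ham (k := k) S f N σ β (joinRow g g0) z x - ham S f N σ β g0 z x| ≤ B := fun z x => by
        have e : ham (k := k) S f N σ β (joinRow g g0) z x - ham S f N σ β g0 z x
            = f (sdot g (S.pat x)) := by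
          simp only [ham, Fin.sum_univ_castSucc (n := M) (fun a => f (sdot (joinRow g g0 a) (S.pat x))),
            (joinRow_parts g g0).1,
            show ∀ a : Fin M, joinRow g g0 a.castSucc = g0 a from fun a =>
              congrFun (joinRow_parts g g0).2 a]
          ring
        rw [e]; exact hP.hf.bound _
      have hin : Measurable fun p : S.X × (Fin k → FieldIdx n → ℝ) =>
          cnd (stdG (FieldIdx n)) S.μ (ham S f N σ β g0) (fun _ y => ψ p.1 y) j p.2 :=
        cnd_measurable_param (G := S.X) (H := fun _ => ham S f N σ β g0) (φ := fun x _ y => ψ x y)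
          (hL0.meas.comp (f := fun p : (S.X × (Fin k → FieldIdx n → ℝ)) × S.X => (p.1.2, p.2)) (by fun_prop))
          (hψm.comp (f := fun p : (S.X × (Fin k → FieldIdx n → ℝ)) × S.X => (p.1.1, p.2)) (by fun_prop)) j
      have hin' : Measurable fun p : S.X × (Fin k → FieldIdx n → ℝ) =>
          cnd (stdG (FieldIdx n)) S.μ (ham S f N σ β (joinRow g g0)) (fun _ y => ψ p.1 y) j p.2 :=
        cnd_measurable_param (G := S.X) (H := fun _ => ham S f N σ β (joinRow g g0)) (φ := fun x _ y => ψ x y)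
          (hL.meas.comp (f := fun p : (S.X × (Fin k → FieldIdx n → ℝ)) × S.X => (p.1.2, p.2)) (by fun_prop))
          (hψm.comp (f := fun p : (S.X × (Fin k → FieldIdx n → ℝ)) × S.X => (p.1.1, p.2)) (by fun_prop)) j
      have hφm : ∀ x, Measurable (Function.uncurry fun (_ : Fin k → FieldIdx n → ℝ) y => ψ x y) := fun x =>
        hψm.comp (f := fun p : (Fin k → FieldIdx n → ℝ) × S.X => (x, p.2)) (by fun_prop)
      have hT : ∀ x, Tame (gaussSize (FieldIdx n)) fun (_ : Fin k → FieldIdx n → ℝ) y => ψ x y := fun x =>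
        Tame.of_bdd (hφm x) fun _ y => hψb x y
      have tA : Tame (gaussSize (FieldIdx n)) fun z x =>
          cnd (stdG (FieldIdx n)) S.μ (ham S f N σ β g0) (fun _ y => ψ x y) j z :=
        Tame.of_bdd (hin.comp measurable_swap) fun z x => cnd_abs_le hL0 (hφm x) (fun _ y => hψb x y) j z
      have tA' : Tame (gaussSize (FieldIdx n)) fun z x =>
          cnd (stdG (FieldIdx n)) S.μ (ham S f N σ β (joinRow g g0)) (fun _ y => ψ x y) j z :=
        Tame.of_bdd (hin'.comp measurable_swap) fun z x => cnd_abs_le hL (hφm x) (fun _ y => hψb x y) j z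
      rw [Slot.rootPair_eq hL, Slot.rootPair_eq hL0]
      refine (cnd_mono hL tA' (tA.const_mul (exp (2 * B))) (fun z x =>
        cnd_tilt hL0 hL (hT x) (fun _ y => (hψ x y).1) hd hj z) 0 _).trans ?_
      rw [cnd_const_mul, show exp (4 * B) = exp (2 * B) * exp (2 * B) by rw [← exp_add]; congr 1; ring,
        mul_assoc]
      exact mul_le_mul_of_nonneg_left (cnd_tilt hL0 hL tA
        (fun z x => cnd_nonneg (fun _ y => (hψ x y).1) _ _) hd (Nat.zero_le k) _) (exp_pos _).le
    refine le_trans ?_ (mul_le_mul_of_nonneg_right hC2 hY0)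
    have := integral_mono_of_nonneg (μ := stdG (Fin n))
      (ae_of_all _ fun g => cnd_nonneg (fun z x => cnd_nonneg (fun z' x' => cnd_nonneg
        (fun _ y => (hψ x' y).1) _ _) _ _) _ _) (integrable_const _) (ae_of_all _ hg)
    rwa [integral_const, probReal_univ, one_smul] at this

end Vale.Agent.P157.Rsb
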