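import Vale.Agent.P157.Rsb.PhiPath

/-!
# P157: the one-pattern functional
-/

open MeasureTheory ProbabilityTheory Real Finset

namespace Vale.Agent.P157.Rsb

/-- Two independent Gaussian variables add up to one. -/
theorem gauss_two {ψ : ℝ → ℝ} (hm : Measurable ψ) {M : ℝ} (hb : ∀ u, |ψ u| ≤ M) (S a b : ℝ) :
    ∫ y, ∫ u, ψ (S + a * y + b * u) ∂gaussianReal 0 1 ∂gaussianReal 0 1
      = ∫ u, ψ (S + √(a ^ 2 + b ^ 2) * u) ∂gaussianReal 0 1 := by
  have hψS : Measurable fun v => ψ (S + v) := hm.comp (measurable_const_add S)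
  have hmap : ∀ c : ℝ, (gaussianReal 0 1).map (fun u => c * u)
      = gaussianReal 0 (c ^ 2).toNNReal := fun c => by
    rw [gaussianReal_map_const_mul, mul_zero, mul_one]
    congr 1
    exact NNReal.eq (Real.coe_toNNReal _ (sq_nonneg c)).symm
  have hs : (√(a ^ 2 + b ^ 2) ^ 2).toNNReal = (a ^ 2).toNNReal + (b ^ 2).toNNReal := by
    rw [Real.sq_sqrt (by positivity), Real.toNNReal_add (sq_nonneg a) (sq_nonneg b)]
  have hc := gaussianReal_conv_gaussianReal (m₁ := 0) (m₂ := 0) (v₁ := (a ^ 2).toNNReal)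
    (v₂ := (b ^ 2).toNNReal)
  rw [add_zero, ← hs, ← hmap a, ← hmap b, ← hmap (√(a ^ 2 + b ^ 2))] at hc
  have hr : ∫ u, ψ (S + √(a ^ 2 + b ^ 2) * u) ∂gaussianReal 0 1
      = ∫ v, ψ (S + v) ∂(gaussianReal 0 1).map (fun u => √(a ^ 2 + b ^ 2) * u) := by
    rw [integral_map (measurable_const_mul _).aemeasurable hψS.aestronglyMeasurable]
  rw [hr, ← hc, Measure.conv, integral_map (by fun_prop) hψS.aestronglyMeasurable,
    Measure.map_prod_map _ _ (measurable_const_mul a) (measurable_const_mul b),
    integral_map (by fun_prop) (show AEStronglyMeasurable (fun p : ℝ × ℝ => ψ (S + (p.1 + p.2))) _ from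
      (hψS.comp (measurable_fst.add measurable_snd)).aestronglyMeasurable),
    integral_prod]
  · refine integral_congr_ae (ae_of_all _ fun y => integral_congr_ae (ae_of_all _ fun u => ?_))
    simp only [Prod.map, add_assoc]
  · exact Integrable.of_bound (hψS.comp (by fun_prop)).aestronglyMeasurable M (ae_of_all _ fun p => hb _)

/-- Without Hamiltonian a function of the field has its Gaussian mean. -/
theorem cnd_free {k : ℕ} {q : ℕ → ℝ} (hq : IsPath k q) {ψ : ℝ → ℝ} (hm : Measurable ψ) {M : ℝ}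
    (hb : ∀ u, |ψ u| ≤ M) :
    cnd (gaussianReal 0 1) (gaussianReal 0 1) (fun (_ : Fin k → ℝ) (_ : ℝ) => (0 : ℝ))
      (Slot.phiH k ψ q) 0 (fun _ => 0) = ∫ u, ψ u ∂gaussianReal 0 1 := by
  set H : (Fin k → ℝ) → ℝ → ℝ := fun _ _ => 0 with hH
  have hv : ∀ j z, val (gaussianReal 0 1) (gaussianReal 0 1) H j z = 0 := by
    intro j
    induction j using levels_induction (k := k) with
    | htop j hj => intro z; simp [val_of_le hj, val_top, hH]
    | hstep j hj hjk ih => intro z; simp [val_step hj hjk, ih]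
  have key : ∀ j, j ≤ k → ∀ z, cnd (gaussianReal 0 1) (gaussianReal 0 1) H (Slot.phiH k ψ q) j z
      = ∫ u, ψ ((∑ l : Fin k, if (l : ℕ) < j then √(q (l + 1) - q l) * z l else 0)
          + √(1 - q j) * u) ∂gaussianReal 0 1 := by
    intro j
    induction j using levels_induction (k := k) with
    | htop j hj =>
      intro hjk z
      obtain rfl : j = k := le_antisymm hjk hj
      simp [cnd_top, hH, Slot.phiH, exp_zero]
    | hstep j hj hjk ih =>
      intro _ z
      rw [cnd_step hj hjk]
      simp only [hv, mul_zero, exp_zero, mul_one, integral_const, probReal_univ, one_smul, div_one,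
        ih hjk]
      have hjm : 0 ≤ q j - q (j - 1) := by
        have := hq.2.1 (j - 1) (by omega)
        rw [show j - 1 + 1 = j by omega] at this
        linarith
      have hqj : q j ≤ 1 := by
        have : ∀ i, j ≤ i → i ≤ k → q j ≤ q i := by
          intro i hji
          induction i, hji using Nat.le_induction with
          | base => intro _; exact le_rfl
          | succ i _ ih' => intro hi; exact (ih' (by omega)).trans (hq.2.1 i (by omega))
        exact (this k hjk le_rfl).trans hq.2.2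
      have hS : ∀ y, (∑ l : Fin k, if (l : ℕ) < j then √(q (l + 1) - q l) * put z (j - 1) y l else 0)
          = (∑ l : Fin k, if (l : ℕ) < j - 1 then √(q (l + 1) - q l) * z l else 0)
            + √(q j - q (j - 1)) * y := by
        intro y
        set a : Fin k := ⟨j - 1, by omega⟩ with ha
        have hj' : (a : ℕ) + 1 = j := by simp [ha]; omega
        rw [← Finset.add_sum_erase _ _ (mem_univ a), ← Finset.add_sum_erase _ (fun l : Fin k =>
          if (l : ℕ) < j - 1 then √(q (l + 1) - q l) * z l else 0) (mem_univ a)]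
        have h1 : (a : ℕ) < j := by simp [ha]; omega
        have h2 : ¬ (a : ℕ) < j - 1 := by simp [ha]
        have h3 : put z (j - 1) y a = y := by simp [put, ha]
        rw [if_pos h1, if_neg h2, h3, hj', zero_add, add_comm]
        congr 1
        refine sum_congr rfl fun l hl => ?_
        have hne : (l : ℕ) ≠ j - 1 := fun e => ne_of_mem_erase hl (Fin.ext (by simp [ha, e]))
        simp only [put, if_neg hne]
        by_cases hlj : (l : ℕ) < j
        · rw [if_pos hlj, if_pos (by omega)]
        · rw [if_neg hlj, if_neg (by omega)]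
      simp only [hS]
      rw [gauss_two hm hb]
      rw [Real.sq_sqrt hjm, Real.sq_sqrt (by linarith), show q j - q (j - 1) + (1 - q j) = 1 - q (j - 1) by ring]
  rw [key 0 (Nat.zero_le k)]
  simp [hq.1]

/-- The weighted sum of increments against a monotone nonnegative sequence. -/
theorem abel_le {k : ℕ} {d G : ℕ → ℝ} {c E : ℝ} (hG0 : ∀ l, 0 ≤ G l) (hGm : ∀ l, G l ≤ G (l + 1))
    (hGc : ∀ l, G l ≤ c) (hE : 0 ≤ E) (hd : ∀ j ∈ Icc 1 k, ∑ l ∈ Icc j k, d l ≤ E) :
    ∑ l ∈ Icc 1 k, d l * G l ≤ c * E := by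
  have key : ∀ n j, j + n = k → 1 ≤ j →
      ∑ l ∈ Icc j k, d l * G l ≤ G j * ∑ l ∈ Icc j k, d l + (c - G j) * E := by
    intro n
    induction n with
    | zero =>
      intro j hj _
      obtain rfl : j = k := by omega
      simp only [Icc_self, sum_singleton]
      nlinarith [hGc j, mul_nonneg (sub_nonneg.2 (hGc j)) hE]
    | succ n ih =>
      intro j hj h1
      rw [← Finset.insert_Icc_succ_left_eq_Icc (by omega : j ≤ k), sum_insert (by simp),
        sum_insert (by simp), Order.succ_eq_add_one]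
      have h2 := ih (j + 1) (by omega) (by omega)
      have h3 := hd (j + 1) (mem_Icc.2 ⟨by omega, by omega⟩)
      nlinarith [mul_le_mul_of_nonneg_left h3 (sub_nonneg.2 (hGm j))]
  rcases Nat.eq_zero_or_pos k with h | h
  · rw [show Icc 1 k = ∅ by simp [h], sum_empty]
    exact mul_nonneg ((hG0 0).trans (hGc 0)) hE
  · have h2 := key (k - 1) 1 (by omega) le_rfl
    have h3 := hd 1 (mem_Icc.2 ⟨le_rfl, h⟩)
    nlinarith [mul_le_mul_of_nonneg_left h3 (hG0 1)]

/-- Properties of the one-pattern functional. -/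
theorem phiStmt : PhiStmt := by
  refine ⟨fun f B hf hB k q q' hq hq' => ?_, fun f h L hfm hhm hfL hhL k q hq => ?_⟩
  · obtain ⟨R, B0, hP⟩ := Slot.exists_pot hf.1 hf.2
    have hB0 : 0 ≤ B := (abs_nonneg _).trans (hB 0)
    have hG := fun θ l => Slot.pGam_props (k := k) hP hB q q' θ l
    have ends := Slot.pVal_ends (k := k) hP q q'
    set F := Slot.pVal (Measure.dirac ()) (Slot.phiCas k) 0 (Slot.dq k q) (Slot.dq k q') f with hF
    have hsplit : ∀ v : ℕ → ℝ, ∑ l ∈ Icc 0 k, (q' l - q l) * v l = ∑ l ∈ Icc 1 k, (q' l - q l) * v l := by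
      intro v
      rw [← Finset.insert_Icc_succ_left_eq_Icc (Nat.zero_le k), sum_insert (by simp), hq.1, hq'.1]
      simp
    obtain ⟨θ, hθ, he⟩ := exists_hasDerivAt_eq_slope F
      (fun θ => -(mass k * ∑ l ∈ Icc 0 k, cos θ * sin θ * (q' l - q l) * Slot.pGam k f (deriv f) q q' θ l))
      (by positivity : (0 : ℝ) < π / 2) (Slot.continuous_pVal (Slot.phiCas k) 0 _ _ hP).continuousOn
      fun x hx => Slot.phi_deriv hP hq hq' hx.1 hx.2
    set cs := cos θ * sin θ with hcs
    have hcs0 : 0 ≤ cs := mul_nonneg (cos_pos_of_mem_Ioo ⟨by linarith [pi_pos, hθ.1], hθ.2⟩).le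
      (sin_pos_of_pos_of_lt_pi hθ.1 (by linarith [pi_pos, hθ.2])).le
    have hcs1 : cs ≤ 1 / 2 := by
      rw [hcs]; nlinarith [sq_nonneg (cos θ - sin θ), sin_sq_add_cos_sq θ]
    set P := π / 2 * cs with hPdef
    have hP0 : 0 ≤ P := by positivity
    have hP1 : P ≤ 1 := by rw [hPdef]; nlinarith [pi_le_four, pi_pos]
    set X := mass k * ∑ l ∈ Icc 1 k, (q' l - q l) * Slot.pGam k f (deriv f) q q' θ l with hX
    have hdiff : phiK k f q - phiK k f q' = P * X := by
      rw [sub_zero, ends.1, ends.2] at he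
      have e2 : ∑ l ∈ Icc 0 k, cs * (q' l - q l) * Slot.pGam k f (deriv f) q q' θ l
          = cs * ∑ l ∈ Icc 1 k, (q' l - q l) * Slot.pGam k f (deriv f) q q' θ l := by
        rw [← hsplit, mul_sum]
        exact sum_congr rfl fun l _ => by ring
      rw [e2] at he
      have hp : π ≠ 0 := pi_ne_zero
      field_simp at he
      rw [hPdef, hX]
      linarith
    have hm : 0 ≤ mass k := mass_pos.le
    refine ⟨?_, fun e he0 htail => ?_, fun j hj => ?_, fun j hj => ?_⟩
    · have hXle : |X| ≤ B ^ 2 * mass k * ∑ j ∈ Icc 1 k, |q j - q' j| := by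
        rw [hX, abs_mul, abs_of_nonneg hm, mul_comm (B ^ 2), mul_assoc, mul_sum (a := B ^ 2)]
        refine mul_le_mul_of_nonneg_left ((abs_sum_le_sum_abs _ _).trans (sum_le_sum fun l _ => ?_)) hm
        rw [abs_mul, abs_sub_comm, abs_of_nonneg (hG θ l).1, mul_comm]
        exact mul_le_mul_of_nonneg_right (hG θ l).2.1 (abs_nonneg _)
      rw [hdiff, abs_mul, abs_of_nonneg hP0]
      exact (mul_le_of_le_one_left (abs_nonneg X) hP1).trans hXle
    · have h1 : ∀ j ∈ Icc 1 k, ∑ l ∈ Icc j k, (q' l - q l) ≤ e / mass k := fun j hj => by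
        rw [le_div_iff₀ mass_pos, sum_sub_distrib]
        have := htail j hj
        simp only [tail] at this
        linarith
      have h2 := abel_le (d := fun l => q' l - q l) (G := Slot.pGam k f (deriv f) q q' θ)
        (fun l => (hG θ l).1) (fun l => (hG θ l).2.2) (fun l => (hG θ l).2.1) (div_nonneg he0 hm) h1
      have h3 : X ≤ B ^ 2 * e := by
        refine (mul_le_mul_of_nonneg_left h2 hm).trans (le_of_eq ?_)
        have := (mass_pos (k := k)).ne'
        field_simp
      have h4 : P * X ≤ B ^ 2 * e :=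
        (mul_le_mul_of_nonneg_left h3 hP0).trans (mul_le_of_le_one_left (by positivity) hP1)
      linarith [hdiff]
    · rw [Slot.gamK_def]
      have := Slot.gam_props (γ := gaussianReal 0 1) (μ := gaussianReal 0 1) (Slot.phiH_linB (k := k) hP.hf.meas hP.hf.bound q)
        (Slot.phiH_meas (k := k) hP.hf1.meas q) (fun z x => hB _) j fun _ => 0
      exact ⟨this.1, this.2.1⟩
    · rw [Slot.gamK_def, Slot.gamK_def]
      exact (Slot.gam_props (γ := gaussianReal 0 1) (μ := gaussianReal 0 1) (Slot.phiH_linB (k := k) hP.hf.meas hP.hf.bound q)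
        (Slot.phiH_meas (k := k) hP.hf1.meas q) (fun z x => hB _) j fun _ => 0).2.2
  · have key : ∀ f h : ℝ → ℝ, Measurable f → Measurable h → (∀ u, |f u| ≤ L) → (∀ u, |h u| ≤ L) →
        phiK k h q - phiK k f q ≤ exp (8 * L) * ∫ u, |f u - h u| ∂gaussianReal 0 1 := by
      intro f h hfm hhm hfL hhL
      have hL0 : 0 ≤ L := (abs_nonneg _).trans (hfL 0)
      have hf := Slot.phiH_linB (k := k) hfm hfL q
      have hh := Slot.phiH_linB (k := k) hhm hhL q
      have hb : ∀ u, |(|f u - h u|)| ≤ L + L := fun u => by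
        rw [abs_abs]; exact (abs_sub _ _).trans (add_le_add (hfL u) (hhL u))
      have hψm : Measurable fun u => |f u - h u| := (hfm.sub hhm).abs
      have h0 : LinB lineSize fun (_ : Fin k → ℝ) (_ : ℝ) => (0 : ℝ) :=
        ⟨measurable_const, 0, le_rfl, fun _ _ => by simp⟩
      have e1 := cnd_exp_le (γ := gaussianReal 0 1) (μ := gaussianReal 0 1) hh hf 0 (fun _ => 0)
      have hψ : Tame lineSize (Slot.phiH k (fun u => |f u - h u|) q) :=
        Tame.of_bdd (Slot.phiH_meas hψm q) fun z x => hb _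
      have e2 := cnd_unif (γ := gaussianReal 0 1) (μ := gaussianReal 0 1) h0 hh (L := L)
        (φ := fun z x => Slot.phiH k f q z x - Slot.phiH k h q z x)
        (ψ := Slot.phiH k (fun u => |f u - h u|) q) (fun z x => by rw [sub_zero]; exact hhL _)
        (hf.tame.sub hh.tame) hψ (fun z x => le_rfl) (Nat.zero_le k) (fun _ => 0)
      rw [cnd_free hq hψm hb] at e2
      have e3 : exp (2 * L) ≤ exp (8 * L) := exp_le_exp.2 (by linarith)
      have h5 : 0 ≤ ∫ u, |f u - h u| ∂gaussianReal 0 1 := integral_nonneg fun _ => abs_nonneg _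
      rw [Slot.phiK_def, Slot.phiK_def]
      nlinarith [(abs_le.1 e2).1, mul_le_mul_of_nonneg_right e3 h5]
    rw [abs_le]
    constructor
    · linarith [key f h hfm hhm hfL hhL]
    · have := key h f hhm hfm hhL hfL
      simp only [abs_sub_comm (h _)] at this
      exact this

end Vale.Agent.P157.Rsb
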