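import Mathlib

/-!
# P157: the algebra of the spherical Crisanti-Sommers functional on a grid

The levels are `lev k j = j / (k + 1)`, `1 ≤ j ≤ k + 1`, each branch level has the weight
`wid k = 1 / (k + 1)`.  Paths `q`, `r` start at `0` and are nondecreasing up to the level `k`.

* `G_le_entropy`: for each overlap path `q < 1` some multiplier has `G ≤ S q - pair q r / 2`.
* `exists_opt`: for each field path `r` some overlap path has `S q - pair q r / 2 ≤ G`.
* `lower_of_defect`: if the consistency equation holds up to `defect`, then `G` is bounded below by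
  `S q' - pair q' r / 2` for some path `q'` close to `q`, up to the mean absolute defect.
-/

open Finset Real

namespace Vale.Agent.P157.RsbAlg

/-- The exponent of the level `j`. -/
noncomputable def lev (k j : ℕ) : ℝ := (j : ℝ) / (k + 1)

/-- The weight of every branch level. -/
noncomputable def wid (k : ℕ) : ℝ := 1 / ((k : ℝ) + 1)

/-- A path that starts at `0` and is nondecreasing up to the level `k`. -/
structure IsPath (k : ℕ) (q : ℕ → ℝ) : Prop where
  zero : q 0 = 0
  mono : ∀ i < k, q i ≤ q (i + 1)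

/-- The pairing of overlaps with cumulative fields. -/
noncomputable def pair (k : ℕ) (q r : ℕ → ℝ) : ℝ := wid k * ∑ i ∈ range k, q (i + 1) * r (i + 1)

/-- The weighted tail of a path from the level `j + 1` on. -/
noncomputable def tau (k : ℕ) (q : ℕ → ℝ) (j : ℕ) : ℝ := wid k * ∑ i ∈ Ico j k, q (i + 1)

/-- The stiffness at level `j` for the multiplier `b`. -/
noncomputable def stiff (k : ℕ) (b : ℝ) (r : ℕ → ℝ) (j : ℕ) : ℝ :=
  b - ∑ i ∈ Ico j k, lev k (i + 1) * (r (i + 1) - r i)

/-- The room left by an overlap path at level `j`. -/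
noncomputable def room (k : ℕ) (q : ℕ → ℝ) (j : ℕ) : ℝ :=
  1 - q k + ∑ i ∈ Ico j k, lev k (i + 1) * (q (i + 1) - q i)

/-- The one-spin value. -/
noncomputable def G (k : ℕ) (b : ℝ) (r : ℕ → ℝ) : ℝ :=
  (b - 1 - r k - log b +
    ∑ i ∈ range k, (log (stiff k b r (i + 1)) - log (stiff k b r i)) / lev k (i + 1)) / 2

/-- The spherical entropy of an overlap path. -/
noncomputable def S (k : ℕ) (q : ℕ → ℝ) : ℝ :=
  (log (1 - q k) +
    ∑ i ∈ range k, (log (room k q i) - log (room k q (i + 1))) / lev k (i + 1)) / 2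

/-- The failure of the consistency equation at level `j`. -/
noncomputable def defect (k : ℕ) (b : ℝ) (q r : ℕ → ℝ) (j : ℕ) : ℝ :=
  q j * stiff k b r j + wid k * ∑ i ∈ range j, r (i + 1) * q (i + 1)
    - r j * (1 - tau k q j)

/-- The multiplier of the cavity computation. -/
noncomputable def cavMult (k : ℕ) (q r : ℕ → ℝ) : ℝ := 1 + r k - pair k q r

variable {k : ℕ} {q q' r r' : ℕ → ℝ} {b b' : ℝ}

theorem wid_pos : 0 < wid k := by unfold wid; positivity

theorem lev_zero : lev k 0 = 0 := by simp [lev]

theorem lev_pos (j : ℕ) : 0 < lev k (j + 1) := by unfold lev; positivity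

theorem lev_nonneg (j : ℕ) : 0 ≤ lev k j := by unfold lev; positivity

theorem lev_succ (j : ℕ) : lev k (j + 1) = lev k j + wid k := by
  simp only [lev, wid]; push_cast; ring

theorem lev_top : lev k (k + 1) = 1 := by
  simp only [lev]; push_cast; exact div_self (by positivity)

theorem lev_le_one {j : ℕ} (h : j ≤ k + 1) : lev k j ≤ 1 := by
  rw [lev, div_le_one (by positivity)]
  exact_mod_cast h

theorem natCast_mul_wid_le {n : ℕ} (h : n ≤ k + 1) : n * wid k ≤ 1 := by
  have := lev_le_one (k := k) h
  rw [lev] at this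
  rwa [wid, mul_one_div]

theorem IsPath.le (hq : IsPath k q) {i j : ℕ} (hij : i ≤ j) (hj : j ≤ k) : q i ≤ q j := by
  induction j, hij using Nat.le_induction with
  | base => exact le_rfl
  | succ n _ ih => exact (ih (by omega)).trans (hq.mono n (by omega))

theorem IsPath.nonneg (hq : IsPath k q) {j : ℕ} (hj : j ≤ k) : 0 ≤ q j :=
  hq.zero ▸ hq.le (Nat.zero_le j) hj

theorem isPath_zero : IsPath k fun _ => 0 := ⟨rfl, fun _ _ => le_rfl⟩

/-- Summation by parts against the levels. -/
theorem sum_lev_mul (f : ℕ → ℝ) {j : ℕ} (hj : j ≤ k) :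
    ∑ i ∈ Ico j k, lev k (i + 1) * (f (i + 1) - f i) =
      f k - lev k (j + 1) * f j - tau k f j := by
  have h : ∀ n, j ≤ n → ∑ i ∈ Ico j n, lev k (i + 1) * (f (i + 1) - f i) =
      lev k (n + 1) * f n - lev k (j + 1) * f j - wid k * ∑ i ∈ Ico j n, f (i + 1) := by
    intro n hn
    induction n, hn using Nat.le_induction with
    | base => simp
    | succ n hn ih => rw [sum_Ico_succ_top hn, sum_Ico_succ_top hn, ih, lev_succ (n + 1)]; ring
  rw [h k hj, lev_top, tau]; ring

theorem stiff_top : stiff k b r k = b := by simp [stiff]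

theorem room_top : room k q k = 1 - q k := by simp [room]

theorem tau_top : tau k q k = 0 := by simp [tau]

theorem stiff_step {i : ℕ} (hi : i < k) :
    stiff k b r i = stiff k b r (i + 1) - lev k (i + 1) * (r (i + 1) - r i) := by
  simp only [stiff, sum_eq_sum_Ico_succ_bot hi]; ring

theorem room_step {i : ℕ} (hi : i < k) :
    room k q i = room k q (i + 1) + lev k (i + 1) * (q (i + 1) - q i) := by
  simp only [room, sum_eq_sum_Ico_succ_bot hi]; ring

theorem tau_step {i : ℕ} (hi : i < k) : tau k q i = tau k q (i + 1) + wid k * q (i + 1) := by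
  simp only [tau, sum_eq_sum_Ico_succ_bot hi]; ring

theorem room_eq {j : ℕ} (hj : j ≤ k) : room k q j = 1 - lev k (j + 1) * q j - tau k q j := by
  rw [room, sum_lev_mul q hj]; ring

theorem stiff_eq {j : ℕ} (hj : j ≤ k) :
    stiff k b r j = b - r k + lev k (j + 1) * r j + tau k r j := by
  rw [stiff, sum_lev_mul r hj]; ring

theorem stiff_add_const (d : ℝ) (j : ℕ) : stiff k (b + d) r j = stiff k b r j + d := by
  simp only [stiff]; ring

theorem stiff_le_succ (hr : IsPath k r) {i : ℕ} (hi : i < k) :
    stiff k b r i ≤ stiff k b r (i + 1) := by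
  rw [stiff_step hi]
  nlinarith [lev_pos (k := k) i, hr.mono i hi]

theorem stiff_mono (hr : IsPath k r) {i j : ℕ} (hij : i ≤ j) (hj : j ≤ k) :
    stiff k b r i ≤ stiff k b r j := by
  induction j, hij using Nat.le_induction with
  | base => exact le_rfl
  | succ n _ ih => exact (ih (by omega)).trans (stiff_le_succ hr (by omega))

theorem stiff_pos (hr : IsPath k r) (h0 : 0 < stiff k b r 0) {j : ℕ} (hj : j ≤ k) :
    0 < stiff k b r j := h0.trans_le (stiff_mono hr (Nat.zero_le j) hj)

theorem stiff_le_top (hr : IsPath k r) {j : ℕ} (hj : j ≤ k) : stiff k b r j ≤ b :=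
  (stiff_mono hr hj le_rfl).trans_eq stiff_top

theorem one_sub_top_le_room (hq : IsPath k q) (j : ℕ) : 1 - q k ≤ room k q j :=
  le_add_of_nonneg_right (sum_nonneg fun i hi =>
    mul_nonneg (lev_nonneg _) (sub_nonneg.2 (hq.mono i (mem_Ico.1 hi).2)))

theorem room_le (hq : IsPath k q) {j : ℕ} (hj : j ≤ k) : room k q j ≤ 1 - q j := by
  have : ∑ i ∈ Ico j k, lev k (i + 1) * (q (i + 1) - q i) ≤ q k - q j := by
    rw [← sum_Ico_sub q hj]
    exact sum_le_sum fun i hi => mul_le_of_le_one_left (sub_nonneg.2 (hq.mono i (mem_Ico.1 hi).2))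
      (lev_le_one (by have := (mem_Ico.1 hi).2; omega))
  unfold room; linarith

theorem room_le_one (hq : IsPath k q) {j : ℕ} (hj : j ≤ k) : room k q j ≤ 1 :=
  (room_le hq hj).trans (by linarith [hq.nonneg hj])

theorem room_pos (hq : IsPath k q) (h : q k < 1) (j : ℕ) : 0 < room k q j :=
  lt_of_lt_of_le (by linarith) (one_sub_top_le_room hq j)

theorem tau_nonneg (hq : IsPath k q) (j : ℕ) : 0 ≤ tau k q j :=
  mul_nonneg wid_pos.le (sum_nonneg fun _i hi => hq.nonneg (by have := (mem_Ico.1 hi).2; omega))

theorem pair_comm : pair k q r = pair k r q := by simp only [pair, mul_comm]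

theorem pair_nonneg (hq : IsPath k q) (hr : IsPath k r) : 0 ≤ pair k q r :=
  mul_nonneg wid_pos.le (sum_nonneg fun i hi => by
    have := mem_range.1 hi
    exact mul_nonneg (hq.nonneg (by omega)) (hr.nonneg (by omega)))

theorem pair_sub_right : pair k q r - pair k q r' = pair k q fun i => r i - r' i := by
  simp only [pair, ← mul_sub, ← sum_sub_distrib]

theorem pair_sub_left : pair k q r - pair k q' r = pair k (fun i => q i - q' i) r := by
  simp only [pair, ← mul_sub, ← sum_sub_distrib, sub_mul]

theorem abs_pair_le {R : ℝ} (hq : ∀ i < k, |q (i + 1)| ≤ R) :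
    |pair k q r| ≤ R * (wid k * ∑ i ∈ range k, |r (i + 1)|) := by
  rw [pair, abs_mul, abs_of_pos wid_pos, mul_left_comm]
  refine mul_le_mul_of_nonneg_left ?_ wid_pos.le
  refine (abs_sum_le_sum_abs _ _).trans ?_
  rw [mul_sum]
  exact sum_le_sum fun i hi => by
    rw [abs_mul]; exact mul_le_mul_of_nonneg_right (hq i (mem_range.1 hi)) (abs_nonneg _)

/-- The pairing of two paths is the pairing of tails with increments. -/
theorem pair_eq_tau (hr : r 0 = 0) :
    pair k q r = ∑ i ∈ range k, tau k q i * (r (i + 1) - r i) := by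
  have h : ∀ n ≤ k, ∑ i ∈ range n, tau k q i * (r (i + 1) - r i) =
      r n * tau k q n + wid k * ∑ i ∈ range n, q (i + 1) * r (i + 1) := by
    intro n hn
    induction n with
    | zero => simp [hr]
    | succ n ih =>
      rw [sum_range_succ, sum_range_succ, ih (by omega), tau_step (i := n) (by omega)]; ring
  rw [h k le_rfl, tau_top, pair]; ring

theorem defect_zero (hq : q 0 = 0) (hr : r 0 = 0) : defect k b q r 0 = 0 := by
  simp [defect, hq, hr]

theorem defect_top : defect k b q r k = q k * b + pair k q r - r k := by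
  rw [defect, stiff_top, tau_top, pair, sub_zero, mul_one]
  simp only [mul_comm (r _)]

theorem defect_succ {i : ℕ} (hi : i < k) :
    defect k b q r (i + 1) - defect k b q r i =
      stiff k b r i * (q (i + 1) - q i) - (r (i + 1) - r i) * room k q (i + 1) := by
  rw [defect, defect, sum_range_succ, tau_step hi, room_eq (j := i + 1) (by omega), stiff_step hi,
    lev_succ (i + 1)]
  ring

theorem excess_succ {i : ℕ} (hi : i < k) :
    stiff k b r (i + 1) * room k q (i + 1) - stiff k b r i * room k q i =
      -(lev k (i + 1) * (defect k b q r (i + 1) - defect k b q r i)) := by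
  rw [defect_succ hi, room_step hi, stiff_step hi]; ring

theorem stiff_mul_room {j : ℕ} (hj : j ≤ k) :
    stiff k b r j * room k q j = b * (1 - q k) +
      (defect k b q r k - lev k (j + 1) * defect k b q r j
        - tau k (defect k b q r) j) := by
  rw [← sum_lev_mul (defect k b q r) hj]
  have h : ∑ i ∈ Ico j k, lev k (i + 1) * (defect k b q r (i + 1) - defect k b q r i) =
      -∑ i ∈ Ico j k, (stiff k b r (i + 1) * room k q (i + 1) - stiff k b r i * room k q i) := by
    rw [← sum_neg_distrib]
    exact sum_congr rfl fun i hi => by rw [excess_succ (mem_Ico.1 hi).2]; ring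
  rw [h, sum_Ico_sub (fun i => stiff k b r i * room k q i) hj, stiff_top, room_top]; ring

/-- At the cavity multiplier the product of stiffness and room is one up to the defect. -/
theorem cav_product {j : ℕ} (hj : j ≤ k) :
    stiff k (cavMult k q r) r j * room k q j - 1 =
      -(lev k (j + 1) * defect k (cavMult k q r) q r j)
        - tau k (defect k (cavMult k q r) q r) j := by
  rw [stiff_mul_room hj, defect_top, cavMult]; ring

theorem levSum_ge {u : ℕ → ℝ} (hu : ∀ i ≤ k, 0 ≤ u i) (h0 : u 0 = 0) :
    u k ≤ ∑ i ∈ range k, (u (i + 1) - u i) / lev k (i + 1) := by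
  have h : ∀ n ≤ k, u n / lev k n ≤ ∑ i ∈ range n, (u (i + 1) - u i) / lev k (i + 1) := by
    intro n hn
    induction n with
    | zero => simp [h0]
    | succ n ih =>
      rw [sum_range_succ]
      have a : u n / lev k (n + 1) ≤ u n / lev k n := by
        rcases Nat.eq_zero_or_pos n with rfl | h
        · simp [h0]
        · obtain ⟨p, rfl⟩ := Nat.exists_eq_succ_of_ne_zero h.ne'
          exact div_le_div_of_nonneg_left (hu _ (by omega)) (lev_pos p)
            (by linarith [lev_succ (k := k) (p + 1), wid_pos (k := k)])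
      have := ih (by omega)
      rw [sub_div]; linarith
  rcases Nat.eq_zero_or_pos k with hk | hk
  · subst hk; simp [h0]
  · refine le_trans ?_ (h k le_rfl)
    rw [le_div_iff₀ (by obtain ⟨p, hp⟩ := Nat.exists_eq_succ_of_ne_zero hk.ne'
                        rw [hp]; exact lev_pos p)]
    exact mul_le_of_le_one_right (hu k le_rfl) (lev_le_one (by omega))

/-- The defining identity of `G - S`. -/
theorem two_mul_G_sub (hq : IsPath k q) (hq1 : q k < 1) (hr : IsPath k r)
    (hb : 0 < stiff k b r 0) :
    2 * (G k b r - S k q) = b - 1 - r k - log (stiff k b r k * room k q k) +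
      ∑ i ∈ range k, (log (stiff k b r (i + 1) * room k q (i + 1))
        - log (stiff k b r i * room k q i)) / lev k (i + 1) := by
  have hl : ∀ i ≤ k, log (stiff k b r i * room k q i) =
      log (stiff k b r i) + log (room k q i) := fun i hi =>
    log_mul (stiff_pos hr hb hi).ne' (room_pos hq hq1 i).ne'
  have h2 : ∑ i ∈ range k, (log (stiff k b r (i + 1) * room k q (i + 1))
        - log (stiff k b r i * room k q i)) / lev k (i + 1) =
      (∑ i ∈ range k, (log (stiff k b r (i + 1)) - log (stiff k b r i)) / lev k (i + 1))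
      - ∑ i ∈ range k, (log (room k q i) - log (room k q (i + 1))) / lev k (i + 1) := by
    rw [← sum_sub_distrib]
    refine sum_congr rfl fun i hi => ?_
    have := mem_range.1 hi
    rw [hl _ (by omega), hl _ (by omega)]; ring
  rw [h2, hl k le_rfl, stiff_top, room_top, G, S]; ring

theorem sum_excess (hq : q 0 = 0) (hr : r 0 = 0) :
    ∑ i ∈ range k, (stiff k b r (i + 1) * room k q (i + 1)
        - stiff k b r i * room k q i) / lev k (i + 1) = r k - q k * b - pair k q r := by
  have h : ∑ i ∈ range k, (stiff k b r (i + 1) * room k q (i + 1)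
        - stiff k b r i * room k q i) / lev k (i + 1) =
      -∑ i ∈ range k, (defect k b q r (i + 1) - defect k b q r i) := by
    rw [← sum_neg_distrib]
    refine sum_congr rfl fun i hi => ?_
    rw [excess_succ (mem_range.1 hi)]
    field_simp [(lev_pos (k := k) i).ne']
  rw [h, sum_range_sub (defect k b q r), defect_zero hq hr, defect_top]; ring

/-- Part (i): the multiplier built from the room at level zero. -/
theorem G_le_entropy (hq : IsPath k q) (hq1 : q k < 1) (hr : IsPath k r) :
    ∃ b, stiff k b r 0 = 1 / room k q 0 ∧ G k b r ≤ S k q - pair k q r / 2 := by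
  refine ⟨1 / room k q 0 + ∑ i ∈ Ico 0 k, lev k (i + 1) * (r (i + 1) - r i), ?_, ?_⟩
  · simp [stiff]
  set b := 1 / room k q 0 + ∑ i ∈ Ico 0 k, lev k (i + 1) * (r (i + 1) - r i)
  have hR := room_pos hq hq1 0
  have h0 : stiff k b r 0 = 1 / room k q 0 := by simp [stiff, b]
  have hb : 0 < stiff k b r 0 := h0 ▸ one_div_pos.2 hR
  let x : ℕ → ℝ := fun i => stiff k b r i * room k q i
  have hx : ∀ i ≤ k, 0 < x i := fun i hi => mul_pos (stiff_pos hr hb hi) (room_pos hq hq1 i)
  have hx0 : x 0 = 1 := by simp only [x, h0]; exact one_div_mul_cancel hR.ne'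
  have key := levSum_ge (k := k) (u := fun i => x i - 1 - log (x i))
    (fun i hi => by linarith [log_le_sub_one_of_pos (hx i hi)]) (by simp [hx0])
  have e : ∑ i ∈ range k,
      ((x (i + 1) - 1 - log (x (i + 1))) - (x i - 1 - log (x i))) / lev k (i + 1) =
      (∑ i ∈ range k, (x (i + 1) - x i) / lev k (i + 1))
        - ∑ i ∈ range k, (log (x (i + 1)) - log (x i)) / lev k (i + 1) := by
    rw [← sum_sub_distrib]; exact sum_congr rfl fun i _ => by ring
  rw [e] at key
  have t := two_mul_G_sub hq hq1 hr hb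
  have s := sum_excess (b := b) (k := k) hq.zero hr.zero
  simp only [x, stiff_top, room_top] at key
  rw [stiff_top, room_top] at t
  linarith

/-- Part (ii): where stiffness times room is one, the multiplier is the minimiser. -/
theorem entropy_le_G (hq : IsPath k q) (hq1 : q k < 1) (hr : IsPath k r)
    (h : ∀ i ≤ k, stiff k b' r i * room k q i = 1) (hb : 0 < stiff k b r 0) :
    S k q - pair k q r / 2 ≤ G k b r := by
  have hb' : 0 < stiff k b' r 0 :=
    pos_of_mul_pos_left (h 0 (Nat.zero_le k) ▸ one_pos) (room_pos hq hq1 0).le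
  have t := two_mul_G_sub hq hq1 hr hb
  let δ := b - b'
  have hs : ∀ i, stiff k b r i = stiff k b' r i + δ := fun i => by
    rw [← stiff_add_const]; simp [δ]
  let x : ℕ → ℝ := fun i => stiff k b r i * room k q i
  have hx : ∀ i ≤ k, 0 < x i := fun i hi => mul_pos (stiff_pos hr hb hi) (room_pos hq hq1 i)
  have hxe : ∀ i ≤ k, x i - 1 = δ * room k q i := fun i hi => by
    simp only [x, hs]; linarith [h i hi]
  have step : ∀ i ∈ range k, (x (i + 1) - x i) / lev k (i + 1) ≤
      (log (x (i + 1)) - log (x i)) / lev k (i + 1) := by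
    intro i hi
    have hi := mem_range.1 hi
    refine (div_le_div_iff_of_pos_right (lev_pos i)).2 ?_
    have a := hx i hi.le
    have c := hx (i + 1) hi
    have hl := log_le_sub_one_of_pos (div_pos a c)
    rw [log_div a.ne' c.ne', div_sub_one c.ne'] at hl
    have hle : room k q (i + 1) ≤ room k q i := by
      rw [room_step hi]; nlinarith [lev_pos (k := k) i, hq.mono i hi]
    have : (x i - x (i + 1)) / x (i + 1) ≤ x i - x (i + 1) := by
      have e1 := hxe i hi.le
      have e2 := hxe (i + 1) hi
      have hp := (room_pos hq hq1 (i + 1)).le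
      rw [div_le_iff₀ c]
      nlinarith [mul_nonneg (mul_nonneg (sq_nonneg δ) hp) (sub_nonneg.2 hle)]
    linarith
  have key := sum_le_sum step
  have s := sum_excess (b := b) (k := k) hq.zero hr.zero
  have hk := log_le_sub_one_of_pos (hx k le_rfl)
  simp only [x, stiff_top, room_top] at key hk
  rw [stiff_top, room_top] at t
  linarith

/-- The overlap path of a stiffness path. -/
noncomputable def pathOf (k : ℕ) (b : ℝ) (r : ℕ → ℝ) (n : ℕ) : ℝ :=
  ∑ i ∈ range n, (1 / stiff k b r i - 1 / stiff k b r (i + 1)) / lev k (i + 1)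

theorem exists_stationary (hr : IsPath k r) :
    ∃ b q, IsPath k q ∧ q k < 1 ∧ 0 < stiff k b r 0 ∧
      ∀ i ≤ k, stiff k b r i * room k q i = 1 := by
  let s := ∑ i ∈ Ico 0 k, lev k (i + 1) * (r (i + 1) - r i)
  have h0 : ∀ x, stiff k (x + s) r 0 = x := fun x => by simp [stiff, s]
  let H : ℝ → ℝ := fun x => 1 / (x + s) + pathOf k (x + s) r k
  have pos : ∀ x, 0 < x → ∀ i ≤ k, 0 < stiff k (x + s) r i := fun x hx i hi =>
    stiff_pos hr ((h0 x).symm ▸ hx) hi
  have hcont : ContinuousOn H (Set.Icc 1 (k + 1)) := by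
    intro x hx
    have hx0 : (0 : ℝ) < x := lt_of_lt_of_le one_pos hx.1
    refine ContinuousAt.continuousWithinAt ?_
    have hc : ∀ i ≤ k, ContinuousAt (fun x => 1 / stiff k (x + s) r i) x := fun i hi =>
      continuousAt_const.div (by unfold stiff; fun_prop) (pos x hx0 i hi).ne'
    refine ContinuousAt.add ?_ ?_
    · simpa only [stiff_top] using hc k le_rfl
    · refine tendsto_finsetSum _ fun i hi => ?_
      have := mem_range.1 hi
      exact ((hc i (by omega)).sub (hc (i + 1) (by omega))).div_const _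
  have lo : (1 : ℝ) ≤ H 1 := by
    have := levSum_ge (k := k) (u := fun i => 1 - 1 / stiff k (1 + s) r i)
      (fun i hi => by
        have h1 : 1 ≤ stiff k (1 + s) r i := by
          simpa only [h0] using stiff_mono (b := 1 + s) hr (Nat.zero_le i) hi
        have := (div_le_one (lt_of_lt_of_le one_pos h1)).2 h1
        linarith) (by simp [h0])
    simp only [stiff_top, sub_sub_sub_cancel_left] at this
    simp only [H, pathOf]
    linarith
  have hi : H (k + 1) ≤ 1 := by
    have hk : (0 : ℝ) < k + 1 := by positivity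
    have hb : ∀ i ∈ range k,
        (1 / stiff k (k + 1 + s) r i - 1 / stiff k (k + 1 + s) r (i + 1)) / lev k (i + 1) ≤
        ((k : ℝ) + 1) *
          (1 / stiff k (k + 1 + s) r i - 1 / stiff k (k + 1 + s) r (i + 1)) := by
      intro i hi
      have hi := mem_range.1 hi
      have hd : 0 ≤ 1 / stiff k (k + 1 + s) r i - 1 / stiff k (k + 1 + s) r (i + 1) :=
        sub_nonneg.2 (one_div_le_one_div_of_le (pos _ hk i hi.le) (stiff_le_succ hr hi))
      rw [div_le_iff₀ (lev_pos i), mul_comm _ (lev k (i + 1)), ← mul_assoc]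
      refine le_mul_of_one_le_left hd ?_
      rw [lev, div_mul_cancel₀ _ hk.ne']
      exact_mod_cast Nat.le_add_left 1 i
    have := sum_le_sum hb
    rw [← mul_sum, sum_range_sub', h0, stiff_top, mul_sub, mul_one_div_cancel hk.ne'] at this
    have hpos : 0 < 1 / ((k : ℝ) + 1 + s) := by
      have := pos _ hk k le_rfl; rw [stiff_top] at this; exact one_div_pos.2 this
    simp only [H, pathOf]
    nlinarith [mul_nonneg (Nat.cast_nonneg k : (0 : ℝ) ≤ k) hpos.le]
  obtain ⟨x, hx, he⟩ := intermediate_value_Icc' (by linarith [(Nat.cast_nonneg k : (0 : ℝ) ≤ k)])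
    hcont (show (1 : ℝ) ∈ Set.Icc (H (k + 1)) (H 1) from ⟨hi, lo⟩)
  have hx0 : (0 : ℝ) < x := lt_of_lt_of_le one_pos hx.1
  have hb := pos x hx0
  let q := pathOf k (x + s) r
  have hq : IsPath k q := ⟨by simp [q, pathOf], fun i hi => by
    simp only [q, pathOf, sum_range_succ]
    exact le_add_of_nonneg_right (div_nonneg (sub_nonneg.2 (one_div_le_one_div_of_le
      (hb i hi.le) (stiff_le_succ hr hi))) (lev_nonneg _))⟩
  have hk := hb k le_rfl
  rw [stiff_top] at hk
  refine ⟨x + s, q, hq, ?_, hb 0 (Nat.zero_le k), ?_⟩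
  · have := one_div_pos.2 hk
    simp only [H] at he
    simp only [q]; linarith
  intro i hi
  suffices room k q i = 1 / stiff k (x + s) r i by
    rw [this]; field_simp [(hb i hi).ne']
  induction hm : k - i generalizing i with
  | zero =>
    obtain rfl : i = k := by omega
    rw [room_top, stiff_top]
    simp only [H] at he
    simp only [q]; linarith
  | succ n ih =>
    rw [room_step (show i < k by omega), ih (i + 1) (by omega) (by omega)]
    simp only [q, pathOf, sum_range_succ, add_sub_cancel_left]
    field_simp [(lev_pos (k := k) i).ne']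
    ring

/-- The best overlap path for a field path. -/
theorem exists_opt (hr : IsPath k r) :
    ∃ q, IsPath k q ∧ q k < 1 ∧
      ∀ b, 0 < stiff k b r 0 → S k q - pair k q r / 2 ≤ G k b r := by
  obtain ⟨b', q, hq, hq1, _, h⟩ := exists_stationary hr
  exact ⟨q, hq, hq1, fun b hb => entropy_le_G hq hq1 hr h hb⟩

theorem entropy_nonneg_at_zero (hq : IsPath k q) (hq1 : q k < 1) : 0 ≤ S k q := by
  obtain ⟨b, hb0, hb⟩ := G_le_entropy hq hq1 (isPath_zero (k := k))
  have e : ∀ i, stiff k b (fun _ => (0 : ℝ)) i = b := fun i => by simp [stiff]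
  rw [e] at hb0
  have hp : 0 < b := hb0 ▸ one_div_pos.2 (room_pos hq hq1 0)
  have := log_le_sub_one_of_pos hp
  simp only [G, e, pair, sub_self, zero_div, sum_const_zero, mul_zero] at hb
  linarith

theorem entropy_zero : S k (fun _ => 0) = 0 := by simp [S, room]

theorem neg_pair_le_G (hr : IsPath k r) {R : ℝ} (hR : r k ≤ R) (hb : 0 < stiff k b r 0) :
    -(R / 2) ≤ G k b r := by
  obtain ⟨q, hq, hq1, h⟩ := exists_opt hr
  have hr0 : 0 ≤ R := (hr.nonneg le_rfl).trans hR
  have hp : pair k q r ≤ R := by
    calc pair k q r ≤ wid k * ∑ _i ∈ range k, R := by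
          refine mul_le_mul_of_nonneg_left (sum_le_sum fun i hi => ?_) wid_pos.le
          have := mem_range.1 hi
          calc q (i + 1) * r (i + 1) ≤ 1 * r (i + 1) := by
                refine mul_le_mul_of_nonneg_right ?_ (hr.nonneg (by omega))
                linarith [hq.le (show i + 1 ≤ k by omega) le_rfl]
            _ ≤ R := by linarith [hr.le (show i + 1 ≤ k by omega) le_rfl]
      _ ≤ R := by
          rw [sum_const, card_range, nsmul_eq_mul, ← mul_assoc]
          exact mul_le_of_le_one_left hr0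
            ((mul_comm _ _).trans_le (natCast_mul_wid_le (by omega)))
  linarith [h b hb, entropy_nonneg_at_zero hq hq1]

/-- The mean absolute defect at the cavity multiplier. -/
noncomputable def err (k : ℕ) (q r : ℕ → ℝ) : ℝ :=
  wid k * ∑ i ∈ range k, |defect k (cavMult k q r) q r (i + 1)|

theorem err_nonneg : 0 ≤ err k q r :=
  mul_nonneg wid_pos.le (sum_nonneg fun _ _ => abs_nonneg _)

theorem abs_tau_defect_le (j : ℕ) :
    |tau k (defect k (cavMult k q r) q r) j| ≤ err k q r := by
  rw [tau, abs_mul, abs_of_pos wid_pos]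
  refine mul_le_mul_of_nonneg_left ((abs_sum_le_sum_abs _ _).trans
    (sum_le_sum_of_subset_of_nonneg ?_ fun _ _ _ => abs_nonneg _)) wid_pos.le
  intro i hi
  exact mem_range.2 (mem_Ico.1 hi).2

theorem abs_cav_product_le {j : ℕ} (hj : j ≤ k) :
    |stiff k (cavMult k q r) r j * room k q j - 1| ≤
      |defect k (cavMult k q r) q r j| + err k q r := by
  rw [cav_product hj]
  refine (abs_sub _ _).trans (add_le_add ?_ (abs_tau_defect_le j))
  rw [abs_neg, abs_mul, abs_of_nonneg (lev_nonneg _)]
  exact mul_le_of_le_one_left (abs_nonneg _) (lev_le_one (by omega))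

theorem defect_cav {j : ℕ} (hj : j ≤ k) :
    defect k (cavMult k q r) q r j =
      q j * (1 - pair k q r + lev k (j + 1) * r j + tau k r j)
        + wid k * (∑ i ∈ range j, r (i + 1) * q (i + 1)) - r j + r j * tau k q j := by
  rw [defect, stiff_eq hj, cavMult]; ring

/-- Cutting the path at `1 - c` changes little when the defect is small. -/
theorem exists_cut {R : ℝ} (hq : IsPath k q) (hq1 : q k ≤ 1) (hr : IsPath k r) (hR : r k ≤ R)
    (he : err k q r ≤ 1 / 4) :
    ∃ q', IsPath k q' ∧ q' k ≤ 1 - 1 / (2 * (1 + R)) ∧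
      (wid k * ∑ i ∈ range k, |q' (i + 1) - q (i + 1)|) ≤ 4 * err k q r ∧
      err k q' r ≤ (5 + 24 * R) * err k q r := by
  have hR0 : 0 ≤ R := (hr.nonneg le_rfl).trans hR
  set c := 1 / (2 * (1 + R)) with hc
  have hcp : 0 < c := by positivity
  have hc1 : c ≤ 1 := by rw [hc, div_le_one (by positivity)]; linarith
  let q' : ℕ → ℝ := fun i => min (q i) (1 - c)
  have hq' : IsPath k q' := ⟨by simp [q', hq.zero, hc1], fun i hi =>
    min_le_min (hq.mono i hi) le_rfl⟩
  have hd : ∀ j ≤ k, |q' j - q j| ≤ 4 * |defect k (cavMult k q r) q r j| := by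
    intro j hj
    rcases le_or_gt (q j) (1 - c) with h | h
    · simp [q', min_eq_left h]
    have hv0 : 0 ≤ room k q j := le_trans (by linarith) (one_sub_top_le_room hq j)
    have hv : room k q j ≤ c := by linarith [room_le hq hj]
    have hb : stiff k (cavMult k q r) r j ≤ 1 + R := by
      have := stiff_le_top (b := cavMult k q r) hr hj
      have := pair_nonneg hq hr
      simp only [cavMult] at *
      linarith
    have hp : stiff k (cavMult k q r) r j * room k q j ≤ 1 / 2 := by
      calc stiff k (cavMult k q r) r j * room k q j ≤ (1 + R) * c :=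
            (mul_le_mul_of_nonneg_right hb hv0).trans
              (mul_le_mul_of_nonneg_left hv (by linarith))
        _ = 1 / 2 := by rw [hc]; field_simp
    have := (abs_le.1 (abs_cav_product_le (q := q) (r := r) hj)).1
    simp only [q', min_eq_right h.le]
    rw [abs_le]
    constructor <;> linarith [hq.le hj le_rfl]
  have hsum : wid k * ∑ i ∈ range k, |q' (i + 1) - q (i + 1)| ≤ 4 * err k q r := by
    rw [err, mul_left_comm, mul_sum (a := (4 : ℝ))]
    exact mul_le_mul_of_nonneg_left (sum_le_sum fun i hi => hd _ (mem_range.1 hi)) wid_pos.le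
  refine ⟨q', hq', min_le_right _ _, hsum, ?_⟩
  have tsub : ∀ j, |tau k q' j - tau k q j| ≤ 4 * err k q r := by
    intro j
    rw [tau, tau, ← mul_sub, ← sum_sub_distrib, abs_mul, abs_of_pos wid_pos]
    refine le_trans (mul_le_mul_of_nonneg_left ((abs_sum_le_sum_abs _ _).trans
      (sum_le_sum_of_subset_of_nonneg ?_ fun _ _ _ => abs_nonneg _)) wid_pos.le) hsum
    intro i hi
    exact mem_range.2 (mem_Ico.1 hi).2
  have rle : ∀ i ≤ k, |r i| ≤ R := fun i hi => by
    rw [abs_of_nonneg (hr.nonneg hi)]; exact (hr.le hi le_rfl).trans hR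
  have pq : ∀ q'' : ℕ → ℝ, ∀ j ≤ k, wid k * ∑ i ∈ range j, |r (i + 1)| * |q'' (i + 1)| ≤
      R * (wid k * ∑ i ∈ range k, |q'' (i + 1)|) := by
    intro q'' j hj
    rw [mul_left_comm R, mul_sum (a := R)]
    refine mul_le_mul_of_nonneg_left ?_ wid_pos.le
    refine le_trans (sum_le_sum_of_subset_of_nonneg (range_mono hj) fun i _ _ =>
      mul_nonneg (abs_nonneg _) (abs_nonneg _)) (sum_le_sum fun i hi => ?_)
    exact mul_le_mul_of_nonneg_right (rle _ (mem_range.1 hi)) (abs_nonneg _)
  have hd' : ∀ j ≤ k, |defect k (cavMult k q' r) q' r j - defect k (cavMult k q r) q r j| ≤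
      4 * (1 + 3 * R) * |defect k (cavMult k q r) q r j| + 12 * R * err k q r := by
    intro j hj
    let B := 1 - pair k q r + lev k (j + 1) * r j + tau k r j
    let T := wid k * ∑ i ∈ range j, r (i + 1) * (q' (i + 1) - q (i + 1))
    have e : defect k (cavMult k q' r) q' r j - defect k (cavMult k q r) q r j =
        (q' j - q j) * B - q' j * pair k (fun i => q' i - q i) r + T
          + r j * (tau k q' j - tau k q j) := by
      rw [defect_cav hj, defect_cav hj, ← pair_sub_left]
      simp only [B, T, mul_sub (r _), sum_sub_distrib, mul_sub (wid k)]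
      ring
    have hp : |pair k q r| ≤ R := by
      rw [pair_comm]
      refine (abs_pair_le (fun i hi => rle _ hi)).trans (mul_le_of_le_one_right hR0 ?_)
      refine le_trans ?_ (natCast_mul_wid_le (k := k) (n := k) (by omega))
      rw [mul_comm (k : ℝ)]
      refine mul_le_mul_of_nonneg_left ?_ wid_pos.le
      refine le_trans (sum_le_sum (g := fun _ => (1 : ℝ)) fun i hi => ?_) (by simp)
      have := mem_range.1 hi
      rw [abs_of_nonneg (hq.nonneg (by omega))]
      exact (hq.le (by omega) le_rfl).trans hq1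
    have hB : |B| ≤ 1 + 3 * R := by
      have hl : |lev k (j + 1) * r j| ≤ R := by
        rw [abs_mul, abs_of_nonneg (lev_nonneg _)]
        exact (mul_le_of_le_one_left (abs_nonneg _) (lev_le_one (by omega))).trans (rle j hj)
      have ht : tau k r j ≤ R := by
        have := stiff_le_top (b := r k) hr hj
        rw [stiff_eq hj] at this
        nlinarith [lev_nonneg (k := k) (j + 1), hr.nonneg hj]
      have := tau_nonneg hr j
      simp only [B]
      rw [abs_le]; constructor <;> linarith [abs_le.1 hp, abs_le.1 hl]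
    have h1 : |(q' j - q j) * B| ≤ 4 * (1 + 3 * R) * |defect k (cavMult k q r) q r j| := by
      rw [abs_mul]
      refine (mul_le_mul (hd j hj) hB (abs_nonneg _) (by positivity)).trans_eq ?_
      ring
    have hq'1 : |q' j| ≤ 1 := by
      rw [abs_of_nonneg (hq'.nonneg hj)]
      exact (min_le_right _ _).trans (by linarith)
    have h2 : |q' j * pair k (fun i => q' i - q i) r| ≤ 4 * R * err k q r := by
      rw [abs_mul, pair_comm]
      refine (mul_le_of_le_one_left (abs_nonneg _) hq'1).trans ?_
      refine (abs_pair_le fun i hi => rle _ hi).trans ?_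
      refine (mul_le_mul_of_nonneg_left hsum hR0).trans_eq ?_
      ring
    have h3 : |T| ≤ 4 * R * err k q r := by
      rw [abs_mul, abs_of_pos wid_pos]
      refine le_trans (mul_le_mul_of_nonneg_left ((abs_sum_le_sum_abs _ _).trans_eq
        (sum_congr rfl fun i _ => abs_mul _ _)) wid_pos.le) ?_
      refine (pq (fun i => q' i - q i) j hj).trans ?_
      refine (mul_le_mul_of_nonneg_left hsum hR0).trans_eq ?_
      ring
    have h4 : |r j * (tau k q' j - tau k q j)| ≤ 4 * R * err k q r := by
      rw [abs_mul]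
      refine (mul_le_mul (rle j hj) (tsub j) (abs_nonneg _) hR0).trans_eq ?_
      ring
    rw [e]
    rw [abs_le] at *
    constructor <;> linarith
  have key : ∀ i ∈ range k, |defect k (cavMult k q' r) q' r (i + 1)| ≤
      (5 + 12 * R) * |defect k (cavMult k q r) q r (i + 1)| + 12 * R * err k q r := by
    intro i hi
    have := hd' (i + 1) (mem_range.1 hi)
    have := abs_sub_abs_le_abs_sub (defect k (cavMult k q' r) q' r (i + 1))
      (defect k (cavMult k q r) q r (i + 1))
    linarith
  have hs := mul_le_mul_of_nonneg_left (sum_le_sum key) (wid_pos (k := k)).le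
  rw [sum_add_distrib, ← mul_sum, sum_const, card_range, nsmul_eq_mul] at hs
  have hk : wid k * (k : ℝ) ≤ 1 := (mul_comm _ _).trans_le (natCast_mul_wid_le (by omega))
  have h12 := mul_le_mul_of_nonneg_right hk
    (mul_nonneg (by linarith : (0 : ℝ) ≤ 12 * R) (err_nonneg (k := k) (q := q) (r := r)))
  simp only [err] at *
  nlinarith

/-- The field path that makes an overlap path stationary. -/
noncomputable def fieldOf (k : ℕ) (q : ℕ → ℝ) (n : ℕ) : ℝ :=
  ∑ i ∈ range n, (1 / room k q (i + 1) - 1 / room k q i) / lev k (i + 1)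

theorem fieldOf_spec (hq : IsPath k q) (hq1 : q k < 1) :
    IsPath k (fieldOf k q) ∧ ∀ i ≤ k,
      stiff k (cavMult k q (fieldOf k q)) (fieldOf k q) i * room k q i = 1 ∧
      defect k (cavMult k q (fieldOf k q)) q (fieldOf k q) i = 0 := by
  let r := fieldOf k q
  have hpos := room_pos hq hq1
  have hr : IsPath k r := ⟨by simp [r, fieldOf], fun i hi => by
    simp only [r, fieldOf, sum_range_succ]
    refine le_add_of_nonneg_right (div_nonneg (sub_nonneg.2
      (one_div_le_one_div_of_le (hpos _) ?_)) (lev_nonneg _))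
    rw [room_step hi]; nlinarith [lev_pos (k := k) i, hq.mono i hi]⟩
  have h1 : ∀ i ≤ k, stiff k (1 / (1 - q k)) r i * room k q i = 1 := by
    intro i hi
    suffices stiff k (1 / (1 - q k)) r i = 1 / room k q i by
      rw [this]; exact one_div_mul_cancel (hpos i).ne'
    induction hm : k - i generalizing i with
    | zero =>
      obtain rfl : i = k := by omega
      rw [stiff_top, room_top]
    | succ n ih =>
      rw [stiff_step (show i < k by omega), ih (i + 1) (by omega) (by omega)]
      simp only [r, fieldOf, sum_range_succ, add_sub_cancel_left]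
      field_simp [(lev_pos (k := k) i).ne']
      ring
  have h2 : ∀ i ≤ k, defect k (1 / (1 - q k)) q r i = 0 := by
    intro i hi
    induction i with
    | zero => exact defect_zero hq.zero hr.zero
    | succ n ih =>
      have e := excess_succ (b := 1 / (1 - q k)) (q := q) (r := r) (show n < k by omega)
      rw [h1 _ hi, h1 n (by omega), sub_self, ih (by omega), sub_zero] at e
      rcases mul_eq_zero.1 (neg_eq_zero.1 e.symm) with h | h
      · exact absurd h (lev_pos n).ne'
      · exact h
  have hb : cavMult k q r = 1 / (1 - q k) := by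
    have e := h2 k le_rfl
    rw [defect_top] at e
    have : (1 - q k) * (1 / (1 - q k)) = 1 := mul_one_div_cancel (by linarith)
    simp only [cavMult]
    nlinarith
  exact ⟨hr, fun i hi => by rw [hb]; exact ⟨h1 i hi, h2 i hi⟩⟩

theorem gronwall {x B : ℕ → ℝ} {c : ℝ} (hc : 0 < c) (hB : ∀ i < k, 0 ≤ B i)
    (hx : ∀ i < k, |x i| ≤ B i + (wid k * ∑ l ∈ range i, |x l|) / c) :
    (wid k * ∑ i ∈ range k, |x i|) ≤ exp (1 / c) * (wid k * ∑ i ∈ range k, B i) := by
  have hw := wid_pos (k := k)
  have h : ∀ n ≤ k, wid k * ∑ i ∈ range n, |x i| ≤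
      (1 + wid k / c) ^ n * (wid k * ∑ i ∈ range n, B i) := by
    intro n hn
    induction n with
    | zero => simp
    | succ n ih =>
      have h1 := mul_le_mul_of_nonneg_left (hx n (by omega)) hw.le
      have h2 := mul_le_mul_of_nonneg_left (ih (by omega))
        (show 0 ≤ 1 + wid k / c by positivity)
      have h3 : wid k * B n ≤ (1 + wid k / c) ^ (n + 1) * (wid k * B n) :=
        le_mul_of_one_le_left (mul_nonneg hw.le (hB n (by omega)))
          (one_le_pow₀ (le_add_of_nonneg_right (by positivity)))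
      rw [sum_range_succ, sum_range_succ, mul_add, mul_add, mul_add]
      have e : (1 + wid k / c) * (wid k * ∑ i ∈ range n, |x i|) =
          wid k * ∑ i ∈ range n, |x i| + wid k * ((wid k * ∑ i ∈ range n, |x i|) / c) := by ring
      rw [← mul_assoc ((1 + wid k / c)) ((1 + wid k / c) ^ n), ← pow_succ'] at h2
      linarith
  refine (h k le_rfl).trans (mul_le_mul_of_nonneg_right ?_
    (mul_nonneg hw.le (sum_nonneg fun i hi => hB i (mem_range.1 hi))))
  calc (1 + wid k / c) ^ k ≤ exp (wid k / c) ^ k :=
        pow_le_pow_left₀ (by positivity) (by linarith [add_one_le_exp (wid k / c)]) k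
    _ = exp (k * (wid k / c)) := (exp_nat_mul _ _).symm
    _ ≤ exp (1 / c) := exp_le_exp.2 (by
        rw [← mul_div_assoc]
        exact div_le_div_of_nonneg_right (natCast_mul_wid_le (by omega)) hc.le)

/-- Away from overlap one the field path is determined up to the defect. -/
theorem dist_fieldOf_le (hq : IsPath k q) {c : ℝ} (hc : 0 < c) (hqc : q k ≤ 1 - c) :
    (wid k * ∑ i ∈ range k, |r (i + 1) - fieldOf k q (i + 1)|) ≤
      exp (1 / c) * (2 / c + 2 / c ^ 2) * err k q r := by
  have hc1 : c ≤ 1 := by linarith [hq.nonneg (le_refl k)]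
  have hq1 : q k < 1 := by linarith
  obtain ⟨hρ, hspec⟩ := fieldOf_spec hq hq1
  let ρ := fieldOf k q
  let x : ℕ → ℝ := fun i => r i - ρ i
  let δ : ℕ → ℝ := fun i => stiff k (cavMult k q r) r i - stiff k (cavMult k q ρ) ρ i
  let E := defect k (cavMult k q r) q r
  let e := err k q r
  have hv : ∀ i, c ≤ room k q i := fun i => le_trans (by linarith) (one_sub_top_le_room hq i)
  have hδ : ∀ i ≤ k, |δ i| ≤ (|E i| + e) / c := by
    intro i hi
    have h := abs_cav_product_le (q := q) (r := r) hi
    rw [← (hspec i hi).1, ← sub_mul, abs_mul, abs_of_pos (hc.trans_le (hv i))] at h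
    rw [le_div_iff₀ hc]
    exact (mul_le_mul_of_nonneg_left (hv i) (abs_nonneg _)).trans h
  have hx : ∀ i < k, |x (i + 1)| ≤
      ((|E (i + 1)| + e) / c + |E (i + 1)|) / c + (wid k * ∑ l ∈ range i, |x (l + 1)|) / c := by
    intro i hi
    have h0 : defect k (cavMult k q ρ) q ρ (i + 1) = 0 := (hspec (i + 1) hi).2
    have hE : E (i + 1) = q (i + 1) * δ (i + 1)
        + wid k * (∑ l ∈ range i, x (l + 1) * q (l + 1))
        - x (i + 1) * (1 - tau k q (i + 1) - wid k * q (i + 1)) := by
      simp only [E, δ, x, sub_mul, sum_sub_distrib]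
      rw [← sub_zero (defect k (cavMult k q r) q r (i + 1)), ← h0]
      simp only [defect, sum_range_succ]
      ring
    have hco : c ≤ 1 - tau k q (i + 1) - wid k * q (i + 1) := by
      have := room_eq (q := q) (k := k) (j := i + 1) hi
      have := hv (i + 1)
      have : lev k (i + 1 + 1) * q (i + 1) = lev k (i + 1) * q (i + 1) + wid k * q (i + 1) := by
        rw [lev_succ]; ring
      nlinarith [lev_nonneg (k := k) (i + 1), hq.nonneg (show i + 1 ≤ k from hi)]
    have hq1' : ∀ l ≤ k, |q l| ≤ 1 := fun l hl => by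
      rw [abs_of_nonneg (hq.nonneg hl)]; linarith [hq.le hl le_rfl]
    have hsum : |wid k * ∑ l ∈ range i, x (l + 1) * q (l + 1)| ≤
        wid k * ∑ l ∈ range i, |x (l + 1)| := by
      rw [abs_mul, abs_of_pos wid_pos]
      refine mul_le_mul_of_nonneg_left ((abs_sum_le_sum_abs _ _).trans
        (sum_le_sum fun l hl => ?_)) wid_pos.le
      have := mem_range.1 hl
      rw [abs_mul]
      exact mul_le_of_le_one_right (abs_nonneg _) (hq1' _ (by omega))
    have hqd : |q (i + 1) * δ (i + 1)| ≤ (|E (i + 1)| + e) / c := by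
      rw [abs_mul]
      exact (mul_le_of_le_one_left (abs_nonneg _) (hq1' _ hi)).trans (hδ _ hi)
    have hmul : |x (i + 1)| * c ≤ |x (i + 1) * (1 - tau k q (i + 1) - wid k * q (i + 1))| := by
      rw [abs_mul, abs_of_pos (hc.trans_le hco)]
      exact mul_le_mul_of_nonneg_left hco (abs_nonneg _)
    have h5 : |x (i + 1) * (1 - tau k q (i + 1) - wid k * q (i + 1))| ≤
        |q (i + 1) * δ (i + 1)| + |wid k * ∑ l ∈ range i, x (l + 1) * q (l + 1)|
          + |E (i + 1)| := by
      rw [show x (i + 1) * (1 - tau k q (i + 1) - wid k * q (i + 1)) = q (i + 1) * δ (i + 1)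
        + wid k * (∑ l ∈ range i, x (l + 1) * q (l + 1)) - E (i + 1) by linarith]
      exact (abs_sub _ _).trans (add_le_add (abs_add_le _ _) le_rfl)
    rw [← add_div, le_div_iff₀ hc]
    linarith
  have he := err_nonneg (k := k) (q := q) (r := r)
  have g := gronwall (k := k) (x := fun i => x (i + 1))
    (B := fun i => ((|E (i + 1)| + e) / c + |E (i + 1)|) / c) hc
    (fun i _ => by positivity) hx
  refine g.trans ?_
  rw [mul_assoc (exp (1 / c))]
  refine mul_le_mul_of_nonneg_left ?_ (exp_pos _).le
  have hk : wid k * (k : ℝ) ≤ 1 := (mul_comm _ _).trans_le (natCast_mul_wid_le (by omega))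
  have es : wid k * ∑ i ∈ range k, ((|E (i + 1)| + e) / c + |E (i + 1)|) / c =
      (1 / c + 1 / c ^ 2) * e + wid k * k * (e / c ^ 2) := by
    have : e = wid k * ∑ i ∈ range k, |E (i + 1)| := rfl
    conv_rhs => rw [this]
    simp only [add_div, sum_add_distrib, ← sum_div, sum_const, card_range, nsmul_eq_mul]
    rw [← this]
    generalize ∑ i ∈ range k, |E (i + 1)| = T at this ⊢
    rw [this]
    field_simp
    ring
  rw [es]
  have := mul_le_mul_of_nonneg_right hk (show 0 ≤ e / c ^ 2 from div_nonneg he (sq_nonneg c))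
  have : 0 ≤ e / c := div_nonneg he hc.le
  ring_nf at *
  linarith

/-- The constant of `lower_of_defect`. -/
noncomputable def stabC (R : ℝ) : ℝ :=
  4 + 4 * R + exp (2 * (1 + R)) * (4 * (1 + R) + 8 * (1 + R) ^ 2) * (5 + 24 * R)

/-- The lower bound from an approximately consistent pair of paths. -/
theorem lower_of_defect {R : ℝ} (hq : IsPath k q) (hq1 : q k ≤ 1) (hr : IsPath k r)
    (hR : r k ≤ R) :
    ∃ q', IsPath k q' ∧ q' k < 1 ∧
      (wid k * ∑ i ∈ range k, |q' (i + 1) - q (i + 1)|) ≤ 4 * err k q r ∧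
      ∀ b, 0 < stiff k b r 0 → S k q' - pair k q' r / 2 - stabC R * err k q r ≤ G k b r := by
  have hR0 : 0 ≤ R := (hr.nonneg le_rfl).trans hR
  have he := err_nonneg (k := k) (q := q) (r := r)
  have hC : 0 ≤ exp (2 * (1 + R)) * (4 * (1 + R) + 8 * (1 + R) ^ 2) * (5 + 24 * R) := by
    positivity
  rcases le_or_gt (err k q r) (1 / 4) with h | h
  · obtain ⟨q', hq', hq'c, hd, he'⟩ := exists_cut hq hq1 hr hR h
    have hc : 0 < 1 / (2 * (1 + R)) := by positivity
    have hq'1 : q' k < 1 := by linarith
    refine ⟨q', hq', hq'1, hd, fun b hb => ?_⟩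
    have hA := dist_fieldOf_le (r := r) hq' hc hq'c
    obtain ⟨hρ, hspec⟩ := fieldOf_spec hq' hq'1
    obtain ⟨qs, hqs, hqs1, hopt⟩ := exists_opt hr
    obtain ⟨b2, hb2, hle⟩ := G_le_entropy hqs hqs1 hρ
    have h2 := entropy_le_G hq' hq'1 hρ (fun i hi => (hspec i hi).1)
      (hb2.symm ▸ one_div_pos.2 (room_pos hqs hqs1 0) : 0 < stiff k b2 (fieldOf k q') 0)
    have hbd : ∀ p : ℕ → ℝ, IsPath k p → p k ≤ 1 →
        |pair k p r - pair k p (fieldOf k q')| ≤
          1 * (wid k * ∑ i ∈ range k, |r (i + 1) - fieldOf k q' (i + 1)|) := by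
      intro p hp hp1
      rw [pair_sub_right]
      refine abs_pair_le fun i hi => ?_
      rw [abs_of_nonneg (hp.nonneg hi)]
      exact (hp.le hi le_rfl).trans hp1
    have p1 := abs_le.1 (hbd qs hqs hqs1.le)
    have p2 := abs_le.1 (hbd q' hq' hq'1.le)
    have hs := hopt b hb
    rw [one_div_one_div,
      show 2 / (1 / (2 * (1 + R))) + 2 / (1 / (2 * (1 + R))) ^ 2 =
        4 * (1 + R) + 8 * (1 + R) ^ 2 by field_simp; ring] at hA
    have hA' := mul_le_mul_of_nonneg_left he'
      (show 0 ≤ exp (2 * (1 + R)) * (4 * (1 + R) + 8 * (1 + R) ^ 2) by positivity)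
    simp only [stabC]
    nlinarith
  · refine ⟨fun _ => 0, isPath_zero, one_pos, ?_, fun b hb => ?_⟩
    · have hk : wid k * (k : ℝ) ≤ 1 := (mul_comm _ _).trans_le (natCast_mul_wid_le (by omega))
      have : ∑ i ∈ range k, |(0 : ℝ) - q (i + 1)| ≤ k := by
        refine le_trans (sum_le_sum (g := fun _ => (1 : ℝ)) fun i hi => ?_) (by simp)
        have := mem_range.1 hi
        rw [zero_sub, abs_neg, abs_of_nonneg (hq.nonneg (by omega))]
        exact (hq.le (by omega) le_rfl).trans hq1
      have := mul_le_mul_of_nonneg_left this (wid_pos (k := k)).le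
      linarith
    · have := neg_pair_le_G hr hR hb
      have e : pair k (fun _ => (0 : ℝ)) r = 0 := by simp [pair]
      rw [entropy_zero, e]
      simp only [stabC]
      nlinarith [mul_nonneg hC he]

/-- The same bound with the fields split into an external part and a part paired with `q`. -/
theorem lower_of_defect_split {R : ℝ} {r₀ : ℕ → ℝ} (hq : IsPath k q) (hq1 : q k ≤ 1)
    (hr : IsPath k r) (hR : r k ≤ R) (hs : ∀ i < k, |r (i + 1) - r₀ (i + 1)| ≤ R) :
    ∃ q', IsPath k q' ∧ q' k < 1 ∧
      (wid k * ∑ i ∈ range k, |q' (i + 1) - q (i + 1)|) ≤ 4 * err k q r ∧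
      ∀ b, 0 < stiff k b r 0 → S k q' - pair k q' r₀ / 2 - (stabC R + 2 * R) * err k q r ≤
        G k b r + (pair k q r - pair k q r₀) / 2 := by
  obtain ⟨q', hq', hq'1, hd, h⟩ := lower_of_defect hq hq1 hr hR
  refine ⟨q', hq', hq'1, hd, fun b hb => ?_⟩
  have h1 := h b hb
  have hR0 : 0 ≤ R := (hr.nonneg le_rfl).trans hR
  have h2 : |pair k (fun i => q' i - q i) fun i => r i - r₀ i| ≤ 4 * R * err k q r := by
    rw [pair_comm]
    refine (abs_pair_le hs).trans ((mul_le_mul_of_nonneg_left hd hR0).trans_eq ?_)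
    ring
  rw [← pair_sub_left, ← pair_sub_right, ← pair_sub_right] at h2
  have := (abs_le.1 h2).2
  linarith

end Vale.Agent.P157.RsbAlg
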