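import Vale.Agent.P157.Kernel
import Vale.Agent.P157.Sampling
import Vale.Agent.P157.Rsb.Intf

/-!
# P157: from smooth potentials of compact support to bounded measurable ones
-/

open MeasureTheory ProbabilityTheory Real

namespace Vale.Agent.P157.Rsb

section lip

variable {ι X : Type} [Fintype ι] [MeasurableSpace X] {μ : Measure X} [IsProbabilityMeasure μ]
  {v : X → ι → ℝ} {f h : ℝ → ℝ} {L : ℝ}

/-- A weighted partition function. -/
noncomputable def lz (μ : Measure X) (w E : X → ℝ) : ℝ := log (∫ x, w x * exp (E x) ∂μ)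

/-- A weight bounded above and below. -/
def IsWt (w : X → ℝ) (B : ℝ) : Prop := Measurable w ∧ ∀ x, exp (-B) ≤ w x ∧ w x ≤ exp B

theorem IsWt.mul_exp {w E : X → ℝ} {B C : ℝ} (hw : IsWt w B) (hE : Measurable E)
    (hC : ∀ x, |E x| ≤ C) : IsWt (fun x => w x * exp (E x)) (B + C) := by
  refine ⟨hw.1.mul hE.exp, fun x => ⟨?_, ?_⟩⟩
  · rw [neg_add, exp_add]
    exact mul_le_mul (hw.2 x).1 (exp_le_exp.2 (abs_le.1 (hC x)).1) (exp_pos _).le
      ((exp_pos _).le.trans (hw.2 x).1)
  · rw [exp_add]
    exact mul_le_mul (hw.2 x).2 (exp_le_exp.2 (abs_le.1 (hC x)).2) (exp_pos _).le (exp_pos _).le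

theorem IsWt.integrable {w : X → ℝ} {B : ℝ} (hw : IsWt w B) : Integrable w μ :=
  Integrable.of_bound hw.1.aestronglyMeasurable (exp B) (ae_of_all _ fun x => by
    rw [norm_eq_abs, abs_of_pos ((exp_pos _).trans_le (hw.2 x).1)]; exact (hw.2 x).2)

theorem IsWt.abs_log {w : X → ℝ} {B : ℝ} (hw : IsWt w B) :
    exp (-B) ≤ ∫ x, w x ∂μ ∧ |log (∫ x, w x ∂μ)| ≤ B := by
  have h1 : exp (-B) ≤ ∫ x, w x ∂μ := by
    simpa using integral_mono (integrable_const (exp (-B))) (hw.integrable (μ := μ)) fun x => (hw.2 x).1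
  have h2 : ∫ x, w x ∂μ ≤ exp B := by
    simpa using integral_mono (hw.integrable (μ := μ)) (integrable_const (exp B)) fun x => (hw.2 x).2
  refine ⟨h1, abs_le.2 ⟨?_, ?_⟩⟩
  · simpa using log_le_log (exp_pos _) h1
  · simpa using log_le_log ((exp_pos _).trans_le h1) h2

theorem abs_exp_sub_le {a b L : ℝ} (ha : a ≤ L) (hb : b ≤ L) :
    |exp a - exp b| ≤ exp L * |a - b| := by
  have key : ∀ {a b : ℝ}, a ≤ L → exp a - exp b ≤ exp L * |a - b| := fun {a b} ha => by
    have h1 := add_one_le_exp (b - a)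
    have h2 : exp b = exp a * exp (b - a) := by rw [← exp_add]; congr 1; ring
    have h3 : exp a * (a - b) ≤ exp a * |a - b| := mul_le_mul_of_nonneg_left (le_abs_self _) (exp_pos _).le
    nlinarith [mul_le_mul_of_nonneg_left h1 (exp_pos a).le,
      mul_le_mul_of_nonneg_right (exp_le_exp.2 ha) (abs_nonneg (a - b))]
  rw [abs_le]
  constructor
  · have := key (b := a) hb; rw [abs_sub_comm b] at this; linarith
  · exact key ha

theorem lz_one (hv : Measurable v) (hu : ∀ x, ∑ i, v x i ^ 2 = 1) (hf : Measurable f)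
    (hh : Measurable h) (hfL : ∀ u, |f u| ≤ L) (hhL : ∀ u, |h u| ≤ L) {w : X → ℝ} {B : ℝ}
    (hw : IsWt w B) :
    |∫ y, lz μ w (fun x => f (dot y (v x))) ∂gauss ι - ∫ y, lz μ w (fun x => h (dot y (v x))) ∂gauss ι|
      ≤ exp (2 * L) * ∫ u, |f u - h u| ∂gaussianReal 0 1 := by
  have hd : Measurable fun p : (ι → ℝ) × X => dot p.1 (v p.2) :=
    continuous_dot.measurable.comp (measurable_fst.prodMk (hv.comp measurable_snd))
  have hint : ∀ e : ℝ → ℝ, Measurable e → (∀ u, |e u| ≤ L) →
      Integrable (fun y => lz μ w fun x => e (dot y (v x))) (gauss ι) := by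
    intro e he heL
    refine Integrable.of_bound ?_ (B + L) (ae_of_all _ fun y => ?_)
    · exact (((hw.1.comp measurable_snd).mul (he.comp hd).exp).stronglyMeasurable.integral_prod_right'
        (ν := μ)).measurable.log.aestronglyMeasurable
    · rw [norm_eq_abs]
      exact (hw.mul_exp (he.comp (hd.comp (measurable_const.prodMk measurable_id))) fun x => heL _).abs_log.2
  rw [← integral_sub (hint f hf hfL) (hint h hh hhL)]
  have hW := (hw.abs_log (μ := μ)).1
  set W := ∫ x, w x ∂μ with hWd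
  have hW0 : 0 < W := (exp_pos _).trans_le hW
  let D : (ι → ℝ) → X → ℝ := fun y x => w x * |f (dot y (v x)) - h (dot y (v x))|
  have hDm : Measurable fun p : (ι → ℝ) × X => D p.1 p.2 :=
    (hw.1.comp measurable_snd).mul ((hf.comp hd).sub (hh.comp hd)).norm
  have hDb : ∀ y x, 0 ≤ D y x ∧ D y x ≤ exp B * (2 * L) := fun y x => by
    have h1 : |f (dot y (v x)) - h (dot y (v x))| ≤ 2 * L :=
      (abs_sub _ _).trans (by linarith [hfL (dot y (v x)), hhL (dot y (v x))])
    exact ⟨mul_nonneg ((exp_pos _).le.trans (hw.2 x).1) (abs_nonneg _),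
      mul_le_mul (hw.2 x).2 h1 (abs_nonneg _) (exp_pos _).le⟩
  have hDi : Integrable (fun p : (ι → ℝ) × X => D p.1 p.2) ((gauss ι).prod μ) :=
    Integrable.of_bound hDm.aestronglyMeasurable (exp B * (2 * L)) (ae_of_all _ fun p => by
      rw [norm_eq_abs, abs_of_nonneg (hDb _ _).1]; exact (hDb _ _).2)
  have hswap : ∫ y, ∫ x, D y x ∂μ ∂gauss ι = W * ∫ u, |f u - h u| ∂gaussianReal 0 1 := by
    rw [integral_integral_swap (f := D) hDi, hWd, ← integral_mul_const]
    refine integral_congr_ae (ae_of_all _ fun x => ?_)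
    simp only [D]
    rw [integral_const_mul, integral_dot (hu x) (f := fun u => |f u - h u|) (hf.sub hh).norm]
  have hpt : ∀ y, |lz μ w (fun x => f (dot y (v x))) - lz μ w (fun x => h (dot y (v x)))|
      ≤ exp (2 * L) / W * ∫ x, D y x ∂μ := by
    intro y
    have hy : Measurable fun x => dot y (v x) := hd.comp (measurable_const.prodMk measurable_id)
    have low : ∀ e : ℝ → ℝ, Measurable e → (∀ u, |e u| ≤ L) →
        Integrable (fun x => w x * exp (e (dot y (v x)))) μ ∧
        W * exp (-L) ≤ ∫ x, w x * exp (e (dot y (v x))) ∂μ := by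
      intro e he heL
      have hi := (hw.mul_exp (he.comp hy) fun x => heL _).integrable (μ := μ)
      refine ⟨hi, ?_⟩
      rw [hWd, ← integral_mul_const]
      exact integral_mono (hw.integrable.mul_const _) hi fun x =>
        mul_le_mul_of_nonneg_left (exp_le_exp.2 (abs_le.1 (heL _)).1) ((exp_pos _).le.trans (hw.2 x).1)
    obtain ⟨ia, la⟩ := low f hf hfL
    obtain ⟨ib, lb⟩ := low h hh hhL
    have e0 : W * exp (-L) = exp (-(L - log W)) := by
      rw [neg_sub, exp_sub, exp_log hW0, exp_neg, div_eq_mul_inv]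
    rw [e0] at la lb
    refine (log_dist la lb).trans ?_
    have e1 : exp (L - log W) = exp L / W := by rw [exp_sub, exp_log hW0]
    rw [e1, two_mul L, exp_add, mul_div_assoc (exp L) (exp L), mul_comm (exp L) (exp L / W), mul_assoc]
    refine mul_le_mul_of_nonneg_left ?_ (by positivity)
    rw [← integral_sub ia ib, ← integral_const_mul]
    refine abs_integral_le_integral_abs.trans (integral_mono (ia.sub ib).abs ?_ fun x => ?_)
    · exact (Integrable.of_bound (hDm.comp (measurable_const.prodMk measurable_id)).aestronglyMeasurable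
        (exp B * (2 * L)) (ae_of_all _ fun x => by
          rw [norm_eq_abs]; exact (abs_of_nonneg (hDb y x).1).le.trans (hDb y x).2)).const_mul _
    · have hw0 : 0 ≤ w x := (exp_pos _).le.trans (hw.2 x).1
      simp only [D, ← mul_sub, abs_mul, abs_of_nonneg hw0]
      rw [← mul_assoc, mul_comm (exp L) (w x), mul_assoc]
      refine mul_le_mul_of_nonneg_left ?_ hw0
      exact abs_exp_sub_le (abs_le.1 (hfL _)).2 (abs_le.1 (hhL _)).2
  refine abs_integral_le_integral_abs.trans ?_
  refine (integral_mono ((hint f hf hfL).sub (hint h hh hhL)).abs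
    (hDi.integral_prod_left.const_mul _) hpt).trans (le_of_eq ?_)
  rw [integral_const_mul, hswap]
  field_simp

theorem lz_many (hv : Measurable v) (hu : ∀ x, ∑ i, v x i ^ 2 = 1) (hf : Measurable f)
    (hh : Measurable h) (hfL : ∀ u, |f u| ≤ L) (hhL : ∀ u, |h u| ≤ L) (m : ℕ) :
    ∀ (w : X → ℝ) (B : ℝ), IsWt w B →
    |∫ G : Fin m → ι → ℝ, lz μ w (fun x => ∑ a, f (dot (G a) (v x))) ∂Measure.pi (fun _ => gauss ι)
      - ∫ G : Fin m → ι → ℝ, lz μ w (fun x => ∑ a, h (dot (G a) (v x))) ∂Measure.pi (fun _ => gauss ι)|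
      ≤ m * (exp (2 * L) * ∫ u, |f u - h u| ∂gaussianReal 0 1) := by
  induction m with
  | zero => intro w B _; simp
  | succ m ih =>
    intro w B hw
    set c := exp (2 * L) * ∫ u, |f u - h u| ∂gaussianReal 0 1
    set ν := Measure.pi fun _ : Fin m => gauss ι
    set e := MeasurableEquiv.piFinSuccAbove (fun _ : Fin (m + 1) => ι → ℝ) 0
    have he : MeasurePreserving e (Measure.pi fun _ => gauss ι) ((gauss ι).prod ν) :=
      measurePreserving_piFinSuccAbove (fun _ : Fin (m + 1) => gauss ι) 0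
    let Φ : (ℝ → ℝ) → (ℝ → ℝ) → (ι → ℝ) × (Fin m → ι → ℝ) → ℝ := fun p q z =>
      lz μ w fun x => p (dot z.1 (v x)) + ∑ a, q (dot (z.2 a) (v x))
    have hi : ∀ p q, Measurable p → Measurable q → (∀ r, |p r| ≤ L) → (∀ r, |q r| ≤ L) →
        Integrable (Φ p q) ((gauss ι).prod ν) := by
      intro p q hp hq hpL hqL
      have hE : Measurable fun z : ((ι → ℝ) × (Fin m → ι → ℝ)) × X =>
          p (dot z.1.1 (v z.2)) + ∑ a, q (dot (z.1.2 a) (v z.2)) := by
        unfold dot; fun_prop
      refine Integrable.of_bound ?_ (B + (L + m * L)) (ae_of_all _ fun z => ?_)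
      · exact (((hw.1.comp measurable_snd).mul hE.exp).stronglyMeasurable.integral_prod_right'
          (ν := μ)).measurable.log.aestronglyMeasurable
      · rw [norm_eq_abs]
        refine (hw.mul_exp (hE.comp (measurable_const.prodMk measurable_id)) fun x => ?_).abs_log.2
        refine (abs_add_le _ _).trans (add_le_add (hpL _) ((Finset.abs_sum_le_sum_abs _ _).trans ?_))
        exact (Finset.sum_le_sum fun a _ => hqL _).trans (le_of_eq (by simp))
    have hI : ∀ p, ∫ G : Fin (m + 1) → ι → ℝ, lz μ w (fun x => ∑ a, p (dot (G a) (v x)))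
        ∂Measure.pi (fun _ => gauss ι) = ∫ z, Φ p p z ∂(gauss ι).prod ν := by
      intro p
      rw [← he.integral_comp e.measurableEmbedding (Φ p p)]
      refine integral_congr_ae (ae_of_all _ fun G => ?_)
      simp only [Φ, e, Fin.sum_univ_succ]
      congr 1
    have i1 := hi f f hf hf hfL hfL
    have i2 := hi f h hf hh hfL hhL
    have i3 := hi h h hh hh hhL hhL
    have t1 : |∫ z, Φ f f z ∂(gauss ι).prod ν - ∫ z, Φ f h z ∂(gauss ι).prod ν| ≤ m * c := by
      rw [integral_prod _ i1, integral_prod _ i2, ← integral_sub i1.integral_prod_left i2.integral_prod_left]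
      refine ((norm_eq_abs _).symm.le.trans
        (norm_integral_le_of_norm_le_const (μ := gauss ι) (C := (m : ℝ) * c) (ae_of_all _ fun g => ?_))).trans ?_
      swap
      · simp
      have := ih _ _ (hw.mul_exp (E := fun x => f (dot g (v x)))
        (by unfold dot; fun_prop) fun x => hfL _)
      simpa only [norm_eq_abs, Φ, lz, exp_add, ← mul_assoc] using this
    have t2 : |∫ z, Φ f h z ∂(gauss ι).prod ν - ∫ z, Φ h h z ∂(gauss ι).prod ν| ≤ c := by
      rw [integral_prod_symm _ i2, integral_prod_symm _ i3,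
        ← integral_sub i2.integral_prod_right i3.integral_prod_right]
      refine ((norm_eq_abs _).symm.le.trans
        (norm_integral_le_of_norm_le_const (μ := ν) (C := c) (ae_of_all _ fun G => ?_))).trans ?_
      swap
      · simp [ν]
      have := lz_one (μ := μ) hv hu hf hh hfL hhL (hw.mul_exp (C := m * L)
        (E := fun x => ∑ a, h (dot (G a) (v x))) (by unfold dot; fun_prop) fun x => by
          exact (Finset.abs_sum_le_sum_abs _ _).trans
            ((Finset.sum_le_sum fun a _ => hhL _).trans (le_of_eq (by simp))))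
      simpa only [norm_eq_abs, Φ, lz, exp_add, mul_assoc, mul_comm (exp (∑ a, h _))] using this
    rw [hI f, hI h]
    have a1 := abs_le.1 t1
    have a2 := abs_le.1 t2
    push_cast
    rw [abs_le]
    constructor <;> linarith

end lip

theorem exists_good {f : ℝ → ℝ} {L ε : ℝ} (hf : Measurable f) (hL : ∀ u, |f u| ≤ L) (hε : 0 < ε) :
    ∃ h : ℝ → ℝ, Good h ∧ (∀ u, |h u| ≤ L + 1) ∧ ∫ u, |f u - h u| ∂gaussianReal 0 1 ≤ ε := by
  have hfi : Integrable f (gaussianReal 0 1) :=
    Integrable.of_bound hf.aestronglyMeasurable L (ae_of_all _ hL)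
  obtain ⟨g, gsupp, gerr, gc, gi⟩ :=
    hfi.exists_hasCompactSupport_integral_sub_le (half_pos hε)
  have hL0 : 0 ≤ L := (abs_nonneg _).trans (hL 0)
  set c : ℝ → ℝ := fun u => max (-L) (min L (g u)) with hc
  have cc : Continuous c := by fun_prop
  have csupp : HasCompactSupport c := gsupp.comp_left (g := fun y => max (-L) (min L y)) (by simp [hL0])
  have cb : ∀ u, |c u| ≤ L := fun u =>
    abs_le.2 ⟨le_max_left _ _, max_le (by linarith) (min_le_left _ _)⟩
  have cf : ∀ u, |f u - c u| ≤ |f u - g u| := fun u => by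
    obtain ⟨a, b⟩ := abs_le.1 (hL u)
    simp only [hc]
    rcases le_total L (g u) with h | h
    · rw [min_eq_left h, max_eq_right (by linarith)]
      rw [abs_of_nonpos (by linarith), abs_of_nonpos (by linarith)]; linarith
    · rw [min_eq_right h]
      rcases le_total (-L) (g u) with h' | h'
      · rw [max_eq_right h']
      · rw [max_eq_left h', abs_of_nonneg (by linarith), abs_of_nonneg (by linarith)]; linarith
  set δ := min 1 (ε / 2)
  have hδ : 0 < δ := lt_min one_pos (half_pos hε)
  obtain ⟨h, hh, herr, hsupp⟩ := cc.exists_contDiff_approx 3 (ε := fun _ => δ) continuous_const fun _ => hδ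
  have herr' : ∀ u, |h u - c u| ≤ δ := fun u => by
    simpa [Real.dist_eq] using (herr u).le
  have hb : ∀ u, |h u| ≤ L + 1 := fun u => by
    have := abs_sub_abs_le_abs_sub (h u) (c u)
    linarith [herr' u, cb u, min_le_left 1 (ε / 2)]
  refine ⟨h, ⟨hh, csupp.mono hsupp⟩, hb, ?_⟩
  have hhi : Integrable h (gaussianReal 0 1) :=
    Integrable.of_bound hh.continuous.measurable.aestronglyMeasurable (L + 1) (ae_of_all _ hb)
  have i2 : Integrable (fun u => ‖f u - g u‖) (gaussianReal 0 1) := (hfi.sub gi).norm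
  calc ∫ u, |f u - h u| ∂gaussianReal 0 1 ≤ ∫ u, ‖f u - g u‖ + δ ∂gaussianReal 0 1 := by
        refine integral_mono (hfi.sub hhi).abs (i2.add (integrable_const δ)) fun u => ?_
        have := abs_sub_le (f u) (c u) (h u)
        rw [abs_sub_comm (c u)] at this
        simp only [norm_eq_abs]
        linarith [cf u, herr' u]
    _ = (∫ u, ‖f u - g u‖ ∂gaussianReal 0 1) + δ := by
        rw [integral_add i2 (integrable_const δ)]; simp
    _ ≤ ε := by linarith [min_le_right 1 (ε / 2)]

theorem pressureSphere_lip {f h : ℝ → ℝ} {L : ℝ} (hf : Measurable f) (hh : Measurable h)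
    (hfL : ∀ u, |f u| ≤ L) (hhL : ∀ u, |h u| ≤ L) {α : ℝ} (N : ℕ) (hα : 0 ≤ α) :
    |pressureSphere f α N - pressureSphere h α N|
      ≤ α * exp (8 * L) * ∫ u, |f u - h u| ∂gaussianReal 0 1 := by
  set c := ∫ u, |f u - h u| ∂gaussianReal 0 1
  have hc : 0 ≤ c := integral_nonneg fun _ => abs_nonneg _
  have hL0 : 0 ≤ L := (abs_nonneg _).trans (hfL 0)
  rcases Nat.eq_zero_or_pos N with rfl | hN
  · simp [pressureSphere]; positivity
  have : NeZero N := ⟨hN.ne'⟩
  set S := (volume : Measure (EuclideanSpace ℝ (Fin N))).toSphere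
  have : IsProbabilityMeasure ((S Set.univ)⁻¹ • S) :=
    ⟨by rw [Measure.smul_apply, smul_eq_mul,
      ENNReal.inv_mul_cancel (toSphere_univ_ne _) (measure_ne_top _ _)]⟩
  let v : Metric.sphere (0 : EuclideanSpace ℝ (Fin N)) 1 → Fin N → ℝ :=
    fun x i => (x : EuclideanSpace ℝ (Fin N)) i
  have hv : Measurable v := by fun_prop
  have hu : ∀ x, ∑ i, v x i ^ 2 = 1 := fun x => by
    simp only [v]
    rw [← EuclideanSpace.real_norm_sq_eq]; simp
  have key := lz_many (μ := (S Set.univ)⁻¹ • S) hv hu hf hh hfL hhL ⌊α * N⌋₊ (fun _ => 1) 0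
    ⟨measurable_const, by simp⟩
  have eq : ∀ e : ℝ → ℝ, pressureSphere e α N = (∫ G : Fin ⌊α * N⌋₊ → Fin N → ℝ,
      lz ((S Set.univ)⁻¹ • S) (fun _ => 1) (fun x => ∑ a, e (dot (G a) (v x)))
        ∂Measure.pi (fun _ => gauss (Fin N))) / N := by
    intro e
    have hs : √(N : ℝ) ≠ 0 := (Real.sqrt_pos.2 (by exact_mod_cast hN)).ne'
    simp only [pressureSphere, lz, one_mul, average_eq', patterns, gauss]
    congr 2
    funext g
    congr 2
    funext x
    congr 1
    refine Finset.sum_congr rfl fun a _ => ?_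
    congr 1
    simp only [dot, v, Finset.sum_div]
    refine Finset.sum_congr rfl fun i _ => ?_
    field_simp
  rw [eq f, eq h, ← sub_div, abs_div, abs_of_pos (show (0 : ℝ) < N by exact_mod_cast hN),
    div_le_iff₀ (by exact_mod_cast hN)]
  refine key.trans ?_
  calc (⌊α * N⌋₊ : ℝ) * (exp (2 * L) * c) ≤ α * N * (exp (8 * L) * c) :=
        mul_le_mul (Nat.floor_le (by positivity))
          (mul_le_mul_of_nonneg_right (exp_le_exp.2 (by linarith)) hc) (by positivity) (by positivity)
    _ = α * exp (8 * L) * c * N := by ring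

theorem approxStmt : ApproxStmt :=
  ⟨fun _ _ _ hf hL hε => exists_good hf hL hε,
    fun _ _ _ hf hh hfL hhL _ N hα => pressureSphere_lip hf hh hfL hhL N hα⟩

end Vale.Agent.P157.Rsb
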