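import Vale.Agent.P157.Rsb.Interp

/-!
# P157: bounds on the variation along the path

The variation is bounded by the mean distance of the pattern overlap to its target in the base
system, weighted by `mass`.
-/

open MeasureTheory ProbabilityTheory Real Finset

namespace Vale.Agent.P157.Rsb.Slot

theorem Cpt.mono {R B B' : ℝ} {h : ℝ → ℝ} (hh : Cpt R B h) (hB : B ≤ B') : Cpt R B' h :=
  ⟨hh.meas, fun u => (hh.bound u).trans hB, hh.zero⟩

theorem Pot.mono {R B B' : ℝ} {f f1 f2 f3 : ℝ → ℝ} (hP : Pot R B f f1 f2 f3) (hB : B ≤ B') :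
    Pot R B' f f1 f2 f3 :=
  ⟨hP.hf.mono hB, hP.hf1.mono hB, hP.hf2.mono hB, hP.hf3.mono hB, hP.one_le.trans hB, hP.d1, hP.d2, hP.d3⟩

theorem PB.congr {k : ℕ} {Z X P : Type} [MeasurableSpace Z] [MeasurableSpace X] [MeasurableSpace P]
    {F G : P → (Fin k → Z) → X → ℝ} (hF : PB F) (h : ∀ p z x, F p z x = G p z x) : PB G := by
  have : F = G := funext fun p => funext₂ (h p)
  exact this ▸ hF

theorem mass_le_one {k : ℕ} : mass k ≤ 1 := by
  unfold mass
  rw [div_le_one (by positivity)]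
  exact le_add_of_nonneg_left (Nat.cast_nonneg k)

theorem mass_card {k : ℕ} (l : ℕ) : mass k * ((Icc (l + 1) k).card : ℝ) ≤ 1 := by
  rw [Nat.card_Icc]
  unfold mass
  rw [div_mul_eq_mul_div, one_mul, div_le_one (by positivity)]
  exact_mod_cast Nat.sub_le _ _

variable {k m : ℕ} {ι X0 : Type} [Fintype ι] [DecidableEq ι] [MeasurableSpace X0]
  {μ0 : Measure X0} [IsProbabilityMeasure μ0] (C : Cas k m ι X0)
  {f f1 f2 f3 : ℝ → ℝ} {R B : ℝ} (ε : ℝ) (D D' : ℕ → ℝ)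

/-- The kernel without its angular factor. -/
def kq (l : ℕ) (x y : X0) : ℝ :=
  ∑ a ∈ range l, (D' (a + 1) - D (a + 1)) - ε ^ 2 * sdot (C.p x) (C.p y)

variable (μ0) in
/-- Two leaves of the base system that branch after level `l`: the mean of `|kq|`. -/
noncomputable def bpair (l : ℕ) (z : Fin k → ι → ℝ) (x : X0 × ℝ) : ℝ :=
  cnd (stdG ι) (μ0.prod (gaussianReal 0 1)) C.base (fun _ y => |kq C ε D D' l x.1 y.1|) l z

variable (μ0) in
/-- The error at level `l`. -/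
noncomputable def berr (l : ℕ) : ℝ :=
  cnd (stdG ι) (μ0.prod (gaussianReal 0 1)) C.base (bpair μ0 C ε D D' l) 0 (fun _ _ => 0)

variable (μ0) in
/-- The weighted sum of errors. -/
noncomputable def terr : ℝ := mass k * ∑ l ∈ Icc 0 k, berr μ0 C ε D D' l

omit [DecidableEq ι] in
theorem kq_bound (l : ℕ) : ∃ K, ∀ x y, |kq C ε D D' l x y| ≤ K := by
  obtain ⟨P, hP0, hP⟩ := C.p_bdd
  refine ⟨|∑ a ∈ range l, (D' (a + 1) - D (a + 1))| + ε ^ 2 * ∑ _i : Fin m, P * P, fun x y => ?_⟩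
  refine (abs_sub _ _).trans (add_le_add le_rfl ?_)
  rw [abs_mul, abs_of_nonneg (sq_nonneg ε)]
  refine mul_le_mul_of_nonneg_left ((abs_sum_le_sum_abs _ _).trans (sum_le_sum fun i _ => ?_)) (sq_nonneg ε)
  rw [abs_mul]
  exact mul_le_mul (hP _ _) (hP _ _) (abs_nonneg _) hP0

omit [DecidableEq ι] in
theorem kq_pb (l : ℕ) :
    PB fun (x : X0 × ℝ) (_ : Fin k → ι → ℝ) (y : X0 × ℝ) => |kq C ε D D' l x.1 y.1| := by
  obtain ⟨K, hK⟩ := kq_bound C ε D D' l
  refine ⟨?_, K, fun x _ y => by rw [abs_abs]; exact hK _ _⟩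
  have h1 : Measurable fun q : ((X0 × ℝ) × (Fin k → ι → ℝ)) × (X0 × ℝ) =>
      sdot (C.p q.1.1.1) (C.p q.2.1) :=
    Finset.measurable_sum _ fun i _ => ((C.p_coord i).comp (measurable_fst.comp (measurable_fst.comp
      measurable_fst))).mul ((C.p_coord i).comp (measurable_fst.comp measurable_snd))
  exact ((h1.const_mul _).const_sub _).abs

omit [DecidableEq ι] in
theorem bpair_pb (l : ℕ) {P : Type} [MeasurableSpace P] : PB fun (_ : P) => bpair μ0 C ε D D' l := by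
  obtain ⟨K, hK⟩ := (kq_pb C ε D D' l).bound
  refine ⟨?_, K, fun _ z x => cnd_abs_le C.base_lin ((kq_pb C ε D D' l).meas.at' x) (hK x) l z⟩
  exact (cnd_measurable_param (G := X0 × ℝ) (γ := stdG ι) (μ := μ0.prod (gaussianReal 0 1))
    (H := fun _ => C.base) (φ := fun x _ y => |kq C ε D D' l x.1 y.1|)
    (C.base_lin.meas.comp (f := fun q : ((X0 × ℝ) × (Fin k → ι → ℝ)) × (X0 × ℝ) => (q.1.2, q.2))
      ((measurable_snd.comp measurable_fst).prodMk measurable_snd))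
    (kq_pb C ε D D' l).meas l).comp (f := fun q : (P × (Fin k → ι → ℝ)) × (X0 × ℝ) => (q.2, q.1.2))
    (measurable_snd.prodMk (measurable_snd.comp measurable_fst))

omit [DecidableEq ι] in
theorem bpair_nonneg (l : ℕ) (z : Fin k → ι → ℝ) (x : X0 × ℝ) : 0 ≤ bpair μ0 C ε D D' l z x :=
  cnd_nonneg (fun _ _ => abs_nonneg _) _ _

omit [DecidableEq ι] in
theorem berr_nonneg (l : ℕ) : 0 ≤ berr μ0 C ε D D' l :=
  cnd_nonneg (fun _ _ => bpair_nonneg C ε D D' l _ _) _ _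

omit [DecidableEq ι] in
theorem terr_nonneg : 0 ≤ terr μ0 C ε D D' :=
  mul_nonneg mass_pos.le (sum_nonneg fun _ _ => berr_nonneg C ε D D' _)

omit [DecidableEq ι] in
theorem mass_berr_le {s : Finset ℕ} (hs : s ⊆ Icc 0 k) :
    mass k * ∑ l ∈ s, berr μ0 C ε D D' l ≤ terr μ0 C ε D D' :=
  mul_le_mul_of_nonneg_left (sum_le_sum_of_subset_of_nonneg hs fun _ _ _ => berr_nonneg C ε D D' _)
    mass_pos.le

omit [DecidableEq ι] in
theorem berr_zero_le : mass k * berr μ0 C ε D D' 0 ≤ terr μ0 C ε D D' := by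
  simpa using mass_berr_le (μ0 := μ0) C ε D D' (s := {0}) (by simp)

/-- A slot with a bound on its velocity integral. -/
structure VB (μ0 : Measure X0) (C : Cas k m ι X0) (ε : ℝ) (D D' : ℕ → ℝ) (f : ℝ → ℝ) (R θ : ℝ)
    (φ : (Fin m → ℝ) → (Fin k → ι → ℝ) → X0 × ℝ → ℝ) (c : ℝ) : Prop where
  slt : Slt R (pU C ε D D' θ) φ
  le : |vel μ0 C ε D D' f θ φ| ≤ c

section VB

variable (hf : Cpt R B f) (hD : ∀ l, 0 ≤ D l) (hD' : ∀ l, 0 ≤ D' l) {θ : ℝ} (h0 : 0 < θ)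
  (h1 : θ < π / 2)

include hf hD hD' h0 h1

omit [DecidableEq ι] in
theorem vb_sum {σ : Type} (s : Finset σ) (c : σ → ℝ)
    {φ : σ → (Fin m → ℝ) → (Fin k → ι → ℝ) → X0 × ℝ → ℝ} {b : σ → ℝ}
    (h : ∀ i ∈ s, VB μ0 C ε D D' f R θ (φ i) (b i)) :
    VB μ0 C ε D D' f R θ (fun g z x => ∑ i ∈ s, c i * φ i g z x) (∑ i ∈ s, |c i| * b i) := by
  refine ⟨⟨PB.finsum s fun i hi => (h i hi).slt.pb.const_mul (c i), fun g z x hR => ?_⟩, ?_⟩
  · exact sum_eq_zero fun i hi => by rw [(h i hi).slt.zero g z x hR, mul_zero]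
  · rw [vel_lin C ε D D' hf hD hD' h0 h1 s c fun i hi => (h i hi).slt]
    refine (abs_sum_le_sum_abs _ _).trans (sum_le_sum fun i hi => ?_)
    rw [abs_mul]
    exact mul_le_mul_of_nonneg_left (h i hi).le (abs_nonneg _)

omit [DecidableEq ι] in
theorem vb_smul {φ : (Fin m → ℝ) → (Fin k → ι → ℝ) → X0 × ℝ → ℝ} {b : ℝ}
    (h : VB μ0 C ε D D' f R θ φ b) (c : ℝ) :
    VB μ0 C ε D D' f R θ (fun g z x => c * φ g z x) (|c| * b) := by
  have := vb_sum C ε D D' hf hD hD' h0 h1 (σ := Unit) univ (fun _ => c) (φ := fun _ => φ)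
    (b := fun _ => b) fun _ _ => h
  simpa using this

omit [DecidableEq ι] in
theorem vb_add {φ ψ : (Fin m → ℝ) → (Fin k → ι → ℝ) → X0 × ℝ → ℝ} {a b : ℝ}
    (h : VB μ0 C ε D D' f R θ φ a) (h' : VB μ0 C ε D D' f R θ ψ b) :
    VB μ0 C ε D D' f R θ (fun g z x => φ g z x + ψ g z x) (a + b) := by
  have := vb_sum C ε D D' hf hD hD' h0 h1 (σ := Bool) univ (fun _ => 1)
    (φ := fun i => if i then φ else ψ) (b := fun i => if i then a else b)
    (fun i _ => by cases i <;> simpa)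
  simpa using this

omit [DecidableEq ι] in
theorem vb_sub {φ ψ : (Fin m → ℝ) → (Fin k → ι → ℝ) → X0 × ℝ → ℝ} {a b : ℝ}
    (h : VB μ0 C ε D D' f R θ φ a) (h' : VB μ0 C ε D D' f R θ ψ b) :
    VB μ0 C ε D D' f R θ (fun g z x => φ g z x - ψ g z x) (a + b) := by
  have := vb_add C ε D D' hf hD hD' h0 h1 h (vb_smul C ε D D' hf hD hD' h0 h1 h' (-1))
  simpa [sub_eq_add_neg] using this

end VB

omit [DecidableEq ι] in
theorem VB.mono' {θ : ℝ} {φ : (Fin m → ℝ) → (Fin k → ι → ℝ) → X0 × ℝ → ℝ} {a b : ℝ}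
    (h : VB μ0 C ε D D' f R θ φ a) (hab : a ≤ b) : VB μ0 C ε D D' f R θ φ b :=
  ⟨h.slt, h.le.trans hab⟩

omit [DecidableEq ι] in
theorem VB.congr {θ : ℝ} {φ ψ : (Fin m → ℝ) → (Fin k → ι → ℝ) → X0 × ℝ → ℝ} {a : ℝ}
    (h : VB μ0 C ε D D' f R θ φ a) (e : ∀ g z x, φ g z x = ψ g z x) : VB μ0 C ε D D' f R θ ψ a := by
  have : φ = ψ := funext fun g => funext₂ (e g)
  exact this ▸ h

variable {N1 N2 : ((Fin k → ι → ℝ) → X0 × ℝ → ℝ) → (Fin k → ι → ℝ) → ℝ}
  {η1 η2 : ((Fin k → ι → ℝ) → X0 × ℝ → ℝ) → (Fin k → ι → ℝ) → X0 × ℝ → ℝ}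
  {l1 l2 : ℕ} {M1 M2 : ℝ} {h h' : ℝ → ℝ}

omit [DecidableEq ι] in
/-- The kernel between two leaves is bounded by the base error. -/
theorem abs_cker_le (hf : Cpt R B f) (hD : ∀ l, 0 ≤ D l) (hD' : ∀ l, 0 ≤ D' l) {θ : ℝ}
    (hc : 0 < cos θ) (hs : 0 < sin θ) {U : (Fin k → ι → ℝ) → X0 × ℝ → ℝ}
    (hU : Measurable (Function.uncurry U)) {η : (Fin k → ι → ℝ) → X0 × ℝ → ℝ}
    (hη : PB fun _ : Unit => η) {K : ℝ} (hK : ∀ z y, |η z y| ≤ K) {l : ℕ} (hl : l ≤ k)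
    (z : Fin k → ι → ℝ) (x : X0 × ℝ) :
    |cker μ0 C f (ε * cos θ) (-(ε * sin θ)) (amp D D' θ) (damp D D' θ) U η l z x|
      ≤ |K| * exp (2 * B) * bpair μ0 C ε D D' l z x := by
  have e : ∀ y, C.ker (ε * cos θ) (-(ε * sin θ)) (amp D D' θ) (damp D D' θ) l x.1 y
      = cos θ * sin θ * kq C ε D D' l x.1 y := fun y => by
    simp only [Cas.ker, kq, damp_amp hD hD' hc hs, ← mul_sum]
    ring
  have hψ0 : PB fun (_ : Unit) (_ : Fin k → ι → ℝ) (y : X0 × ℝ) => |kq C ε D D' l x.1 y.1| := by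
    obtain ⟨M, hM⟩ := (kq_pb C ε D D' l).bound
    exact ⟨((kq_pb C ε D D' l).meas.at' x).comp (f := fun q : (Unit × (Fin k → ι → ℝ)) × (X0 × ℝ) =>
      (q.1.2, q.2)) ((measurable_snd.comp measurable_fst).prodMk measurable_snd), M, fun _ => hM x⟩
  have hcs : |cos θ * sin θ| ≤ 1 := by
    rw [abs_mul]
    exact mul_le_one₀ (abs_cos_le_one θ) (abs_nonneg _) (abs_sin_le_one θ)
  have hkq : PB fun (_ : Unit) (_ : Fin k → ι → ℝ) (y : X0 × ℝ) => kq C ε D D' l x.1 y.1 := by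
    obtain ⟨M, hM⟩ := kq_bound C ε D D' l
    refine PB.leafFn ?_ fun y => hM x.1 y.1
    have h1 : Measurable fun y : X0 × ℝ => sdot (C.p x.1) (C.p y.1) :=
      Finset.measurable_sum _ fun i _ => ((C.p_coord i).comp measurable_fst).const_mul _
    exact (h1.const_mul _).const_sub _
  unfold cker ecnd bpair
  simp only [e]
  refine (cnd_unif (L := B) (ψ := fun _ y => |K| * |kq C ε D D' l x.1 y.1|) C.base_lin
    (linB_ham1 C.base_lin hf hU) (fun z x => by simpa [ham1] using hf.bound _)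
    (((hkq.const_mul _).mul hη).tame ()) ((hψ0.const_mul _).tame ()) (fun z y => ?_) hl z).trans (le_of_eq ?_)
  · simp only [abs_mul]
    calc |cos θ| * |sin θ| * |kq C ε D D' l x.1 y.1| * |η z y|
        ≤ 1 * |kq C ε D D' l x.1 y.1| * |K| :=
          mul_le_mul (mul_le_mul_of_nonneg_right (by rwa [← abs_mul]) (abs_nonneg _))
            ((hK z y).trans (le_abs_self K)) (abs_nonneg _) (by positivity)
      _ = _ := by ring
  · rw [cnd_const_mul]; ring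

variable (hP : Pot R B f f1 f2 f3)
  (n1 : Nd (stdG ι) (μ0.prod (gaussianReal 0 1)) (gaussSize ι) C.base f R N1 η1 l1 M1)
  (n2 : Nd (stdG ι) (μ0.prod (gaussianReal 0 1)) (gaussSize ι) C.base f R N2 η2 l2 M2)
  (hh : Cpt R B h) (hh' : Cpt R B h') (hhd : ∀ u, HasDerivAt h (h' u) u)
  {b : X0 → ℝ} (hb : Measurable b) {Mb : ℝ} (hbb : ∀ x, |b x| ≤ Mb)
  (hD : ∀ l, 0 ≤ D l) (hD' : ∀ l, 0 ≤ D' l)
  (hbal : ∀ x, ε ^ 2 * sdot (C.p x) (C.p x) = ∑ a ∈ range (k + 1), (D' (a + 1) - D (a + 1)))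

include hP n1 n2 hh hh' hhd hb hbb hD hD' hbal

/-- The velocity against a monomial. -/
theorem vb_mono {θ : ℝ} (h0 : 0 < θ) (h1 : θ < π / 2) {K1 K2 : ℝ}
    (hK1 : ∀ g z x, |η1 (pU C ε D D' θ g) z x| ≤ K1) (hK2 : ∀ g z x, |η2 (pU C ε D D' θ g) z x| ≤ K2) :
    VB μ0 C ε D D' f R θ
      (fun g => obs b h (pU C ε D D' θ g) (N1 (pU C ε D D' θ g)) (N2 (pU C ε D D' θ g)))
      (|Mb| * B * exp (4 * B) * (|M2| * |K1| * berr μ0 C ε D D' l1 + |M1| * |K2| * berr μ0 C ε D D' l2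
        + |M1| * |M2| * B * terr μ0 C ε D D')) := by
  have hB : 0 ≤ B := zero_le_one.trans hP.one_le
  have hc : 0 < cos θ := cos_pos_of_mem_Ioo ⟨by linarith [pi_pos], h1⟩
  have hs : 0 < sin θ := sin_pos_of_pos_of_lt_pi h0 (by linarith [pi_pos])
  have hJ := pU_jm C ε D D' θ
  refine ⟨⟨pb_obs C n1 n2 hh hJ hb hbb, fun g z x hR => ?_⟩, ?_⟩
  · simp [obs, hh.zero _ hR]
  have hdiag : ∀ x, -(ε * sin θ) * (ε * cos θ) * sdot (C.p x) (C.p x)
      + ∑ a ∈ range (k + 1), damp D D' θ (a + 1) * amp D D' θ (a + 1) = 0 := fun x => by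
    simp only [damp_amp hD hD' hc hs, ← mul_sum]
    linear_combination -(cos θ * sin θ) * hbal x
  unfold vel pU pV
  rw [integral_velocity C hP n1 n2 hh hh' hhd hb hbb (ε * cos θ) (-(ε * sin θ)) (amp D D' θ)
    (damp D D' θ) hdiag (fun h0 => by simp [damp, h0]) (fun _ _ => 0)]
  refine (norm_integral_le_of_norm_le_const (μ := stdG (Fin m)) (f := fun g => ecnd μ0 C f _ _ 0 _)
    (ae_of_all _ fun g => ?_)).trans (le_of_eq (by rw [probReal_univ, mul_one]))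
  rw [Real.norm_eq_abs]
  set U := C.fld (ε * cos θ) (amp D D' θ) g with hUdef
  have hU : Measurable (Function.uncurry U) := hJ.at' g
  have hJu : JM fun _ : Unit => U := JM.of_unit hU
  have pf : PB fun (_ : Unit) z y => f1 (U z y) := pb_comp hJu hP.hf1
  have pE := fun l => bpair_pb (μ0 := μ0) C ε D D' l (P := Unit)
  set Ψ : (Fin k → ι → ℝ) → X0 × ℝ → ℝ := fun z x => |Mb| * B * exp (2 * B)
    * (|M2| * |K1| * bpair μ0 C ε D D' l1 z x + |M1| * |K2| * bpair μ0 C ε D D' l2 z x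
      + |M1| * |M2| * B * (mass k * ∑ l ∈ Icc 0 k, bpair μ0 C ε D D' l z x)) with hΨ
  have pΨ : PB fun _ : Unit => Ψ :=
    ((((pE l1).const_mul _).add ((pE l2).const_mul _)).add
      (((PB.finsum (Icc 0 k) fun l _ => pE l).const_mul _).const_mul _)).const_mul _
  have pc : ∀ {η : (Fin k → ι → ℝ) → X0 × ℝ → ℝ}, (PB fun _ : Unit => η) → ∀ l,
      PB fun (_ : Unit) z x =>
        cker μ0 C f (ε * cos θ) (-(ε * sin θ)) (amp D D' θ) (damp D D' θ) U η l z x := by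
    intro η hη l
    obtain ⟨P, hP0, hPb⟩ := C.p_bdd
    refine PB.congr ?_ fun _ z x => (cker_eq C _ _ _ _ hP.hf hU hη l z x).symm
    refine (PB.finsum univ fun i _ => ?_).add
      ((pb_cnd C.base_lin hP.hf hJu hη l).const_mul _)
    exact (pb_fst (b := fun y => -(ε * sin θ) * C.p y i) ((C.p_coord i).const_mul _)
      (M := |ε * sin θ| * P) fun y => by
        rw [abs_mul, abs_neg]; exact mul_le_mul_of_nonneg_left (hPb _ _) (abs_nonneg _)).mul
      (pb_cnd C.base_lin hP.hf hJu ((pb_fst (b := fun y => ε * cos θ * C.p y i) ((C.p_coord i).const_mul _)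
        (M := |ε * cos θ| * P) fun y => by
          rw [abs_mul]; exact mul_le_mul_of_nonneg_left (hPb _ _) (abs_nonneg _)).mul hη) l)
  have pm : PB fun (_ : Unit) z x => mix μ0 C f f1 b h l1 l2 (ε * cos θ) (-(ε * sin θ)) (amp D D' θ)
      (damp D D' θ) U (N1 U) (N2 U) (η1 U) (η2 U) z x :=
    ((pb_fst hb hbb).mul (pb_comp hJu hh)).mul
      ((((pc (n1.pbη hJu) l1).mul (n2.pbN hJu)).add ((n1.pbN hJu).mul (pc (n2.pbη hJu) l2))).sub
        (((PB.finsum (Icc 0 k) fun l _ => pc pf l).const_mul _).mul ((n1.pbN hJu).mul (n2.pbN hJu))))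
  refine (cnd_unif (L := B) C.base_lin (linB_ham1 C.base_lin hP.hf hU)
    (fun z x => by simpa [ham1] using hP.hf.bound _) (pm.tame ()) (pΨ.tame ()) (fun z x => ?_)
    (Nat.zero_le k) _).trans (le_of_eq ?_)
  · have q1 := (n1.bound U hU z).trans (le_abs_self M1)
    have q2 := (n2.bound U hU z).trans (le_abs_self M2)
    have c1 := abs_cker_le (μ0 := μ0) C ε D D' hP.hf hD hD' hc hs hU (n1.pbη hJu)
      (fun z y => hK1 g z y) n1.lk z x
    have c2 := abs_cker_le (μ0 := μ0) C ε D D' hP.hf hD hD' hc hs hU (n2.pbη hJu)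
      (fun z y => hK2 g z y) n2.lk z x
    have c3 : |∑ l ∈ Icc 0 k, cker μ0 C f (ε * cos θ) (-(ε * sin θ)) (amp D D' θ) (damp D D' θ) U
        (fun z y => f1 (U z y)) l z x| ≤ B * exp (2 * B) * ∑ l ∈ Icc 0 k, bpair μ0 C ε D D' l z x := by
      rw [mul_sum]
      refine (abs_sum_le_sum_abs _ _).trans (sum_le_sum fun l hl => ?_)
      have := abs_cker_le (μ0 := μ0) C ε D D' hP.hf hD hD' hc hs hU pf (fun z y => hP.hf1.bound _)
        (mem_Icc.1 hl).2 z x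
      rwa [abs_of_nonneg hB] at this
    have hs0 : 0 ≤ ∑ l ∈ Icc 0 k, bpair μ0 C ε D D' l z x :=
      sum_nonneg fun _ _ => bpair_nonneg C ε D D' _ z x
    have hb0 := bpair_nonneg (μ0 := μ0) C ε D D' l1 z x
    have hb2 := bpair_nonneg (μ0 := μ0) C ε D D' l2 z x
    have hm : 0 ≤ mass k := mass_pos.le
    set c1' := cker μ0 C f (ε * cos θ) (-(ε * sin θ)) (amp D D' θ) (damp D D' θ) U (η1 U) l1 z x
    set c2' := cker μ0 C f (ε * cos θ) (-(ε * sin θ)) (amp D D' θ) (damp D D' θ) U (η2 U) l2 z x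
    set c3' := ∑ l ∈ Icc 0 k, cker μ0 C f (ε * cos θ) (-(ε * sin θ)) (amp D D' θ) (damp D D' θ) U
      (fun z y => f1 (U z y)) l z x
    have a1 : |c1' * N2 U z| ≤ |K1| * exp (2 * B) * bpair μ0 C ε D D' l1 z x * |M2| := by
      rw [abs_mul]; exact mul_le_mul c1 q2 (abs_nonneg _) (by positivity)
    have a2 : |N1 U z * c2'| ≤ |M1| * (|K2| * exp (2 * B) * bpair μ0 C ε D D' l2 z x) := by
      rw [abs_mul]; exact mul_le_mul q1 c2 (abs_nonneg _) (abs_nonneg _)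
    have a3 : |mass k * c3' * (N1 U z * N2 U z)|
        ≤ mass k * (B * exp (2 * B) * ∑ l ∈ Icc 0 k, bpair μ0 C ε D D' l z x) * (|M1| * |M2|) := by
      rw [abs_mul, abs_mul, abs_mul, abs_of_nonneg hm]
      exact mul_le_mul (mul_le_mul_of_nonneg_left c3 hm) (mul_le_mul q1 q2 (abs_nonneg _) (abs_nonneg _))
        (by positivity) (by positivity)
    have a4 := (abs_sub (c1' * N2 U z + N1 U z * c2') (mass k * c3' * (N1 U z * N2 U z))).trans
      (add_le_add ((abs_add_le _ _).trans (add_le_add a1 a2)) a3)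
    have a5 : |b x.1 * h (U z x)| ≤ |Mb| * B := by
      rw [abs_mul]
      exact mul_le_mul ((hbb _).trans (le_abs_self Mb)) (hh.bound _) (abs_nonneg _) (abs_nonneg _)
    unfold mix
    rw [abs_mul]
    refine (mul_le_mul a5 a4 (abs_nonneg _) (by positivity)).trans (le_of_eq ?_)
    simp only [hΨ]
    ring
  · have hL := C.base_lin
    have e : exp (4 * B) = exp (2 * B) * exp (2 * B) := by rw [← exp_add]; congr 1; ring
    simp only [hΨ]
    rw [cnd_const_mul, cnd_add hL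
        ((((pE l1).const_mul _).add ((pE l2).const_mul _)).tame ())
        ((((PB.finsum (Icc 0 k) fun l _ => pE l).const_mul _).const_mul _).tame ()),
      cnd_add hL (((pE l1).const_mul _).tame ()) (((pE l2).const_mul _).tame ()),
      cnd_const_mul, cnd_const_mul, cnd_const_mul, cnd_const_mul,
      cnd_finsum hL (Icc 0 k) fun l _ => (pE l).tame ()]
    simp only [terr, berr, e]
    ring

end Vale.Agent.P157.Rsb.Slot
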