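import Vale.Agent.P157.Rsb.CalcCore

/-!
# P157: algebra and comparison of nested conditional expectations
-/

open MeasureTheory ProbabilityTheory Real Finset

namespace Vale.Agent.P157.Rsb

variable {k : ℕ} {Z X : Type} [MeasurableSpace Z] [MeasurableSpace X]
  {γ : Measure Z} {μ : Measure X} {w : Size γ} [IsProbabilityMeasure γ] [IsFiniteMeasure μ] [NeZero μ]
  {H H' φ ψ : (Fin k → Z) → X → ℝ}

omit [IsProbabilityMeasure γ] [IsFiniteMeasure μ] [NeZero μ] [MeasurableSpace Z] in
theorem put_agree {j : ℕ} (z z' : Fin k → Z) (hj : 1 ≤ j)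
    (h : ∀ i : Fin k, (i : ℕ) < j - 1 → z i = z' i) (y : Z) :
    ∀ i : Fin k, (i : ℕ) < j → put z (j - 1) y i = put z' (j - 1) y i := by
  intro i hi
  by_cases he : (i : ℕ) = j - 1
  · simp only [put, if_pos he]
  · simp only [put, if_neg he]; exact h i (by omega)

omit [IsProbabilityMeasure γ] [IsFiniteMeasure μ] [NeZero μ] in
theorem val_upto (j : ℕ) : Upto j (val γ μ H j) := by
  induction j using levels_induction (k := k) with
  | htop j hj =>
    intro z z' h
    have : z = z' := funext fun i => h i (by omega)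
    rw [this]
  | hstep j hj hjk ih =>
    intro z z' h
    rw [val_step hj hjk, val_step hj hjk]
    congr 2
    exact integral_congr_ae (ae_of_all _ fun y => by
      simp only [ih _ _ (put_agree z z' hj h y)])

omit [IsProbabilityMeasure γ] [IsFiniteMeasure μ] [NeZero μ] in
theorem cnd_upto (j : ℕ) : Upto j (cnd γ μ H φ j) := by
  induction j using levels_induction (k := k) with
  | htop j hj =>
    intro z z' h
    have : z = z' := funext fun i => h i (by omega)
    rw [this]
  | hstep j hj hjk ih =>
    intro z z' h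
    rw [cnd_step hj hjk, cnd_step hj hjk]
    congr 1 <;> refine integral_congr_ae (ae_of_all _ fun y => ?_)
    · simp only [ih _ _ (put_agree z z' hj h y), val_upto (H := H) j _ _ (put_agree z z' hj h y)]
    · simp only [val_upto (H := H) j _ _ (put_agree z z' hj h y)]

theorem Upto.mono {j l : ℕ} (hjl : j ≤ l) {c : (Fin k → Z) → ℝ} (hc : Upto j c) : Upto l c :=
  fun z z' h => hc z z' fun i hi => h i (by omega)

theorem Upto.put_eq {j : ℕ} {c : (Fin k → Z) → ℝ} (hc : Upto j c) {i : ℕ} (hi : j ≤ i) (z : Fin k → Z)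
    (y : Z) : c (put z i y) = c z := by
  refine hc _ _ fun a ha => ?_
  simp only [put, if_neg (by omega : ¬ (a : ℕ) = i)]

theorem cnd_add (hH : LinB w H) (hφ : Tame w φ) (hψ : Tame w ψ) (j : ℕ) (z : Fin k → Z) :
    cnd γ μ H (fun z x => φ z x + ψ z x) j z = cnd γ μ H φ j z + cnd γ μ H ψ j z := by
  induction j using levels_induction (k := k) generalizing z with
  | htop j hj =>
    simp only [cnd_of_le hj, cnd_top, add_mul]
    rw [integral_add (integrable_leaf hH hφ z) (integrable_leaf hH hψ z), add_div]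
  | hstep j hj hjk ih =>
    simp only [cnd_step hj hjk, ih, add_mul]
    rw [integral_add (integrable_cnd_step hH hφ z _) (integrable_cnd_step hH hψ z _), add_div]

omit [IsProbabilityMeasure γ] [IsFiniteMeasure μ] [NeZero μ] in
theorem cnd_const_mul (c : ℝ) (j : ℕ) (z : Fin k → Z) :
    cnd γ μ H (fun z x => c * φ z x) j z = c * cnd γ μ H φ j z := by
  induction j using levels_induction (k := k) generalizing z with
  | htop j hj =>
    simp only [cnd_of_le hj, cnd_top, mul_assoc, integral_const_mul]
    rw [mul_div_assoc]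
  | hstep j hj hjk ih =>
    simp only [cnd_step hj hjk, ih, mul_assoc, integral_const_mul]
    rw [mul_div_assoc]

theorem cnd_sub (hH : LinB w H) (hφ : Tame w φ) (hψ : Tame w ψ) (j : ℕ) (z : Fin k → Z) :
    cnd γ μ H (fun z x => φ z x - ψ z x) j z = cnd γ μ H φ j z - cnd γ μ H ψ j z := by
  have h1 := cnd_add (μ := μ) hH hφ (hψ.const_mul (-1)) j z
  rw [cnd_const_mul] at h1
  simpa [sub_eq_add_neg] using h1

theorem cnd_const (hH : LinB w H) (c : ℝ) (j : ℕ) (z : Fin k → Z) :
    cnd γ μ H (fun _ _ => c) j z = c := by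
  induction j using levels_induction (k := k) generalizing z with
  | htop j hj =>
    rw [cnd_of_le hj, cnd_top, integral_const_mul, mul_div_assoc,
      div_self (integral_exp_pos (integrable_exp_leaf hH z)).ne', mul_one]
  | hstep j hj hjk ih =>
    simp only [cnd_step hj hjk, ih, integral_const_mul]
    rw [mul_div_assoc, div_self (integrable_val_step (μ := μ) hH z _).2.ne', mul_one]

theorem cnd_finsum (hH : LinB w H) {ι : Type*} (s : Finset ι) {φ : ι → (Fin k → Z) → X → ℝ}
    (hφ : ∀ i ∈ s, Tame w (φ i)) (j : ℕ) (z : Fin k → Z) :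
    cnd γ μ H (fun z x => ∑ i ∈ s, φ i z x) j z = ∑ i ∈ s, cnd γ μ H (φ i) j z := by
  classical
  induction s using Finset.induction with
  | empty => simpa using cnd_const (μ := μ) hH 0 j z
  | @insert i s hi ih =>
    simp only [sum_insert hi]
    rw [cnd_add hH (hφ i (mem_insert_self i s))
      (Tame.sum s fun a ha => hφ a (mem_insert_of_mem ha)) j z,
      ih fun a ha => hφ a (mem_insert_of_mem ha)]

theorem cnd_nonneg (h : ∀ z x, 0 ≤ φ z x) (j : ℕ) (z : Fin k → Z) : 0 ≤ cnd γ μ H φ j z := by
  induction j using levels_induction (k := k) generalizing z with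
  | htop j hj =>
    rw [cnd_of_le hj, cnd_top]
    exact div_nonneg (integral_nonneg fun x => mul_nonneg (h z x) (exp_pos _).le)
      (integral_nonneg fun x => (exp_pos _).le)
  | hstep j hj hjk ih =>
    rw [cnd_step hj hjk]
    exact div_nonneg (integral_nonneg fun y => mul_nonneg (ih _) (exp_pos _).le)
      (integral_nonneg fun y => (exp_pos _).le)

theorem cnd_mono (hH : LinB w H) (hφ : Tame w φ) (hψ : Tame w ψ) (h : ∀ z x, φ z x ≤ ψ z x)
    (j : ℕ) (z : Fin k → Z) : cnd γ μ H φ j z ≤ cnd γ μ H ψ j z := by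
  have := cnd_nonneg (γ := γ) (μ := μ) (H := H) (φ := fun z x => ψ z x - φ z x)
    (fun z x => sub_nonneg.2 (h z x)) j z
  rw [cnd_sub hH hψ hφ] at this
  linarith

theorem cnd_abs_le (hH : LinB w H) (hφ : Measurable (Function.uncurry φ)) {B : ℝ}
    (h : ∀ z x, |φ z x| ≤ B) (j : ℕ) (z : Fin k → Z) : |cnd γ μ H φ j z| ≤ B := by
  have hT : Tame w φ := Tame.of_bdd hφ h
  have hc : ∀ c : ℝ, Tame w fun (_ : Fin k → Z) (_ : X) => c := fun c =>
    Tame.of_bdd measurable_const (B := |c|) fun _ _ => le_rfl
  rw [abs_le]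
  constructor
  · have := cnd_mono (μ := μ) hH (hc (-B)) hT (fun z x => (abs_le.1 (h z x)).1) j z
    rwa [cnd_const hH] at this
  · have := cnd_mono (μ := μ) hH hT (hc B) (fun z x => (abs_le.1 (h z x)).2) j z
    rwa [cnd_const hH] at this

omit [IsProbabilityMeasure γ] [IsFiniteMeasure μ] [NeZero μ] in
theorem cnd_pull {j : ℕ} {c : (Fin k → Z) → ℝ} (hc : Upto j c) (z : Fin k → Z) :
    cnd γ μ H (fun z x => c z * φ z x) j z = c z * cnd γ μ H φ j z := by
  induction j using levels_induction (k := k) generalizing z with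
  | htop j hj =>
    simp only [cnd_of_le hj, cnd_top, mul_assoc, integral_const_mul]
    rw [mul_div_assoc]
  | hstep j hj hjk ih =>
    have hc' : Upto j c := hc.mono (by omega)
    simp only [cnd_step hj hjk, ih hc', hc.put_eq le_rfl, mul_assoc, integral_const_mul]
    rw [mul_div_assoc]

theorem cnd_const_fun (hH : LinB w H) {j : ℕ} {c : (Fin k → Z) → ℝ} (hc : Upto j c) (z : Fin k → Z) :
    cnd γ μ H (fun z _ => c z) j z = c z := by
  have := cnd_pull (γ := γ) (μ := μ) (H := H) (φ := fun _ _ => (1 : ℝ)) hc z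
  simpa [cnd_const hH] using this

theorem cnd_tower (hH : LinB w H) {j l : ℕ} (hjl : j ≤ l) (z : Fin k → Z) :
    cnd γ μ H (fun z _ => cnd γ μ H φ l z) j z = cnd γ μ H φ j z := by
  induction j using levels_induction (k := k) generalizing z with
  | htop j hj =>
    rw [cnd_of_le hj, cnd_of_le hj, cnd_of_le (γ := γ) (μ := μ) (H := H) (φ := φ) (hj.trans hjl)]
    exact cnd_const_fun hH (cnd_upto k) z
  | hstep j hj hjk ih =>
    rcases eq_or_lt_of_le hjl with heq | hlt
    · rw [← heq]; exact cnd_const_fun hH (cnd_upto _) z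
    · simp only [cnd_step hj hjk, ih (by omega)]

theorem cnd_sq_le (hH : LinB w H) (hφ : Tame w φ) (j : ℕ) (z : Fin k → Z) :
    cnd γ μ H φ j z ^ 2 ≤ cnd γ μ H (fun z x => φ z x ^ 2) j z := by
  set c := cnd γ μ H φ j z with hc
  have hcc : Tame w fun (_ : Fin k → Z) (_ : X) => c ^ 2 :=
    Tame.of_bdd measurable_const (B := |c ^ 2|) fun _ _ => le_rfl
  have hsq : Tame w fun z x => φ z x ^ 2 := (hφ.mul hφ).congr fun z x => (sq _).symm
  have h0 := cnd_nonneg (γ := γ) (μ := μ) (H := H) (φ := fun z x => (φ z x - c) ^ 2)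
    (fun z x => sq_nonneg _) j z
  have e : (fun z x => (φ z x - c) ^ 2) = fun z x => φ z x ^ 2 + ((-2 * c) * φ z x + c ^ 2) :=
    funext₂ fun z x => by ring
  rw [e, cnd_add hH hsq ((hφ.const_mul _).add hcc), cnd_add hH (hφ.const_mul _) hcc, cnd_const_mul,
    cnd_const hH, ← hc] at h0
  nlinarith

/-- Jensen's inequality for the integral of an exponential. -/
theorem exp_weighted_le {α : Type*} [MeasurableSpace α] {P : Measure α} {u v : α → ℝ}
    (hu : Integrable (fun a => exp (u a)) P) (hp : 0 < ∫ a, exp (u a) ∂P)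
    (hv : Integrable (fun a => exp (v a)) P)
    (hd : Integrable (fun a => (v a - u a) * exp (u a)) P) :
    log (∫ a, exp (u a) ∂P) + (∫ a, (v a - u a) * exp (u a) ∂P) / ∫ a, exp (u a) ∂P
      ≤ log (∫ a, exp (v a) ∂P) := by
  set I := ∫ a, exp (u a) ∂P with hI
  set c := (∫ a, (v a - u a) * exp (u a) ∂P) / I with hc
  have key : exp c * I ≤ ∫ a, exp (v a) ∂P := by
    have h1 : ∀ a, exp c * exp (u a) * (1 + (v a - u a - c)) ≤ exp (v a) := fun a => by
      calc exp c * exp (u a) * (1 + (v a - u a - c)) ≤ exp c * exp (u a) * exp (v a - u a - c) :=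
            mul_le_mul_of_nonneg_left (by linarith [add_one_le_exp (v a - u a - c)]) (by positivity)
        _ = _ := by rw [← exp_add, ← exp_add]; ring_nf
    have e : (fun a => exp c * exp (u a) * (1 + (v a - u a - c)))
        = fun a => exp c * (1 - c) * exp (u a) + exp c * ((v a - u a) * exp (u a)) :=
      funext fun a => by ring
    have hint : Integrable (fun a => exp c * exp (u a) * (1 + (v a - u a - c))) P := by
      rw [e]; exact (hu.const_mul _).add (hd.const_mul _)
    have h2 := integral_mono hint hv h1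
    rw [e, integral_add (hu.const_mul _) (hd.const_mul _), integral_const_mul, integral_const_mul] at h2
    have e2 : ∫ a, (v a - u a) * exp (u a) ∂P = c * I := by rw [hc]; field_simp
    rw [e2, ← hI] at h2
    linarith [h2, show exp c * (1 - c) * I + exp c * (c * I) = exp c * I by ring]
  have := log_le_log (mul_pos (exp_pos _) hp) key
  rw [log_mul (exp_pos _).ne' hp.ne', log_exp] at this
  linarith

theorem cnd_exp_le (hH : LinB w H) (hH' : LinB w H') (j : ℕ) (z : Fin k → Z) :
    val γ μ H j z + cnd γ μ H (fun z x => H' z x - H z x) j z ≤ val γ μ H' j z := by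
  have hD : Tame w fun z x => H' z x - H z x := hH'.tame.sub hH.tame
  induction j using levels_induction (k := k) generalizing z with
  | htop j hj =>
    simp only [val_of_le hj, cnd_of_le hj, val_top, cnd_top]
    exact exp_weighted_le (integrable_exp_leaf hH z) (integral_exp_pos (integrable_exp_leaf hH z))
      (integrable_exp_leaf hH' z) (integrable_leaf hH hD z)
  | hstep j hj hjk ih =>
    rw [val_step hj hjk, cnd_step hj hjk, val_step hj hjk]
    set m := lev k j with hm
    have hm0 : 0 < m := lev_pos hj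
    obtain ⟨hu, hp⟩ := integrable_val_step (γ := γ) (μ := μ) hH (j := j) z (j - 1)
    obtain ⟨hv, hq⟩ := integrable_val_step (γ := γ) (μ := μ) hH' (j := j) z (j - 1)
    rw [← hm] at hu hp hv hq
    set u := fun y => m * val γ μ H j (put z (j - 1) y) with hudef
    set d := fun y => cnd γ μ H (fun z x => H' z x - H z x) j (put z (j - 1) y) with hddef
    have hd : Integrable (fun y => d y * exp (u y)) γ := integrable_cnd_step hH hD z (j - 1)
    have hw : Integrable (fun y => exp (u y + m * d y)) γ := by
      refine hv.mono' ?_ (ae_of_all _ fun y => ?_)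
      · have h1 := ((val_regular (γ := γ) (μ := μ) hH j).1.comp (measurable_put_right z (j - 1))).const_mul m
        have h2 := ((cnd_regular (γ := γ) (μ := μ) hH hD j).1.comp (measurable_put_right z (j - 1))).const_mul m
        exact (h1.add h2).exp.aestronglyMeasurable
      · rw [Real.norm_eq_abs, abs_of_pos (exp_pos _)]
        exact exp_le_exp.2 (by simp only [hudef, hddef]; nlinarith [ih (put z (j - 1) y)])
    have key := exp_weighted_le (u := u) (v := fun y => u y + m * d y) hu hp hw (by
      refine (hd.const_mul m).congr (ae_of_all _ fun y => ?_)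
      simp only; ring)
    have e3 : ∫ y, (u y + m * d y - u y) * exp (u y) ∂γ = m * ∫ y, d y * exp (u y) ∂γ := by
      rw [← integral_const_mul]; refine integral_congr_ae (ae_of_all _ fun y => ?_); simp only; ring
    rw [e3] at key
    have h4 : ∫ y, exp (u y + m * d y) ∂γ ≤ ∫ y, exp (m * val γ μ H' j (put z (j - 1) y)) ∂γ :=
      integral_mono hw hv fun y => exp_le_exp.2 (by
        simp only [hudef, hddef]; nlinarith [ih (put z (j - 1) y)])
    have h5 := key.trans (log_le_log (integral_exp_pos hw) h4)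
    rw [le_div_iff₀ hm0]
    calc (log (∫ y, exp (u y) ∂γ) / m + (∫ y, d y * exp (u y) ∂γ) / ∫ y, exp (u y) ∂γ) * m
        = log (∫ y, exp (u y) ∂γ) + m * (∫ y, d y * exp (u y) ∂γ) / ∫ y, exp (u y) ∂γ := by
          rw [add_mul, div_mul_cancel₀ _ hm0.ne', mul_div_assoc, mul_comm m]
      _ ≤ _ := h5

theorem val_close (hH : LinB w H) (hH' : LinB w H') {L : ℝ} (h : ∀ z x, |H' z x - H z x| ≤ L)
    (j : ℕ) (z : Fin k → Z) : |val γ μ H' j z - val γ μ H j z| ≤ L := by
  have h1 := cnd_exp_le (γ := γ) (μ := μ) hH hH' j z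
  have h2 := cnd_exp_le (γ := γ) (μ := μ) hH' hH j z
  have b1 := cnd_abs_le (γ := γ) (μ := μ) hH (φ := fun z x => H' z x - H z x) (hH'.meas.sub hH.meas) h j z
  have b2 := cnd_abs_le (γ := γ) (μ := μ) hH' (φ := fun z x => H z x - H' z x)
    (hH.meas.sub hH'.meas) (fun z x => by rw [abs_sub_comm]; exact h z x) j z
  rw [abs_le] at b1 b2 ⊢
  constructor <;> linarith [b1.1, b2.1]

theorem cnd_tilt (hH : LinB w H) (hH' : LinB w H') (hφ : Tame w φ) (h0 : ∀ z x, 0 ≤ φ z x) {L : ℝ}
    (h : ∀ z x, |H' z x - H z x| ≤ L) {j : ℕ} (hjk : j ≤ k) (z : Fin k → Z) :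
    cnd γ μ H' φ j z ≤ exp (2 * L) * cnd γ μ H φ j z := by
  have key : ∀ z, cnd γ μ H' φ (min j k) z ≤ exp ((1 - lev k (min j k + 1)) * L
      - lev k (min j k + 1) * (val γ μ H' (min j k) z - val γ μ H (min j k) z))
        * exp L * cnd γ μ H φ (min j k) z := by
    clear hjk
    induction j using levels_induction (k := k) with
    | htop j hj =>
      intro z
      rw [min_eq_right hj, lev_top]
      simp only [cnd_top, val_top, sub_self, zero_mul, zero_sub, one_mul]
      have p1 := integral_exp_pos (integrable_exp_leaf (μ := μ) hH z)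
      have p2 := integral_exp_pos (integrable_exp_leaf (μ := μ) hH' z)
      rw [neg_sub, exp_sub, exp_log p1, exp_log p2]
      have h1 : ∫ x, φ z x * exp (H' z x) ∂μ ≤ exp L * ∫ x, φ z x * exp (H z x) ∂μ := by
        rw [← integral_const_mul]
        refine integral_mono (integrable_leaf hH' hφ z) ((integrable_leaf hH hφ z).const_mul _) fun x => ?_
        calc φ z x * exp (H' z x) ≤ φ z x * exp (L + H z x) :=
              mul_le_mul_of_nonneg_left (exp_le_exp.2 (by linarith [(abs_le.1 (h z x)).2])) (h0 z x)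
          _ = _ := by rw [exp_add]; ring
      calc (∫ x, φ z x * exp (H' z x) ∂μ) / ∫ x, exp (H' z x) ∂μ
          ≤ (exp L * ∫ x, φ z x * exp (H z x) ∂μ) / ∫ x, exp (H' z x) ∂μ :=
            div_le_div_of_nonneg_right h1 p2.le
        _ = _ := by field_simp
    | hstep j hj hjk ih =>
      intro z
      rw [min_eq_left hjk] at ih
      rw [min_eq_left (by omega : j - 1 ≤ k), show j - 1 + 1 = j by omega]
      set m := lev k j with hm
      set m' := lev k (j + 1) with hm'
      have hmm : m ≤ m' := lev_mono (by omega)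
      have hm0 : 0 < m := lev_pos hj
      obtain ⟨hu, hp⟩ := integrable_val_step (γ := γ) (μ := μ) hH (j := j) z (j - 1)
      obtain ⟨hv, hq⟩ := integrable_val_step (γ := γ) (μ := μ) hH' (j := j) z (j - 1)
      rw [← hm] at hu hp hv hq
      have e1 : exp (-(m * (val γ μ H' (j - 1) z - val γ μ H (j - 1) z)))
          = (∫ y, exp (m * val γ μ H j (put z (j - 1) y)) ∂γ)
            / ∫ y, exp (m * val γ μ H' j (put z (j - 1) y)) ∂γ := by
        rw [val_step hj hjk, val_step hj hjk, ← hm, mul_sub, mul_div_cancel₀ _ hm0.ne',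
          mul_div_cancel₀ _ hm0.ne', neg_sub, exp_sub, exp_log hp, exp_log hq]
      rw [cnd_step hj hjk, cnd_step hj hjk, ← hm]
      have hb : ∫ y, cnd γ μ H' φ j (put z (j - 1) y) * exp (m * val γ μ H' j (put z (j - 1) y)) ∂γ
          ≤ exp ((1 - m) * L) * exp L *
            ∫ y, cnd γ μ H φ j (put z (j - 1) y) * exp (m * val γ μ H j (put z (j - 1) y)) ∂γ := by
        rw [← integral_const_mul]
        refine integral_mono (integrable_cnd_step hH' hφ z _)
          ((integrable_cnd_step hH hφ z _).const_mul _) fun y => ?_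
        dsimp only
        set p := put z (j - 1) y
        have hc0 := cnd_nonneg (γ := γ) (μ := μ) (H := H) h0 j p
        have hd := (abs_le.1 (val_close (γ := γ) (μ := μ) hH hH' h j p)).1
        calc cnd γ μ H' φ j p * exp (m * val γ μ H' j p)
            ≤ exp ((1 - m') * L - m' * (val γ μ H' j p - val γ μ H j p)) * exp L * cnd γ μ H φ j p
              * exp (m * val γ μ H' j p) := mul_le_mul_of_nonneg_right (ih p) (exp_pos _).le
          _ = exp ((1 - m') * L - m' * (val γ μ H' j p - val γ μ H j p) + m * val γ μ H' j p) * exp L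
              * cnd γ μ H φ j p := by rw [exp_add]; ring
          _ ≤ exp ((1 - m) * L + m * val γ μ H j p) * exp L * cnd γ μ H φ j p := by
              refine mul_le_mul_of_nonneg_right (mul_le_mul_of_nonneg_right ?_ (exp_pos _).le) hc0
              exact exp_le_exp.2 (by nlinarith)
          _ = _ := by rw [exp_add]; ring
      calc _ ≤ (exp ((1 - m) * L) * exp L *
            ∫ y, cnd γ μ H φ j (put z (j - 1) y) * exp (m * val γ μ H j (put z (j - 1) y)) ∂γ)
            / ∫ y, exp (m * val γ μ H' j (put z (j - 1) y)) ∂γ :=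
            div_le_div_of_nonneg_right hb hq.le
        _ = _ := by rw [sub_eq_add_neg ((1 - m) * L), exp_add, e1]; field_simp
  have h1 := key z
  rw [min_eq_left hjk] at h1
  refine h1.trans (mul_le_mul_of_nonneg_right ?_ (cnd_nonneg h0 j z))
  rw [← exp_add]
  refine exp_le_exp.2 ?_
  have hd := (abs_le.1 (val_close (γ := γ) (μ := μ) hH hH' h j z)).1
  nlinarith [lev_nonneg (k := k) (j + 1)]

end Vale.Agent.P157.Rsb
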