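import Vale.Agent.P157.Rsb.Defs

/-!
# P157: regularity and algebra of nested log-Laplace recursions
-/

open MeasureTheory ProbabilityTheory Real Finset

namespace Vale.Agent.P157.Rsb

/-- A weight on the integration variable with all exponential moments. -/
structure Size {Z : Type} [MeasurableSpace Z] (γ : Measure Z) where
  /-- the weight -/
  w : Z → ℝ
  meas : Measurable w
  nonneg : ∀ y, 0 ≤ w y
  int : ∀ c : ℝ, Integrable (fun y => exp (c * w y)) γ

variable {k : ℕ} {Z X : Type} [MeasurableSpace Z] [MeasurableSpace X]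
  {γ : Measure Z} {μ : Measure X} {w : Size γ}

/-- The total weight of all levels. -/
def Size.tot (w : Size γ) (z : Fin k → Z) : ℝ := ∑ i, w.w (z i)

/-- Measurable and at most linear in the weight: admissible as a Hamiltonian. -/
structure LinB (w : Size γ) (H : (Fin k → Z) → X → ℝ) : Prop where
  meas : Measurable (Function.uncurry H)
  bound : ∃ A, 0 ≤ A ∧ ∀ z x, |H z x| ≤ A * (1 + w.tot z)

/-- Measurable and at most exponential in the weight: admissible as an observable. -/
structure Tame (w : Size γ) (φ : (Fin k → Z) → X → ℝ) : Prop where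
  meas : Measurable (Function.uncurry φ)
  bound : ∃ A, 0 ≤ A ∧ ∀ z x, |φ z x| ≤ A * exp (A * w.tot z)

/-- A function of the levels up to `j` only. -/
def Upto (j : ℕ) (c : (Fin k → Z) → ℝ) : Prop :=
  ∀ z z' : Fin k → Z, (∀ i : Fin k, (i : ℕ) < j → z i = z' i) → c z = c z'

theorem Size.tot_nonneg (w : Size γ) (z : Fin k → Z) : 0 ≤ w.tot z :=
  sum_nonneg fun i _ => w.nonneg (z i)

theorem Size.measurable_tot (w : Size γ) : Measurable (w.tot (k := k)) := by
  unfold Size.tot
  exact Finset.measurable_sum _ fun i _ => w.meas.comp (measurable_pi_apply i)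

theorem Size.tot_put (w : Size γ) (z : Fin k → Z) (i : ℕ) (y : Z) :
    w.tot (put z i y) ≤ w.tot z + w.w y := by
  unfold Size.tot put
  by_cases h : i < k
  · have hi : ∀ a : Fin k, w.w (if (a : ℕ) = i then y else z a)
        = if a = (⟨i, h⟩ : Fin k) then w.w y else w.w (z a) := fun a => by
      by_cases ha : (a : ℕ) = i
      · rw [if_pos ha, if_pos (Fin.ext ha)]
      · rw [if_neg ha, if_neg fun e => ha (by rw [e])]
    simp only [hi]
    calc ∑ a, (if a = (⟨i, h⟩ : Fin k) then w.w y else w.w (z a))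
        ≤ ∑ a, (w.w (z a) + if a = (⟨i, h⟩ : Fin k) then w.w y else 0) := sum_le_sum fun a _ => by
          by_cases ha : a = (⟨i, h⟩ : Fin k) <;> simp [ha, w.nonneg]
      _ = _ := by rw [sum_add_distrib, sum_ite_eq']; simp
  · have hi : ∀ a : Fin k, (a : ℕ) ≠ i := fun a e => h (e ▸ a.2)
    simp only [if_neg (hi _)]
    linarith [w.nonneg y]

theorem measurable_put (i : ℕ) :
    Measurable fun p : (Fin k → Z) × Z => put p.1 i p.2 := by
  refine measurable_pi_lambda _ fun a => ?_
  by_cases h : (a : ℕ) = i <;> simp only [put, h, if_true, if_false]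
  · exact measurable_snd
  · exact (measurable_pi_apply a).comp measurable_fst

theorem measurable_put_right (z : Fin k → Z) (i : ℕ) : Measurable fun y => put z i y :=
  (measurable_put i).comp (measurable_const.prodMk measurable_id)

theorem lev_pos {l : ℕ} (hl : 1 ≤ l) : 0 < lev k l := by
  have : (0 : ℝ) < l := by exact_mod_cast hl
  unfold lev; positivity

theorem lev_nonneg (l : ℕ) : 0 ≤ lev k l := by unfold lev; positivity

theorem lev_mono {l l' : ℕ} (h : l ≤ l') : lev k l ≤ lev k l' := by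
  unfold lev; gcongr

theorem lev_le_one {l : ℕ} (h : l ≤ k + 1) : lev k l ≤ 1 := by
  unfold lev
  rw [div_le_one (by positivity)]
  exact_mod_cast h

theorem lev_top : lev k (k + 1) = 1 := by
  unfold lev; push_cast; exact div_self (by positivity)

theorem lev_succ (l : ℕ) : lev k (l + 1) = lev k l + mass k := by
  unfold lev mass; push_cast; ring

theorem mass_pos : 0 < mass k := by unfold mass; positivity

theorem val_top (z : Fin k → Z) (H : (Fin k → Z) → X → ℝ) :
    val γ μ H k z = log (∫ x, exp (H z x) ∂μ) := by simp [val, nest]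

theorem cnd_top (z : Fin k → Z) (H φ : (Fin k → Z) → X → ℝ) :
    cnd γ μ H φ k z = (∫ x, φ z x * exp (H z x) ∂μ) / ∫ x, exp (H z x) ∂μ := by simp [cnd, nestCond]

theorem val_of_le {j : ℕ} (h : k ≤ j) (H : (Fin k → Z) → X → ℝ) :
    val γ μ H j = val γ μ H k := by simp [val, Nat.sub_eq_zero_of_le h]

theorem cnd_of_le {j : ℕ} (h : k ≤ j) (H φ : (Fin k → Z) → X → ℝ) :
    cnd γ μ H φ j = cnd γ μ H φ k := by simp [cnd, Nat.sub_eq_zero_of_le h]

theorem val_step {j : ℕ} (hj : 1 ≤ j) (hjk : j ≤ k) (z : Fin k → Z) (H : (Fin k → Z) → X → ℝ) :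
    val γ μ H (j - 1) z
      = log (∫ y, exp (lev k j * val γ μ H j (put z (j - 1) y)) ∂γ) / lev k j := by
  have e1 : k - (j - 1) = (k - j) + 1 := by omega
  have e2 : k - (k - j) = j := by omega
  simp only [val, e1, nest, e2]

theorem cnd_step {j : ℕ} (hj : 1 ≤ j) (hjk : j ≤ k) (z : Fin k → Z) (H φ : (Fin k → Z) → X → ℝ) :
    cnd γ μ H φ (j - 1) z =
      (∫ y, cnd γ μ H φ j (put z (j - 1) y) * exp (lev k j * val γ μ H j (put z (j - 1) y)) ∂γ) /
        ∫ y, exp (lev k j * val γ μ H j (put z (j - 1) y)) ∂γ := by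
  have e1 : k - (j - 1) = (k - j) + 1 := by omega
  have e2 : k - (k - j) = j := by omega
  simp only [cnd, val, e1, nestCond, e2]

/-- Descending induction over the levels. -/
theorem levels_induction {P : ℕ → Prop} (htop : ∀ j, k ≤ j → P j)
    (hstep : ∀ j, 1 ≤ j → j ≤ k → P j → P (j - 1)) (j : ℕ) : P j := by
  by_cases hj : k ≤ j
  · exact htop j hj
  · have : ∀ d, d ≤ k → P (k - d) := by
      intro d
      induction d with
      | zero => intro _; exact htop k le_rfl
      | succ d ih =>
        intro hd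
        have := hstep (k - d) (by omega) (by omega) (ih (by omega))
        rwa [show k - d - 1 = k - (d + 1) by omega] at this
    have h2 := this (k - j) (by omega)
    rwa [show k - (k - j) = j by omega] at h2

theorem LinB.meas_right {H : (Fin k → Z) → X → ℝ} (hH : LinB w H) (z : Fin k → Z) :
    Measurable (H z) := hH.meas.comp (measurable_const.prodMk measurable_id)

theorem Tame.meas_right {φ : (Fin k → Z) → X → ℝ} (hφ : Tame w φ) (z : Fin k → Z) :
    Measurable (φ z) := hφ.meas.comp (measurable_const.prodMk measurable_id)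

theorem Tame.of_bdd {φ : (Fin k → Z) → X → ℝ} (hm : Measurable (Function.uncurry φ)) {B : ℝ}
    (hb : ∀ z x, |φ z x| ≤ B) : Tame w φ := by
  refine ⟨hm, |B|, abs_nonneg B, fun z x => ((hb z x).trans (le_abs_self B)).trans ?_⟩
  exact le_mul_of_one_le_right (abs_nonneg B) (one_le_exp (mul_nonneg (abs_nonneg B) (w.tot_nonneg z)))

theorem Tame.mono_bound {φ : (Fin k → Z) → X → ℝ} {A A' : ℝ} (h0 : 0 ≤ A) (hAA : A ≤ A')
    (h : ∀ z x, |φ z x| ≤ A * exp (A * w.tot z)) (z : Fin k → Z) (x : X) :
    |φ z x| ≤ A' * exp (A' * w.tot z) := by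
  refine (h z x).trans (mul_le_mul hAA (exp_le_exp.2 ?_) (exp_pos _).le (h0.trans hAA))
  exact mul_le_mul_of_nonneg_right hAA (w.tot_nonneg z)

theorem Tame.add {φ ψ : (Fin k → Z) → X → ℝ} (hφ : Tame w φ) (hψ : Tame w ψ) :
    Tame w fun z x => φ z x + ψ z x := by
  obtain ⟨A, hA, ha⟩ := hφ.bound
  obtain ⟨B, hB, hb⟩ := hψ.bound
  refine ⟨hφ.meas.add hψ.meas, A + B, by linarith, fun z x => (abs_add_le _ _).trans ?_⟩
  have h1 : exp (A * w.tot z) ≤ exp ((A + B) * w.tot z) :=
    exp_le_exp.2 (mul_le_mul_of_nonneg_right (by linarith) (w.tot_nonneg z))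
  have h2 : exp (B * w.tot z) ≤ exp ((A + B) * w.tot z) :=
    exp_le_exp.2 (mul_le_mul_of_nonneg_right (by linarith) (w.tot_nonneg z))
  calc |φ z x| + |ψ z x| ≤ A * exp ((A + B) * w.tot z) + B * exp ((A + B) * w.tot z) :=
        add_le_add ((ha z x).trans (mul_le_mul_of_nonneg_left h1 hA))
          ((hb z x).trans (mul_le_mul_of_nonneg_left h2 hB))
    _ = _ := by ring

theorem Tame.mul {φ ψ : (Fin k → Z) → X → ℝ} (hφ : Tame w φ) (hψ : Tame w ψ) :
    Tame w fun z x => φ z x * ψ z x := by
  obtain ⟨A, hA, ha⟩ := hφ.bound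
  obtain ⟨B, hB, hb⟩ := hψ.bound
  refine ⟨hφ.meas.mul hψ.meas, A + B + A * B, by positivity, fun z x => ?_⟩
  rw [abs_mul]
  calc |φ z x| * |ψ z x| ≤ A * exp (A * w.tot z) * (B * exp (B * w.tot z)) :=
        mul_le_mul (ha z x) (hb z x) (abs_nonneg _) (by positivity)
    _ = A * B * exp ((A + B) * w.tot z) := by rw [add_mul, exp_add]; ring
    _ ≤ _ := mul_le_mul (by linarith) (exp_le_exp.2 (mul_le_mul_of_nonneg_right
        (by nlinarith [mul_nonneg hA hB]) (w.tot_nonneg z))) (exp_pos _).le (by positivity)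

theorem Tame.const_mul {φ : (Fin k → Z) → X → ℝ} (hφ : Tame w φ) (c : ℝ) :
    Tame w fun z x => c * φ z x :=
  (Tame.of_bdd (w := w) (φ := fun _ _ => c) measurable_const (B := |c|) fun _ _ => le_rfl).mul hφ

theorem Tame.neg {φ : (Fin k → Z) → X → ℝ} (hφ : Tame w φ) : Tame w fun z x => -φ z x := by
  simpa using hφ.const_mul (-1)

theorem Tame.sub {φ ψ : (Fin k → Z) → X → ℝ} (hφ : Tame w φ) (hψ : Tame w ψ) :
    Tame w fun z x => φ z x - ψ z x := by
  simpa [sub_eq_add_neg] using hφ.add hψ.neg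

theorem Tame.congr {φ ψ : (Fin k → Z) → X → ℝ} (hφ : Tame w φ) (h : ∀ z x, φ z x = ψ z x) :
    Tame w ψ := by
  have : φ = ψ := funext₂ h
  exact this ▸ hφ

theorem Tame.sum {ι : Type*} (s : Finset ι) {φ : ι → (Fin k → Z) → X → ℝ}
    (hφ : ∀ i ∈ s, Tame w (φ i)) : Tame w fun z x => ∑ i ∈ s, φ i z x := by
  classical
  induction s using Finset.induction with
  | empty =>
    simp only [Finset.sum_empty]
    exact Tame.of_bdd measurable_const (B := 0) fun _ _ => by simp
  | @insert i s hi ih =>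
    refine ((hφ i (mem_insert_self i s)).add
      (ih fun a ha => hφ a (mem_insert_of_mem ha))).congr fun z x => ?_
    rw [sum_insert hi]

theorem LinB.tame {H : (Fin k → Z) → X → ℝ} (hH : LinB w H) : Tame w H := by
  obtain ⟨A, hA, ha⟩ := hH.bound
  refine ⟨hH.meas, A + 1, by linarith, fun z x => (ha z x).trans ?_⟩
  have h1 : 1 + w.tot z ≤ exp (w.tot z) := by linarith [add_one_le_exp (w.tot z)]
  have h2 : exp (w.tot z) ≤ exp ((A + 1) * w.tot z) :=
    exp_le_exp.2 (le_mul_of_one_le_left (w.tot_nonneg z) (by linarith))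
  exact mul_le_mul (by linarith) (h1.trans h2) (by linarith [w.tot_nonneg z]) (by linarith)

theorem LinB.expTame {H : (Fin k → Z) → X → ℝ} (hH : LinB w H) (c : ℝ) :
    Tame w fun z x => exp (c * H z x) := by
  obtain ⟨A, hA, ha⟩ := hH.bound
  refine ⟨(measurable_exp.comp (hH.meas.const_mul c)), exp (|c| * A), (exp_pos _).le, fun z x => ?_⟩
  rw [abs_of_pos (exp_pos _), ← exp_add]
  refine exp_le_exp.2 ?_
  have h1 : c * H z x ≤ |c| * (A * (1 + w.tot z)) :=
    (le_abs_self _).trans (by rw [abs_mul]; exact mul_le_mul_of_nonneg_left (ha z x) (abs_nonneg c))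
  nlinarith [w.tot_nonneg z, add_one_le_exp (|c| * A)]

/-! ### one step -/

section Step

variable [IsProbabilityMeasure γ] {V : (Fin k → Z) → ℝ} {A : ℝ}

theorem integrable_step {G : (Fin k → Z) → ℝ} (hG : Measurable G)
    (hb : ∀ z, |G z| ≤ A * exp (A * w.tot z)) (z : Fin k → Z) (i : ℕ) :
    Integrable (fun y => G (put z i y)) γ := by
  refine Integrable.mono' ((w.int |A|).const_mul (|A| * exp (|A| * w.tot z)))
    (hG.comp (measurable_put_right z i)).aestronglyMeasurable (ae_of_all _ fun y => ?_)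
  rw [Real.norm_eq_abs]
  refine (hb _).trans ?_
  calc A * exp (A * w.tot (put z i y)) ≤ |A| * exp (|A| * (w.tot z + w.w y)) :=
        mul_le_mul (le_abs_self A) (exp_le_exp.2 ((mul_le_mul_of_nonneg_right (le_abs_self A)
          (w.tot_nonneg _)).trans (mul_le_mul_of_nonneg_left (w.tot_put z i y) (abs_nonneg A))))
          (exp_pos _).le (abs_nonneg A)
    _ = _ := by rw [mul_add, exp_add]; ring

theorem exp_step_pos (hV : Measurable V) (hb : ∀ z, |V z| ≤ A * (1 + w.tot z)) (c : ℝ)
    (z : Fin k → Z) (i : ℕ) :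
    Integrable (fun y => exp (c * V (put z i y))) γ ∧ 0 < ∫ y, exp (c * V (put z i y)) ∂γ := by
  have hL : LinB w (fun z (_ : Unit) => V z) :=
    ⟨hV.comp measurable_fst, |A|, abs_nonneg A, fun z _ => (hb z).trans
      (mul_le_mul_of_nonneg_right (le_abs_self A) (by linarith [w.tot_nonneg z]))⟩
  obtain ⟨B, _, hB⟩ := (hL.expTame c).bound
  have hi : Integrable (fun y => exp (c * V (put z i y))) γ :=
    integrable_step (w := w) (G := fun z => exp (c * V z)) (measurable_exp.comp (hV.const_mul c))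
      (fun z => hB z ()) z i
  exact ⟨hi, integral_exp_pos hi⟩

theorem step_log_bound (hA : 0 ≤ A) (hV : Measurable V) (hb : ∀ z, |V z| ≤ A * (1 + w.tot z))
    {m : ℝ} (hm : 0 < m) :
    ∃ B, 0 ≤ B ∧ ∀ (z : Fin k → Z) (i : ℕ),
      |log (∫ y, exp (m * V (put z i y)) ∂γ) / m| ≤ B * (1 + w.tot z) := by
  set I := ∫ y, exp (m * A * w.w y) ∂γ with hI
  set J := ∫ y, exp (-(m * A) * w.w y) ∂γ with hJ
  have hI0 : 0 < I := integral_exp_pos (w.int _)
  have hJ0 : 0 < J := integral_exp_pos (w.int _)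
  refine ⟨A + |log I| / m + |log J| / m, by positivity, fun z i => ?_⟩
  obtain ⟨hi, hpos⟩ := exp_step_pos hV hb m z i
  have hb' : ∀ y, |V (put z i y)| ≤ A * (1 + w.tot z) + A * w.w y := fun y =>
    (hb _).trans (by nlinarith [w.tot_put z i y])
  have up : ∫ y, exp (m * V (put z i y)) ∂γ ≤ exp (m * (A * (1 + w.tot z))) * I := by
    rw [hI, ← integral_const_mul]
    refine integral_mono hi ((w.int _).const_mul _) fun y => ?_
    rw [← exp_add]
    exact exp_le_exp.2 (by nlinarith [(abs_le.1 (hb' y)).2])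
  have lo : exp (-(m * (A * (1 + w.tot z)))) * J ≤ ∫ y, exp (m * V (put z i y)) ∂γ := by
    rw [hJ, ← integral_const_mul]
    refine integral_mono ((w.int _).const_mul _) hi fun y => ?_
    rw [← exp_add]
    exact exp_le_exp.2 (by nlinarith [(abs_le.1 (hb' y)).1])
  have lup := log_le_log hpos up
  have llo := log_le_log (mul_pos (exp_pos _) hJ0) lo
  rw [log_mul (exp_pos _).ne' hI0.ne', log_exp] at lup
  rw [log_mul (exp_pos _).ne' hJ0.ne', log_exp] at llo
  have e : (A + |log I| / m + |log J| / m) * (1 + w.tot z) * m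
      = m * (A * (1 + w.tot z)) + (|log I| + |log J|) * (1 + w.tot z) := by
    field_simp; ring
  rw [abs_div, abs_of_pos hm, div_le_iff₀ hm, e, abs_le]
  have ht := w.tot_nonneg z
  constructor <;> nlinarith [le_abs_self (log I), neg_abs_le (log J), abs_nonneg (log I), abs_nonneg (log J)]

theorem measurable_step_integral {G : (Fin k → Z) → ℝ} (hG : Measurable G) (i : ℕ) :
    Measurable fun z => ∫ y, G (put z i y) ∂γ :=
  (StronglyMeasurable.integral_prod_right' (f := fun p : (Fin k → Z) × Z => G (put p.1 i p.2))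
    (hG.comp (measurable_put i)).stronglyMeasurable).measurable

end Step

/-! ### regularity of the recursion -/

variable [IsProbabilityMeasure γ] [IsFiniteMeasure μ] [NeZero μ] {H H' φ ψ : (Fin k → Z) → X → ℝ}

theorem integrable_leaf (hH : LinB w H) (hφ : Tame w φ) (z : Fin k → Z) :
    Integrable (fun x => φ z x * exp (H z x)) μ := by
  obtain ⟨A, _, hA⟩ := (hφ.mul (hH.expTame 1)).bound
  refine Integrable.of_bound ((hφ.meas_right z).mul (hH.meas_right z).exp).aestronglyMeasurable
    (A * exp (A * w.tot z)) (ae_of_all _ fun x => ?_)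
  simpa [Real.norm_eq_abs] using hA z x

theorem integrable_exp_leaf (hH : LinB w H) (z : Fin k → Z) :
    Integrable (fun x => exp (H z x)) μ := by
  simpa using integrable_leaf (μ := μ) hH (Tame.of_bdd (w := w) (φ := fun _ _ => (1 : ℝ))
    measurable_const (B := 1) fun _ _ => by simp) z

theorem val_regular (hH : LinB w H) (j : ℕ) :
    Measurable (val γ μ H j) ∧ ∃ A, 0 ≤ A ∧ ∀ z, |val γ μ H j z| ≤ A * (1 + w.tot z) := by
  induction j using levels_induction (k := k) with
  | htop j hj =>
    rw [val_of_le hj]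
    have e : val γ μ H k = fun z => log (∫ x, exp (H z x) ∂μ) := funext fun z => val_top z H
    rw [e]
    refine ⟨((StronglyMeasurable.integral_prod_right'
      (f := fun p : (Fin k → Z) × X => exp (H p.1 p.2))
      hH.meas.exp.stronglyMeasurable).measurable).log, ?_⟩
    obtain ⟨A, hA, ha⟩ := hH.bound
    have hu : 0 < μ.real Set.univ := measureReal_univ_pos
    refine ⟨A + |log (μ.real Set.univ)|, by positivity, fun z => ?_⟩
    have hi := integrable_exp_leaf (μ := μ) hH z
    have up : ∫ x, exp (H z x) ∂μ ≤ exp (A * (1 + w.tot z)) * μ.real Set.univ := by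
      have := integral_mono hi (integrable_const _) fun x => exp_le_exp.2 (abs_le.1 (ha z x)).2
      simpa [mul_comm] using this
    have lo : exp (-(A * (1 + w.tot z))) * μ.real Set.univ ≤ ∫ x, exp (H z x) ∂μ := by
      have := integral_mono (integrable_const _) hi fun x => exp_le_exp.2 (abs_le.1 (ha z x)).1
      simpa [mul_comm] using this
    have lup := log_le_log ((mul_pos (exp_pos _) hu).trans_le lo) up
    have llo := log_le_log (mul_pos (exp_pos _) hu) lo
    rw [log_mul (exp_pos _).ne' hu.ne', log_exp] at lup llo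
    rw [abs_le]
    have ht := w.tot_nonneg z
    constructor <;>
      nlinarith [le_abs_self (log (μ.real Set.univ)), neg_abs_le (log (μ.real Set.univ)),
        abs_nonneg (log (μ.real Set.univ))]
  | hstep j hj hjk ih =>
    obtain ⟨hm, A, hA, ha⟩ := ih
    have e : val γ μ H (j - 1) = fun z =>
        log (∫ y, exp (lev k j * val γ μ H j (put z (j - 1) y)) ∂γ) / lev k j :=
      funext fun z => val_step hj hjk z H
    rw [e]
    obtain ⟨B, hB, hb⟩ := step_log_bound hA hm ha (lev_pos (k := k) hj)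
    exact ⟨((measurable_step_integral (G := fun z => exp (lev k j * val γ μ H j z))
      (hm.const_mul _).exp (j - 1)).log).div_const _, B, hB, fun z => hb z (j - 1)⟩

theorem val_linB (hH : LinB w H) (j : ℕ) : LinB w fun z (_ : X) => val γ μ H j z := by
  obtain ⟨hm, A, hA, ha⟩ := val_regular (μ := μ) hH j
  exact ⟨hm.comp measurable_fst, A, hA, fun z _ => ha z⟩

theorem integrable_val_step (hH : LinB w H) {j : ℕ} (z : Fin k → Z) (i : ℕ) :
    Integrable (fun y => exp (lev k j * val γ μ H j (put z i y))) γ ∧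
      0 < ∫ y, exp (lev k j * val γ μ H j (put z i y)) ∂γ := by
  obtain ⟨hm, A, _, ha⟩ := val_regular (γ := γ) (μ := μ) hH j
  exact exp_step_pos hm ha _ z i

theorem exp_val_bound (hH : LinB w H) (c : ℝ) (j : ℕ) :
    ∃ A, 0 ≤ A ∧ ∀ z, exp (c * val γ μ H j z) ≤ A * exp (A * w.tot z) := by
  obtain ⟨_, A, _, ha⟩ := val_regular (γ := γ) (μ := μ) hH j
  refine ⟨exp (|c| * A), (exp_pos _).le, fun z => ?_⟩
  rw [← exp_add]
  refine exp_le_exp.2 ?_
  have h1 : c * val γ μ H j z ≤ |c| * (A * (1 + w.tot z)) :=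
    (le_abs_self _).trans (by rw [abs_mul]; exact mul_le_mul_of_nonneg_left (ha z) (abs_nonneg c))
  nlinarith [w.tot_nonneg z, add_one_le_exp (|c| * A)]

theorem cnd_regular (hH : LinB w H) (hφ : Tame w φ) (j : ℕ) :
    Measurable (cnd γ μ H φ j) ∧ ∃ A, 0 ≤ A ∧ ∀ z, |cnd γ μ H φ j z| ≤ A * exp (A * w.tot z) := by
  induction j using levels_induction (k := k) with
  | htop j hj =>
    rw [cnd_of_le hj]
    have e : cnd γ μ H φ k = fun z => (∫ x, φ z x * exp (H z x) ∂μ) / ∫ x, exp (H z x) ∂μ :=
      funext fun z => cnd_top z H φ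
    rw [e]
    refine ⟨(StronglyMeasurable.integral_prod_right' (f := fun p : (Fin k → Z) × X => φ p.1 p.2 * exp (H p.1 p.2))
      (hφ.meas.mul hH.meas.exp).stronglyMeasurable).measurable.div
      (StronglyMeasurable.integral_prod_right' (f := fun p : (Fin k → Z) × X => exp (H p.1 p.2))
      hH.meas.exp.stronglyMeasurable).measurable, ?_⟩
    obtain ⟨A, hA, ha⟩ := hφ.bound
    refine ⟨A, hA, fun z => ?_⟩
    have hp : 0 < ∫ x, exp (H z x) ∂μ := integral_exp_pos (integrable_exp_leaf hH z)
    rw [abs_div, abs_of_pos hp, div_le_iff₀ hp, ← integral_const_mul]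
    refine (abs_integral_le_integral_abs).trans (integral_mono_of_nonneg
      (ae_of_all _ fun x => abs_nonneg _) ((integrable_exp_leaf hH z).const_mul _)
      (ae_of_all _ fun x => ?_))
    dsimp only
    rw [abs_mul, abs_of_pos (exp_pos _)]
    exact mul_le_mul_of_nonneg_right (ha z x) (exp_pos _).le
  | hstep j hj hjk ih =>
    obtain ⟨hm, A, hA, ha⟩ := ih
    obtain ⟨hv, B0, hB0, hb0⟩ := val_regular (γ := γ) (μ := μ) hH j
    have e : cnd γ μ H φ (j - 1) = fun z =>
        (∫ y, cnd γ μ H φ j (put z (j - 1) y) * exp (lev k j * val γ μ H j (put z (j - 1) y)) ∂γ) /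
        ∫ y, exp (lev k j * val γ μ H j (put z (j - 1) y)) ∂γ := funext fun z => cnd_step hj hjk z H φ
    rw [e]
    refine ⟨(measurable_step_integral (G := fun z => cnd γ μ H φ j z * exp (lev k j * val γ μ H j z))
      (hm.mul (hv.const_mul _).exp) (j - 1)).div
      (measurable_step_integral (G := fun z => exp (lev k j * val γ μ H j z))
      (hv.const_mul _).exp (j - 1)), ?_⟩
    set m := lev k j with hmdef
    have hm0 : 0 ≤ m := lev_nonneg j
    set I := ∫ y, exp ((A + m * B0) * w.w y) ∂γ with hI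
    set J := ∫ y, exp (-(m * B0) * w.w y) ∂γ with hJ
    have hI0 : 0 < I := integral_exp_pos (w.int _)
    have hJ0 : 0 < J := integral_exp_pos (w.int _)
    set D := A + 2 * m * B0 + A * exp (2 * m * B0) * I / J with hD
    have hD1 : A + 2 * m * B0 ≤ D := le_add_of_nonneg_right (by positivity)
    have hD2 : A * exp (2 * m * B0) * I / J ≤ D := le_add_of_nonneg_left (by positivity)
    refine ⟨D, by positivity, fun z => ?_⟩
    obtain ⟨hi, hp⟩ := integrable_val_step (μ := μ) hH (j := j) z (j - 1)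
    have hb' : ∀ y, |val γ μ H j (put z (j - 1) y)| ≤ B0 * (1 + w.tot z) + B0 * w.w y := fun y =>
      (hb0 _).trans (by nlinarith [w.tot_put z (j - 1) y])
    have lo : exp (-(m * (B0 * (1 + w.tot z)))) * J
        ≤ ∫ y, exp (m * val γ μ H j (put z (j - 1) y)) ∂γ := by
      rw [hJ, ← integral_const_mul]
      refine integral_mono ((w.int _).const_mul _) hi fun y => ?_
      rw [← exp_add]
      exact exp_le_exp.2 (by nlinarith [(abs_le.1 (hb' y)).1])
    have up : |∫ y, cnd γ μ H φ j (put z (j - 1) y) * exp (m * val γ μ H j (put z (j - 1) y)) ∂γ|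
        ≤ A * exp (A * w.tot z + m * (B0 * (1 + w.tot z))) * I := by
      rw [hI, ← integral_const_mul]
      refine abs_integral_le_integral_abs.trans (integral_mono_of_nonneg
        (ae_of_all _ fun y => abs_nonneg _) ((w.int _).const_mul _) (ae_of_all _ fun y => ?_))
      dsimp only
      rw [abs_mul, abs_of_pos (exp_pos _)]
      calc |cnd γ μ H φ j (put z (j - 1) y)| * exp (m * val γ μ H j (put z (j - 1) y))
          ≤ A * exp (A * (w.tot z + w.w y)) * exp (m * (B0 * (1 + w.tot z) + B0 * w.w y)) :=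
            mul_le_mul ((ha _).trans (mul_le_mul_of_nonneg_left (exp_le_exp.2
              (mul_le_mul_of_nonneg_left (w.tot_put z (j - 1) y) hA)) hA))
              (exp_le_exp.2 (mul_le_mul_of_nonneg_left (abs_le.1 (hb' y)).2 hm0)) (exp_pos _).le
              (by positivity)
        _ = _ := by rw [mul_assoc, mul_assoc, ← exp_add, ← exp_add]; congr 2; ring
    rw [abs_div, abs_of_pos hp, div_le_iff₀ hp]
    refine up.trans ?_
    have e2 : A * exp (A * w.tot z + m * (B0 * (1 + w.tot z))) * I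
        = A * exp (2 * m * B0) * I / J * exp ((A + 2 * m * B0) * w.tot z)
          * (exp (-(m * (B0 * (1 + w.tot z)))) * J) := by
      have : exp (A * w.tot z + m * (B0 * (1 + w.tot z)))
          = exp (2 * m * B0) * exp ((A + 2 * m * B0) * w.tot z) * exp (-(m * (B0 * (1 + w.tot z)))) := by
        rw [← exp_add, ← exp_add]; congr 1; ring
      rw [this]; field_simp
    rw [e2]
    refine mul_le_mul ?_ lo (by positivity) (by positivity)
    exact mul_le_mul hD2 (exp_le_exp.2 (mul_le_mul_of_nonneg_right hD1 (w.tot_nonneg z)))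
      (exp_pos _).le (by positivity)

theorem cnd_tame (hH : LinB w H) (hφ : Tame w φ) (j : ℕ) :
    Tame w fun z (_ : X) => cnd γ μ H φ j z := by
  obtain ⟨hm, A, hA, ha⟩ := cnd_regular (μ := μ) hH hφ j
  exact ⟨hm.comp measurable_fst, A, hA, fun z _ => ha z⟩

theorem integrable_cnd_step (hH : LinB w H) (hφ : Tame w φ) {j : ℕ} (z : Fin k → Z) (i : ℕ) :
    Integrable (fun y => cnd γ μ H φ j (put z i y) * exp (lev k j * val γ μ H j (put z i y))) γ := by
  obtain ⟨hm, A, hA, ha⟩ := cnd_regular (γ := γ) (μ := μ) hH hφ j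
  obtain ⟨hv, -⟩ := val_regular (γ := γ) (μ := μ) hH j
  obtain ⟨B, hB, hb⟩ := exp_val_bound (γ := γ) (μ := μ) hH (lev k j) j
  refine integrable_step (w := w) (A := A + B + A * B)
    (G := fun z => cnd γ μ H φ j z * exp (lev k j * val γ μ H j z)) (hm.mul (hv.const_mul _).exp) (fun z => ?_) z i
  rw [abs_mul, abs_of_pos (exp_pos _)]
  calc |cnd γ μ H φ j z| * exp (lev k j * val γ μ H j z)
      ≤ A * exp (A * w.tot z) * (B * exp (B * w.tot z)) :=
        mul_le_mul (ha z) (hb z) (exp_pos _).le (by positivity)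
    _ = A * B * exp ((A + B) * w.tot z) := by rw [add_mul, exp_add]; ring
    _ ≤ _ := mul_le_mul (by linarith) (exp_le_exp.2 (mul_le_mul_of_nonneg_right
        (by nlinarith [mul_nonneg hA hB]) (w.tot_nonneg z))) (exp_pos _).le (by positivity)

end Vale.Agent.P157.Rsb
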