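import Vale.Agent.P157.Rsb.CalcAlg

/-!
# P157: uniform constants and measurability in a parameter
-/

open MeasureTheory ProbabilityTheory Real Finset

namespace Vale.Agent.P157.Rsb

variable {k : ℕ} {Z X : Type} [MeasurableSpace Z] [MeasurableSpace X]
  {γ : Measure Z} {μ : Measure X} [IsProbabilityMeasure γ] [IsFiniteMeasure μ] [NeZero μ]

/-- Uniform linear bound on the values. -/
theorem val_bound_unif (w : Size γ) {A : ℝ} (hA : 0 ≤ A) :
    ∃ A', 0 ≤ A' ∧ ∀ H : (Fin k → Z) → X → ℝ, Measurable (Function.uncurry H) →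
      (∀ z x, |H z x| ≤ A * (1 + w.tot z)) → ∀ j z, |val γ μ H j z| ≤ A' * (1 + w.tot z) := by
  let U : ℝ → (Fin k → Z) → X → ℝ := fun c z _ => c * (1 + w.tot z)
  have hU : ∀ c, LinB w (U c) := fun c =>
    ⟨((w.measurable_tot.const_add 1).const_mul c).comp measurable_fst, |c|, abs_nonneg c, fun z x => by
      simp only [U, abs_mul, abs_of_nonneg (by linarith [w.tot_nonneg z] : 0 ≤ 1 + w.tot z)]; rfl⟩
  have hb : ∀ j, ∃ B, 0 ≤ B ∧ ∀ z, |val γ μ (U A) j z| ≤ B * (1 + w.tot z) ∧
      |val γ μ (U (-A)) j z| ≤ B * (1 + w.tot z) := fun j => by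
    obtain ⟨-, B, hB, hb⟩ := val_regular (μ := μ) (hU A) j
    obtain ⟨-, B', hB', hb'⟩ := val_regular (μ := μ) (hU (-A)) j
    exact ⟨B + B', by linarith, fun z =>
      ⟨(hb z).trans (mul_le_mul_of_nonneg_right (by linarith) (by linarith [w.tot_nonneg z])),
       (hb' z).trans (mul_le_mul_of_nonneg_right (by linarith) (by linarith [w.tot_nonneg z]))⟩⟩
  choose B hB0 hB using hb
  refine ⟨∑ j ∈ range (k + 1), B j, sum_nonneg fun j _ => hB0 j, fun H hm h j z => ?_⟩
  have hH : LinB w H := ⟨hm, A, hA, h⟩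
  wlog hj : j ≤ k generalizing j
  · rw [val_of_le (le_of_not_ge hj)]; exact this k le_rfl
  have up := cnd_exp_le (μ := μ) hH (hU A) j z
  have lo := cnd_exp_le (μ := μ) (hU (-A)) hH j z
  have u0 := cnd_nonneg (γ := γ) (μ := μ) (H := H) (φ := fun z x => U A z x - H z x)
    (fun z x => by simp only [U]; linarith [(abs_le.1 (h z x)).2]) j z
  have l0 := cnd_nonneg (γ := γ) (μ := μ) (H := U (-A)) (φ := fun z x => H z x - U (-A) z x)
    (fun z x => by simp only [U]; linarith [(abs_le.1 (h z x)).1]) j z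
  obtain ⟨bu, bl⟩ := hB j z
  have hs : B j * (1 + w.tot z) ≤ (∑ i ∈ range (k + 1), B i) * (1 + w.tot z) :=
    mul_le_mul_of_nonneg_right (single_le_sum (fun i _ => hB0 i) (mem_range.2 (by omega)))
      (by linarith [w.tot_nonneg z])
  rw [abs_le] at bu bl ⊢
  constructor <;> linarith [bu.1, bu.2, bl.1, bl.2]

/-- Uniform exponential bound on the conditional expectations. -/
theorem cnd_bound_unif (w : Size γ) {A : ℝ} (hA : 0 ≤ A) :
    ∃ A', 0 ≤ A' ∧ ∀ H φ : (Fin k → Z) → X → ℝ, Measurable (Function.uncurry H) →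
      Measurable (Function.uncurry φ) → (∀ z x, |H z x| ≤ A * (1 + w.tot z)) →
      (∀ z x, |φ z x| ≤ A * exp (A * w.tot z)) →
      ∀ j z, |cnd γ μ H φ j z| ≤ A' * exp (A' * w.tot z) := by
  obtain ⟨B0, hB0, hV⟩ := val_bound_unif (k := k) (μ := μ) w hA
  suffices h : ∀ j, ∃ A', 0 ≤ A' ∧ ∀ H φ : (Fin k → Z) → X → ℝ, Measurable (Function.uncurry H) →
      Measurable (Function.uncurry φ) → (∀ z x, |H z x| ≤ A * (1 + w.tot z)) →
      (∀ z x, |φ z x| ≤ A * exp (A * w.tot z)) → ∀ z, |cnd γ μ H φ j z| ≤ A' * exp (A' * w.tot z) by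
    choose B hB hb using h
    refine ⟨∑ j ∈ range (k + 1), B j, sum_nonneg fun j _ => hB j, fun H φ hm hp h1 h2 j z => ?_⟩
    wlog hj : j ≤ k generalizing j
    · rw [cnd_of_le (le_of_not_ge hj)]; exact this k le_rfl
    exact Tame.mono_bound (φ := fun z (_ : X) => cnd γ μ H φ j z) (hB j)
      (single_le_sum (fun i _ => hB i) (mem_range.2 (by omega)))
      (fun z _ => hb j H φ hm hp h1 h2 z) z (Classical.choice
        (nonempty_of_isProbabilityMeasure ((μ Set.univ)⁻¹ • μ)))
  intro j
  induction j using levels_induction (k := k) with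
  | htop j hj =>
    refine ⟨A, hA, fun H φ hm hp h1 h2 z => ?_⟩
    have hH : LinB w H := ⟨hm, A, hA, h1⟩
    rw [cnd_of_le hj, cnd_top]
    have hpos : 0 < ∫ x, exp (H z x) ∂μ := integral_exp_pos (integrable_exp_leaf hH z)
    rw [abs_div, abs_of_pos hpos, div_le_iff₀ hpos, ← integral_const_mul]
    refine (abs_integral_le_integral_abs).trans (integral_mono_of_nonneg
      (ae_of_all _ fun x => abs_nonneg _) ((integrable_exp_leaf hH z).const_mul _)
      (ae_of_all _ fun x => ?_))
    dsimp only
    rw [abs_mul, abs_of_pos (exp_pos _)]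
    exact mul_le_mul_of_nonneg_right (h2 z x) (exp_pos _).le
  | hstep j hj hjk ih =>
    obtain ⟨C, hC, hc⟩ := ih
    set m := lev k j with hmdef
    have hm0 : 0 ≤ m := lev_nonneg j
    set I := ∫ y, exp ((C + m * B0) * w.w y) ∂γ with hI
    set J := ∫ y, exp (-(m * B0) * w.w y) ∂γ with hJ
    have hI0 : 0 < I := integral_exp_pos (w.int _)
    have hJ0 : 0 < J := integral_exp_pos (w.int _)
    set D := C + 2 * m * B0 + C * exp (2 * m * B0) * I / J with hD
    have hD1 : C + 2 * m * B0 ≤ D := le_add_of_nonneg_right (by positivity)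
    have hD2 : C * exp (2 * m * B0) * I / J ≤ D := le_add_of_nonneg_left (by positivity)
    refine ⟨D, by positivity, fun H φ hm hp h1 h2 z => ?_⟩
    have hH : LinB w H := ⟨hm, A, hA, h1⟩
    rw [cnd_step hj hjk]
    obtain ⟨hi, hpos⟩ := integrable_val_step (μ := μ) hH (j := j) z (j - 1)
    have hb' : ∀ y, |val γ μ H j (put z (j - 1) y)| ≤ B0 * (1 + w.tot z) + B0 * w.w y := fun y =>
      (hV H hm h1 j _).trans (by nlinarith [w.tot_put z (j - 1) y])
    have lo : exp (-(m * (B0 * (1 + w.tot z)))) * J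
        ≤ ∫ y, exp (m * val γ μ H j (put z (j - 1) y)) ∂γ := by
      rw [hJ, ← integral_const_mul]
      refine integral_mono ((w.int _).const_mul _) hi fun y => ?_
      rw [← exp_add]
      exact exp_le_exp.2 (by nlinarith [(abs_le.1 (hb' y)).1])
    have up : |∫ y, cnd γ μ H φ j (put z (j - 1) y) * exp (m * val γ μ H j (put z (j - 1) y)) ∂γ|
        ≤ C * exp (C * w.tot z + m * (B0 * (1 + w.tot z))) * I := by
      rw [hI, ← integral_const_mul]
      refine abs_integral_le_integral_abs.trans (integral_mono_of_nonneg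
        (ae_of_all _ fun y => abs_nonneg _) ((w.int _).const_mul _) (ae_of_all _ fun y => ?_))
      dsimp only
      rw [abs_mul, abs_of_pos (exp_pos _)]
      calc |cnd γ μ H φ j (put z (j - 1) y)| * exp (m * val γ μ H j (put z (j - 1) y))
          ≤ C * exp (C * (w.tot z + w.w y)) * exp (m * (B0 * (1 + w.tot z) + B0 * w.w y)) :=
            mul_le_mul ((hc H φ ‹_› hp h1 h2 _).trans (mul_le_mul_of_nonneg_left (exp_le_exp.2
              (mul_le_mul_of_nonneg_left (w.tot_put z (j - 1) y) hC)) hC))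
              (exp_le_exp.2 (mul_le_mul_of_nonneg_left (abs_le.1 (hb' y)).2 hm0)) (exp_pos _).le
              (by positivity)
        _ = _ := by rw [mul_assoc, mul_assoc, ← exp_add, ← exp_add]; congr 2; ring
    rw [abs_div, abs_of_pos hpos, div_le_iff₀ hpos]
    refine up.trans ?_
    have e2 : C * exp (C * w.tot z + m * (B0 * (1 + w.tot z))) * I
        = C * exp (2 * m * B0) * I / J * exp ((C + 2 * m * B0) * w.tot z)
          * (exp (-(m * (B0 * (1 + w.tot z)))) * J) := by
      have : exp (C * w.tot z + m * (B0 * (1 + w.tot z)))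
          = exp (2 * m * B0) * exp ((C + 2 * m * B0) * w.tot z) * exp (-(m * (B0 * (1 + w.tot z)))) := by
        rw [← exp_add, ← exp_add]; congr 1; ring
      rw [this]; field_simp
    rw [e2]
    refine mul_le_mul ?_ lo (by positivity) (by positivity)
    exact mul_le_mul hD2 (exp_le_exp.2 (mul_le_mul_of_nonneg_right hD1 (w.tot_nonneg z)))
      (exp_pos _).le (by positivity)

variable {G : Type*} [MeasurableSpace G]

omit [IsProbabilityMeasure γ] [IsFiniteMeasure μ] [NeZero μ] in
theorem val_measurable_param [SFinite γ] [SFinite μ] {H : G → (Fin k → Z) → X → ℝ}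
    (hH : Measurable fun p : (G × (Fin k → Z)) × X => H p.1.1 p.1.2 p.2) (j : ℕ) :
    Measurable fun p : G × (Fin k → Z) => val γ μ (H p.1) j p.2 := by
  induction j using levels_induction (k := k) with
  | htop j hj =>
    simp only [val_of_le hj, val_top]
    exact ((StronglyMeasurable.integral_prod_right'
      (f := fun p : (G × (Fin k → Z)) × X => exp (H p.1.1 p.1.2 p.2))
      hH.exp.stronglyMeasurable).measurable).log
  | hstep j hj hjk ih =>
    simp only [val_step hj hjk]
    have hp : Measurable fun q : (G × (Fin k → Z)) × Z => (q.1.1, put q.1.2 (j - 1) q.2) :=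
      (measurable_fst.comp measurable_fst).prodMk
        ((measurable_put (j - 1)).comp ((measurable_snd.comp measurable_fst).prodMk measurable_snd))
    exact ((StronglyMeasurable.integral_prod_right'
      (f := fun q : (G × (Fin k → Z)) × Z => exp (lev k j * val γ μ (H q.1.1) j (put q.1.2 (j - 1) q.2)))
      ((ih.comp hp).const_mul _).exp.stronglyMeasurable).measurable.log).div_const _

omit [IsProbabilityMeasure γ] [IsFiniteMeasure μ] [NeZero μ] in
theorem cnd_measurable_param [SFinite γ] [SFinite μ] {H φ : G → (Fin k → Z) → X → ℝ}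
    (hH : Measurable fun p : (G × (Fin k → Z)) × X => H p.1.1 p.1.2 p.2)
    (hφ : Measurable fun p : (G × (Fin k → Z)) × X => φ p.1.1 p.1.2 p.2) (j : ℕ) :
    Measurable fun p : G × (Fin k → Z) => cnd γ μ (H p.1) (φ p.1) j p.2 := by
  induction j using levels_induction (k := k) with
  | htop j hj =>
    simp only [cnd_of_le hj, cnd_top]
    exact (StronglyMeasurable.integral_prod_right'
      (f := fun p : (G × (Fin k → Z)) × X => φ p.1.1 p.1.2 p.2 * exp (H p.1.1 p.1.2 p.2))
      (hφ.mul hH.exp).stronglyMeasurable).measurable.div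
      (StronglyMeasurable.integral_prod_right'
      (f := fun p : (G × (Fin k → Z)) × X => exp (H p.1.1 p.1.2 p.2))
      hH.exp.stronglyMeasurable).measurable
  | hstep j hj hjk ih =>
    simp only [cnd_step hj hjk]
    have hp : Measurable fun q : (G × (Fin k → Z)) × Z => (q.1.1, put q.1.2 (j - 1) q.2) :=
      (measurable_fst.comp measurable_fst).prodMk
        ((measurable_put (j - 1)).comp ((measurable_snd.comp measurable_fst).prodMk measurable_snd))
    have hv := (((val_measurable_param (γ := γ) (μ := μ) hH j).comp hp).const_mul (lev k j)).exp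
    exact (StronglyMeasurable.integral_prod_right'
      (f := fun q : (G × (Fin k → Z)) × Z => cnd γ μ (H q.1.1) (φ q.1.1) j (put q.1.2 (j - 1) q.2)
        * exp (lev k j * val γ μ (H q.1.1) j (put q.1.2 (j - 1) q.2)))
      ((ih.comp hp).mul hv).stronglyMeasurable).measurable.div
      (StronglyMeasurable.integral_prod_right'
      (f := fun q : (G × (Fin k → Z)) × Z => exp (lev k j * val γ μ (H q.1.1) j (put q.1.2 (j - 1) q.2)))
      hv.stronglyMeasurable).measurable

end Vale.Agent.P157.Rsb
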