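import Vale.Agent.P157.Rsb.CavPattern
import Vale.Agent.P157.Rsb.CavPair

/-!
# P157, cavity module: the data of one interpolation and its uniform bounds
-/

open MeasureTheory ProbabilityTheory Real Finset

namespace Vale.Agent.P157.Rsb

/-- The data of one interpolation. -/
structure CavCtx (N k : ℕ) where
  /-- the configurations -/
  K : CavBase N
  /-- the bound of the new coordinate -/
  W : ℝ
  hW : 1 ≤ W
  /-- the potential -/
  f : ℝ → ℝ
  /-- the bound of the potential -/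
  L : ℝ
  /-- the bound of its derivative -/
  Bf : ℝ
  good : Good f
  bf : ∀ u, |f u| ≤ L
  bf' : ∀ u, |deriv f u| ≤ Bf
  /-- the amplitudes -/
  σ : ℕ → ℝ
  /-- the kernel of the one-coordinate system -/
  ρ : ℕ → ℝ
  /-- additional variances on the new coordinate -/
  e : ℕ → ℝ
  /-- the overlap path -/
  q : ℕ → ℝ
  /-- the Lagrange parameter -/
  b : ℝ
  hρ0 : ρ 0 = 0
  hρ : ∀ l, 1 ≤ l → l ≤ k → 0 ≤ incr ρ l
  he : ∀ l, 0 ≤ e l
  hq : IsPath k q

/-- A sum over the levels below `l`. -/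
theorem fin_sum_Icc {k l : ℕ} (hl : l ≤ k) (g : ℕ → ℝ) :
    (∑ a : Fin k, if (a : ℕ) < l then g (a + 1) else 0) = ∑ i ∈ Icc 1 l, g i := by
  rw [Fin.sum_univ_eq_sum_range (fun a => if a < l then g (a + 1) else 0), ← sum_filter]
  refine sum_nbij' (· + 1) (· - 1) ?_ ?_ ?_ ?_ fun a _ => rfl <;>
    (intro a; simp only [mem_filter, mem_range, mem_Icc]; omega)

theorem fin_sum_all (k : ℕ) (g : ℕ → ℝ) : ∑ a : Fin k, g (a + 1) = ∑ i ∈ Icc 1 k, g i := by
  rw [← fin_sum_Icc le_rfl g]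
  exact sum_congr rfl fun a _ => (if_pos a.2).symm

theorem sum_incr (ρ : ℕ → ℝ) (l : ℕ) : ∑ i ∈ Icc 1 l, incr ρ i = ρ l - ρ 0 := by
  induction l with
  | zero => simp
  | succ l ih =>
    rw [sum_Icc_succ_top (by omega), ih, incr, Nat.add_sub_cancel]
    ring

variable {N k M : ℕ} (C : CavCtx N k)

namespace CavCtx

/-- The system at angle `u`. -/
noncomputable abbrev S (u : ℝ) : Leaf (N + 1 + 1) := cavLeaf C.K C.hW C.b u

/-- The amplitudes of the new fields at angle `u`. -/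
noncomputable def β (u : ℝ) : ℕ → ℝ := cavBeta C.ρ C.e u

/-- The field variance up to level `l`. -/
noncomputable def r (l : ℕ) : ℝ := ∑ i ∈ Icc 1 l, C.σ i ^ 2

/-- The field coefficients at angle `u`. -/
noncomputable def vC (u : ℝ) : Fin k → FieldIdx (N + 1 + 1) → CavX C.K → ℝ :=
  vCoef (C.S u) (bigN N) C.σ (C.β u)

/-- The field coefficients of the derivative. -/
noncomputable def dC (u : ℝ) : Fin k → FieldIdx (N + 1 + 1) → CavX C.K → ℝ :=
  dCoef C.W C.σ C.ρ C.e u

theorem mf : Measurable C.f ∧ Measurable (deriv C.f) ∧ Differentiable ℝ C.f :=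
  ⟨C.good.1.continuous.measurable, measurable_deriv _, C.good.1.differentiable (by norm_num)⟩

theorem L_nonneg : 0 ≤ C.L := (abs_nonneg _).trans (C.bf 0)

theorem Bf_nonneg : 0 ≤ C.Bf := (abs_nonneg _).trans (C.bf' 0)

theorem bigN_pos : 0 < bigN N := by unfold bigN; linarith [one_le_dimN N]

theorem r_nonneg (l : ℕ) : 0 ≤ C.r l := sum_nonneg fun i _ => sq_nonneg _

theorem r_mono {l : ℕ} (hl : l ≤ k) : C.r l ≤ C.r k :=
  sum_le_sum_of_subset_of_nonneg (Icc_subset_Icc le_rfl hl) fun _ _ _ => sq_nonneg _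

theorem ρ_eq (l : ℕ) : C.ρ l = ∑ i ∈ Icc 1 l, incr C.ρ i := by
  rw [sum_incr, C.hρ0, sub_zero]

theorem ρ_nonneg : 0 ≤ C.ρ k := by
  rw [C.ρ_eq]
  exact sum_nonneg fun i hi => C.hρ i (mem_Icc.1 hi).1 (mem_Icc.1 hi).2

theorem beta_facts (u : ℝ) (a : Fin k) :
    C.β u (a + 1) ^ 2 = cos u ^ 2 * incr C.ρ (a + 1) + C.e (a + 1) ∧
      cavBeta' C.ρ C.e u (a + 1) * C.β u (a + 1) = -(sin u * cos u * incr C.ρ (a + 1)) ∧
      cavBeta' C.ρ C.e u (a + 1) ^ 2 ≤ incr C.ρ (a + 1) := by
  obtain ⟨h1, h2, h3, -⟩ := cavBeta_facts (C.hρ (a + 1) (by omega) (by omega)) (C.he _) u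
  exact ⟨h1, h2, h3⟩

theorem dv_term (u : ℝ) (x y : CavX C.K) (a : Fin k) :
    ∑ i, C.dC u a i x * C.vC u a i y
      = C.σ (a + 1) ^ 2 * (bigN N * sdot (cavFld' C.W u x) (cavFld C.W u y))
        - sin u * cos u * incr C.ρ (a + 1) * (cw C.W x * cw C.W y) := by
  obtain ⟨-, h2, -⟩ := C.beta_facts u a
  have hN := mul_self_sqrt (bigN_pos (N := N)).le
  rw [Fintype.sum_sum_type]
  simp only [dC, vC, dCoef, vCoef, Sum.elim_inl, Sum.elim_inr, Fintype.sum_unique, sdot, mul_sum]
  rw [sub_eq_add_neg]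
  congr 1
  · refine sum_congr rfl fun i _ => ?_
    linear_combination (C.σ (a + 1) ^ 2 * cavFld' C.W u x i * cavFld C.W u y i) * hN
  · linear_combination (cw C.W x * cw C.W y) * h2

/-- The diagonal kernel of the derivative. -/
theorem dv_diag (u : ℝ) (x : CavX C.K) :
    ∑ a, ∑ i, C.dC u a i x * C.vC u a i x = sin u * cos u * (C.r k - C.ρ k * cw C.W x ^ 2) := by
  simp only [C.dv_term]
  rw [C.ρ_eq k, r, ← fin_sum_all k (fun i => C.σ i ^ 2), ← fin_sum_all k (incr C.ρ),
    sum_mul, mul_sub, mul_sum, mul_sum, ← sum_sub_distrib]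
  refine sum_congr rfl fun a _ => ?_
  rw [bigN, cavFld'_diag]
  ring

/-- The kernel below a level. -/
theorem dv_low (u : ℝ) {l : ℕ} (hl : l ≤ k) (x y : CavX C.K) :
    lowKer (C.dC u) (C.vC u) l x y = C.r l * (bigN N * sdot (cavFld' C.W u x) (cavFld C.W u y))
      - sin u * cos u * C.ρ l * (cw C.W x * cw C.W y) := by
  rw [C.ρ_eq l, r, ← fin_sum_Icc hl (fun i => C.σ i ^ 2), ← fin_sum_Icc hl (incr C.ρ), sum_mul, mul_sum,
    sum_mul, ← sum_sub_distrib, lowKer]
  refine sum_congr rfl fun a _ => ?_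
  by_cases ha : (a : ℕ) < l
  · simp only [if_pos ha, C.dv_term]
  · simp [ha]

/-- The constant of the second moments. -/
noncomputable def Dfld : ℝ := C.r k * (10 * C.W ^ 6) + C.ρ k * C.W ^ 2

/-- The constant of the kernels. -/
noncomputable def κfld : ℝ := C.r k * (8 * C.W ^ 6) + C.ρ k * C.W ^ 2

theorem Dfld_nonneg : 0 ≤ C.Dfld := by
  unfold Dfld
  have h1 := C.r_nonneg k
  have h2 := C.ρ_nonneg
  have := C.hW
  positivity

theorem κfld_nonneg : 0 ≤ C.κfld := by
  unfold κfld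
  have h1 := C.r_nonneg k
  have h2 := C.ρ_nonneg
  have := C.hW
  positivity

theorem cw_mul_le (x y : CavX C.K) : |cw C.W x * cw C.W y| ≤ C.W ^ 2 := by
  rw [abs_mul, pow_two]
  exact mul_le_mul (abs_cw_le C.hW x) (abs_cw_le C.hW y) (abs_nonneg _) (by linarith [C.hW])

theorem cw_sq_le (x : CavX C.K) : cw C.W x ^ 2 ≤ C.W ^ 2 := by
  have h := C.cw_mul_le x x
  rw [← pow_two, abs_sq] at h
  exact h

theorem kerBd (u : ℝ) : KerBd (C.dC u) (C.vC u) C.Dfld C.κfld := by
  have hW := C.hW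
  have hr := C.r_nonneg k
  have hp := C.ρ_nonneg
  have hsc := abs_sin_cos_le u
  refine ⟨fun x => ?_, fun x => ?_, fun l x y => ?_⟩
  · rw [Dfld, C.ρ_eq k, r, ← fin_sum_all k (fun i => C.σ i ^ 2), ← fin_sum_all k (incr C.ρ), sum_mul,
      sum_mul, ← sum_add_distrib]
    refine sum_le_sum fun a _ => ?_
    rw [Fintype.sum_sum_type]
    simp only [dC, dCoef, Sum.elim_inl, Sum.elim_inr, Fintype.sum_unique, mul_pow,
      sq_sqrt (bigN_pos (N := N)).le, mul_assoc, ← mul_sum]
    refine add_le_add (mul_le_mul_of_nonneg_left ?_ (sq_nonneg _)) ?_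
    · have h := (cavPat'_sq_le (u := u) hW x).2
      simpa [bigN, sdot, ← pow_two, mul_sum] using h
    · exact mul_le_mul (C.beta_facts u a).2.2 (C.cw_sq_le x) (sq_nonneg _)
        (C.hρ _ (by omega) (by omega))
  · rw [C.dv_diag, abs_mul]
    refine (mul_le_of_le_one_left (abs_nonneg _) hsc).trans ((abs_sub _ _).trans ?_)
    rw [abs_of_nonneg hr, abs_of_nonneg (mul_nonneg hp (sq_nonneg _)), κfld]
    exact add_le_add (le_mul_of_one_le_right hr (by nlinarith [one_le_pow₀ (n := 6) hW]))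
      (mul_le_mul_of_nonneg_left (C.cw_sq_le x) hp)
  · rw [κfld, C.ρ_eq k, r, ← fin_sum_all k (fun i => C.σ i ^ 2), ← fin_sum_all k (incr C.ρ), sum_mul,
      sum_mul, ← sum_add_distrib, lowKer]
    refine (abs_sum_le_sum_abs _ _).trans (sum_le_sum fun a _ => ?_)
    have hi := C.hρ (a + 1) (by omega) (by omega)
    by_cases ha : (a : ℕ) < l
    · rw [if_pos ha, C.dv_term]
      refine (abs_sub _ _).trans (add_le_add ?_ ?_)
      · rw [abs_mul, abs_sq, abs_mul (bigN N), abs_of_pos bigN_pos]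
        exact mul_le_mul_of_nonneg_left (cavKer_bdd hW x y).2 (sq_nonneg _)
      · rw [abs_mul, abs_mul, abs_of_nonneg hi]
        exact mul_le_mul (mul_le_of_le_one_left hi hsc) (C.cw_mul_le x y) (abs_nonneg _) hi
    · rw [if_neg ha, abs_zero]
      have := sq_nonneg (C.σ (a + 1))
      positivity

theorem bcoef_dC (u : ℝ) : BCoef (C.dC u) := by
  have hW := C.hW
  refine ⟨∑ a : Fin k, (|C.σ (a + 1) * √(bigN N)| * (3 * C.W ^ 3)
    + |cavBeta' C.ρ C.e u (a + 1)| * C.W), by positivity, fun a i => ?_⟩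
  have hle : |C.σ (a + 1) * √(bigN N)| * (3 * C.W ^ 3) + |cavBeta' C.ρ C.e u (a + 1)| * C.W
      ≤ ∑ a : Fin k, (|C.σ (a + 1) * √(bigN N)| * (3 * C.W ^ 3)
        + |cavBeta' C.ρ C.e u (a + 1)| * C.W) :=
    single_le_sum (f := fun a : Fin k => |C.σ (a + 1) * √(bigN N)| * (3 * C.W ^ 3)
      + |cavBeta' C.ρ C.e u (a + 1)| * C.W) (fun _ _ => by positivity) (mem_univ a)
  cases i with
  | inl i =>
    refine ⟨measurable_cavFld'.eval.const_mul _, fun x => le_trans ?_ hle⟩
    simp only [dC, dCoef, Sum.elim_inl]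
    rw [abs_mul]
    exact le_add_of_le_of_nonneg (mul_le_mul_of_nonneg_left (abs_coefs_le hW u x i).2.2.2 (abs_nonneg _))
      (by positivity)
  | inr i =>
    refine ⟨measurable_cw.const_mul _, fun x => le_trans ?_ hle⟩
    simp only [dC, dCoef, Sum.elim_inr]
    rw [abs_mul]
    exact le_add_of_nonneg_of_le (by positivity)
      (mul_le_mul_of_nonneg_left (abs_cw_le hW x) (abs_nonneg _))

/-- The bound of the deterministic part of the derivative. -/
noncomputable def detBd : ℝ := |C.b - 1| * C.W ^ 2 + C.r k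

theorem detD_le (u : ℝ) (x : CavX C.K) : |detD k C.W C.σ C.b u x| ≤ C.detBd := by
  rw [detD_eq, abs_mul, fin_sum_all k fun i => C.σ i ^ 2]
  refine (mul_le_of_le_one_left (abs_nonneg _) (abs_sin_cos_le u)).trans ((abs_sub _ _).trans ?_)
  rw [detBd, abs_mul, abs_sq, show |∑ i ∈ Icc 1 k, C.σ i ^ 2| = C.r k from abs_of_nonneg (C.r_nonneg k)]
  exact add_le_add_left (mul_le_mul_of_nonneg_left (C.cw_sq_le x) (abs_nonneg _)) _

theorem patD_le (u : ℝ) (g : Fin M → Fin (N + 1 + 1) → ℝ) (x : CavX C.K) :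
    |patD C.W C.f g u x| ≤ 3 * C.W ^ 3 * C.Bf * gTot g := by
  unfold patD gTot
  rw [mul_sum]
  refine (abs_sum_le_sum_abs _ _).trans (sum_le_sum fun a _ => ?_)
  rw [abs_mul, mul_comm (3 * C.W ^ 3), mul_assoc C.Bf]
  exact mul_le_mul (C.bf' _) (abs_sdot_le (g a) _ fun i => (abs_coefs_le C.hW u x i).2.2.1)
    (abs_nonneg _) C.Bf_nonneg

theorem measurable_patD (u : ℝ) :
    Measurable fun p : (Fin M → Fin (N + 1 + 1) → ℝ) × CavX C.K => patD C.W C.f p.1 u p.2 := by
  unfold patD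
  refine Finset.measurable_sum _ fun a _ => Measurable.mul ?_ ?_
  · exact C.mf.2.1.comp (measurable_sdot ((measurable_pi_apply a).comp measurable_fst)
      (measurable_cavPat.comp measurable_snd))
  · exact measurable_sdot ((measurable_pi_apply a).comp measurable_fst)
      (measurable_cavPat'.comp measurable_snd)

theorem measurable_detD (u : ℝ) :
    Measurable fun x : CavX C.K => detD k C.W C.σ C.b u x := by
  simp only [detD_eq]
  have := measurable_cw (K := C.K) (W := C.W)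
  fun_prop

/-- Uniform bounds of the Hamiltonian and its derivative along the path. -/
theorem ham_unif (M : ℕ) : ∃ A, 0 ≤ A ∧ ∀ (g : Fin M → Fin (N + 1 + 1) → ℝ) (u : ℝ)
    (z : Fin k → FieldIdx (N + 1 + 1) → ℝ) (x : CavX C.K),
    |ham (C.S u) C.f (bigN N) C.σ (C.β u) g z x| ≤ A * (1 + (gaussSize _).tot z) ∧
    |cavDH k C.W C.f C.σ C.ρ C.e C.b g u z x| ≤ A * (1 + gTot g + (gaussSize _).tot z) := by
  have hW := C.hW
  set Bv := ∑ a : Fin k, (|C.σ (a + 1) * √(bigN N)| * (3 * C.W ^ 3)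
    + √(incr C.ρ (a + 1) + C.e (a + 1)) * C.W) with hBv
  set B0 := M * C.L + bigN N / 2 * C.r k + (|C.b - 1| * C.W ^ 2 + |C.K.shift|) with hB0
  have hN := bigN_pos (N := N)
  have hr := C.r_nonneg k
  have hBv0 : 0 ≤ Bv := by positivity
  have hL := C.L_nonneg
  have hB00 : 0 ≤ B0 := by positivity
  have hdet : 0 ≤ C.detBd := by unfold detBd; positivity
  have hBf := C.Bf_nonneg
  set A := Bv + B0 + C.detBd + 3 * C.W ^ 3 * C.Bf with hA
  have h3 : 0 ≤ 3 * C.W ^ 3 * C.Bf := by positivity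
  refine ⟨A, by positivity, fun g u z x => ?_⟩
  have ht := (gaussSize (FieldIdx (N + 1 + 1))).tot_nonneg z
  have hg := gTot_nonneg g
  have hterm : ∀ a : Fin k, |C.σ (a + 1) * √(bigN N)| * (3 * C.W ^ 3)
      + √(incr C.ρ (a + 1) + C.e (a + 1)) * C.W ≤ Bv := fun a =>
    single_le_sum (f := fun a : Fin k => |C.σ (a + 1) * √(bigN N)| * (3 * C.W ^ 3)
      + √(incr C.ρ (a + 1) + C.e (a + 1)) * C.W) (fun _ _ => by positivity) (mem_univ a)
  have hv : ∀ a i y, |C.vC u a i y| ≤ Bv := fun a i y => by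
    refine le_trans ?_ (hterm a)
    cases i with
    | inl i =>
      simp only [vC, vCoef, Sum.elim_inl]
      rw [abs_mul]
      exact le_add_of_le_of_nonneg (mul_le_mul_of_nonneg_left (abs_coefs_le hW u y i).2.1 (abs_nonneg _))
        (by positivity)
    | inr i =>
      simp only [vC, vCoef, Sum.elim_inr]
      rw [abs_mul]
      refine le_add_of_nonneg_of_le (by positivity) (mul_le_mul ?_ (abs_cw_le hW y) (abs_nonneg _)
        (sqrt_nonneg _))
      rw [← sqrt_sq_eq_abs, (C.beta_facts u a).1]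
      exact sqrt_le_sqrt (add_le_add_left
        (mul_le_of_le_one_left (C.hρ (a + 1) (by omega) (by omega)) (cos_sq_le_one u)) _)
  have hd : ∀ a i y, |C.dC u a i y| ≤ Bv := fun a i y => by
    refine le_trans ?_ (hterm a)
    cases i with
    | inl i =>
      simp only [dC, dCoef, Sum.elim_inl]
      rw [abs_mul]
      exact le_add_of_le_of_nonneg (mul_le_mul_of_nonneg_left (abs_coefs_le hW u y i).2.2.2 (abs_nonneg _))
        (by positivity)
    | inr i =>
      simp only [dC, dCoef, Sum.elim_inr]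
      rw [abs_mul]
      refine le_add_of_nonneg_of_le (by positivity) (mul_le_mul ?_ (abs_cw_le hW y) (abs_nonneg _)
        (sqrt_nonneg _))
      rw [← sqrt_sq_eq_abs]
      exact sqrt_le_sqrt ((C.beta_facts u a).2.2.trans (le_add_of_nonneg_right (C.he _)))
  constructor
  · rw [ham_eq]
    refine (abs_add_le _ _).trans ?_
    have h1 : |linZ (C.vC u) z x| ≤ Bv * (gaussSize _).tot z := abs_linZ_le hv z x
    have h2 : |h0Of (C.S u) k C.f (bigN N) C.σ g x| ≤ B0 := by
      refine (abs_add_le _ _).trans (add_le_add ((abs_sub _ _).trans (add_le_add ?_ ?_))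
        (abs_cavDet_le hW C.b u x).1)
      · exact (abs_sum_le_sum_abs _ _).trans
          ((sum_le_sum (g := fun _ => C.L) fun a _ => C.bf _).trans_eq (by simp))
      · rw [fin_sum_all k fun i => C.σ i ^ 2, abs_mul]
        change |bigN N / 2 * C.r k| * |sdot (cavFld C.W u x) (cavFld C.W u x)| ≤ bigN N / 2 * C.r k
        rw [          abs_of_nonneg (mul_nonneg (div_nonneg hN.le two_pos.le) hr)]
        refine mul_le_of_le_one_right (mul_nonneg (div_nonneg hN.le two_pos.le) hr) ?_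
        have h := cavFld_sq (W := C.W) (u := u) x
        rw [h, abs_of_nonneg (by have := one_le_dimN N; positivity)]
        have : dimN N / (dimN N + 1) ≤ 1 := by
          rw [div_le_one (by linarith [one_le_dimN N])]; linarith
        nlinarith [mul_le_mul_of_nonneg_left this (sq_nonneg (cos u)), sin_sq_add_cos_sq u]
    have h1' : |linZ (vCoef (C.S u) (bigN N) C.σ (C.β u)) z x| ≤ Bv * (gaussSize _).tot z := h1
    calc _ ≤ Bv * (gaussSize _).tot z + B0 := add_le_add h1' h2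
      _ ≤ A * (gaussSize _).tot z + A :=
          add_le_add (mul_le_mul_of_nonneg_right (by rw [hA]; linarith) ht) (by rw [hA]; linarith)
      _ = _ := by ring
  · unfold cavDH
    refine (abs_add_le _ _).trans ((add_le_add ((abs_add_le _ _).trans (add_le_add (C.patD_le u g x)
      (abs_linZ_le hd z x))) (C.detD_le u x)).trans ?_)
    calc 3 * C.W ^ 3 * C.Bf * gTot g + Bv * (gaussSize _).tot z + C.detBd
        ≤ A * gTot g + A * (gaussSize _).tot z + A := by
          gcongr <;> (rw [hA]; linarith)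
      _ = _ := by ring

end CavCtx

end Vale.Agent.P157.Rsb
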