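import Vale.Agent.P157.Rsb.CavPatBasic

/-!
# P157, cavity module: integration by parts in the patterns

For a direction `d` orthogonal to the pattern vector, the mean of the directional derivative of the
pattern part and the bound on its exponential moments.
-/

open MeasureTheory ProbabilityTheory Real Finset

namespace Vale.Agent.P157.Rsb

variable {n M k : ℕ} {S : Leaf n} {f : ℝ → ℝ} {L N : ℝ} {σ β : ℕ → ℝ} {d : S.X → Fin n → ℝ}
  {Bf B : ℝ}

/-- The derivative of `patP` in one entry. -/
noncomputable def patP1 (S : Leaf n) (f : ℝ → ℝ) (d : S.X → Fin n → ℝ) (g : Fin M → Fin n → ℝ)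
    (a : Fin M) (i : Fin n) (x : S.X) : ℝ :=
  deriv (deriv f) (sdot (g a) (S.pat x)) * S.pat x i * sdot (g a) (d x)
    + deriv f (sdot (g a) (S.pat x)) * d x i

/-- The observable paired with the entry `(a, i)`. -/
noncomputable def ibpPhi (S : Leaf n) (f : ℝ → ℝ) (d : S.X → Fin n → ℝ) (t : ℝ) (a : Fin M) (i : Fin n)
    (g : Fin M → Fin n → ℝ) (x : S.X) : ℝ :=
  deriv f (sdot (g a) (S.pat x)) * d x i * exp (t * patP S f d g x)

/-- The derivative of the Hamiltonian in the entry `(a, i)`. -/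
noncomputable def ibpDH (S : Leaf n) (f : ℝ → ℝ) (a : Fin M) (i : Fin n) (g : Fin M → Fin n → ℝ)
    (x : S.X) : ℝ :=
  deriv f (sdot (g a) (S.pat x)) * S.pat x i

/-- The derivative of `ibpPhi` in the entry `(a, i)`. -/
noncomputable def ibpDPhi (S : Leaf n) (f : ℝ → ℝ) (d : S.X → Fin n → ℝ) (t : ℝ) (a : Fin M)
    (i : Fin n) (g : Fin M → Fin n → ℝ) (x : S.X) : ℝ :=
  (deriv (deriv f) (sdot (g a) (S.pat x)) * S.pat x i * d x i
    + t * patP1 S f d g a i x * (deriv f (sdot (g a) (S.pat x)) * d x i)) * exp (t * patP S f d g x)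

theorem Dir.ibp_meas (h : Dir S f d L Bf B) (t : ℝ) (a : Fin M) (i : Fin n) :
    (Measurable fun p : (Fin M → Fin n → ℝ) × S.X => ibpPhi S f d t a i p.1 p.2) ∧
      (Measurable fun p : (Fin M → Fin n → ℝ) × S.X => ibpDH S f a i p.1 p.2) ∧
      Measurable fun p : (Fin M → Fin n → ℝ) × S.X => ibpDPhi S f d t a i p.1 p.2 := by
  obtain ⟨-, m1, m2, -, -⟩ := h.mf
  have ha : Measurable fun p : (Fin M → Fin n → ℝ) × S.X => p.1 a :=
    (measurable_pi_apply a).comp measurable_fst
  have hs := measurable_sdot ha (S.pat_meas.comp measurable_snd)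
  have hd := measurable_sdot ha (h.meas.comp measurable_snd)
  have hdi : Measurable fun p : (Fin M → Fin n → ℝ) × S.X => d p.2 i :=
    (h.meas.comp measurable_snd).eval
  have hpi : Measurable fun p : (Fin M → Fin n → ℝ) × S.X => S.pat p.2 i :=
    (S.pat_meas.comp measurable_snd).eval
  have hE := (h.measurable_patP (M := M)).const_mul t |>.exp
  have h1 := m1.comp hs
  have h2 := m2.comp hs
  exact ⟨(h1.mul hdi).mul hE, h1.mul hpi,
    (((h2.mul hpi).mul hdi).add ((((h2.mul hpi).mul hd).add (h1.mul hdi)).const_mul t |>.mul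
      (h1.mul hdi))).mul hE⟩

/-- A common bound for the three observables. -/
theorem Dir.ibp_bound (h : Dir S f d L Bf B) (t : ℝ) :
    ∃ A, 0 ≤ A ∧ ∀ (a : Fin M) (i : Fin n) (g : Fin M → Fin n → ℝ) (x : S.X),
      |ibpPhi S f d t a i g x| ≤ A * exp (A * gTot g) ∧ |ibpDH S f a i g x| ≤ A ∧
      |ibpDPhi S f d t a i g x| ≤ A * exp (A * gTot g) := by
  obtain ⟨C2, hC2⟩ := h.bf''
  have hBf := h.bf0
  have hB := h.nonneg
  have hC20 : 0 ≤ C2 := (abs_nonneg _).trans (hC2 0)
  set C1 := C2 * B * B + |t| * (C2 * B * B + Bf * B) * (Bf * B) with hC1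
  set K1 := |t| * (Bf * B) with hK1
  refine ⟨Bf * B + C1 + (K1 + 1), by positivity, fun a i g x => ?_⟩
  set A := Bf * B + C1 + (K1 + 1) with hA
  have c0 : 0 ≤ C1 := by positivity
  have k0 : 0 ≤ K1 := by positivity
  have q0 : 0 ≤ Bf * B := by positivity
  have hT := gTot_nonneg g
  have bE : exp (t * patP S f d g x) ≤ exp (K1 * gTot g) := exp_le_exp.2 (by
    calc t * patP S f d g x ≤ |t| * |patP S f d g x| := (le_abs_self _).trans (abs_mul _ _).le
      _ ≤ _ := by rw [hK1, mul_assoc]; exact mul_le_mul_of_nonneg_left (h.abs_patP_le g x) (abs_nonneg t))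
  have bEA : exp (K1 * gTot g) ≤ exp (A * gTot g) :=
    exp_le_exp.2 (mul_le_mul_of_nonneg_right (by rw [hA]; linarith) hT)
  have bD : |deriv f (sdot (g a) (S.pat x))| ≤ Bf := h.bf' _
  have bDd : |deriv f (sdot (g a) (S.pat x)) * d x i| ≤ Bf * B := by
    rw [abs_mul]; exact mul_le_mul bD (h.bd x i) (abs_nonneg _) hBf
  refine ⟨?_, ?_, ?_⟩
  · rw [ibpPhi, abs_mul, abs_of_pos (exp_pos _)]
    exact mul_le_mul (bDd.trans (by rw [hA]; linarith)) (bE.trans bEA) (exp_pos _).le
      (by rw [hA]; linarith)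
  · rw [ibpDH, abs_mul]
    exact (mul_le_mul bD (h.bp x i) (abs_nonneg _) hBf).trans (by rw [hA]; linarith)
  · have hs : |sdot (g a) (d x)| ≤ B * exp (gTot g) :=
      (abs_sdot_le (g a) (d x) (h.bd x)).trans (mul_le_mul_of_nonneg_left
        ((gTot_row_le g a).trans (by linarith [add_one_le_exp (gTot g)])) hB)
    have h2p : |deriv (deriv f) (sdot (g a) (S.pat x)) * S.pat x i| ≤ C2 * B := by
      rw [abs_mul]; exact mul_le_mul (hC2 _) (h.bp x i) (abs_nonneg _) hC20
    have h3 : 1 ≤ exp (gTot g) := one_le_exp hT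
    have h1 : |deriv (deriv f) (sdot (g a) (S.pat x)) * S.pat x i * d x i|
        ≤ C2 * B * B * exp (gTot g) := by
      rw [abs_mul]
      exact (mul_le_mul h2p (h.bd x i) (abs_nonneg _) (by positivity)).trans
        (le_mul_of_one_le_right (by positivity) h3)
    have h2 : |patP1 S f d g a i x| ≤ (C2 * B * B + Bf * B) * exp (gTot g) := by
      rw [patP1, add_mul (C2 * B * B)]
      refine (abs_add_le _ _).trans (add_le_add ?_ (bDd.trans (le_mul_of_one_le_right q0 h3)))
      rw [abs_mul, mul_assoc (C2 * B)]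
      exact mul_le_mul h2p hs (abs_nonneg _) (by positivity)
    have h4 : |t * patP1 S f d g a i x * (deriv f (sdot (g a) (S.pat x)) * d x i)|
        ≤ |t| * (C2 * B * B + Bf * B) * (Bf * B) * exp (gTot g) := by
      rw [abs_mul, abs_mul t, mul_right_comm _ (Bf * B) (exp _)]
      refine mul_le_mul ?_ bDd (abs_nonneg _) (by positivity)
      rw [mul_assoc]
      exact mul_le_mul_of_nonneg_left h2 (abs_nonneg t)
    rw [ibpDPhi, abs_mul, abs_of_pos (exp_pos _)]
    calc _ ≤ C1 * exp (gTot g) * exp (K1 * gTot g) := by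
          refine mul_le_mul ((abs_add_le _ _).trans ((add_le_add h1 h4).trans_eq ?_)) bE (exp_pos _).le
            (by positivity)
          rw [hC1]; ring
      _ = C1 * exp ((K1 + 1) * gTot g) := by
          rw [show (K1 + 1) * gTot g = gTot g + K1 * gTot g by ring, exp_add]; ring
      _ ≤ _ := mul_le_mul (by rw [hA]; linarith)
          (exp_le_exp.2 (mul_le_mul_of_nonneg_right (by rw [hA]; linarith) hT)) (exp_pos _).le
          (by rw [hA]; linarith)

/-- An observable of the patterns and the leaf. -/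
def liftObs {n M k : ℕ} {X : Type} (F : (Fin M → Fin n → ℝ) → X → ℝ) (g : Fin M → Fin n → ℝ)
    (_ : Fin k → FieldIdx n → ℝ) (x : X) : ℝ :=
  F g x

theorem measurable_liftObs {X : Type} [MeasurableSpace X] {F : (Fin M → Fin n → ℝ) → X → ℝ}
    (hF : Measurable fun p : (Fin M → Fin n → ℝ) × X => F p.1 p.2) :
    (Measurable fun p : ((Fin M → Fin n → ℝ) × (Fin k → FieldIdx n → ℝ)) × X =>
      liftObs F p.1.1 p.1.2 p.2) ∧
      ∀ g, Measurable (Function.uncurry (liftObs (k := k) F g)) :=
  ⟨hF.comp ((measurable_fst.comp measurable_fst).prodMk measurable_snd),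
    fun _ => hF.comp (measurable_const.prodMk measurable_snd)⟩

/-- The derivative of `ibpPhi`'s mean in the entry. -/
noncomputable def ibpDer (S : Leaf n) (f : ℝ → ℝ) (N : ℝ) (σ β : ℕ → ℝ) (d : S.X → Fin n → ℝ) (t : ℝ)
    (k : ℕ) (a : Fin M) (i : Fin n) (g : Fin M → Fin n → ℝ) : ℝ :=
  cndDer (stdG (FieldIdx n)) S.μ (ham (k := k) S f N σ β g) (liftObs (ibpPhi S f d t a i) g)
    (liftObs (ibpDH S f a i) g) (liftObs (ibpDPhi S f d t a i) g) 0 fun _ _ => 0

theorem Dir.hasDerivAt_entry (h : Dir S f d L Bf B) (t : ℝ) (a : Fin M) (i : Fin n)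
    (g : Fin M → Fin n → ℝ) :
    HasDerivAt (fun s => gibz (k := k) S f N σ β (liftObs (ibpPhi S f d t a i)) (setEntry g a i s))
      (ibpDer S f N σ β d t k a i g) (g a i) := by
  obtain ⟨mf, -, -, df, df1⟩ := h.mf
  obtain ⟨A, hA, hb⟩ := h.ibp_bound (M := M) t
  obtain ⟨m1, m2, m3⟩ := h.ibp_meas t a i
  set s₀ := g a i with hs₀
  have e0 : setEntry g a i s₀ = g := by simp [hs₀, setEntry]
  set T := gTot g + |s₀| + 1 with hTdef
  have hT : 0 ≤ T := by have := gTot_nonneg g; positivity
  obtain ⟨-, B0, hB0⟩ := h0Of_bdd (M := M) S mf h.bf k N σ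
  obtain ⟨Bv, hBv0, hBv⟩ := bcoef_vCoef (k := k) S N σ β
  set AA := Bv + |B0| + A + A * exp (A * T) with hAA
  have p1 : 0 ≤ A * exp (A * T) := by positivity
  have F : Family (gaussSize (FieldIdx n)) (fun s => ham (k := k) S f N σ β (setEntry g a i s))
      (fun s => liftObs (ibpPhi S f d t a i) (setEntry g a i s))
      (fun s => liftObs (ibpDH S f a i) (setEntry g a i s))
      (fun s => liftObs (ibpDPhi S f d t a i) (setEntry g a i s)) s₀ 1 := by
    refine ⟨one_pos, fun s => (linB_ham S mf h.bf N σ β _).meas, fun s => (measurable_liftObs m2).2 _,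
      fun s => (measurable_liftObs m1).2 _, fun s => (measurable_liftObs m3).2 _,
      ⟨AA, by positivity, fun s hs z x => ?_⟩, fun s _ z x => ?_, fun s _ z x => ?_⟩
    · have hz := (gaussSize (FieldIdx n)).tot_nonneg z
      have hg : gTot (setEntry g a i s) ≤ T := by
        have := gTot_setEntry_le g a i s
        rw [hTdef]; linarith [abs_sub_abs_le_abs_sub s s₀]
      have hone : 1 ≤ exp (AA * (gaussSize (FieldIdx n)).tot z) :=
        one_le_exp (mul_nonneg (by positivity) hz)
      have hle : ∀ {v : ℝ}, v ≤ A * exp (A * gTot (setEntry g a i s)) →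
          v ≤ AA * exp (AA * (gaussSize (FieldIdx n)).tot z) := fun hv => hv.trans
        ((mul_le_mul_of_nonneg_left (exp_le_exp.2 (mul_le_mul_of_nonneg_left hg hA)) hA).trans
          ((show A * exp (A * T) ≤ AA by rw [hAA]; linarith [abs_nonneg B0]).trans
            (le_mul_of_one_le_right (by positivity) hone)))
      obtain ⟨b1, b2, b3⟩ := hb a i (setEntry g a i s) x
      refine ⟨?_, b2.trans ((show A ≤ AA by rw [hAA]; linarith [abs_nonneg B0]).trans
        (le_mul_of_one_le_right (by positivity) hone)), hle b1, hle b3⟩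
      rw [ham_eq]
      refine (abs_add_le _ _).trans ((add_le_add (abs_linZ_le (fun l j x => (hBv l j).2 x) z x)
        (hB0 _ x)).trans ?_)
      calc Bv * (gaussSize (FieldIdx n)).tot z + B0
          ≤ AA * (gaussSize (FieldIdx n)).tot z + AA := by
            refine add_le_add (mul_le_mul_of_nonneg_right ?_ hz) ?_ <;>
              (rw [hAA]; linarith [abs_nonneg B0, le_abs_self B0])
        _ = _ := by ring
    · simp only [ham_eq, h0Of]
      refine ((((HasDerivAt.fun_sum (A' := fun c => deriv f (sdot (setEntry g a i s c) (S.pat x))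
        * if c = a then S.pat x i else 0) fun c _ => ((df _).hasDerivAt).comp s
          (hasDerivAt_setEntry g a c i (S.pat x) s)).sub_const _).add_const _).const_add _).congr_deriv ?_
      simp [liftObs, ibpDH]
    · have hp : HasDerivAt (fun s => patP S f d (setEntry g a i s) x)
          (patP1 S f d (setEntry g a i s) a i x) s := by
        refine (HasDerivAt.fun_sum fun c _ => (((df1 _).hasDerivAt).comp s
          (hasDerivAt_setEntry g a c i (S.pat x) s)).mul
          (hasDerivAt_setEntry g a c i (d x) s)).congr_deriv ?_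
        rw [sum_eq_single a (fun c _ hc => by simp [hc]) (by simp)]
        simp [patP1]
      refine ((((df1 _).hasDerivAt).comp s (hasDerivAt_setEntry g a a i (S.pat x) s)).mul_const
        (d x i)).mul (hp.const_mul t).exp |>.congr_deriv ?_
      simp only [liftObs, ibpDPhi, Function.comp_apply, if_pos]
      ring
  have hd := hasDerivAt_cnd F (μ := S.μ) (Nat.zero_le k) (fun _ _ => 0)
  simp only [e0] at hd
  exact hd

/-- Integration by parts in one entry. -/
theorem Dir.ibp_entry (h : Dir S f d L Bf B) (t : ℝ) (a : Fin M) (i : Fin n) :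
    Integrable (fun g => g a i * gibz (k := k) S f N σ β (liftObs (ibpPhi S f d t a i)) g)
        (patterns M n) ∧
      Integrable (ibpDer S f N σ β d t k a i) (patterns M n) ∧
      ∫ g, g a i * gibz (k := k) S f N σ β (liftObs (ibpPhi S f d t a i)) g ∂patterns M n
        = ∫ g, ibpDer S f N σ β d t k a i g ∂patterns M n := by
  obtain ⟨mf, -⟩ := h.mf
  obtain ⟨A, hA, hb⟩ := h.ibp_bound (M := M) t
  obtain ⟨m1, m2, m3⟩ := h.ibp_meas t a i
  have mG : Measurable (gibz (k := k) S f N σ β (liftObs (ibpPhi S f d t a i))) :=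
    measurable_gibz mf (measurable_liftObs m1).1
  have mG' : Measurable (ibpDer S f N σ β d t k a i) := by
    unfold ibpDer
    exact measurable_cndDer_at (H := fun g => ham (k := k) S f N σ β g)
      (φ := liftObs (ibpPhi S f d t a i)) (dH := liftObs (ibpDH S f a i))
      (dφ := liftObs (ibpDPhi S f d t a i)) (measurable_ham S mf N σ β) (measurable_liftObs m1).1
      (measurable_liftObs m2).1 (measurable_liftObs m3).1 0 _
  have hq : 0 ≤ A * A := mul_self_nonneg A
  have hbG : ∀ g, |gibz (k := k) S f N σ β (liftObs (ibpPhi S f d t a i)) g|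
        ≤ (A + 3 * (A * A)) * exp ((A + 3 * (A * A)) * gTot g) ∧
      |ibpDer S f N σ β d t k a i g| ≤ (A + 3 * (A * A)) * exp ((A + 3 * (A * A)) * gTot g) := by
    intro g
    have e1 : exp (A * gTot g) ≤ exp ((A + 3 * (A * A)) * gTot g) :=
      exp_le_exp.2 (mul_le_mul_of_nonneg_right (by linarith) (gTot_nonneg g))
    refine ⟨(abs_gibz_le mf h.bf ((measurable_liftObs m1).2 g)
      (fun z x => (hb a i g x).1)).trans (mul_le_mul (by linarith) e1 (exp_pos _).le (by linarith)),
      le_trans ?_ (?_ : A * exp (A * gTot g) + 3 * (A * exp (A * gTot g) * A) ≤ _)⟩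
    · unfold ibpDer
      exact abs_cndDer_le (linB_ham S mf h.bf N σ β g) ((measurable_liftObs m1).2 g)
        ((measurable_liftObs m2).2 g) ((measurable_liftObs m3).2 g) (fun z x => (hb a i g x).1)
        (fun z x => (hb a i g x).2.1) (fun z x => (hb a i g x).2.2) (Nat.zero_le k) _
    calc A * exp (A * gTot g) + 3 * (A * exp (A * gTot g) * A)
        = (A + 3 * (A * A)) * exp (A * gTot g) := by ring
      _ ≤ _ := mul_le_mul_of_nonneg_left e1 (by linarith)
  exact ⟨integrable_entry mG (fun g => (hbG g).1) a i, integrable_patterns mG' (fun g => (hbG g).2),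
    pattern_ibp a i (h.hasDerivAt_entry t a i) mG mG' hbG⟩

/-- The kernel of the pair term. -/
noncomputable def ibpKer (S : Leaf n) (f : ℝ → ℝ) (d : S.X → Fin n → ℝ) (t : ℝ) (a : Fin M)
    (g : Fin M → Fin n → ℝ) (x y : S.X) : ℝ :=
  exp (t * patP S f d g x) * (deriv f (sdot (g a) (S.pat x)) * deriv f (sdot (g a) (S.pat y))
    * sdot (d x) (S.pat y))

/-- The observable of the diagonal term. -/
noncomputable def ibpDiag (S : Leaf n) (f : ℝ → ℝ) (d : S.X → Fin n → ℝ) (t : ℝ)
    (g : Fin M → Fin n → ℝ) (x : S.X) : ℝ :=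
  (∑ a, deriv f (sdot (g a) (S.pat x)) ^ 2) * sdot (d x) (d x) * exp (t * patP S f d g x)

/-- The pair term as a function of the patterns. -/
noncomputable def ibpPair (S : Leaf n) (f : ℝ → ℝ) (N : ℝ) (σ β : ℕ → ℝ) (d : S.X → Fin n → ℝ) (t : ℝ)
    (k : ℕ) (a : Fin M) (l : ℕ) : (Fin M → Fin n → ℝ) → ℝ :=
  gibz (k := k) S f N σ β fun g z _ =>
    pairCnd (stdG (FieldIdx n)) S.μ (ham S f N σ β g) (fun _ x _ y => ibpKer S f d t a g x y) l z

theorem Dir.diag_facts (h : Dir S f d L Bf B) (t : ℝ) :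
    (Measurable fun p : (Fin M → Fin n → ℝ) × S.X => ibpDiag S f d t p.1 p.2) ∧
      ∃ A, 0 ≤ A ∧ ∀ (g : Fin M → Fin n → ℝ) (x : S.X), |ibpDiag S f d t g x| ≤ A * exp (A * gTot g) := by
  obtain ⟨-, m1, -⟩ := h.mf
  refine ⟨Measurable.mul (Measurable.mul (Finset.measurable_sum _ fun a _ => (m1.comp (measurable_sdot
    ((measurable_pi_apply a).comp measurable_fst) (S.pat_meas.comp measurable_snd))).pow_const 2)
    ((measurable_sdot h.meas h.meas).comp measurable_snd)) ((h.measurable_patP.const_mul t).exp), ?_⟩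
  have hBf := h.bf0
  have hB := h.nonneg
  refine ⟨M * Bf ^ 2 * (n * B ^ 2) + |t| * (Bf * B), by positivity, fun g x => ?_⟩
  rw [ibpDiag, abs_mul, abs_mul, abs_of_pos (exp_pos _)]
  have k0 : 0 ≤ |t| * (Bf * B) := by positivity
  have k1 : 0 ≤ (M : ℝ) * Bf ^ 2 * (n * B ^ 2) := by positivity
  refine mul_le_mul ((mul_le_mul ?_ ?_ (abs_nonneg _) (by positivity)).trans
    (le_add_of_nonneg_right k0)) (exp_le_exp.2 ?_) (exp_pos _).le (by positivity)
  · refine (abs_sum_le_sum_abs _ _).trans
      ((sum_le_sum (g := fun _ => Bf ^ 2) fun a _ => ?_).trans_eq (by simp))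
    rw [abs_pow]; exact pow_le_pow_left₀ (abs_nonneg _) (h.bf' _) 2
  · refine (abs_sum_le_sum_abs _ _).trans
      ((sum_le_sum (g := fun _ => B ^ 2) fun i _ => ?_).trans_eq (by simp))
    rw [abs_mul, pow_two]; exact mul_le_mul (h.bd x i) (h.bd x i) (abs_nonneg _) hB
  · calc t * patP S f d g x ≤ |t| * |patP S f d g x| := (le_abs_self _).trans (abs_mul _ _).le
      _ ≤ |t| * (Bf * B * gTot g) := mul_le_mul_of_nonneg_left (h.abs_patP_le g x) (abs_nonneg t)
      _ ≤ _ := by
        rw [← mul_assoc]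
        exact mul_le_mul_of_nonneg_right (le_add_of_nonneg_left k1) (gTot_nonneg g)

theorem Dir.sum_cndDer (h : Dir S f d L Bf B) (t : ℝ) (g : Fin M → Fin n → ℝ) :
    ∑ p : Fin M × Fin n, ibpDer S f N σ β d t k p.1 p.2 g
      = t * gibz (k := k) S f N σ β (liftObs (ibpDiag S f d t)) g
        - mass k * ∑ l ∈ Icc 0 k, ∑ a, ibpPair S f N σ β d t k a l g := by
  obtain ⟨mf, -⟩ := h.mf
  obtain ⟨A, hA, hb⟩ := h.ibp_bound (M := M) t
  set γ := stdG (FieldIdx n)
  set H := ham (k := k) S f N σ β g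
  set z0 : Fin k → FieldIdx n → ℝ := fun _ _ => 0
  have hH : LinB (gaussSize (FieldIdx n)) H := linB_ham S mf h.bf N σ β g
  have tφ : ∀ a i, Tame (gaussSize (FieldIdx n)) (liftObs (k := k) (ibpPhi S f d t a i) g) := fun a i =>
    Tame.of_bdd ((measurable_liftObs (h.ibp_meas t a i).1).2 g) fun z x => (hb a i g x).1
  have tH : ∀ a i, Tame (gaussSize (FieldIdx n)) (liftObs (k := k) (ibpDH S f a i) g) := fun a i =>
    Tame.of_bdd ((measurable_liftObs (h.ibp_meas t a i).2.1).2 g) fun z x => (hb a i g x).2.1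
  have tD : ∀ a i, Tame (gaussSize (FieldIdx n)) (liftObs (k := k) (ibpDPhi S f d t a i) g) := fun a i =>
    Tame.of_bdd ((measurable_liftObs (h.ibp_meas t a i).2.2).2 g) fun z x => (hb a i g x).2.2
  set K := fun (a : Fin M) (i : Fin n) (l : ℕ) => cnd γ S.μ H
    (fun z _ => cnd γ S.μ H (liftObs (ibpPhi S f d t a i) g) l z
      * cnd γ S.μ H (liftObs (ibpDH S f a i) g) l z) 0 z0
  have hsplit : ∀ a i, ibpDer S f N σ β d t k a i g
      = cnd γ S.μ H (fun z x => liftObs (ibpDPhi S f d t a i) g z x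
          + liftObs (ibpPhi S f d t a i) g z x * liftObs (ibpDH S f a i) g z x) 0 z0
        - mass k * ∑ l ∈ Icc 0 k, K a i l := fun a i => by
    have h00 : K a i 0 = cnd γ S.μ H (liftObs (ibpPhi S f d t a i) g) 0 z0
        * cnd γ S.μ H (liftObs (ibpDH S f a i) g) 0 z0 :=
      cnd_const_fun hH (c := fun z => cnd γ S.μ H (liftObs (ibpPhi S f d t a i) g) 0 z
        * cnd γ S.μ H (liftObs (ibpDH S f a i) g) 0 z)
        (fun u v huv => by simp only [cnd_upto 0 u v huv]) z0
    rw [ibpDer, cndDer, ← Finset.insert_Icc_add_one_left_eq_Icc (Nat.zero_le k), sum_insert (by simp),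
      h00, show lev k (0 + 1) = mass k from lev_one k, mul_add]
    ring
  have eK : ∀ a l, ∑ i, K a i l = ibpPair S f N σ β d t k a l g := fun a l => by
    simp only [K, ibpPair, gibz]
    rw [← cnd_finsum hH univ (φ := fun i z _ => cnd γ S.μ H (liftObs (ibpPhi S f d t a i) g) l z
      * cnd γ S.μ H (liftObs (ibpDH S f a i) g) l z)
      (fun i _ => (cnd_tame hH (tφ a i) l).mul (cnd_tame hH (tH a i) l))]
    congr 1
    funext z _
    have hp := pair_sum (γ := γ) (μ := S.μ) (k := k) hH (a := fun i x => ibpPhi S f d t a i g x)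
      (c := fun i y => ibpDH S f a i g y)
      (fun i => measurable_slice (ibpPhi S f d t a i) (h.ibp_meas t a i).1 g)
      (fun i => measurable_slice (ibpDH S f a i) (h.ibp_meas t a i).2.1 g)
      (B := A + A * exp (A * gTot g))
      (fun i x => ⟨(hb a i g x).1.trans (le_add_of_nonneg_left hA),
        (hb a i g x).2.1.trans (le_add_of_nonneg_right (by positivity))⟩) l z
    refine hp.trans ?_
    congr 1
    funext _ x _ y
    simp only [ibpKer, ibpPhi, ibpDH, sdot, mul_sum]
    exact sum_congr rfl fun i _ => by ring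
  have eO : ∑ p : Fin M × Fin n, cnd γ S.μ H (fun z x => liftObs (ibpDPhi S f d t p.1 p.2) g z x
        + liftObs (ibpPhi S f d t p.1 p.2) g z x * liftObs (ibpDH S f p.1 p.2) g z x) 0 z0
      = t * gibz (k := k) S f N σ β (liftObs (ibpDiag S f d t)) g := by
    rw [← cnd_finsum hH univ (fun p _ => (tD p.1 p.2).add ((tφ p.1 p.2).mul (tH p.1 p.2))), gibz,
      ← cnd_const_mul]
    congr 1
    funext z x
    simp only [Fintype.sum_prod_type, liftObs, ibpDiag, sum_mul, mul_sum]
    refine sum_congr rfl fun a _ => ?_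
    set D := deriv f (sdot (g a) (S.pat x))
    set E := exp (t * patP S f d g x)
    have e : ∀ i, ibpDPhi S f d t a i g x + ibpPhi S f d t a i g x * ibpDH S f a i g x
        = (deriv (deriv f) (sdot (g a) (S.pat x)) * (1 + t * D * sdot (g a) (d x)) + D ^ 2) * E
            * (d x i * S.pat x i)
          + t * D ^ 2 * E * (d x i * d x i) := fun i => by
      simp only [ibpDPhi, ibpPhi, ibpDH, patP1, D, E]; ring
    simp only [e, sum_add_distrib, ← mul_sum]
    rw [show ∑ i, d x i * S.pat x i = 0 from h.orth x, mul_zero, zero_add]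
    simp only [sdot, mul_sum, sum_mul]
    exact sum_congr rfl fun i _ => by ring
  simp only [hsplit, sum_sub_distrib, ← mul_sum, eO]
  congr 2
  rw [Fintype.sum_prod_type, sum_congr rfl fun a _ => sum_comm, sum_comm]
  simp only [eK]

theorem Dir.ker_facts (h : Dir S f d L Bf B) (t : ℝ) (a : Fin M) :
    (Measurable fun p : ((Fin M → Fin n → ℝ) × S.X) × S.X => ibpKer S f d t a p.1.1 p.1.2 p.2) ∧
      ∃ K, ∀ g x y, |ibpKer S f d t a g x y| ≤ K * exp (K * gTot g) := by
  obtain ⟨-, m1, -⟩ := h.mf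
  have sx : Measurable fun p : ((Fin M → Fin n → ℝ) × S.X) × S.X => p.1.2 :=
    measurable_snd.comp measurable_fst
  have sg : Measurable fun p : ((Fin M → Fin n → ℝ) × S.X) × S.X => p.1.1 a :=
    (measurable_pi_apply a).comp (measurable_fst.comp measurable_fst)
  refine ⟨(((h.measurable_patP (M := M)).comp measurable_fst).const_mul t).exp.mul
    (((m1.comp (measurable_sdot sg (S.pat_meas.comp sx))).mul
      (m1.comp (measurable_sdot sg (S.pat_meas.comp measurable_snd)))).mul
      (measurable_sdot (h.meas.comp sx) (S.pat_meas.comp measurable_snd))),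
    B * (B * n) * (Bf * Bf) + |t| * (Bf * B), fun g x y => ?_⟩
  have hBf := h.bf0
  have hB := h.nonneg
  have hs : |sdot (d x) (S.pat y)| ≤ B * (B * n) := by
    refine (abs_sdot_le _ _ (h.bp y)).trans (mul_le_mul_of_nonneg_left ?_ hB)
    exact (sum_le_sum (g := fun _ => B) fun i _ => h.bd x i).trans_eq (by simp [mul_comm])
  have q1 : 0 ≤ B * (B * n) * (Bf * Bf) := by positivity
  have q2 : 0 ≤ |t| * (Bf * B) := by positivity
  rw [ibpKer, abs_mul, abs_of_pos (exp_pos _), mul_comm (B * (B * n) * (Bf * Bf) + |t| * (Bf * B))]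
  refine mul_le_mul (exp_le_exp.2 ?_) ?_ (abs_nonneg _) (exp_pos _).le
  · calc t * patP S f d g x ≤ |t| * |patP S f d g x| := (le_abs_self _).trans (abs_mul _ _).le
      _ ≤ |t| * (Bf * B * gTot g) := mul_le_mul_of_nonneg_left (h.abs_patP_le g x) (abs_nonneg t)
      _ ≤ _ := by
        rw [← mul_assoc]
        exact mul_le_mul_of_nonneg_right (le_add_of_nonneg_left q1) (gTot_nonneg g)
  · rw [abs_mul, abs_mul]
    calc _ ≤ Bf * Bf * (B * (B * n)) :=
          mul_le_mul (mul_le_mul (h.bf' _) (h.bf' _) (abs_nonneg _) hBf) hs (abs_nonneg _)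
            (by positivity)
      _ ≤ _ := by rw [mul_comm]; exact le_add_of_nonneg_right q2

theorem Dir.pair_integrable (h : Dir S f d L Bf B) (t : ℝ) (a : Fin M) (l : ℕ) :
    Integrable (ibpPair S f N σ β d t k a l) (patterns M n) := by
  obtain ⟨mf, -⟩ := h.mf
  obtain ⟨mK, K, bK⟩ := h.ker_facts t a
  obtain ⟨hm, hb⟩ := gibz_pair_facts (k := k) (N := N) (σ := σ) (β := β) mf h.bf l
    (ψ := ibpKer S f d t a) mK
  unfold ibpPair
  exact integrable_patterns hm fun g => hb g _ (bK g)

/-- Integration by parts for the mean of `patP` with an exponential weight. -/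
theorem Dir.patP_ibp (h : Dir S f d L Bf B) (t : ℝ) :
    ∫ g, gibz (k := k) S f N σ β (liftObs fun g x => patP S f d g x * exp (t * patP S f d g x)) g
        ∂patterns M n
      = t * ∫ g, gibz (k := k) S f N σ β (liftObs (ibpDiag S f d t)) g ∂patterns M n
        - mass k * ∑ l ∈ Icc 0 k, ∑ a, gibPair (k := k) S f M N σ β l (ibpKer S f d t a) := by
  obtain ⟨mf, m1, -⟩ := h.mf
  obtain ⟨A, hA, hb⟩ := h.ibp_bound (M := M) t
  have eL : ∀ g, gibz (k := k) S f N σ β
        (liftObs fun g x => patP S f d g x * exp (t * patP S f d g x)) g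
      = ∑ p : Fin M × Fin n, g p.1 p.2
          * gibz (k := k) S f N σ β (liftObs (ibpPhi S f d t p.1 p.2)) g := fun g => by
    simp only [gibz, ← cnd_const_mul]
    rw [← cnd_finsum (linB_ham S mf h.bf N σ β g) univ
      (φ := fun (p : Fin M × Fin n) z x => g p.1 p.2 * liftObs (ibpPhi S f d t p.1 p.2) g z x)
      (fun p _ => (Tame.of_bdd ((measurable_liftObs (h.ibp_meas t p.1 p.2).1).2 g)
        fun z x => (hb p.1 p.2 g x).1).const_mul _)]
    congr 1
    funext z x
    simp only [liftObs, ibpPhi, patP, sdot, Fintype.sum_prod_type, sum_mul, mul_sum]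
    exact sum_congr rfl fun a _ => sum_congr rfl fun i _ => by ring
  obtain ⟨mO, A2, hA2, bO⟩ := h.diag_facts (M := M) t
  have iO : Integrable (gibz (k := k) S f N σ β (liftObs (ibpDiag S f d t))) (patterns M n) :=
    integrable_patterns (measurable_gibz mf (measurable_liftObs mO).1) fun g =>
      abs_gibz_le mf h.bf ((measurable_liftObs mO).2 g) fun z x => bO g x
  have iJ := fun (a : Fin M) l => h.pair_integrable (k := k) (N := N) (σ := σ) (β := β) t a l
  have key := fun p : Fin M × Fin n =>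
    (h.ibp_entry (k := k) (N := N) (σ := σ) (β := β) t p.1 p.2).2.2
  simp only [eL]
  rw [integral_finsetSum _ fun p _ => (h.ibp_entry t p.1 p.2).1, sum_congr rfl fun p _ => key p,
    ← integral_finsetSum _ fun p _ => (h.ibp_entry t p.1 p.2).2.1]
  simp only [h.sum_cndDer]
  rw [integral_sub (iO.const_mul t) ((integrable_finsetSum _ fun l _ =>
      integrable_finsetSum _ fun a _ => iJ a l).const_mul _), integral_const_mul, integral_const_mul,
    integral_finsetSum _ fun l _ => integrable_finsetSum _ fun a _ => iJ a l]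
  congr 2
  refine sum_congr rfl fun l _ => ?_
  rw [integral_finsetSum _ fun a _ => iJ a l]
  exact sum_congr rfl fun a _ => rfl

end Vale.Agent.P157.Rsb
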