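import Vale.Agent.P157.Sphere
import Vale.Agent.P157.Rsb.Calc
import Vale.Agent.P157.Rsb.Intf

/-!
# P157, cavity module: a sphere of one more dimension against a Gaussian window

The law of a coordinate of a uniform unit vector, rescaled, dominates the Gaussian law on a window
up to a factor close to one.
-/

open MeasureTheory ProbabilityTheory Real Finset

namespace Vale.Agent.P157.Rsb

/-- The factor lost on the window. -/
noncomputable def winFac (δ W : ℝ) : ℝ := √(1 - δ) * exp (-(δ * W ^ 2) / 2)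

theorem pdf_scale (c w : ℝ) :
    gaussianPDFReal 0 1 (c * w) = exp (-((c ^ 2 - 1) * w ^ 2) / 2) * gaussianPDFReal 0 1 w := by
  simp only [gaussianPDFReal, sub_zero, NNReal.coe_one, mul_one]
  rw [← mul_assoc, mul_comm (exp _) (√(2 * π))⁻¹, mul_assoc, ← exp_add]
  congr 2
  ring

/-- A rescaled standard Gaussian dominates the standard one on the window. -/
theorem gauss_scale {δ W c : ℝ} (hc : 0 < c) (h1 : 1 - δ ≤ c ^ 2) (h2 : c ^ 2 ≤ 1 + δ)
    {G : ℝ → ℝ} (hG : Measurable G) {B : ℝ} (hB : ∀ w, 0 ≤ G w ∧ G w ≤ B) :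
    winFac δ W * ∫ w in Set.Icc (-W) W, G w ∂gaussianReal 0 1 ≤ ∫ g, G (g / c) ∂gaussianReal 0 1 := by
  set p := gaussianPDFReal 0 1
  have hp : Integrable p := integrable_gaussianPDFReal 0 1
  have hpm : Measurable p := measurable_gaussianPDFReal 0 1
  have hpc : Integrable fun w => p (c * w) := hp.comp_mul_left' hc.ne'
  have hi1 : Integrable fun w => (Set.Icc (-W) W).indicator G w * p w := by
    refine hp.bdd_mul (c := |B|) ((hG.indicator measurableSet_Icc).aestronglyMeasurable)
      (ae_of_all _ fun w => ?_)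
    rw [Real.norm_eq_abs]
    by_cases h : w ∈ Set.Icc (-W) W
    · rw [Set.indicator_of_mem h, abs_of_nonneg (hB w).1]
      exact (hB w).2.trans (le_abs_self B)
    · rw [Set.indicator_of_notMem h, abs_zero]; exact abs_nonneg B
  have hi2 : Integrable fun w => G w * p (c * w) := by
    refine hpc.bdd_mul (c := |B|) hG.aestronglyMeasurable (ae_of_all _ fun w => ?_)
    rw [Real.norm_eq_abs, abs_of_nonneg (hB w).1]
    exact (hB w).2.trans (le_abs_self B)
  have e1 : ∫ w in Set.Icc (-W) W, G w ∂gaussianReal 0 1 = ∫ w, (Set.Icc (-W) W).indicator G w * p w := by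
    rw [← integral_indicator measurableSet_Icc, integral_gaussianReal_eq_integral_smul one_ne_zero]
    simp only [smul_eq_mul, mul_comm, p]
  have e2 : ∫ g, G (g / c) ∂gaussianReal 0 1 = ∫ w, c * (G w * p (c * w)) := by
    rw [integral_gaussianReal_eq_integral_smul one_ne_zero, integral_const_mul]
    have h := Measure.integral_comp_mul_left (fun g => p g • G (g / c)) c
    simp only [mul_div_cancel_left₀ _ hc.ne', smul_eq_mul, abs_of_pos (inv_pos.2 hc)] at h
    simp only [smul_eq_mul, p] at h ⊢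
    rw [show ∫ w, G w * gaussianPDFReal 0 1 (c * w) = ∫ w, gaussianPDFReal 0 1 (c * w) * G w by
      simp only [mul_comm], h, ← mul_assoc, mul_inv_cancel₀ hc.ne', one_mul]
  rw [e1, e2, ← integral_const_mul]
  refine integral_mono (hi1.const_mul _) (hi2.const_mul _) fun w => ?_
  simp only
  by_cases h : w ∈ Set.Icc (-W) W
  · simp only [p]
    rw [Set.indicator_of_mem h, mul_left_comm, pdf_scale c w, mul_left_comm c, ← mul_assoc c]
    refine mul_le_mul_of_nonneg_left ?_ (hB w).1
    refine mul_le_mul_of_nonneg_right (mul_le_mul ?_ (exp_le_exp.2 ?_) (exp_pos _).le hc.le)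
      (gaussianPDFReal_nonneg _ _ _)
    · rw [← sqrt_sq hc.le]
      exact sqrt_le_sqrt h1
    · have hw : w ^ 2 ≤ W ^ 2 := sq_le_sq' h.1 h.2
      rcases le_total 1 (c ^ 2) with h' | h'
      · nlinarith [mul_le_mul (show c ^ 2 - 1 ≤ δ by linarith) hw (sq_nonneg w) (by linarith)]
      · nlinarith [mul_nonneg (sub_nonneg.2 h') (sq_nonneg w), mul_nonneg (by linarith : 0 ≤ δ) (sq_nonneg W)]
  · rw [Set.indicator_of_notMem h, zero_mul, mul_zero]
    exact mul_nonneg hc.le (mul_nonneg (hB w).1 (gaussianPDFReal_nonneg _ _ _))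

/-- The squared norm of a Gaussian vector concentrates. -/
theorem norm_sq_dev {δ η : ℝ} (hδ : 0 < δ) (hη : 0 < η) : ∃ N₀ : ℕ, ∀ N, N₀ ≤ N →
    (stdG (Fin (N + 1))).real {y | δ * ((N : ℝ) + 1) ≤ |∑ i, y i ^ 2 - ((N : ℝ) + 1)|} ≤ η := by
  set V := Var[fun x : ℝ => x ^ 2; gaussianReal 0 1]
  refine ⟨⌈V / (δ ^ 2 * η)⌉₊, fun N hN => ?_⟩
  have hV : 0 ≤ V := variance_nonneg _ _
  set n : ℝ := (N : ℝ) + 1 with hn
  have hn0 : 0 < n := by positivity
  have h2 : MemLp (fun x : ℝ => x ^ 2) 2 (gaussianReal 0 1) := by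
    rw [memLp_two_iff_integrable_sq (by fun_prop)]
    have h := (memLp_id_gaussianReal (μ := 0) (v := 1) (4 : NNReal)).integrable_norm_pow (p := 4) (by norm_num)
    refine h.congr (ae_of_all _ fun x => ?_)
    simp only [id, Real.norm_eq_abs]
    rw [← pow_mul, Even.pow_abs (by decide)]
  have he2 : ∫ x, x ^ 2 ∂gaussianReal 0 1 = 1 := by
    have h := variance_id_gaussianReal (μ := 0) (v := 1)
    rw [variance_of_integral_eq_zero (by fun_prop) (by simp)] at h
    simpa using h
  have hS : MemLp (fun y : Fin (N + 1) → ℝ => ∑ i, y i ^ 2) 2 (stdG (Fin (N + 1))) :=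
    memLp_finsetSum _ fun i _ =>
      h2.comp_measurePreserving (measurePreserving_eval (fun _ : Fin (N + 1) => gaussianReal 0 1) i)
  have hmean : ∫ y, ∑ i, y i ^ 2 ∂stdG (Fin (N + 1)) = n := by
    have hti : ∀ i : Fin (N + 1),
        Integrable (fun y : Fin (N + 1) → ℝ => y i ^ 2) (Measure.pi fun _ => gaussianReal 0 1) := fun i =>
      (h2.comp_measurePreserving
        (measurePreserving_eval (fun _ : Fin (N + 1) => gaussianReal 0 1) i)).integrable (by norm_num)
    rw [stdG, integral_finsetSum _ fun i _ => hti i,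
      Finset.sum_congr rfl fun i _ => (integral_of_preserving
        (measurePreserving_eval (fun _ : Fin (N + 1) => gaussianReal 0 1) i)
        (f := fun x : ℝ => x ^ 2) (by fun_prop)).trans he2]
    simp [hn]
  have hvar : Var[fun y : Fin (N + 1) → ℝ => ∑ i, y i ^ 2; stdG (Fin (N + 1))] = n * V := by
    have h := variance_sum_pi (μ := fun _ : Fin (N + 1) => gaussianReal 0 1)
      (X := fun _ x => x ^ 2) fun _ => h2
    have e : (∑ i : Fin (N + 1), fun g : Fin (N + 1) → ℝ => g i ^ 2) = fun g => ∑ i, g i ^ 2 := by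
      funext g; simp
    rw [e] at h
    rw [stdG, h]
    simp [hn, V]
  have h := meas_ge_le_variance_div_sq hS (mul_pos hδ hn0)
  rw [hmean, hvar] at h
  refine (ENNReal.toReal_le_of_le_ofReal (by positivity) h).trans ?_
  have hb : V / (δ ^ 2 * η) ≤ n := (Nat.le_ceil _).trans ((Nat.cast_le.2 hN).trans (by linarith))
  rw [div_le_iff₀ (by positivity)] at hb
  rw [div_le_iff₀ (by positivity)]
  nlinarith [mul_le_mul_of_nonneg_left hb hn0.le]

/-- Coordinates of an extended unit vector: the old vector and the new coordinate `w`. -/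
noncomputable def winVec (N : ℕ) (x : Fin (N + 1) → ℝ) (w : ℝ) : Fin (N + 1 + 1) → ℝ :=
  Fin.snoc (fun i => √(((N : ℝ) + 1) / ((N : ℝ) + 1 + w ^ 2)) * x i) (w / √((N : ℝ) + 1 + w ^ 2))

theorem measurable_winVec (N : ℕ) :
    Measurable fun p : (Fin (N + 1) → ℝ) × ℝ => winVec N p.1 p.2 := by
  refine measurable_pi_lambda _ fun i => ?_
  induction i using Fin.lastCases with
  | last => simp only [winVec, Fin.snoc_last]; fun_prop
  | cast i => simp only [winVec, Fin.snoc_castSucc]; fun_prop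

/-- The point of the new sphere from a radius and one more Gaussian coordinate. -/
noncomputable def liftPt (N : ℕ) (q : (EuclideanSpace ℝ (Fin (N + 1)) × ℝ) × ℝ) :
    EuclideanSpace ℝ (Fin (N + 1 + 1)) :=
  ‖joinVec (N + 1) 1 (q.1.2 • q.1.1, WithLp.toLp 2 fun _ => q.2)‖⁻¹ •
    joinVec (N + 1) 1 (q.1.2 • q.1.1, WithLp.toLp 2 fun _ => q.2)

theorem liftPt_eq (N : ℕ) {x : EuclideanSpace ℝ (Fin (N + 1))} (hx : ‖x‖ = 1) {r : ℝ} (hr : 0 < r)
    (g : ℝ) (i : Fin (N + 1 + 1)) :
    liftPt N ((x, r), g) i = winVec N (fun j => x j) (g / (r / √((N : ℝ) + 1))) i := by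
  set n : ℝ := (N : ℝ) + 1 with hn
  have hn0 : 0 < n := by positivity
  set J := joinVec (N + 1) 1 (r • x, WithLp.toLp 2 fun _ => g)
  have hc : ∀ j : Fin (N + 1), J j.castSucc = r * x j := fun j => by
    show Sum.elim (fun i => (r • x) i) (fun _ : Fin 1 => g) (finSumFinEquiv.symm (Fin.castAdd 1 j)) = _
    rw [finSumFinEquiv_symm_apply_castAdd]
    simp
  have hl : J (Fin.last (N + 1)) = g := by
    show Sum.elim (fun i => (r • x) i) (fun _ : Fin 1 => g) (finSumFinEquiv.symm (Fin.natAdd (N + 1) 0)) = _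
    rw [finSumFinEquiv_symm_apply_natAdd]
    simp
  have hJ : ‖J‖ = √(r ^ 2 + g ^ 2) := by
    rw [eq_comm, Real.sqrt_eq_iff_eq_sq (by positivity) (norm_nonneg _), EuclideanSpace.real_norm_sq_eq,
      Fin.sum_univ_castSucc]
    simp only [hc, hl, mul_pow, ← mul_sum, ← EuclideanSpace.real_norm_sq_eq, hx, one_pow, mul_one]
  have hq : √(n + (g / (r / √n)) ^ 2) = √n * √(r ^ 2 + g ^ 2) / r := by
    have e : n + (g / (r / √n)) ^ 2 = n * (r ^ 2 + g ^ 2) / r ^ 2 := by
      rw [div_pow, div_pow, sq_sqrt hn0.le]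
      field_simp
    rw [e, sqrt_div (by positivity), sqrt_mul hn0.le, sqrt_sq hr.le]
  show ‖J‖⁻¹ * J i = _
  induction i using Fin.lastCases with
  | last =>
    rw [hl, hJ, winVec, Fin.snoc_last, ← hn, hq]
    field_simp
  | cast j =>
    rw [hc, hJ, winVec, Fin.snoc_castSucc, ← hn, sqrt_div hn0.le, hq]
    field_simp

theorem mp_liftPt (N : ℕ) {ρ : Measure ℝ} [IsProbabilityMeasure ρ]
    (h : MeasurePreserving (fun z : EuclideanSpace ℝ (Fin (N + 1)) => (‖z‖⁻¹ • z, ‖z‖)) (stdGaussian _)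
      ((sphereLaw _).prod ρ)) :
    MeasurePreserving (liftPt N) (((sphereLaw (EuclideanSpace ℝ (Fin (N + 1)))).prod ρ).prod (gaussianReal 0 1))
      (sphereLaw (EuclideanSpace ℝ (Fin (N + 1 + 1)))) := by
  obtain ⟨ρ', hρ', -, h'⟩ := polar_law (EuclideanSpace ℝ (Fin (N + 1 + 1)))
  have back : MeasurePreserving (fun w : EuclideanSpace ℝ (Fin (N + 1)) × ℝ => w.2 • w.1)
      ((sphereLaw _).prod ρ) (stdGaussian _) := by
    refine ⟨by fun_prop, ?_⟩
    rw [← h.map_eq, Measure.map_map (by fun_prop) (by fun_prop)]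
    convert Measure.map_id using 2
    funext z
    rcases eq_or_ne z 0 with rfl | hz
    · simp
    · simp [smul_inv_smul₀ (norm_ne_zero_iff.2 hz)]
  have one : MeasurePreserving (fun g : ℝ => (WithLp.toLp 2 fun _ : Fin 1 => g : EuclideanSpace ℝ (Fin 1)))
      (gaussianReal 0 1) (stdGaussian _) := by
    have h2 : MeasurePreserving (WithLp.toLp 2 : (Fin 1 → ℝ) → EuclideanSpace ℝ (Fin 1))
        (Measure.pi fun _ => gaussianReal 0 1) (stdGaussian _) :=
      ⟨WithLp.measurable_toLp 2 _, map_pi_eq_stdGaussian⟩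
    exact h2.comp ((measurePreserving_funUnique (gaussianReal 0 1) (Fin 1)).symm _)
  exact (MeasureTheory.measurePreserving_fst.comp
    (h'.comp ((joinVec_preserving (N + 1) 1).comp (back.prod one))))

/-- The unit sphere of one more dimension dominates the window. -/
theorem sphere_window {W : ℝ} (hW : 1 ≤ W) {ε : ℝ} (hε : 0 < ε) : ∃ N₀ : ℕ, ∀ N, N₀ ≤ N →
    ∀ (G : (Fin (N + 1 + 1) → ℝ) → ℝ) (B : ℝ), Measurable G → (∀ v, 0 ≤ G v ∧ G v ≤ B) →
      exp (-ε) * ∫ x, (∫ w in Set.Icc (-W) W, G (winVec N ((sphereLeaf N).fld x) w) ∂gaussianReal 0 1)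
          ∂(sphereLeaf N).μ
        ≤ ∫ y, G ((sphereLeaf (N + 1)).fld y) ∂(sphereLeaf (N + 1)).μ := by
  set δ := min (1 / 2) (ε / (3 * W ^ 2)) with hδd
  set η := min (1 / 2) (ε / 4) with hηd
  have hδ : 0 < δ := lt_min (by norm_num) (by positivity)
  have hη : 0 < η := lt_min (by norm_num) (by positivity)
  obtain ⟨N₀, hN₀⟩ := norm_sq_dev hδ hη
  refine ⟨N₀, fun N hN G B hG hB => ?_⟩
  set n : ℝ := (N : ℝ) + 1 with hn
  have hn0 : 0 < n := by positivity
  set E := EuclideanSpace ℝ (Fin (N + 1))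
  obtain ⟨ρ, hρ, hpos, hpol⟩ := polar_law E
  set R : Set ℝ := {r | 0 < r ∧ |r ^ 2 - n| ≤ δ * n}
  have hRm : MeasurableSet R :=
    (measurableSet_lt measurable_const measurable_id).inter
      (measurableSet_le ((measurable_id.pow_const 2).sub_const n).abs measurable_const)
  have hρR : 1 - η ≤ ρ.real R := by
    have hr : MeasurePreserving (fun y : Fin (N + 1) → ℝ => ‖(WithLp.toLp 2 y : E)‖) (stdG (Fin (N + 1))) ρ :=
      (MeasureTheory.measurePreserving_snd (μ := sphereLaw E) (ν := ρ)).comp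
        (hpol.comp ⟨WithLp.measurable_toLp 2 _, map_pi_eq_stdGaussian⟩)
    set D : Set ℝ := {r | δ * n ≤ |r ^ 2 - n|}
    have hDm : MeasurableSet D := measurableSet_le measurable_const ((measurable_id.pow_const 2).sub_const n).abs
    have hD : ρ.real D ≤ η := by
      rw [← hr.measureReal_preimage hDm.nullMeasurableSet]
      refine le_trans (le_of_eq ?_) (hN₀ N hN)
      congr 1
      ext y
      simp [D, EuclideanSpace.real_norm_sq_eq, hn]
    have hP : ρ.real {r | r ≤ 0} = 0 := by
      rw [measureReal_eq_zero_iff]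
      simpa [ae_iff, not_lt] using hpos
    have hsub : (Set.univ : Set ℝ) ⊆ R ∪ ({r | r ≤ 0} ∪ D) := fun r _ => by
      simp only [R, D, Set.mem_union, Set.mem_ofPred_eq]
      rcases le_or_gt r 0 with h | h
      · exact Or.inr (Or.inl h)
      rcases le_or_gt (|r ^ 2 - n|) (δ * n) with h' | h'
      · exact Or.inl ⟨h, h'⟩
      · exact Or.inr (Or.inr h'.le)
    have h := measureReal_mono (μ := ρ) hsub
    rw [probReal_univ] at h
    linarith [measureReal_union_le (μ := ρ) R ({r | r ≤ 0} ∪ D),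
      measureReal_union_le (μ := ρ) {r | r ≤ 0} D]
  have hfac : exp (-ε) ≤ (1 - η) * winFac δ W := by
    have a1 : δ * W ^ 2 ≤ ε / 3 := by
      have := (le_div_iff₀ (by positivity)).1 (min_le_right (1 / 2) (ε / (3 * W ^ 2)))
      rw [← hδd] at this
      linarith
    have a2 : δ ≤ ε / 3 := le_trans (le_mul_of_one_le_right hδ.le (one_le_pow₀ hW)) a1
    have a3 : δ ≤ 1 / 2 := min_le_left _ _
    have a4 : η ≤ 1 / 2 := min_le_left _ _
    have a5 : η ≤ ε / 4 := min_le_right _ _
    have b1 : exp (-2 * η) ≤ 1 - η := by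
      have := add_one_le_exp (2 * η)
      rw [neg_mul, exp_neg, inv_le_iff_one_le_mul₀ (exp_pos _)]
      nlinarith
    have b2 : exp (-δ) ≤ √(1 - δ) := by
      rw [le_sqrt (exp_pos _).le (by linarith), ← exp_nat_mul]
      have := add_one_le_exp (2 * δ)
      rw [show ((2 : ℕ) : ℝ) * -δ = -(2 * δ) by push_cast; ring, exp_neg,
        inv_le_iff_one_le_mul₀ (exp_pos _)]
      nlinarith
    calc exp (-ε) ≤ exp (-2 * η) * (exp (-δ) * exp (-(δ * W ^ 2) / 2)) := by
          rw [← exp_add, ← exp_add]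
          exact exp_le_exp.2 (by linarith)
      _ ≤ _ := mul_le_mul b1 (mul_le_mul_of_nonneg_right b2 (exp_pos _).le) (by positivity) (by linarith)
  set σ := sphereLaw E
  have hmp := mp_liftPt N hpol
  have hF : Measurable fun y : EuclideanSpace ℝ (Fin (N + 1 + 1)) => G fun i => y i := hG.comp (by fun_prop)
  set H : (E × ℝ) × ℝ → ℝ := fun q => G fun i => liftPt N q i
  have hH : Measurable H := hF.comp hmp.measurable
  have hHi : Integrable H ((σ.prod ρ).prod (gaussianReal 0 1)) :=
    Integrable.of_bound hH.aestronglyMeasurable B (ae_of_all _ fun q => by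
      rw [Real.norm_eq_abs, abs_of_nonneg (hB _).1]; exact (hB _).2)
  have hnew : ∫ y, G ((sphereLeaf (N + 1)).fld y) ∂(sphereLeaf (N + 1)).μ
      = ∫ x, ∫ r, ∫ g, H ((x, r), g) ∂gaussianReal 0 1 ∂ρ ∂σ := by
    have hv : MeasurePreserving (Subtype.val : (sphereLeaf (N + 1)).X → EuclideanSpace ℝ (Fin (N + 1 + 1)))
        (sphereLeaf (N + 1)).μ (sphereLaw _) := ⟨measurable_subtype_coe, rfl⟩
    have e1 : ∫ y, G ((sphereLeaf (N + 1)).fld y) ∂(sphereLeaf (N + 1)).μ
        = ∫ y, G (fun i => y i) ∂sphereLaw (EuclideanSpace ℝ (Fin (N + 1 + 1))) :=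
      integral_of_preserving hv hF
    rw [e1, ← integral_of_preserving hmp hF]
    show ∫ q, H q ∂_ = _
    rw [integral_prod _ hHi, integral_prod _ hHi.integral_prod_left]
  set J : (Fin (N + 1) → ℝ) → ℝ :=
    fun v => ∫ w in Set.Icc (-W) W, G (winVec N v w) ∂gaussianReal 0 1
  have hJm : Measurable J :=
    (StronglyMeasurable.integral_prod_right' (ν := (gaussianReal 0 1).restrict (Set.Icc (-W) W))
      (f := fun p : (Fin (N + 1) → ℝ) × ℝ => G (winVec N p.1 p.2))
      (hG.comp (measurable_winVec N)).stronglyMeasurable).measurable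
  have hJ : ∀ v, 0 ≤ J v ∧ J v ≤ B := fun v => by
    have hGi : Integrable (fun w => G (winVec N v w)) ((gaussianReal 0 1).restrict (Set.Icc (-W) W)) :=
      Integrable.of_bound ((hG.comp ((measurable_winVec N).comp measurable_prodMk_left)).aestronglyMeasurable)
        B (ae_of_all _ fun w => by rw [Real.norm_eq_abs, abs_of_nonneg (hB _).1]; exact (hB _).2)
    refine ⟨integral_nonneg fun w => (hB _).1, (integral_mono hGi (integrable_const B) fun w => (hB _).2).trans ?_⟩
    rw [integral_const, smul_eq_mul]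
    exact mul_le_of_le_one_left (((hB (winVec N v 0)).1.trans (hB _).2))
      (by rw [measureReal_restrict_apply MeasurableSet.univ, Set.univ_inter]; exact measureReal_le_one)
  have hold : ∫ x, J ((sphereLeaf N).fld x) ∂(sphereLeaf N).μ = ∫ x, J (fun i => x i) ∂σ := by
    have hv : MeasurePreserving (Subtype.val : (sphereLeaf N).X → E) (sphereLeaf N).μ σ :=
      ⟨measurable_subtype_coe, rfl⟩
    exact integral_of_preserving hv (f := fun x : E => J fun i => x i) (hJm.comp (WithLp.measurable_ofLp 2 _))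
  rw [hnew, hold, ← integral_const_mul]
  have hi2 : Integrable (fun q : E × ℝ => ∫ g, H (q, g) ∂gaussianReal 0 1) (σ.prod ρ) := hHi.integral_prod_left
  have hJx : Measurable fun x : E => J fun i => x i := hJm.comp (WithLp.measurable_ofLp 2 _)
  refine integral_mono_ae (Integrable.of_bound (hJx.const_mul _).aestronglyMeasurable (exp (-ε) * B)
    (ae_of_all _ fun x => ?_)) hi2.integral_prod_left ?_
  · rw [Real.norm_eq_abs, abs_mul, abs_exp, abs_of_nonneg (hJ _).1]
    exact mul_le_mul_of_nonneg_left (hJ _).2 (exp_pos _).le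
  filter_upwards [sphereLaw_norm E, hi2.prod_right_ae] with x hx hix
  set v : Fin (N + 1) → ℝ := fun i => x i
  have hrow : ∀ r ∈ R, winFac δ W * J v ≤ ∫ g, H ((x, r), g) ∂gaussianReal 0 1 := fun r hr => by
    obtain ⟨hr0, hr2⟩ := hr
    rw [abs_le] at hr2
    have hc : 0 < r / √n := by positivity
    have hc2 : (r / √n) ^ 2 = r ^ 2 / n := by rw [div_pow, sq_sqrt hn0.le]
    refine (gauss_scale (δ := δ) (W := W) hc ?_ ?_ (G := fun w => G (winVec N v w))
      (hG.comp ((measurable_winVec N).comp measurable_prodMk_left)) fun w => hB _).trans_eq ?_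
    · rw [hc2, le_div_iff₀ hn0]; linarith [hr2.1]
    · rw [hc2, div_le_iff₀ hn0]; linarith [hr2.2]
    · refine integral_congr_ae (ae_of_all _ fun g => ?_)
      simp only [H]
      exact congrArg G (funext fun i => (liftPt_eq N hx hr0 g i).symm)
  have h1 := setIntegral_ge_of_const_le_real hRm (measure_ne_top ρ R) hrow hix.integrableOn
  have h2 := setIntegral_le_integral (s := R) hix (ae_of_all _ fun r => integral_nonneg fun g => (hB _).1)
  calc exp (-ε) * J v ≤ winFac δ W * J v * ρ.real R := by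
        have hw : 0 ≤ winFac δ W := by unfold winFac; positivity
        calc exp (-ε) * J v ≤ (1 - η) * winFac δ W * J v := mul_le_mul_of_nonneg_right hfac (hJ v).1
          _ ≤ ρ.real R * winFac δ W * J v :=
              mul_le_mul_of_nonneg_right (mul_le_mul_of_nonneg_right hρR hw) (hJ v).1
          _ = _ := by ring
    _ ≤ _ := h1.trans h2

end Vale.Agent.P157.Rsb
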