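import Vale.Agent.P157.Rsb.Intf

/-!
# P157: nested Gaussian recursions, truncation and the pressure without patterns
-/

open MeasureTheory ProbabilityTheory Real Filter Topology

namespace Vale.Agent.P157.Rsb

/-! ### one Gaussian step -/

theorem gauss_quad (φ : ℝ → ℝ) {p : ℝ} (hp : 0 < p) (t : ℝ) :
    ∫ y, φ y * exp (t * y - (p - 1) * y ^ 2 / 2) ∂gaussianReal 0 1
      = exp (t ^ 2 / (2 * p)) / √p * ∫ y, φ (t / p + y / √p) ∂gaussianReal 0 1 := by
  rw [integral_gaussianReal_eq_integral_smul one_ne_zero, integral_gaussianReal_eq_integral_smul one_ne_zero]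
  have hs : 0 < √p := Real.sqrt_pos.2 hp
  have hsq : √p ^ 2 = p := Real.sq_sqrt hp.le
  set F := fun y => gaussianPDFReal 0 1 y • (φ y * exp (t * y - (p - 1) * y ^ 2 / 2))
  have e1 : ∫ y, F y = (√p)⁻¹ * ∫ u, F (t / p + u / √p) := by
    have h1 := MeasureTheory.Measure.integral_comp_mul_left (fun u => F (t / p + u)) (√p)⁻¹
    rw [inv_inv, abs_of_pos hs, integral_add_left_eq_self F (t / p), smul_eq_mul] at h1
    have h2 : ∀ u, t / p + u / √p = t / p + (√p)⁻¹ * u := fun u => by ring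
    simp only [h2, h1]
    rw [← mul_assoc, inv_mul_cancel₀ hs.ne', one_mul]
  show ∫ y, F y = _
  rw [e1, div_mul_eq_mul_div, mul_div_assoc, ← integral_div]
  rw [← integral_const_mul, ← integral_const_mul]
  refine integral_congr_ae (ae_of_all _ fun u => ?_)
  simp only [F, gaussianPDFReal, smul_eq_mul, NNReal.coe_one, mul_one, sub_zero]
  have key : exp (-(t / p + u / √p) ^ 2 / 2) * exp (t * (t / p + u / √p) - (p - 1) * (t / p + u / √p) ^ 2 / 2)
      = exp (t ^ 2 / (2 * p)) * exp (-u ^ 2 / 2) := by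
    rw [← exp_add, ← exp_add]
    congr 1
    field_simp
    linear_combination p ^ 2 * u ^ 2 * hsq
  linear_combination φ (t / p + u / √p) * (√(2 * π))⁻¹ * (√p)⁻¹ * key

/-- The next variable `D`. -/
theorem step_quad (φ : ℝ → ℝ) {D m σ : ℝ} (hD : 0 < D) (hD' : 0 < D - m * σ ^ 2) (v : ℝ) :
    ∫ y, φ (v + σ * y) * exp (m * (v + σ * y) ^ 2 / (2 * D)) ∂gaussianReal 0 1
      = √(D / (D - m * σ ^ 2)) * exp (m * v ^ 2 / (2 * (D - m * σ ^ 2)))
        * ∫ y, φ (v * D / (D - m * σ ^ 2) + σ * √(D / (D - m * σ ^ 2)) * y) ∂gaussianReal 0 1 := by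
  set D' := D - m * σ ^ 2 with hd
  have hp : 0 < D' / D := div_pos hD' hD
  have e : ∀ y, φ (v + σ * y) * exp (m * (v + σ * y) ^ 2 / (2 * D))
      = exp (m * v ^ 2 / (2 * D)) *
        (φ (v + σ * y) * exp (m * σ * v / D * y - (D' / D - 1) * y ^ 2 / 2)) := fun y => by
    rw [mul_left_comm, ← exp_add]
    congr 2
    rw [hd]
    field_simp
    ring
  simp only [e, integral_const_mul, gauss_quad (fun y => φ (v + σ * y)) hp]
  have e2 : ∀ y, v + σ * (m * σ * v / D / (D' / D) + y / √(D' / D))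
      = v * D / D' + σ * √(D / D') * y := fun y => by
    have : √(D / D') = (√(D' / D))⁻¹ := by rw [← Real.sqrt_inv, inv_div]
    rw [this]
    field_simp
    rw [hd]; ring
  simp only [e2]
  rw [← mul_assoc]
  congr 1
  have : √(D / D') = (√(D' / D))⁻¹ := by rw [← Real.sqrt_inv, inv_div]
  rw [this, mul_div_assoc', ← exp_add, div_eq_mul_inv, mul_comm]
  congr 2
  field_simp
  rw [hd]; ring

theorem step_quad_one {D m σ : ℝ} (hD : 0 < D) (hD' : 0 < D - m * σ ^ 2) (v : ℝ) :
    Integrable (fun y => exp (m * (v + σ * y) ^ 2 / (2 * D))) (gaussianReal 0 1) ∧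
    ∫ y, exp (m * (v + σ * y) ^ 2 / (2 * D)) ∂gaussianReal 0 1
      = √(D / (D - m * σ ^ 2)) * exp (m * v ^ 2 / (2 * (D - m * σ ^ 2))) := by
  have h := step_quad (fun _ => 1) hD hD' v
  simp only [one_mul, integral_const, probReal_univ, smul_eq_mul, mul_one] at h
  refine ⟨Integrable.of_integral_ne_zero ?_, h⟩
  rw [h]
  exact mul_ne_zero (Real.sqrt_pos.2 (div_pos hD hD')).ne' (exp_pos _).ne'

/-! ### steps of a recursion -/

theorem step_le {Z : Type} [MeasurableSpace Z] {γ : Measure Z} [IsProbabilityMeasure γ] {V Hi : Z → ℝ}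
    {m : ℝ} (hm : 0 < m) (hV : Measurable V) (hi : Integrable (fun y => exp (m * Hi y)) γ)
    (h : ∀ y, V y ≤ Hi y) :
    Integrable (fun y => exp (m * V y)) γ ∧
      log (∫ y, exp (m * V y) ∂γ) / m ≤ log (∫ y, exp (m * Hi y) ∂γ) / m := by
  have hle : ∀ y, exp (m * V y) ≤ exp (m * Hi y) := fun y =>
    exp_le_exp.2 (mul_le_mul_of_nonneg_left (h y) hm.le)
  have hint : Integrable (fun y => exp (m * V y)) γ :=
    hi.mono' (hV.const_mul m).exp.aestronglyMeasurable
      (ae_of_all _ fun y => by rw [norm_eq_abs, abs_of_pos (exp_pos _)]; exact hle y)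
  exact ⟨hint, div_le_div_of_nonneg_right
    (log_le_log (integral_exp_pos hint) (integral_mono hint hi hle)) hm.le⟩

theorem step_ge {Z : Type} [MeasurableSpace Z] {γ : Measure Z} [IsProbabilityMeasure γ] {V Lo e : Z → ℝ}
    {m : ℝ} (hm : 0 < m) (hV : Integrable (fun y => exp (m * V y)) γ)
    (hl : Integrable (fun y => exp (m * Lo y)) γ) (he : Integrable (fun y => e y * exp (m * Lo y)) γ)
    (h : ∀ y, Lo y - e y ≤ V y) :
    log (∫ y, exp (m * Lo y) ∂γ) / m - (∫ y, e y * exp (m * Lo y) ∂γ) / ∫ y, exp (m * Lo y) ∂γ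
      ≤ log (∫ y, exp (m * V y) ∂γ) / m := by
  set Z₀ := ∫ y, exp (m * Lo y) ∂γ
  set A := (∫ y, e y * exp (m * Lo y) ∂γ) / Z₀ with hA
  have hZ : 0 < Z₀ := integral_exp_pos hl
  have i1 : Integrable (fun y => (1 + m * A) * exp (m * Lo y) - m * (e y * exp (m * Lo y))) γ :=
    (hl.const_mul _).sub (he.const_mul _)
  have hpt : ∀ y, exp (-(m * A)) * ((1 + m * A) * exp (m * Lo y) - m * (e y * exp (m * Lo y)))
      ≤ exp (m * V y) := fun y => by
    have h1 := add_one_le_exp (m * A - m * e y)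
    have h2 : exp (-(m * A)) * exp (m * A - m * e y) * exp (m * Lo y) ≤ exp (m * V y) := by
      rw [← exp_add, ← exp_add, exp_le_exp]
      linarith [mul_le_mul_of_nonneg_left (h y) hm.le]
    refine le_trans ?_ h2
    rw [mul_assoc]
    refine mul_le_mul_of_nonneg_left ?_ (exp_pos _).le
    calc _ = (m * A - m * e y + 1) * exp (m * Lo y) := by ring
      _ ≤ _ := mul_le_mul_of_nonneg_right h1 (exp_pos _).le
  have h3 := integral_mono (i1.const_mul _) hV hpt
  rw [integral_const_mul, integral_sub (hl.const_mul _) (he.const_mul _), integral_const_mul,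
    integral_const_mul] at h3
  have h4 : exp (-(m * A)) * Z₀ ≤ ∫ y, exp (m * V y) ∂γ := by
    refine le_trans (le_of_eq ?_) h3
    congr 1
    rw [hA]
    field_simp
    ring
  have h5 := log_le_log (by positivity) h4
  rw [log_mul (exp_pos _).ne' hZ.ne', log_exp] at h5
  rw [le_div_iff₀ hm]
  refine le_trans (le_of_eq ?_) h5
  field_simp
  ring

theorem nest_succ {k : ℕ} {Z X : Type} [MeasurableSpace Z] [MeasurableSpace X] {γ : Measure Z}
    {μ : Measure X} {H : (Fin k → Z) → X → ℝ} {d : ℕ} (z : Fin k → Z) :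
    nest γ μ H (d + 1) z =
      log (∫ y, exp (lev k (k - d) * nest γ μ H d (put z (k - d - 1) y)) ∂γ) / lev k (k - d) := rfl

theorem nest_measurable {k : ℕ} {Z X : Type} [MeasurableSpace Z] [MeasurableSpace X] {γ : Measure Z}
    [SFinite γ] {μ : Measure X} [SFinite μ] {H : (Fin k → Z) → X → ℝ}
    (hH : Measurable (Function.uncurry H)) : ∀ d, Measurable (nest γ μ H d)
  | 0 => hH.exp.stronglyMeasurable.integral_prod_right'.measurable.log
  | d + 1 => by
    have hp : Measurable fun p : (Fin k → Z) × Z => put p.1 (k - d - 1) p.2 := by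
      unfold put
      exact measurable_pi_lambda _ fun a => by split_ifs <;> fun_prop
    exact (((nest_measurable hH d).comp hp).const_mul (lev k (k - d))).exp.stronglyMeasurable
      |>.integral_prod_right'.measurable.log.div_const _

theorem lev_pos' {k l : ℕ} (h : 1 ≤ l) : 0 < lev k l := by
  have : (0 : ℝ) < l := by exact_mod_cast h
  unfold lev; positivity

/-! ### the variables `D` -/

variable {k : ℕ} {b : ℝ} {Δ : ℕ → ℝ}

theorem dOf_step {j : ℕ} (hj : j < k) :
    dOf k b Δ j = dOf k b Δ (j + 1) - lev k (j + 1) * Δ (j + 1) := by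
  unfold dOf
  rw [Finset.sum_eq_sum_Ico_succ_bot hj]
  ring

theorem dOf_self : dOf k b Δ k = b := by simp [dOf]

theorem dOf_mem (hΔ : ∀ j, 0 ≤ Δ j) (j : ℕ) : dOf k b Δ 0 ≤ dOf k b Δ j ∧ dOf k b Δ j ≤ b := by
  have h0 : ∀ i ∈ Finset.Ico 0 k, 0 ≤ lev k (i + 1) * Δ (i + 1) := fun i _ =>
    mul_nonneg (lev_pos' (Nat.le_add_left 1 i)).le (hΔ _)
  have hsub : Finset.Ico j k ⊆ Finset.Ico 0 k := Finset.Ico_subset_Ico_left (Nat.zero_le _)
  have h1 := Finset.sum_le_sum_of_subset_of_nonneg hsub fun i hi _ => h0 i hi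
  have h2 := Finset.sum_nonneg fun i hi => h0 i (hsub hi)
  unfold dOf
  constructor <;> linarith

theorem sum_Icc_shift (g : ℕ → ℝ) (k : ℕ) :
    ∑ j ∈ Finset.Icc 1 k, g j = ∑ i ∈ Finset.range k, g (i + 1) := by
  induction k with
  | zero => simp
  | succ k ih => rw [Finset.sum_Icc_succ_top (by omega), Finset.sum_range_succ, ih]

/-- The constant of the recursion at level `j`, for `n` coordinates. -/
noncomputable def recC (n : ℝ) (k : ℕ) (b : ℝ) (Δ : ℕ → ℝ) (c : ℝ) (j : ℕ) : ℝ :=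
  c + n / 2 * ∑ i ∈ Finset.Ico j k, log (dOf k b Δ (i + 1) / dOf k b Δ i) / lev k (i + 1)

theorem recC_step {n c : ℝ} {j : ℕ} (hj : j < k) : recC n k b Δ c j =
    recC n k b Δ c (j + 1) + n / (2 * lev k (j + 1)) * log (dOf k b Δ (j + 1) / dOf k b Δ j) := by
  unfold recC
  rw [Finset.sum_eq_sum_Ico_succ_bot hj]
  have := lev_pos' (k := k) (Nat.le_add_left 1 j)
  field_simp
  ring

theorem recC_zero (n c : ℝ) : recC n k b Δ c 0 =
    c + n * (fieldG k b Δ - (b - 1 - ∑ j ∈ Finset.Icc 1 k, Δ j - log b) / 2) := by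
  simp only [recC, fieldG, Finset.range_eq_Ico]
  ring

theorem recC_self (n c : ℝ) : recC n k b Δ c k = c := by simp [recC]

/-- The field accumulated up to level `j`. -/
noncomputable def acc {Z : Type} (a : ℕ → ℝ) (pr : Z → ℝ) (j : ℕ) (z : Fin k → Z) : ℝ :=
  ∑ l : Fin k, if (l : ℕ) < j then a (l + 1) * pr (z l) else 0

theorem acc_zero {Z : Type} (a : ℕ → ℝ) (pr : Z → ℝ) (z : Fin k → Z) : acc a pr 0 z = 0 := by
  simp [acc]

theorem acc_top {Z : Type} (a : ℕ → ℝ) (pr : Z → ℝ) (z : Fin k → Z) :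
    acc a pr k z = ∑ l : Fin k, a (l + 1) * pr (z l) :=
  Finset.sum_congr rfl fun l _ => if_pos l.2

theorem acc_put {Z : Type} (a : ℕ → ℝ) (pr : Z → ℝ) (z : Fin k → Z) {j : ℕ} (hj : j < k) (y : Z) :
    acc a pr (j + 1) (put z j y) = acc a pr j z + a (j + 1) * pr y := by
  have h : ∀ l : Fin k, (if (l : ℕ) < j + 1 then a (l + 1) * pr (put z j y l) else 0)
      = (if (l : ℕ) < j then a (l + 1) * pr (z l) else 0) + if l = (⟨j, hj⟩ : Fin k) then a (j + 1) * pr y else 0 := by
    intro l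
    rcases lt_trichotomy (l : ℕ) j with h | h | h
    · have hne : l ≠ (⟨j, hj⟩ : Fin k) := fun e => h.ne (congrArg Fin.val e)
      simp [put, h, h.ne, h.trans (Nat.lt_succ_self j), hne]
    · have he : l = (⟨j, hj⟩ : Fin k) := Fin.ext h
      subst he
      simp [put]
    · have hne : l ≠ (⟨j, hj⟩ : Fin k) := fun e => h.ne' (congrArg Fin.val e)
      simp [h.not_gt, show ¬ (l : ℕ) < j + 1 by omega, hne]
  simp only [acc, h, Finset.sum_add_distrib, Finset.sum_ite_eq', Finset.mem_univ, if_true]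

/-! ### the one-coordinate recursion -/

/-- The error after integrating the levels above `j`. -/
noncomputable def errAt (δ K c s v : ℝ) : ℝ := δ + K * ∫ g, (c * v + s * g) ^ 4 ∂gaussianReal 0 1

theorem quad_step {D m σ : ℝ} (hm : 0 < m) (hD : 0 < D) (hD' : 0 < D - m * σ ^ 2) (v C : ℝ) :
    Integrable (fun y => exp (m * ((v + σ * y) ^ 2 / (2 * D) + C))) (gaussianReal 0 1) ∧
    log (∫ y, exp (m * ((v + σ * y) ^ 2 / (2 * D) + C)) ∂gaussianReal 0 1) / m
      = v ^ 2 / (2 * (D - m * σ ^ 2)) + (C + 1 / (2 * m) * log (D / (D - m * σ ^ 2))) := by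
  obtain ⟨hi, hv⟩ := step_quad_one (m := m) (σ := σ) hD hD' v
  have e : ∀ y, exp (m * ((v + σ * y) ^ 2 / (2 * D) + C))
      = exp (m * C) * exp (m * (v + σ * y) ^ 2 / (2 * D)) := fun y => by
    rw [← exp_add]; ring_nf
  refine ⟨(hi.const_mul _).congr (ae_of_all _ fun y => (e y).symm), ?_⟩
  simp only [e, integral_const_mul, hv]
  have hq : 0 < D / (D - m * σ ^ 2) := div_pos hD hD'
  rw [log_mul (exp_pos _).ne' (by positivity), log_mul (Real.sqrt_pos.2 hq).ne' (exp_pos _).ne',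
    log_exp, log_exp, Real.log_sqrt hq.le]
  field_simp
  ring

theorem integrable_pow_four (p q : ℝ) :
    Integrable (fun x => (p + q * x) ^ 4) (gaussianReal 0 1) := by
  have h4 : Integrable (fun x : ℝ => x ^ 4) (gaussianReal 0 1) := by
    have := (memLp_id_gaussianReal (μ := 0) (v := 1) 4).integrable_norm_pow (by norm_num : (4 : ℕ) ≠ 0)
    simpa [Even.pow_abs (by decide : Even 4)] using this
  refine ((integrable_const (8 * p ^ 4)).add (h4.const_mul (8 * q ^ 4))).mono'
    (by fun_prop) (ae_of_all _ fun x => ?_)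
  rw [norm_eq_abs, abs_of_nonneg (by positivity)]
  simp only [Pi.add_apply]
  nlinarith [mul_le_mul (add_sq_le (a := p) (b := q * x)) (add_sq_le (a := p) (b := q * x))
    (sq_nonneg _) (by positivity), sq_nonneg (p ^ 2 - (q * x) ^ 2)]

theorem gauss_pow_four (p a b : ℝ) :
    ∫ y, ∫ g, (p + (a * y + b * g)) ^ 4 ∂gaussianReal 0 1 ∂gaussianReal 0 1
      = ∫ g, (p + √(a ^ 2 + b ^ 2) * g) ^ 4 ∂gaussianReal 0 1 := by
  set γ := gaussianReal 0 1
  have hm : (γ.prod γ).map (fun w : ℝ × ℝ => a * w.1 + b * w.2) = γ.map (√(a ^ 2 + b ^ 2) * ·) := by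
    have h1 : (γ.prod γ).map (fun w : ℝ × ℝ => a * w.1 + b * w.2)
        = ((γ.map (a * ·)).prod (γ.map (b * ·))).map (fun w : ℝ × ℝ => w.1 + w.2) := by
      rw [Measure.map_prod_map _ _ (by fun_prop) (by fun_prop), Measure.map_map (by fun_prop) (by fun_prop)]
      rfl
    rw [h1]
    simp only [γ, gaussianReal_map_const_mul, mul_zero, mul_one]
    rw [show ((gaussianReal 0 _).prod (gaussianReal 0 _)).map (fun w : ℝ × ℝ => w.1 + w.2)
      = Measure.conv _ _ from rfl, gaussianReal_conv_gaussianReal]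
    congr 1
    · simp
    · ext
      simp [Real.sq_sqrt (show 0 ≤ a ^ 2 + b ^ 2 by positivity)]
  have hi : Integrable (fun w : ℝ × ℝ => (p + (a * w.1 + b * w.2)) ^ 4) (γ.prod γ) := by
    have : Integrable (fun u : ℝ => (p + u) ^ 4) ((γ.prod γ).map fun w : ℝ × ℝ => a * w.1 + b * w.2) := by
      rw [hm, integrable_map_measure (by fun_prop) (by fun_prop)]
      exact integrable_pow_four p _
    exact this.comp_measurable (by fun_prop)
  rw [← integral_prod _ hi]
  have e := integral_map (μ := γ.prod γ) (φ := fun w : ℝ × ℝ => a * w.1 + b * w.2) (by fun_prop)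
    (f := fun u : ℝ => (p + u) ^ 4) (by fun_prop)
  rw [← e, hm, integral_map (by fun_prop) (by fun_prop)]

theorem errAt_step {δ K D m σ : ℝ} (hδ : 0 < δ) (hK : 0 ≤ K) (hD : 0 < D) (hD' : 0 < D - m * σ ^ 2)
    (c s v : ℝ) :
    Integrable (fun y => errAt δ K c s (v + σ * y) * exp (m * (v + σ * y) ^ 2 / (2 * D)))
      (gaussianReal 0 1) ∧
    (∫ y, errAt δ K c s (v + σ * y) * exp (m * (v + σ * y) ^ 2 / (2 * D)) ∂gaussianReal 0 1) /
        ∫ y, exp (m * (v + σ * y) ^ 2 / (2 * D)) ∂gaussianReal 0 1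
      = errAt δ K (c * (D / (D - m * σ ^ 2))) (√(c ^ 2 * σ ^ 2 * (D / (D - m * σ ^ 2)) + s ^ 2)) v := by
  set q := D / (D - m * σ ^ 2) with hqd
  have hq : 0 < q := div_pos hD hD'
  set p := c * q * v
  set a := c * σ * √q
  have hsq : a ^ 2 + s ^ 2 = c ^ 2 * σ ^ 2 * q + s ^ 2 := by
    simp only [a, mul_pow, Real.sq_sqrt hq.le]
  have hy : ∀ y g, c * (v * D / (D - m * σ ^ 2) + σ * √q * y) + s * g = p + (a * y + s * g) := fun y g => by
    simp only [p, a, hqd]; ring
  have hval : ∫ y, errAt δ K c s (v * D / (D - m * σ ^ 2) + σ * √q * y) ∂gaussianReal 0 1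
      = errAt δ K (c * q) (√(c ^ 2 * σ ^ 2 * q + s ^ 2)) v := by
    simp only [errAt, hy]
    have hi : Integrable (fun y => ∫ g, (p + (a * y + s * g)) ^ 4 ∂gaussianReal 0 1) (gaussianReal 0 1) := by
      · have h1 : ∀ y, ∫ g, (p + (a * y + s * g)) ^ 4 ∂gaussianReal 0 1
            ≤ 8 * (p + a * y) ^ 4 + 8 * s ^ 4 * ∫ g, g ^ 4 ∂gaussianReal 0 1 := fun y => by
          have i0 := integrable_pow_four 0 1
          simp only [zero_add, one_mul] at i0
          have i2 : Integrable (fun g => (p + (a * y + s * g)) ^ 4) (gaussianReal 0 1) :=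
            (integrable_pow_four (p + a * y) s).congr (ae_of_all _ fun g => by simp only; ring)
          calc _ ≤ ∫ g, 8 * (p + a * y) ^ 4 + 8 * s ^ 4 * g ^ 4 ∂gaussianReal 0 1 :=
                integral_mono i2 ((integrable_const _).add (i0.const_mul _)) fun g => by
                  nlinarith [mul_le_mul (add_sq_le (a := p + a * y) (b := s * g))
                    (add_sq_le (a := p + a * y) (b := s * g)) (sq_nonneg _) (by positivity),
                    sq_nonneg ((p + a * y) ^ 2 - (s * g) ^ 2)]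
            _ = _ := by
                rw [integral_add (integrable_const _) (i0.const_mul _), integral_const, probReal_univ,
                  smul_eq_mul, one_mul, integral_const_mul]
        refine (((integrable_pow_four p a).const_mul 8).add (integrable_const
          (8 * s ^ 4 * ∫ g, g ^ 4 ∂gaussianReal 0 1))).mono'
          (StronglyMeasurable.integral_prod_right' (f := fun w : ℝ × ℝ => (p + (a * w.1 + s * w.2)) ^ 4)
            (by fun_prop)).aestronglyMeasurable (ae_of_all _ fun y => ?_)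
        rw [norm_eq_abs, abs_of_nonneg (integral_nonneg fun g => by positivity)]
        exact h1 y
    rw [integral_add (integrable_const _) (hi.const_mul K), integral_const_mul, gauss_pow_four, hsq]
    simp only [integral_const, probReal_univ, smul_eq_mul, one_mul]
    congr 3
  have h := step_quad (errAt δ K c s) hD hD' v
  rw [← hqd, hval] at h
  have hpos : 0 < errAt δ K (c * q) (√(c ^ 2 * σ ^ 2 * q + s ^ 2)) v :=
    add_pos_of_pos_of_nonneg hδ (mul_nonneg hK (integral_nonneg fun g => by positivity))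
  refine ⟨Integrable.of_integral_ne_zero (by rw [h]; positivity), ?_⟩
  rw [h, (step_quad_one hD hD' v).2, ← hqd]
  field_simp

theorem levels_down {P : ℕ → Prop} (h0 : P k) (hs : ∀ j < k, P (j + 1) → P j) (j : ℕ) (hj : j ≤ k) :
    P j := by
  induction h : k - j generalizing j with
  | zero => rwa [show j = k by omega]
  | succ d ih => exact hs j (by omega) (ih (j + 1) (by omega) (by omega))

theorem val_succ {Z X : Type} [MeasurableSpace Z] [MeasurableSpace X] {γ : Measure Z} {μ : Measure X}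
    {H : (Fin k → Z) → X → ℝ} {j : ℕ} (hj : j < k) (z : Fin k → Z) :
    val γ μ H j z = log (∫ y, exp (lev k (j + 1) * val γ μ H (j + 1) (put z j y)) ∂γ) / lev k (j + 1) := by
  unfold val
  rw [show k - j = k - (j + 1) + 1 by omega, nest_succ, show k - (k - (j + 1)) = j + 1 by omega]
  rfl

variable {X : Type} [MeasurableSpace X] {μ : Measure X} [SFinite μ] {H : (Fin k → ℝ) → X → ℝ}

theorem measurable_putR (z : Fin k → ℝ) (j : ℕ) : Measurable fun y => put z j y := by
  unfold put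
  exact measurable_pi_lambda _ fun a => by split_ifs <;> fun_prop

theorem val_le_quad (hH : Measurable (Function.uncurry H)) (hΔ : ∀ j, 0 ≤ Δ j) (hD : 0 < dOf k b Δ 0)
    {C : ℝ} (h0 : ∀ z, val (gaussianReal 0 1) μ H k z
      ≤ acc (fun l => √(Δ l)) id k z ^ 2 / (2 * b) + C) (j : ℕ) (hj : j ≤ k) :
    ∀ z, val (gaussianReal 0 1) μ H j z
      ≤ acc (fun l => √(Δ l)) id j z ^ 2 / (2 * dOf k b Δ j) + recC 1 k b Δ C j := by
  refine levels_down (P := fun j => ∀ z, val (gaussianReal 0 1) μ H j z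
      ≤ acc (fun l => √(Δ l)) id j z ^ 2 / (2 * dOf k b Δ j) + recC 1 k b Δ C j)
    (by simpa [dOf_self, recC_self] using h0) (fun j hj ih z => ?_) j hj
  have hpos : ∀ i, 0 < dOf k b Δ i := fun i => hD.trans_le (dOf_mem hΔ i).1
  have hlev := lev_pos' (k := k) (Nat.le_add_left 1 j)
  have hs : √(Δ (j + 1)) ^ 2 = Δ (j + 1) := Real.sq_sqrt (hΔ _)
  have hD' : dOf k b Δ (j + 1) - lev k (j + 1) * √(Δ (j + 1)) ^ 2 = dOf k b Δ j := by
    rw [hs, dOf_step hj]
  obtain ⟨hi, hv⟩ := quad_step hlev (hpos (j + 1)) (hD' ▸ hpos j) (acc (fun l => √(Δ l)) id j z)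
    (recC 1 k b Δ C (j + 1))
  have hle := step_le (γ := gaussianReal 0 1) hlev
    (V := fun y => val (gaussianReal 0 1) μ H (j + 1) (put z j y))
    ((nest_measurable hH _).comp (measurable_putR z j)) hi fun y => by
      have := ih (put z j y)
      rwa [acc_put _ _ _ hj] at this
  rw [val_succ hj]
  refine hle.2.trans (le_of_eq ?_)
  rw [hv, hD', recC_step hj]

theorem integrable_val (hH : Measurable (Function.uncurry H)) (hΔ : ∀ j, 0 ≤ Δ j)
    (hD : 0 < dOf k b Δ 0) {C : ℝ} (h0 : ∀ z, val (gaussianReal 0 1) μ H k z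
      ≤ acc (fun l => √(Δ l)) id k z ^ 2 / (2 * b) + C) {j : ℕ} (hj : j < k) (z : Fin k → ℝ) :
    Integrable (fun y => exp (lev k (j + 1) * val (gaussianReal 0 1) μ H (j + 1) (put z j y)))
      (gaussianReal 0 1) := by
  have hpos : ∀ i, 0 < dOf k b Δ i := fun i => hD.trans_le (dOf_mem hΔ i).1
  have hlev := lev_pos' (k := k) (Nat.le_add_left 1 j)
  have hD' : dOf k b Δ (j + 1) - lev k (j + 1) * √(Δ (j + 1)) ^ 2 = dOf k b Δ j := by
    rw [Real.sq_sqrt (hΔ _), dOf_step hj]
  refine (step_le (γ := gaussianReal 0 1) hlev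
    (V := fun y => val (gaussianReal 0 1) μ H (j + 1) (put z j y))
    ((nest_measurable hH _).comp (measurable_putR z j))
    (quad_step hlev (hpos (j + 1)) (hD' ▸ hpos j) (acc (fun l => √(Δ l)) id j z)
      (recC 1 k b Δ C (j + 1))).1 fun y => ?_).1
  have := val_le_quad hH hΔ hD h0 (j + 1) hj (put z j y)
  rwa [acc_put _ _ _ hj] at this

theorem val_ge_quad (hΔ : ∀ j, 0 ≤ Δ j) (hD : 0 < dOf k b Δ 0) {C δ K : ℝ} (hδ : 0 < δ) (hK : 0 ≤ K)
    (hint : ∀ j < k, ∀ z, Integrable
      (fun y => exp (lev k (j + 1) * val (gaussianReal 0 1) μ H (j + 1) (put z j y))) (gaussianReal 0 1))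
    (h0 : ∀ z, acc (fun l => √(Δ l)) id k z ^ 2 / (2 * b) + C
      - errAt δ K 1 0 (acc (fun l => √(Δ l)) id k z) ≤ val (gaussianReal 0 1) μ H k z)
    (j : ℕ) (hj : j ≤ k) :
    ∃ s, s ^ 2 ≤ (b / dOf k b Δ 0) ^ 2 * ∑ i ∈ Finset.Ico j k, Δ (i + 1) ∧
      ∀ z, acc (fun l => √(Δ l)) id j z ^ 2 / (2 * dOf k b Δ j) + recC 1 k b Δ C j
        - errAt δ K (b / dOf k b Δ j) s (acc (fun l => √(Δ l)) id j z)
        ≤ val (gaussianReal 0 1) μ H j z := by
  have hpos : ∀ i, 0 < dOf k b Δ i := fun i => hD.trans_le (dOf_mem hΔ i).1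
  have hb : 0 < b := by simpa [dOf_self] using hpos k
  refine levels_down (P := fun j => ∃ s, s ^ 2 ≤ (b / dOf k b Δ 0) ^ 2 * ∑ i ∈ Finset.Ico j k, Δ (i + 1) ∧
      ∀ z, acc (fun l => √(Δ l)) id j z ^ 2 / (2 * dOf k b Δ j) + recC 1 k b Δ C j
        - errAt δ K (b / dOf k b Δ j) s (acc (fun l => √(Δ l)) id j z)
        ≤ val (gaussianReal 0 1) μ H j z)
    ⟨0, by simp, by simpa [dOf_self, recC_self, div_self hb.ne'] using h0⟩ (fun j hj ih => ?_) j hj
  obtain ⟨s, hs, ih⟩ := ih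
  have hlev := lev_pos' (k := k) (Nat.le_add_left 1 j)
  have hsd : √(Δ (j + 1)) ^ 2 = Δ (j + 1) := Real.sq_sqrt (hΔ _)
  have hD' : dOf k b Δ (j + 1) - lev k (j + 1) * √(Δ (j + 1)) ^ 2 = dOf k b Δ j := by
    rw [hsd, dOf_step hj]
  refine ⟨√((b / dOf k b Δ (j + 1)) ^ 2 * √(Δ (j + 1)) ^ 2
      * (dOf k b Δ (j + 1) / dOf k b Δ j) + s ^ 2), ?_, fun z => ?_⟩
  · rw [Real.sq_sqrt (add_nonneg (mul_nonneg (by positivity) (div_pos (hpos _) (hpos _)).le) (sq_nonneg _)),
      hsd, Finset.sum_eq_sum_Ico_succ_bot hj, mul_add]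
    refine add_le_add ?_ hs
    rw [mul_right_comm]
    refine mul_le_mul_of_nonneg_right ?_ (hΔ _)
    have e : (b / dOf k b Δ (j + 1)) ^ 2 * (dOf k b Δ (j + 1) / dOf k b Δ j)
        = b ^ 2 / (dOf k b Δ (j + 1) * dOf k b Δ j) := by
      have := hpos (j + 1); have := hpos j
      field_simp
    rw [e, div_pow, pow_two (dOf k b Δ 0)]
    exact div_le_div_of_nonneg_left (sq_nonneg b) (mul_pos hD hD)
      (mul_le_mul (dOf_mem hΔ _).1 (dOf_mem hΔ _).1 hD.le (hpos _).le)
  set v := acc (fun l => √(Δ l)) id j z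
  obtain ⟨hi, hv⟩ := quad_step hlev (hpos (j + 1)) (hD' ▸ hpos j) v (recC 1 k b Δ C (j + 1))
  obtain ⟨he, hev⟩ := errAt_step (m := lev k (j + 1)) (σ := √(Δ (j + 1))) hδ hK (hpos (j + 1))
    (hD' ▸ hpos j) (b / dOf k b Δ (j + 1)) s v
  have e : ∀ y, exp (lev k (j + 1) * ((v + √(Δ (j + 1)) * y) ^ 2 / (2 * dOf k b Δ (j + 1))
        + recC 1 k b Δ C (j + 1)))
      = exp (lev k (j + 1) * recC 1 k b Δ C (j + 1)) *
        exp (lev k (j + 1) * (v + √(Δ (j + 1)) * y) ^ 2 / (2 * dOf k b Δ (j + 1))) := fun y => by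
    rw [← exp_add]; ring_nf
  have h := step_ge (γ := gaussianReal 0 1) hlev
    (V := fun y => val (gaussianReal 0 1) μ H (j + 1) (put z j y))
    (e := fun y => errAt δ K (b / dOf k b Δ (j + 1)) s (v + √(Δ (j + 1)) * y)) (hint j hj z) hi
    (by simp only [e, mul_left_comm _ (exp (lev k (j + 1) * recC 1 k b Δ C (j + 1)))]
        exact he.const_mul _)
    fun y => by
      have := ih (put z j y)
      rwa [acc_put _ _ _ hj] at this
  rw [val_succ hj]
  refine le_trans (le_of_eq ?_) h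
  rw [hv, hD', recC_step hj]
  simp only [e, mul_left_comm _ (exp (lev k (j + 1) * recC 1 k b Δ C (j + 1))), integral_const_mul]
  rw [mul_div_mul_left _ _ (exp_pos _).ne', hev, hD']
  have e2 : b / dOf k b Δ (j + 1) * (dOf k b Δ (j + 1) / dOf k b Δ j) = b / dOf k b Δ j := by
    have := hpos (j + 1); have := hpos j
    field_simp
  rw [e2]

/-! ### truncation -/

/-- The Hamiltonian of the truncated value. -/
noncomputable def winH (k : ℕ) (b : ℝ) (Δ : ℕ → ℝ) (z : Fin k → ℝ) (w : ℝ) : ℝ :=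
  ∑ l : Fin k, √(Δ (l + 1)) * z l * w - (b - 1) * w ^ 2 / 2

theorem cavW_eq (W : ℝ) : cavW W k b Δ
    = val (gaussianReal 0 1) ((gaussianReal 0 1).restrict (Set.Icc (-W) W)) (winH k b Δ) 0 fun _ => 0 :=
  rfl

theorem winH_eq (z : Fin k → ℝ) (w : ℝ) :
    winH k b Δ z w = acc (fun l => √(Δ l)) id k z * w - (b - 1) * w ^ 2 / 2 := by
  rw [winH, acc_top, Finset.sum_mul]
  rfl

theorem winH_measurable : Measurable (Function.uncurry (winH k b Δ)) := by
  unfold winH; fun_prop

theorem gauss_Icc_pos {l u : ℝ} (h : l < u) : 0 < (gaussianReal 0 1).real (Set.Icc l u) := by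
  refine ENNReal.toReal_pos (fun h0 => ?_) (measure_ne_top _ _)
  have := gaussianReal_absolutelyContinuous' 0 (one_ne_zero (α := NNReal)) h0
  simp [Real.volume_Icc, h] at this
  linarith

/-- The weight of the middle interval. -/
noncomputable def midWt : ℝ :=
  min ((gaussianReal 0 1).real (Set.Icc 0 1)) ((gaussianReal 0 1).real (Set.Icc (-1) 0))

theorem midWt_pos : 0 < midWt := lt_min (gauss_Icc_pos one_pos) (gauss_Icc_pos (by norm_num))

theorem top_lower {W R : ℝ} (hW : 1 ≤ W) (hb : |b| ≤ R) (z : Fin k → ℝ) :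
    -((R + 1) / 2 - log midWt)
      ≤ val (gaussianReal 0 1) ((gaussianReal 0 1).restrict (Set.Icc (-W) W)) (winH k b Δ) k z := by
  have hval : val (gaussianReal 0 1) ((gaussianReal 0 1).restrict (Set.Icc (-W) W)) (winH k b Δ) k z
      = log (∫ w in Set.Icc (-W) W, exp (winH k b Δ z w) ∂gaussianReal 0 1) := by
    simp [val, nest]
  rw [hval]
  set h := acc (fun l => √(Δ l)) id k z
  obtain ⟨S, hSm, hS, hSh, hSp⟩ : ∃ S : Set ℝ, MeasurableSet S ∧ S ⊆ Set.Icc (-1) 1 ∧
      (∀ w ∈ S, 0 ≤ h * w) ∧ midWt ≤ (gaussianReal 0 1).real S := by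
    rcases le_total 0 h with h0 | h0
    · exact ⟨Set.Icc 0 1, measurableSet_Icc, Set.Icc_subset_Icc (by norm_num) le_rfl,
        fun w hw => mul_nonneg h0 hw.1, min_le_left _ _⟩
    · exact ⟨Set.Icc (-1) 0, measurableSet_Icc, Set.Icc_subset_Icc le_rfl zero_le_one,
        fun w hw => mul_nonneg_of_nonpos_of_nonpos h0 hw.2, min_le_right _ _⟩
  have hi : IntegrableOn (fun w => exp (winH k b Δ z w)) (Set.Icc (-W) W) (gaussianReal 0 1) :=
    (by unfold winH; fun_prop : Continuous fun w => exp (winH k b Δ z w)).continuousOn.integrableOn_compact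
      isCompact_Icc
  have hSW : S ⊆ Set.Icc (-W) W := hS.trans (Set.Icc_subset_Icc (by linarith) hW)
  have h1 : exp (-((R + 1) / 2)) * midWt ≤ ∫ w in S, exp (winH k b Δ z w) ∂gaussianReal 0 1 := by
    refine le_trans ?_ (setIntegral_ge_of_const_le_real (c := exp (-((R + 1) / 2))) hSm
      (measure_ne_top _ _) (fun w hw => ?_) (hi.mono_set hSW))
    · exact mul_le_mul_of_nonneg_left hSp (exp_pos _).le
    · refine exp_le_exp.2 ?_
      rw [winH_eq]
      have hw1 : w ^ 2 ≤ 1 := by nlinarith [(hS hw).1, (hS hw).2]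
      have hw2 : (b - 1) * w ^ 2 ≤ R + 1 := by
        nlinarith [mul_le_mul (abs_le.2 ⟨by linarith [(abs_le.1 hb).1], by linarith [(abs_le.1 hb).2]⟩ :
          |b - 1| ≤ R + 1) hw1 (sq_nonneg w) (by linarith [abs_nonneg b]),
          mul_le_mul_of_nonneg_right (le_abs_self (b - 1)) (sq_nonneg w)]
      linarith [hSh w hw]
  have h2 := log_le_log (mul_pos (exp_pos _) midWt_pos) (h1.trans (setIntegral_mono_set hi
    (ae_of_all _ fun w => (exp_pos _).le) hSW.eventuallyLE))
  rw [log_mul (exp_pos _).ne' midWt_pos.ne', log_exp] at h2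
  linarith

theorem top_upper {W b₁ : ℝ} (hW : 1 ≤ W) (hb₁ : 0 < b₁) (z : Fin k → ℝ) :
    val (gaussianReal 0 1) ((gaussianReal 0 1).restrict (Set.Icc (-W) W)) (winH k b Δ) k z
      ≤ acc (fun l => √(Δ l)) id k z ^ 2 / (2 * b₁) + (|b₁ - b| * W ^ 2 / 2 - log b₁ / 2) := by
  set h := acc (fun l => √(Δ l)) id k z
  have hval : val (gaussianReal 0 1) ((gaussianReal 0 1).restrict (Set.Icc (-W) W)) (winH k b Δ) k z
      = log (∫ w in Set.Icc (-W) W, exp (winH k b Δ z w) ∂gaussianReal 0 1) := by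
    simp [val, nest]
  rw [hval]
  have hfull := gauss_quad (fun _ => 1) hb₁ h
  simp only [one_mul, integral_const, probReal_univ, smul_eq_mul, mul_one] at hfull
  have hfi : Integrable (fun y => exp (h * y - (b₁ - 1) * y ^ 2 / 2)) (gaussianReal 0 1) :=
    Integrable.of_integral_ne_zero (by rw [hfull]; positivity)
  have hi : IntegrableOn (fun w => exp (winH k b Δ z w)) (Set.Icc (-W) W) (gaussianReal 0 1) :=
    (by unfold winH; fun_prop : Continuous fun w => exp (winH k b Δ z w)).continuousOn.integrableOn_compact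
      isCompact_Icc
  have : NeZero ((gaussianReal 0 1).restrict (Set.Icc (-W) W)) := by
    refine ⟨fun h0 => ?_⟩
    have h1 := gauss_Icc_pos (show -W < W by linarith)
    have h2 := congrArg (fun m : Measure ℝ => m Set.univ) h0
    simp only [Measure.restrict_apply_univ, Measure.coe_zero, Pi.zero_apply] at h2
    simp [measureReal_def, h2] at h1
  have h1 : ∫ w in Set.Icc (-W) W, exp (winH k b Δ z w) ∂gaussianReal 0 1
      ≤ exp (|b₁ - b| * W ^ 2 / 2) * (exp (h ^ 2 / (2 * b₁)) / √b₁) := by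
    rw [← hfull, ← integral_const_mul]
    refine le_trans (setIntegral_mono_on hi (hfi.const_mul _).integrableOn measurableSet_Icc fun w hw => ?_)
      (setIntegral_le_integral (hfi.const_mul _) (ae_of_all _ fun w => by positivity))
    rw [← exp_add, exp_le_exp, winH_eq]
    have hw2 : w ^ 2 ≤ W ^ 2 := by nlinarith [hw.1, hw.2]
    nlinarith [mul_le_mul (le_abs_self (b₁ - b)) hw2 (sq_nonneg w) (abs_nonneg _)]
  refine (log_le_log (integral_exp_pos hi) h1).trans (le_of_eq ?_)
  rw [log_mul (exp_pos _).ne' (by positivity), log_exp, log_div (exp_pos _).ne' (by positivity), log_exp,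
    Real.log_sqrt hb₁.le]
  ring

/-- The loss of the truncation. -/
theorem top_trunc {W R d δ : ℝ} (hd : 0 < d) (hdb : d ≤ b) (hb : |b| ≤ R) (hδ : 0 < δ) (hW : 1 ≤ W)
    (hW2 : 4 * ∫ y, y ^ 2 ∂gaussianReal 0 1 ≤ (1 - exp (-δ)) * (d * W ^ 2)) (z : Fin k → ℝ) :
    acc (fun l => √(Δ l)) id k z ^ 2 / (2 * b) + -log b / 2
      - errAt δ ((1 / (2 * d) + |log d| + ((R + 1) / 2 + |log midWt|)) *
          ((2 / d) ^ 2 + (2 / d) ^ 4) / W ^ 2) 1 0 (acc (fun l => √(Δ l)) id k z)
      ≤ val (gaussianReal 0 1) ((gaussianReal 0 1).restrict (Set.Icc (-W) W)) (winH k b Δ) k z := by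
  have hb0 : 0 < b := hd.trans_le hdb
  set h := acc (fun l => √(Δ l)) id k z with hh
  set C1 := 1 / (2 * d) + |log d| + ((R + 1) / 2 + |log midWt|) with hC1
  have hR : 0 ≤ R := (abs_nonneg b).trans hb
  have herr : errAt δ (C1 * ((2 / d) ^ 2 + (2 / d) ^ 4) / W ^ 2) 1 0 h
      = δ + C1 * ((2 / d) ^ 2 + (2 / d) ^ 4) / W ^ 2 * h ^ 4 := by simp [errAt]
  have hC0 : 0 ≤ C1 := by positivity
  rw [herr]
  rcases le_or_gt |h| (b * W / 2) with hs | hs
  · have hval : val (gaussianReal 0 1) ((gaussianReal 0 1).restrict (Set.Icc (-W) W)) (winH k b Δ) k z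
        = log (∫ w in Set.Icc (-W) W, exp (winH k b Δ z w) ∂gaussianReal 0 1) := by
      simp [val, nest]
    rw [hval, ← integral_indicator measurableSet_Icc]
    have e : ∀ w, Set.indicator (Set.Icc (-W) W) (fun w => exp (winH k b Δ z w)) w
        = Set.indicator (Set.Icc (-W) W) (fun _ => (1 : ℝ)) w * exp (h * w - (b - 1) * w ^ 2 / 2) := fun w => by
      by_cases hw : w ∈ Set.Icc (-W) W <;> simp [Set.indicator, hw, winH_eq, ← hh]
    simp only [e, gauss_quad _ hb0]
    set P := ∫ y, Set.indicator (Set.Icc (-W) W) (fun _ => (1 : ℝ)) (h / b + y / √b) ∂gaussianReal 0 1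
    have h2i : Integrable (fun y : ℝ => y ^ 2) (gaussianReal 0 1) := by
      have := (memLp_id_gaussianReal (μ := 0) (v := 1) 2).integrable_norm_pow (by norm_num : (2 : ℕ) ≠ 0)
      simpa [sq_abs] using this
    have hP : exp (-δ) ≤ P := by
      have hpt : ∀ y, 1 - 4 / (b * W ^ 2) * y ^ 2
          ≤ Set.indicator (Set.Icc (-W) W) (fun _ => (1 : ℝ)) (h / b + y / √b) := by
        intro y
        by_cases hy : h / b + y / √b ∈ Set.Icc (-W) W
        · rw [Set.indicator_of_mem hy]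
          have : 0 ≤ 4 / (b * W ^ 2) * y ^ 2 := by positivity
          linarith
        · rw [Set.indicator_of_notMem hy, sub_nonpos]
          have h1 : W < |h / b + y / √b| := by
            by_contra hc
            exact hy (abs_le.1 (not_lt.1 hc))
          have h2 : |h / b| ≤ W / 2 := by
            rw [abs_div, abs_of_pos hb0, div_le_iff₀ hb0]; linarith
          have h3 : W / 2 ≤ |y / √b| := by linarith [abs_add_le (h / b) (y / √b)]
          have h4 : (W / 2) ^ 2 ≤ y ^ 2 / b := by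
            have := pow_le_pow_left₀ (by linarith) h3 2
            rwa [sq_abs, div_pow _ √b, Real.sq_sqrt hb0.le] at this
          rw [le_div_iff₀ hb0] at h4
          rw [div_mul_eq_mul_div, le_div_iff₀ (by positivity)]
          linarith
      have hind : Integrable (fun y => Set.indicator (Set.Icc (-W) W) (fun _ => (1 : ℝ)) (h / b + y / √b))
          (gaussianReal 0 1) :=
        Integrable.of_bound ((measurable_const.indicator measurableSet_Icc).comp (by fun_prop)).aestronglyMeasurable 1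
          (ae_of_all _ fun y => by by_cases hy : h / b + y / √b ∈ Set.Icc (-W) W <;> simp [Set.indicator, hy])
      have h5 := integral_mono ((integrable_const (1 : ℝ)).sub (h2i.const_mul (4 / (b * W ^ 2)))) hind hpt
      simp only [Pi.sub_apply] at h5
      rw [integral_sub (integrable_const _) (h2i.const_mul _), integral_const, probReal_univ, smul_eq_mul,
        one_mul, integral_const_mul] at h5
      have h6 : 4 / (b * W ^ 2) * ∫ y, y ^ 2 ∂gaussianReal 0 1 ≤ 1 - exp (-δ) := by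
        rw [div_mul_eq_mul_div, div_le_iff₀ (by positivity)]
        refine hW2.trans (mul_le_mul_of_nonneg_left (mul_le_mul_of_nonneg_right hdb (sq_nonneg _)) ?_)
        linarith [exp_le_one_iff.2 (neg_nonpos.2 hδ.le)]
      linarith
    have hPl := log_le_log (exp_pos _) hP
    rw [log_exp] at hPl
    rw [log_mul (by positivity) ((exp_pos _).trans_le hP).ne', log_div (exp_pos _).ne' (by positivity),
      log_exp, Real.log_sqrt hb0.le]
    have : 0 ≤ C1 * ((2 / d) ^ 2 + (2 / d) ^ 4) / W ^ 2 * h ^ 4 := by positivity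
    linarith
  · refine le_trans ?_ (top_lower (Δ := Δ) hW hb z)
    have h1 : h ^ 2 / (2 * b) ≤ h ^ 2 / (2 * d) := by gcongr
    have h2 : -log b ≤ |log d| := by linarith [log_le_log hd hdb, neg_abs_le (log d)]
    have hx : d * W / 2 ≤ |h| := by
      refine le_trans ?_ hs.le
      gcongr
    have hu : 1 ≤ (2 / (d * W)) ^ 2 * h ^ 2 := by
      have h5 : (1 : ℝ) ≤ 2 / (d * W) * |h| := by
        rw [div_mul_eq_mul_div, le_div_iff₀ (by positivity)]; linarith
      nlinarith [pow_le_pow_left₀ zero_le_one h5 2, mul_pow (2 / (d * W)) |h| 2, sq_abs h]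
    have hsum : h ^ 2 + 1 ≤ ((2 / d) ^ 2 + (2 / d) ^ 4) / W ^ 2 * h ^ 4 := by
      have a1 : h ^ 2 ≤ (2 / (d * W)) ^ 2 * h ^ 4 := by
        nlinarith [mul_le_mul_of_nonneg_right hu (sq_nonneg h)]
      have a2 : (1 : ℝ) ≤ (2 / (d * W)) ^ 4 * h ^ 4 := by nlinarith [mul_le_mul hu hu zero_le_one (by positivity)]
      have a3 : (2 / (d * W)) ^ 4 ≤ (2 / d) ^ 4 / W ^ 2 := by
        rw [← div_div, div_pow]
        exact div_le_div_of_nonneg_left (by positivity) (by positivity) (pow_le_pow_right₀ hW (by norm_num))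
      have a4 : (2 / (d * W)) ^ 2 = (2 / d) ^ 2 / W ^ 2 := by rw [← div_div, div_pow]
      rw [add_div, add_mul]
      rw [a4] at a1
      nlinarith [mul_le_mul_of_nonneg_right a3 (show (0 : ℝ) ≤ h ^ 4 by positivity)]
    have hmain : h ^ 2 / (2 * d) + |log d| / 2 + ((R + 1) / 2 + |log midWt|) ≤ C1 * (h ^ 2 + 1) := by
      rw [hC1, div_eq_mul_one_div (h ^ 2)]
      nlinarith [abs_nonneg (log d), abs_nonneg (log midWt), sq_nonneg h, show 0 ≤ 1 / (2 * d) by positivity]
    have h7 := mul_le_mul_of_nonneg_left hsum hC0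
    rw [← mul_assoc, ← mul_div_assoc] at h7
    linarith [neg_abs_le (log midWt), le_abs_self (log midWt), neg_abs_le (log b), hδ]

theorem dOf_ge (hΔ : ∀ j, 0 ≤ Δ j) {R : ℝ} (hR : ∑ j ∈ Finset.Icc 1 k, Δ j ≤ R) :
    b - R ≤ dOf k b Δ 0 := by
  rw [sum_Icc_shift, Finset.range_eq_Ico] at hR
  have : ∑ i ∈ Finset.Ico 0 k, lev k (i + 1) * Δ (i + 1) ≤ ∑ i ∈ Finset.Ico 0 k, Δ (i + 1) :=
    Finset.sum_le_sum fun i hi => mul_le_of_le_one_left (hΔ _) (by
      have hik : (i : ℝ) + 1 ≤ k := by exact_mod_cast (Finset.mem_Ico.1 hi).2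
      unfold lev
      rw [div_le_one (by positivity)]
      push_cast
      linarith)
  unfold dOf
  linarith

theorem trunc_integrable (hΔ : ∀ j, 0 ≤ Δ j) {R W : ℝ} (hW : 1 ≤ W)
    (hR : ∑ j ∈ Finset.Icc 1 k, Δ j ≤ R) {j : ℕ} (hj : j < k) (z : Fin k → ℝ) :
    Integrable (fun y => exp (lev k (j + 1) * val (gaussianReal 0 1)
      ((gaussianReal 0 1).restrict (Set.Icc (-W) W)) (winH k b Δ) (j + 1) (put z j y))) (gaussianReal 0 1) := by
  have hR0 : 0 ≤ R := (Finset.sum_nonneg fun i _ => hΔ i).trans hR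
  exact integrable_val (b := R + 1) winH_measurable hΔ
    (by have := dOf_ge (b := R + 1) hΔ hR; linarith)
    (top_upper hW (by linarith)) hj z

theorem truncStmt : TruncStmt := by
  refine ⟨fun R d ε hd hε => ?_, fun R => ⟨(R + 1) / 2 - log midWt, fun W hW k b Δ hΔ hR hb => ?_⟩⟩
  · set δ := ε / 2
    have hδ : 0 < δ := half_pos hε
    set K := (1 / (2 * d) + |log d| + ((|R| + 1) / 2 + |log midWt|)) * ((2 / d) ^ 2 + (2 / d) ^ 4)
    set M4 := ∫ g, g ^ 4 ∂gaussianReal 0 1
    set M2 := ∫ y, y ^ 2 ∂gaussianReal 0 1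
    have hK : 0 ≤ K := by positivity
    have hM4 : 0 ≤ M4 := integral_nonneg fun g => by positivity
    have he : 0 < 1 - exp (-δ) := by linarith [exp_lt_one_iff.2 (neg_neg_of_pos hδ)]
    refine ⟨max 1 (max (4 * M2 / ((1 - exp (-δ)) * d)) (K * (((|R| / d) ^ 2 * |R|) ^ 2 * M4) / δ)),
      fun W hW k b Δ hΔ hR hb hD => ?_⟩
    have hW1 : 1 ≤ W := (le_max_left _ _).trans hW
    have hWW : W ≤ W ^ 2 := by nlinarith
    have hW2 : 4 * M2 ≤ (1 - exp (-δ)) * (d * W ^ 2) := by
      have := ((le_max_left _ _).trans ((le_max_right 1 _).trans hW)).trans hWW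
      rw [div_le_iff₀ (by positivity)] at this
      linarith
    have hW3 : K / W ^ 2 * (((|R| / d) ^ 2 * |R|) ^ 2 * M4) ≤ δ := by
      have := ((le_max_right _ _).trans ((le_max_right 1 _).trans hW)).trans hWW
      rw [div_le_iff₀ hδ] at this
      rw [div_mul_eq_mul_div, div_le_iff₀ (by positivity)]
      linarith
    have hD0 : 0 < dOf k b Δ 0 := hd.trans_le hD
    have hdb : d ≤ b := hD.trans (dOf_mem hΔ 0).2
    obtain ⟨s, hs, hlow⟩ := val_ge_quad (H := winH k b Δ)
      (μ := (gaussianReal 0 1).restrict (Set.Icc (-W) W)) hΔ hD0 (C := -log b / 2) hδ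
      (K := K / W ^ 2) (div_nonneg hK (sq_nonneg _))
      (fun j hj z => trunc_integrable hΔ hW1 hR hj z)
      (top_trunc hd hdb (hb.trans (le_abs_self R)) hδ hW1 hW2) 0 (Nat.zero_le k)
    have h := hlow fun _ => 0
    rw [acc_zero] at h
    rw [cavW_eq]
    refine le_trans ?_ h
    have hs4 : s ^ 4 ≤ ((|R| / d) ^ 2 * |R|) ^ 2 := by
      have h1 : s ^ 2 ≤ (|R| / d) ^ 2 * |R| := by
        refine hs.trans (mul_le_mul ?_ ?_ (Finset.sum_nonneg fun i _ => hΔ _) (by positivity))
        · refine pow_le_pow_left₀ (div_nonneg (hd.le.trans hdb) hD0.le) ?_ 2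
          exact div_le_div₀ (abs_nonneg R) (((le_abs_self b).trans hb).trans (le_abs_self R)) hd hD
        · rw [← Finset.range_eq_Ico, ← sum_Icc_shift]
          exact hR.trans (le_abs_self R)
      calc s ^ 4 = (s ^ 2) ^ 2 := by ring
        _ ≤ _ := pow_le_pow_left₀ (sq_nonneg s) h1 2
    have herr : errAt δ (K / W ^ 2) (b / dOf k b Δ 0) s 0 ≤ ε := by
      have : ∫ g, (b / dOf k b Δ 0 * 0 + s * g) ^ 4 ∂gaussianReal 0 1 = s ^ 4 * M4 := by
        simp only [mul_zero, zero_add, mul_pow, integral_const_mul, M4]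
      rw [errAt, this]
      have := mul_le_mul_of_nonneg_left (mul_le_mul_of_nonneg_right hs4 hM4)
        (show 0 ≤ K / W ^ 2 by positivity)
      linarith [show δ + δ = ε from add_halves ε]
    rw [recC_zero]
    simp only [ne_eq, OfNat.ofNat_ne_zero, not_false_eq_true, zero_pow, zero_div, zero_add]
    linarith
  · rw [cavW_eq]
    refine levels_down (P := fun j => ∀ z, -((R + 1) / 2 - log midWt)
        ≤ val (gaussianReal 0 1) ((gaussianReal 0 1).restrict (Set.Icc (-W) W)) (winH k b Δ) j z)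
      (top_lower hW hb) (fun j hj ih z => ?_) 0 (Nat.zero_le k) _
    have hlev := lev_pos' (k := k) (Nat.le_add_left 1 j)
    have h := step_ge (γ := gaussianReal 0 1) hlev
      (Lo := fun _ => -((R + 1) / 2 - log midWt)) (e := fun _ => (0 : ℝ))
      (trunc_integrable hΔ hW hR hj z) (integrable_const _) (by simp)
      fun y => by simpa using ih (put z j y)
    rw [val_succ hj]
    simpa [log_exp, mul_div_cancel_left₀ _ hlev.ne'] using h

end Vale.Agent.P157.Rsb
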