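import Vale.Agent.P157.Rsb.CavStart
import Vale.Agent.P157.Rsb.CavWindow
import Vale.Agent.P157.Rsb.Gauss
import Vale.Agent.P157.Rsb.CavDeriv

/-!
# P157, cavity module: the two ends of the interpolation on the sphere

The new coordinate is Gaussian, conditioned to a window; the constant restores the truncated value.
-/

open MeasureTheory ProbabilityTheory Real Finset

namespace Vale.Agent.P157.Rsb

/-- The Gaussian mass of the window. -/
noncomputable def winMass (W : ℝ) : ℝ := (gaussianReal 0 1).real (Set.Icc (-W) W)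

/-- The Gaussian law conditioned to the window. -/
noncomputable def winLaw (W : ℝ) : Measure ℝ := (gaussianReal 0 1)[|Set.Icc (-W) W]

theorem winMass_pos {W : ℝ} (hW : 1 ≤ W) : 0 < winMass W :=
  gauss_Icc_pos (show -W < W by linarith)

theorem winLaw_isProb {W : ℝ} (hW : 1 ≤ W) : IsProbabilityMeasure (winLaw W) :=
  cond_isProbabilityMeasure fun h => (winMass_pos hW).ne' (by simp [winMass, measureReal_def, h])

theorem winLaw_ae {W : ℝ} : ∀ᵐ w ∂winLaw W, w ∈ Set.Icc (-W) W :=
  Measure.ae_smul_measure (ae_restrict_mem measurableSet_Icc) _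

theorem integral_winLaw (W : ℝ) (u : ℝ → ℝ) :
    ∫ w, u w ∂winLaw W = (winMass W)⁻¹ * ∫ w in Set.Icc (-W) W, u w ∂gaussianReal 0 1 := by
  rw [winLaw, ProbabilityTheory.cond, integral_smul_measure, ENNReal.toReal_inv, smul_eq_mul]
  rfl

theorem sphFld_unit {N : ℕ} (x : (sphereLeaf N).X) :
    sdot ((sphereLeaf N).fld x) ((sphereLeaf N).fld x) = 1 := by
  have h : ‖(x.1 : EuclideanSpace ℝ (Fin (N + 1)))‖ = 1 := mem_sphere_zero_iff_norm.1 x.2
  have h2 := EuclideanSpace.real_norm_sq_eq (x.1 : EuclideanSpace ℝ (Fin (N + 1)))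
  rw [h, one_pow] at h2
  exact (sum_congr rfl fun i _ => (pow_two _).symm).trans h2.symm

/-- The base of the sphere interpolation: the old sphere and a Gaussian coordinate on the window. -/
noncomputable def sphBase (N : ℕ) {W : ℝ} (hW : 1 ≤ W) : CavBase N where
  X0 := (sphereLeaf N).X
  mX := (sphereLeaf N).mX
  law := (sphereLeaf N).μ
  probLaw := (sphereLeaf N).prob
  vec := (sphereLeaf N).fld
  vec_meas := (sphereLeaf N).fld_meas
  vec_unit x := sphFld_unit x
  nu := winLaw W
  probNu := winLaw_isProb hW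
  shift := log (winMass W)

section Value

variable {Z : Type} [MeasurableSpace Z] {k : ℕ} {γ : Measure Z}

theorem nest_winLaw {W : ℝ} (hW : 1 ≤ W) (H : (Fin k → Z) → ℝ → ℝ) :
    ∀ d z, nest γ (winLaw W) (fun z w => H z w + log (winMass W)) d z
      = nest γ ((gaussianReal 0 1).restrict (Set.Icc (-W) W)) H d z := by
  intro d
  induction d with
  | zero =>
    intro z
    simp only [nest]
    congr 1
    rw [integral_winLaw]
    simp only [exp_add, exp_log (winMass_pos hW), integral_mul_const]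
    field_simp [(winMass_pos hW).ne']
  | succ d ih => intro z; simp only [nest, ih]

/-- A leaf system dominating another one up to a factor has at least its value less that much. -/
theorem val_dominated [IsProbabilityMeasure γ] {X X' : Type} [MeasurableSpace X] [MeasurableSpace X']
    {μ : Measure X} {μ' : Measure X'} [IsFiniteMeasure μ] [NeZero μ] [IsFiniteMeasure μ'] [NeZero μ']
    {w : Size γ} {H : (Fin k → Z) → X → ℝ} {H' : (Fin k → Z) → X' → ℝ} (hH : LinB w H) (hH' : LinB w H')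
    {c : ℝ} (h : ∀ z, exp (-c) * ∫ x, exp (H' z x) ∂μ' ≤ ∫ x, exp (H z x) ∂μ) (j : ℕ) (z : Fin k → Z) :
    val γ μ' H' j z - c ≤ val γ μ H j z := by
  induction j using levels_induction (k := k) generalizing z with
  | htop j hj =>
    simp only [val_of_le hj, val_top]
    have h1 := integral_exp_pos (integrable_exp_leaf (μ := μ') hH' z)
    have h2 := log_le_log (mul_pos (exp_pos _) h1) (h z)
    rw [log_mul (exp_pos _).ne' h1.ne', log_exp] at h2
    linarith
  | hstep j hj hjk ih =>
    simp only [val_step hj hjk]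
    have hl : 0 < lev k j := lev_pos hj
    obtain ⟨i', p'⟩ := integrable_val_step (μ := μ') hH' (j := j) z (j - 1)
    obtain ⟨i, p⟩ := integrable_val_step (μ := μ) hH (j := j) z (j - 1)
    have hle : ∫ y, exp (lev k j * val γ μ' H' j (put z (j - 1) y)) ∂γ
        ≤ exp (lev k j * c) * ∫ y, exp (lev k j * val γ μ H j (put z (j - 1) y)) ∂γ := by
      rw [← integral_const_mul]
      refine integral_mono i' (i.const_mul _) fun y => ?_
      simp only [← exp_add, ← mul_add]
      exact exp_le_exp.2 (mul_le_mul_of_nonneg_left (by linarith [ih (put z (j - 1) y)]) hl.le)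
    have h2 := log_le_log p' hle
    rw [log_mul (exp_pos _).ne' p.ne', log_exp] at h2
    have h3 := div_le_div_of_nonneg_right h2 hl.le
    rw [add_div, mul_div_cancel_left₀ _ hl.ne'] at h3
    linarith

end Value

variable {N k M : ℕ}

/-- The Hamiltonian as a function of the unit vector. -/
noncomputable def vecH (f : ℝ → ℝ) (σ : ℕ → ℝ) (g : Fin M → Fin (N + 1 + 1) → ℝ)
    (z : Fin k → FieldIdx (N + 1 + 1) → ℝ) (v : Fin (N + 1 + 1) → ℝ) : ℝ :=
  ∑ a, f (sdot (g a) v) + ∑ l : Fin k, σ (l + 1) * √(bigN N) * sdot (fun i => z l (.inl i)) v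
    - bigN N / 2 * (∑ l : Fin k, σ (l + 1) ^ 2) * sdot v v

theorem ham_sph_new (f : ℝ → ℝ) (σ : ℕ → ℝ) (g : Fin M → Fin (N + 1 + 1) → ℝ)
    (z : Fin k → FieldIdx (N + 1 + 1) → ℝ) (x : (sphereLeaf (N + 1)).X) :
    ham (sphereLeaf (N + 1)) f (bigN N) σ (fun _ => 0) g z x = vecH f σ g z ((sphereLeaf (N + 1)).fld x) := by
  simp only [ham, vecH, zero_mul, add_zero]
  show _ + (0 : ℝ) = _
  rw [add_zero]
  rfl

theorem ham_sph_end {W : ℝ} (hW : 1 ≤ W) (f : ℝ → ℝ) (σ ρ : ℕ → ℝ) (b : ℝ)
    (g : Fin M → Fin (N + 1 + 1) → ℝ) (z : Fin k → FieldIdx (N + 1 + 1) → ℝ) (p : CavX (sphBase N hW)) :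
    ham (cavLeaf (sphBase N hW) hW b (π / 2)) f (bigN N) σ (cavBeta ρ (fun _ => 0) (π / 2)) g z p
      = vecH f σ g z (winVec N ((sphereLeaf N).fld p.1) (cw W p)) + log (winMass W) := by
  set w := cw W p
  have hn : 0 < dimN N := by linarith [one_le_dimN N]
  have hA : cA (dimN N) (π / 2) w = √(dimN N / (dimN N + w ^ 2)) := by
    rw [cA, sin_pi_div_two, one_pow, one_mul, one_sub_cS_sq hn]
  have hC : cC (dimN N) (π / 2) w = √(dimN N / (dimN N + w ^ 2)) := by
    simp [cC]
  have hS : sin (π / 2) * cS (dimN N) w = w / √(dimN N + w ^ 2) := by rw [cS, sin_pi_div_two, one_mul]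
  have eP : cavPat W (π / 2) p = winVec N ((sphereLeaf N).fld p.1) w := by
    show joinC _ _ _ = _
    rw [hA, hS]; rfl
  have eF : cavFld W (π / 2) p = winVec N ((sphereLeaf N).fld p.1) w := by
    show joinC _ _ _ = _
    rw [hC, hS]; rfl
  have eB : ∀ l, cavBeta ρ (fun _ => 0) (π / 2) l = 0 := fun l => by simp [cavBeta]
  have eD : cavDet W b (π / 2) p = log (winMass W) := by
    simp [cavDet, sphBase]
  show (∑ a, f (sdot (g a) (cavPat W (π / 2) p)))
      + ∑ l : Fin k, (σ (l + 1) * √(bigN N) * sdot (fun i => z l (.inl i)) (cavFld W (π / 2) p)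
        + cavBeta ρ (fun _ => 0) (π / 2) (l + 1) * z l (.inr ()) * cw W p)
      - bigN N / 2 * (∑ l : Fin k, σ (l + 1) ^ 2) * sdot (cavFld W (π / 2) p) (cavFld W (π / 2) p)
      + cavDet W b (π / 2) p = _
  simp only [eP, eF, eD, eB, zero_mul, add_zero]
  rfl

/-- Coordinates clipped to the unit cube. -/
noncomputable def clipVec {n : ℕ} (v : Fin n → ℝ) (i : Fin n) : ℝ := clipW 1 (v i)

theorem measurable_clipVec {n : ℕ} : Measurable (clipVec (n := n)) :=
  measurable_pi_lambda _ fun i => (measurable_clipW 1).comp (measurable_pi_apply i)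

theorem clipVec_of_le {n : ℕ} {v : Fin n → ℝ} (h : sdot v v = 1) : clipVec v = v := funext fun i => by
  refine clipW_of_mem ?_
  have : v i * v i ≤ sdot v v := single_le_sum (fun j _ => mul_self_nonneg (v j)) (mem_univ i)
  constructor <;> nlinarith

theorem abs_vecH_le {f : ℝ → ℝ} {L : ℝ} (hf : ∀ u, |f u| ≤ L) (σ : ℕ → ℝ)
    (g : Fin M → Fin (N + 1 + 1) → ℝ) (z : Fin k → FieldIdx (N + 1 + 1) → ℝ) :
    ∃ B, ∀ v, |vecH f σ g z (clipVec v)| ≤ B := by
  refine ⟨M * L + ∑ l : Fin k, |σ (l + 1) * √(bigN N)| * (1 * ∑ i, |z l (.inl i)|)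
    + |bigN N / 2 * ∑ l : Fin k, σ (l + 1) ^ 2| * (1 * ((N + 1 + 1 : ℕ) * 1)), fun v => ?_⟩
  have hv : ∀ i, |clipVec v i| ≤ 1 := fun i => abs_clipW_le zero_le_one _
  unfold vecH
  refine (abs_sub _ _).trans (add_le_add ((abs_add_le _ _).trans (add_le_add ?_ ?_)) ?_)
  · exact (abs_sum_le_sum_abs _ _).trans ((sum_le_sum fun a _ => hf _).trans_eq (by simp))
  · refine (abs_sum_le_sum_abs _ _).trans (sum_le_sum fun l _ => ?_)
    rw [abs_mul]
    exact mul_le_mul_of_nonneg_left (abs_sdot_le _ _ hv) (abs_nonneg _)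
  · rw [abs_mul]
    refine mul_le_mul_of_nonneg_left ((abs_sdot_le _ _ hv).trans ?_) (abs_nonneg _)
    refine mul_le_mul_of_nonneg_left ?_ zero_le_one
    exact (sum_le_sum fun i _ => hv i).trans_eq (by simp)

theorem measurable_vecH {f : ℝ → ℝ} (hm : Measurable f) (σ : ℕ → ℝ)
    (g : Fin M → Fin (N + 1 + 1) → ℝ) (z : Fin k → FieldIdx (N + 1 + 1) → ℝ) :
    Measurable (vecH f σ g z) := by
  unfold vecH
  exact ((Finset.measurable_sum _ fun a _ => hm.comp (measurable_sdot measurable_const measurable_id)).add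
    (Finset.measurable_sum _ fun l _ => (measurable_sdot measurable_const measurable_id).const_mul _)).sub
    ((measurable_sdot measurable_id measurable_id).const_mul _)

theorem winVec_unit (x : (sphereLeaf N).X) (w : ℝ) :
    sdot (winVec N ((sphereLeaf N).fld x) w) (winVec N ((sphereLeaf N).fld x) w) = 1 := by
  have hn : 0 < (N : ℝ) + 1 + w ^ 2 := by positivity
  have hu := sphFld_unit x
  rw [sdot, Fin.sum_univ_castSucc]
  simp only [winVec, Fin.snoc_castSucc, Fin.snoc_last]
  simp_rw [mul_mul_mul_comm _ ((sphereLeaf N).fld x _)]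
  rw [← mul_sum, show ∑ i, (sphereLeaf N).fld x i * (sphereLeaf N).fld x i = 1 from hu, mul_one,
    mul_self_sqrt (by positivity), div_mul_div_comm, mul_self_sqrt hn.le]
  field_simp

/-- The end of the interpolation is dominated by the sphere of one more dimension. -/
theorem val_end_le {W : ℝ} (hW : 1 ≤ W) {ε : ℝ} (hε : 0 < ε) : ∃ N₀ : ℕ, ∀ N, N₀ ≤ N →
    ∀ (k : ℕ) (f : ℝ → ℝ) (L : ℝ), Measurable f → (∀ u, |f u| ≤ L) → ∀ (σ ρ : ℕ → ℝ) (b : ℝ) (M : ℕ)
      (g : Fin M → Fin (N + 1 + 1) → ℝ),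
      val (stdG (FieldIdx (N + 1 + 1))) (cavLeaf (sphBase N hW) hW b (π / 2)).μ
          (ham (k := k) (cavLeaf (sphBase N hW) hW b (π / 2)) f (bigN N) σ (cavBeta ρ (fun _ => 0) (π / 2)) g)
          0 (fun _ _ => 0) - ε
        ≤ val (stdG (FieldIdx (N + 1 + 1))) (sphereLeaf (N + 1)).μ
          (ham (k := k) (sphereLeaf (N + 1)) f (bigN N) σ (fun _ => 0) g) 0 (fun _ _ => 0) := by
  obtain ⟨N₀, hN₀⟩ := sphere_window hW hε
  refine ⟨N₀, fun N hN k f L hm hL σ ρ b M g => ?_⟩
  refine val_dominated (linB_ham (sphereLeaf (N + 1)) hm hL _ σ _ g)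
    (linB_ham (cavLeaf (sphBase N hW) hW b (π / 2)) hm hL _ σ _ g) (fun z => ?_) 0 _
  obtain ⟨B, hB⟩ := abs_vecH_le hL σ g z
  set G : (Fin (N + 1 + 1) → ℝ) → ℝ := fun v => exp (vecH f σ g z (clipVec v))
  have hG : Measurable G := ((measurable_vecH hm σ g z).comp measurable_clipVec).exp
  have hGB : ∀ v, 0 ≤ G v ∧ G v ≤ exp B := fun v =>
    ⟨(exp_pos _).le, exp_le_exp.2 ((le_abs_self _).trans (hB v))⟩
  refine le_of_eq_of_le ?_ ((hN₀ N hN G (exp B) hG hGB).trans_eq ?_)
  · congr 1
    have hm2 := measurable_winVec N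
    have hGi : Integrable (fun p : CavX (sphBase N hW) =>
        G (winVec N ((sphereLeaf N).fld p.1) (cw W p)) * winMass W)
        ((sphBase N hW).law.prod (sphBase N hW).nu) := by
      have hh : Measurable fun p : CavX (sphBase N hW) => ((sphereLeaf N).fld p.1, cw W p) :=
        ((sphereLeaf N).fld_meas.comp measurable_fst).prodMk measurable_cw
      refine Integrable.of_bound ((hG.comp (hm2.comp hh)).mul_const _).aestronglyMeasurable
        (exp B * winMass W) (ae_of_all _ fun p => ?_)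
      rw [Real.norm_eq_abs, abs_mul, abs_of_nonneg (hGB _).1, abs_of_pos (winMass_pos hW)]
      exact mul_le_mul_of_nonneg_right (hGB _).2 (winMass_pos hW).le
    have e : ∀ p : CavX (sphBase N hW),
        exp (ham (cavLeaf (sphBase N hW) hW b (π / 2)) f (bigN N) σ (cavBeta ρ (fun _ => 0) (π / 2)) g z p)
          = G (winVec N ((sphereLeaf N).fld p.1) (cw W p)) * winMass W := fun p => by
      have hc : clipVec (winVec N ((sphereLeaf N).fld p.1) (cw W p))
          = winVec N ((sphereLeaf N).fld p.1) (cw W p) := clipVec_of_le (winVec_unit (N := N) p.1 _)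
      simp only [ham_sph_end, exp_add, exp_log (winMass_pos hW), G, hc]
    rw [integral_congr_ae (ae_of_all _ e)]
    show ∫ p, G (winVec N ((sphereLeaf N).fld p.1) (cw W p)) * winMass W
      ∂(sphBase N hW).law.prod (sphBase N hW).nu = _
    rw [integral_prod _ hGi]
    refine integral_congr_ae (ae_of_all _ fun x => ?_)
    show ∫ w, G (winVec N ((sphereLeaf N).fld x) (clipW W w)) * winMass W ∂winLaw W
      = ∫ w in Set.Icc (-W) W, G (winVec N ((sphereLeaf N).fld x) w) ∂gaussianReal 0 1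
    rw [integral_winLaw, integral_mul_const, mul_comm _ (winMass W), ← mul_assoc,
      inv_mul_cancel₀ (winMass_pos hW).ne', one_mul]
    exact setIntegral_congr_fun measurableSet_Icc fun w hw => by rw [clipW_of_mem hw]
  · refine integral_congr_ae (ae_of_all _ fun x => ?_)
    have hu := sphFld_unit x
    simp only [G, clipVec_of_le hu, ham_sph_new]

/-- The value at the root is integrable in the patterns. -/
theorem integrable_valRoot {n M k : ℕ} {S : Leaf n} {f : ℝ → ℝ} {L : ℝ} (hm : Measurable f)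
    (hL : ∀ u, |f u| ≤ L) (r : ℝ) (σ β : ℕ → ℝ) :
    Integrable (fun g => val (stdG (FieldIdx n)) S.μ (ham (k := k) S f r σ β g) 0 (fun _ _ => 0))
      (patterns M n) := by
  obtain ⟨-, B0, hB0⟩ := h0Of_bdd (M := M) S hm hL k r σ
  obtain ⟨B, hB, hBv⟩ := bcoef_vCoef (k := k) S r σ β
  obtain ⟨A', hA', hb⟩ := val_bound_unif (γ := stdG (FieldIdx n)) (μ := S.μ) (k := k)
    (gaussSize (FieldIdx n)) (A := B + |B0|) (by positivity)
  have : IsProbabilityMeasure (patterns M n) := by unfold patterns; infer_instance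
  have hmeas : Measurable fun g : Fin M → Fin n → ℝ =>
      val (stdG (FieldIdx n)) S.μ (ham (k := k) S f r σ β g) 0 (fun _ _ => 0) :=
    measurable_val_root (H := fun g => ham (k := k) S f r σ β g) (measurable_ham S hm r σ β)
  refine Integrable.of_bound hmeas.aestronglyMeasurable
    (A' * (1 + (gaussSize (FieldIdx n)).tot fun (_ : Fin k) _ => (0 : ℝ))) (ae_of_all _ fun g => ?_)
  rw [Real.norm_eq_abs]
  refine hb _ (linB_ham S hm hL r σ β g).meas (fun z x => ?_) 0 _
  rw [ham_eq]
  have ht := (gaussSize (FieldIdx n)).tot_nonneg z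
  refine (abs_add_le _ _).trans ((add_le_add (abs_linZ_le (fun a i y => (hBv a i).2 y) z x) (hB0 g x)).trans ?_)
  nlinarith [le_abs_self B0, mul_nonneg (abs_nonneg B0) ht]

end Vale.Agent.P157.Rsb
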