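import Vale.Agent.P157.Rsb.Calc

/-!
# P157, cavity module: general tools for nested recursions and pattern matrices
-/

open MeasureTheory ProbabilityTheory Real Finset

namespace Vale.Agent.P157.Rsb

section Nest

variable {k : ℕ} {Z X : Type} [MeasurableSpace Z] [MeasurableSpace X]
  {γ : Measure Z} {μ : Measure X} {H H' φ φ' : (Fin k → Z) → X → ℝ}

theorem nest_congr_ae (h : ∀ z, ∀ᵐ x ∂μ, H z x = H' z x) :
    ∀ d z, nest γ μ H d z = nest γ μ H' d z := by
  intro d
  induction d with
  | zero =>
    intro z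
    simp only [nest]
    congr 1
    exact integral_congr_ae ((h z).mono fun x hx => by simp [hx])
  | succ d ih => intro z; simp only [nest, ih]

theorem val_congr_ae (h : ∀ z, ∀ᵐ x ∂μ, H z x = H' z x) (j : ℕ) (z : Fin k → Z) :
    val γ μ H j z = val γ μ H' j z := nest_congr_ae h _ z

theorem nestCond_congr_ae (h : ∀ z, ∀ᵐ x ∂μ, H z x = H' z x)
    (hφ : ∀ z, ∀ᵐ x ∂μ, φ z x = φ' z x) :
    ∀ d z, nestCond γ μ H φ d z = nestCond γ μ H' φ' d z := by
  intro d
  induction d with
  | zero =>
    intro z
    simp only [nestCond]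
    congr 1
    · exact integral_congr_ae (((h z).and (hφ z)).mono fun x hx => by simp [hx.1, hx.2])
    · exact integral_congr_ae ((h z).mono fun x hx => by simp [hx])
  | succ d ih => intro z; simp only [nestCond, ih, nest_congr_ae h]

/-- A product of two conditional expectations is the expectation over two leaves. -/
theorem cnd_mul_cnd [IsProbabilityMeasure γ] [IsFiniteMeasure μ] [NeZero μ] (j : ℕ) (f g : X → ℝ)
    (z : Fin k → Z) :
    cnd γ μ H (fun _ x => f x) j z * cnd γ μ H (fun _ x => g x) j z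
      = pairCnd γ μ H (fun _ x _ y => f x * g y) j z := by
  unfold pairCnd
  have h1 : ∀ x, cnd γ μ H (fun _ y => f x * g y) j z = f x * cnd γ μ H (fun _ y => g y) j z :=
    fun x => cnd_const_mul (φ := fun _ y => g y) (f x) j z
  simp only [h1]
  rw [show (fun (_ : Fin k → Z) (x : X) => f x * cnd γ μ H (fun _ y => g y) j z)
    = fun _ x => cnd γ μ H (fun _ y => g y) j z * f x from funext₂ fun _ _ => mul_comm _ _,
    cnd_const_mul (φ := fun _ x => f x)]
  ring

theorem mass_le_one (k : ℕ) : mass k ≤ 1 := by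
  unfold mass
  rw [div_le_one (by positivity)]
  linarith [k.cast_nonneg (α := ℝ)]

theorem mass_mul_card (k : ℕ) : mass k * #(Icc 0 k) = 1 := by
  unfold mass
  rw [Nat.card_Icc]
  push_cast
  field_simp

theorem mass_sum_le {k : ℕ} {s : Finset ℕ} (hs : s ⊆ Icc 0 k) {v : ℕ → ℝ} {c : ℝ}
    (hc : 0 ≤ c) (hv : ∀ l ∈ s, v l ≤ c) : mass k * ∑ l ∈ s, v l ≤ c := by
  calc mass k * ∑ l ∈ s, v l ≤ mass k * ∑ _l ∈ Icc 0 k, c :=
        mul_le_mul_of_nonneg_left ((sum_le_sum hv).trans
          (sum_le_sum_of_subset_of_nonneg hs fun _ _ _ => hc)) (mass_pos (k := k)).le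
    _ = c := by rw [sum_const, nsmul_eq_mul, ← mul_assoc, mass_mul_card, one_mul]

theorem lev_one (k : ℕ) : lev k 1 = mass k := by unfold lev mass; norm_num

end Nest

section Patterns

variable {M n : ℕ}

theorem measurePreserving_uncurry (M n : ℕ) :
    MeasurePreserving (fun (g : Fin M → Fin n → ℝ) (p : Fin M × Fin n) => g p.1 p.2)
      (patterns M n) (stdG (Fin M × Fin n)) := by
  have hm : Measurable fun (g : Fin M → Fin n → ℝ) (p : Fin M × Fin n) => g p.1 p.2 := by fun_prop
  refine ⟨hm, (Measure.pi_eq fun s hs => ?_).symm⟩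
  rw [Measure.map_apply hm (MeasurableSet.univ_pi hs)]
  have e : (fun (g : Fin M → Fin n → ℝ) (p : Fin M × Fin n) => g p.1 p.2) ⁻¹' Set.univ.pi s
      = Set.univ.pi fun a => Set.univ.pi fun i => s (a, i) := by
    ext g
    simp [Prod.forall]
  rw [e, patterns, Measure.pi_pi]
  simp_rw [Measure.pi_pi]
  rw [Fintype.prod_prod_type]

theorem measurePreserving_curry (M n : ℕ) :
    MeasurePreserving (fun (y : Fin M × Fin n → ℝ) a i => y (a, i))
      (stdG (Fin M × Fin n)) (patterns M n) := by
  have hm : Measurable fun (y : Fin M × Fin n → ℝ) a i => y (a, i) := by fun_prop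
  refine ⟨hm, ?_⟩
  rw [← (measurePreserving_uncurry M n).map_eq, Measure.map_map hm
    (measurePreserving_uncurry M n).measurable]
  exact Measure.map_id

/-- The sum of the absolute values of all entries. -/
def gTot (g : Fin M → Fin n → ℝ) : ℝ := ∑ a, ∑ i, |g a i|

/-- Replace one entry. -/
def setEntry (g : Fin M → Fin n → ℝ) (a : Fin M) (i : Fin n) (t : ℝ) : Fin M → Fin n → ℝ :=
  Function.update g a (Function.update (g a) i t)

theorem pattern_ibp (a : Fin M) (i : Fin n) {G G' : (Fin M → Fin n → ℝ) → ℝ}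
    (hd : ∀ g, HasDerivAt (fun t => G (setEntry g a i t)) (G' g) (g a i))
    (hm : Measurable G) (hm' : Measurable G') {A : ℝ}
    (hb : ∀ g, |G g| ≤ A * exp (A * gTot g) ∧ |G' g| ≤ A * exp (A * gTot g)) :
    ∫ g, g a i * G g ∂patterns M n = ∫ g, G' g ∂patterns M n := by
  set cu := fun (y : Fin M × Fin n → ℝ) a i => y (a, i) with hcu
  have hp : MeasurePreserving cu _ _ := measurePreserving_curry M n
  have hset : ∀ y t, cu (Function.update y (a, i) t) = setEntry (cu y) a i t := fun y t => by
    funext b j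
    simp only [hcu, setEntry, Function.update_apply, Prod.mk.injEq]
    by_cases hb' : b = a <;> by_cases hj : j = i <;> simp [hb', hj]
  have htot : ∀ y : Fin M × Fin n → ℝ, gTot (cu y) = ∑ p, |y p| := fun y => by
    simp only [gTot, hcu, Fintype.sum_prod_type]
  have key := gauss_ibp (ι := Fin M × Fin n) (a, i) (G := fun y => G (cu y))
    (G' := fun y => G' (cu y)) (fun y => by simpa only [hset] using hd (cu y))
    (hm.comp hp.measurable) (hm'.comp hp.measurable)
    ⟨A, fun y => by simpa only [htot] using hb (cu y)⟩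
  rw [← hp.map_eq, integral_map hp.measurable.aemeasurable
      (f := fun g => g a i * G g) (Measurable.aestronglyMeasurable (by fun_prop)),
    integral_map hp.measurable.aemeasurable hm'.aestronglyMeasurable]
  simpa only [hcu] using key

end Patterns

end Vale.Agent.P157.Rsb
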