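import Vale.Agent.P157.Rsb.CavSphere
import Vale.Agent.P157.Rsb.CavErr
import Vale.Agent.P157.Rsb.Reg
import Vale.Agent.P157.Cube2.CavFinish

/-!
# P157, cavity module: `CavityStmt`

One more coordinate on the sphere gains at least the truncated one-coordinate value.
-/

open MeasureTheory ProbabilityTheory Real Finset
open Vale.Agent.P157.Cube2 (good_bounds rhoOf_zero rhoOf_pos incr_rhoOf_nonneg path_diff sqrt_trade cum)

namespace Vale.Agent.P157.Rsb

variable {N M k : ℕ} {f : ℝ → ℝ}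

/-- The interpolation of the sphere system. -/
noncomputable def sphCtx (hΦ : PhiStmt) (hp : PathStmt) (hf : Good f) {L Bf : ℝ} (hL : ∀ u, |f u| ≤ L)
    (hB : ∀ u, |deriv f u| ≤ Bf) {W : ℝ} (hW : 1 ≤ W) (N M k : ℕ) (σ : ℕ → ℝ) : CavCtx N k where
  K := sphBase N hW
  W := W
  hW := hW
  f := f
  L := L
  Bf := Bf
  good := hf
  bf := hL
  bf' := hB
  σ := σ
  ρ := rhoOf k f ((M : ℝ) / (N + 1)) σ (sphQ f N M k σ)
  e := fun _ => 0
  q := sphQ f N M k σ
  b := bOf k (rhoOf k f ((M : ℝ) / (N + 1)) σ (sphQ f N M k σ)) (sphQ f N M k σ)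
  hρ0 := rhoOf_zero
  hρ _ hl hlk := incr_rhoOf_nonneg hΦ hf hB
    (hp f L hf.1.continuous.measurable hL N M k σ) (by positivity) hl hlk
  he _ := le_rfl
  hq := hp f L hf.1.continuous.measurable hL N M k σ

section Start

variable (hΦ : PhiStmt) (hp : PathStmt) (hf : Good f) {L Bf : ℝ} (hL : ∀ u, |f u| ≤ L)
  (hB : ∀ u, |deriv f u| ≤ Bf) {W : ℝ} (hW : 1 ≤ W) (σ : ℕ → ℝ)

theorem ham_sph_old (g : Fin M → Fin (N + 1) → ℝ) :
    ham (k := k) (sphBase N hW).old f (dimN N) σ (fun _ => 0) g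
      = ham (sphereLeaf N) f ((N : ℝ) + 1) σ (fun _ => 0) g := by
  funext z x
  simp only [ham, zero_mul]
  rfl

theorem sphFree_old : free (sphBase N hW).old f M k (dimN N) σ (fun _ => 0) = sphFree f N M k σ := by
  simp only [free, sphFree, ham_sph_old]
  rfl

theorem oneVal_sph :
    (sphCtx hΦ hp hf hL hB hW N M k σ).oneVal
      = cavW W k (sphCtx hΦ hp hf hL hB hW N M k σ).b (incr (sphCtx hΦ hp hf hL hB hW N M k σ).ρ) := by
  set C := sphCtx hΦ hp hf hL hB hW N M k σ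
  set H := fun (z : Fin k → ℝ) (w : ℝ) =>
    ∑ l : Fin k, C.β 0 (l + 1) * z l * clipW W w - (C.b - 1) * clipW W w ^ 2 / 2 with hH
  have e1 : C.oneH = fun z w => H z w + log (winMass W) := rfl
  have hcl : ∀ z, ∀ᵐ w ∂(gaussianReal 0 1).restrict (Set.Icc (-W) W),
      H z w = winH k C.b (incr C.ρ) z w := fun z => by
    filter_upwards [ae_restrict_mem measurableSet_Icc] with w hw
    simp only [hH, clipW_of_mem hw, winH, CavCtx.β, cavBeta]
    simp [show C.e = fun _ => 0 from rfl]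
  rw [CavCtx.oneVal, cavW_eq, e1]
  exact (nest_winLaw hW H _ _).trans (val_congr_ae hcl 0 _)

theorem sphErr_old (q : ℕ → ℝ) (j : ℕ) :
    gibPair (k := k) (sphBase N hW).old f M (dimN N) σ (fun _ => 0) j
        (fun _ x y => |sdot ((sphereLeaf N).fld x) ((sphereLeaf N).fld y) - q j|)
      = ovErr f N M k σ q j := by
  simp only [gibPair, gib, ovErr, ham_sph_old]
  rfl

theorem Err_sph_start :
    (sphCtx hΦ hp hf hL hB hW N M k σ).Err M 0 = totErr f N M k σ := by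
  set C := sphCtx hΦ hp hf hL hB hW N M k σ
  unfold CavCtx.Err totErr
  congr 1
  refine sum_congr rfl fun l _ => ?_
  set ψ : (sphBase N hW).X0 → (sphBase N hW).X0 → ℝ :=
    fun x y => |sdot ((sphBase N hW).vec x) ((sphBase N hW).vec y) - C.q l| with hψ
  have hm : Measurable (Function.uncurry ψ) :=
    ((measurable_sdot ((sphBase N hW).vec_meas.comp measurable_fst)
      ((sphBase N hW).vec_meas.comp measurable_snd)).sub_const _).abs
  have h := C.gibPair_start (ψ := ψ) M l hm (B := 1 + |C.q l|) fun x y => by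
    simp only [hψ, abs_abs]
    exact (abs_sub _ _).trans (add_le_add (abs_oldOv_le (K := sphBase N hW) (x, 0) (y, 0)) le_rfl)
  exact h.trans (sphErr_old hW σ C.q l)

theorem F_start :
    (sphCtx hΦ hp hf hL hB hW N M k σ).F M 0 = ((N : ℝ) + 1) * sphFree f N M k σ
      + cavW W k (sphCtx hΦ hp hf hL hB hW N M k σ).b (incr (sphCtx hΦ hp hf hL hB hW N M k σ).ρ) := by
  rw [Cube2.F_eq, CavCtx.free_start, oneVal_sph]
  congr 1

end Start

/-- Bounds of the parameters of an interpolation with this kernel. -/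
theorem ctx_bounds (hΦ : PhiStmt) {C : CavCtx N k} {T B : ℝ} (hρ : C.ρ = rhoOf k C.f ((M : ℝ) / (N + 1)) C.σ C.q)
    (hb : C.b = bOf k C.ρ C.q) (hT : (M : ℝ) / dimN N ≤ T) (hr : C.r k ≤ B) :
    C.ρ k ≤ B + T * C.Bf ^ 2 ∧ |C.b - 1| ≤ B + T * C.Bf ^ 2 := by
  have ht : 0 ≤ (M : ℝ) / dimN N := by
    have := one_le_dimN N
    positivity
  obtain ⟨-, -, hbd, -⟩ := hΦ.1 C.f C.Bf C.good C.bf' k C.q C.q C.hq C.hq
  have hρk : C.ρ k ≤ B + T * C.Bf ^ 2 := by
    rcases Nat.eq_zero_or_pos k with hk | hk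
    · subst hk
      rw [C.hρ0]
      have := (C.r_nonneg 0).trans hr
      have := ht.trans hT
      positivity
    · rw [show C.ρ k = C.r k + (M : ℝ) / dimN N * gamK k C.f C.q k by rw [hρ]; exact rhoOf_pos hk]
      exact add_le_add hr (mul_le_mul hT (hbd k le_rfl).2 (hbd k le_rfl).1 (ht.trans hT))
  refine ⟨hρk, le_trans ?_ hρk⟩
  have hl : ∀ l ∈ Icc 1 k, 0 ≤ C.ρ l ∧ C.ρ l ≤ C.ρ k := fun l hl => by
    have hlk := (mem_Icc.1 hl).2
    rw [C.ρ_eq l, C.ρ_eq k]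
    exact ⟨sum_nonneg fun i hi => C.hρ i (mem_Icc.1 hi).1 ((mem_Icc.1 hi).2.trans hlk),
      sum_le_sum_of_subset_of_nonneg (Icc_subset_Icc le_rfl hlk)
        fun i hi _ => C.hρ i (mem_Icc.1 hi).1 (mem_Icc.1 hi).2⟩
  have hS0 : 0 ≤ mass k * ∑ l ∈ Icc 1 k, C.ρ l * C.q l :=
    mul_nonneg mass_pos.le (sum_nonneg fun l h => mul_nonneg (hl l h).1 (C.q_mem (mem_Icc.1 h).2).1)
  have hS1 : mass k * ∑ l ∈ Icc 1 k, C.ρ l * C.q l ≤ C.ρ k :=
    mass_sum_le (fun l h => mem_Icc.2 ⟨Nat.zero_le _, (mem_Icc.1 h).2⟩) C.ρ_nonneg fun l h =>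
      (mul_le_of_le_one_right (hl l h).1 (C.q_mem (mem_Icc.1 h).2).2).trans (hl l h).2
  have eb : C.b - 1 = C.ρ k - mass k * ∑ l ∈ Icc 1 k, C.ρ l * C.q l := by
    rw [hb]
    simp only [bOf]
    ring
  rw [eb, abs_le]
  constructor <;> linarith [C.ρ_nonneg]

/-- The derivative along the sphere interpolation is small. -/
theorem sph_deriv (hΦ : PhiStmt) (hP : PatternStmt) (hp : PathStmt) (hf : Good f) {L Bf : ℝ}
    (hL : ∀ u, |f u| ≤ L) (hB : ∀ u, |deriv f u| ≤ Bf) {W : ℝ} (hW : 1 ≤ W) {T B : ℝ} (_hT0 : 0 ≤ T) :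
    ∃ A, 0 ≤ A ∧ ∀ (N M k : ℕ) (σ : ℕ → ℝ) (E : ℝ), (M : ℝ) / dimN N ≤ T →
      ∑ i ∈ Icc 1 k, σ i ^ 2 ≤ B →
      (∀ u ∈ Set.Icc (0 : ℝ) (π / 2), (sphCtx hΦ hp hf hL hB hW N M k σ).Err M u ≤ E) →
      |(sphCtx hΦ hp hf hL hB hW N M k σ).F M (π / 2) - (sphCtx hΦ hp hf hL hB hW N M k σ).F M 0
          + mass k * (∑ l ∈ Icc 1 k, cum σ l * sphQ f N M k σ l) / 2|
        ≤ A * (mass k + 1 / dimN N + E) := by
  obtain ⟨Cp, hCp, hPf⟩ := hP f hf
  refine ⟨|CavCtx.derK W Bf L Cp B T| * (π / 2), by positivity, fun N M k σ E hT hr hE => ?_⟩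
  set C := sphCtx hΦ hp hf hL hB hW N M k σ
  rw [mul_right_comm]
  refine path_diff fun u hu => ?_
  obtain ⟨d, hd, hb⟩ := C.deriv_F_near hΦ hCp
    (fun M u l hl a b R ha hb ma mb => (hPf (N + 1 + 1) M k (C.S u) (bigN N) C.σ (C.β u) C.q
      CavCtx.bigN_pos C.hq fun x => cavPat_unit x).2.1 l hl a b R ha hb ma mb)
    (M := M) (R := B) (T := T) hr hT (fun l hl => rhoOf_pos (mem_Icc.1 hl).1)
    (by show bOf k C.ρ C.q - 1 - C.ρ k = _; simp only [bOf]; ring) u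
  refine ⟨d, hd, le_trans hb ?_⟩
  have h1 := C.Err_nonneg M u
  have h2 : 0 < dimN N := by linarith [one_le_dimN N]
  refine mul_le_mul (le_abs_self _) (add_le_add le_rfl (hE u hu)) ?_ (abs_nonneg _)
  have := mass_pos (k := k)
  positivity

/-- `cavity : CavityStmt` from the one-pattern facts and the path property. -/
theorem cavity (hΦ : PhiStmt) (hP : PatternStmt) (hp : PathStmt) : CavityStmt := by
  intro f T B W hf hW
  obtain ⟨L, Bf, hL, hB⟩ := good_bounds hf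
  set T' := max T 0 with hT'
  obtain ⟨A, hA, hder⟩ := sph_deriv hΦ hP hp hf hL hB hW (T := T') (B := B) (le_max_right _ _)
  set Ke := errK W Bf T' B (B + T' * Bf ^ 2) (B + T' * Bf ^ 2) with hKe
  have hK : 0 ≤ Ke := (errK_pos _ _ _ _ _ _).le
  refine ⟨A * (1 + (3 + Ke)), fun k ε hε => ?_⟩
  obtain ⟨N₁, hN₁⟩ := val_end_le hW (half_pos hε)
  refine ⟨max N₁ ⌈2 * A / ε⌉₊, fun N hN M hM σ _ hr => ?_⟩
  intro q t ρ
  have hn : 0 < dimN N := by linarith [one_le_dimN N]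
  have hT : (M : ℝ) / dimN N ≤ T' := by
    rw [div_le_iff₀ hn]
    calc (M : ℝ) ≤ T * N := hM
      _ ≤ T' * N := mul_le_mul_of_nonneg_right (le_max_left _ _) (Nat.cast_nonneg N)
      _ ≤ T' * dimN N := mul_le_mul_of_nonneg_left (by unfold dimN; linarith) (le_max_right _ _)
  set C := sphCtx hΦ hp hf hL hB hW N M k σ with hC
  set X := totErr f N M k σ + mass k with hX
  have hm : 0 < mass k := mass_pos
  have hm1 : mass k ≤ 1 := mass_le_one k
  have e0 : C.Err M 0 = totErr f N M k σ := Err_sph_start hΦ hp hf hL hB hW σ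
  have hE0 : 0 ≤ totErr f N M k σ := e0 ▸ C.Err_nonneg M 0
  have hE2 : totErr f N M k σ ≤ 2 :=
    (le_abs_self _).trans ((reg f L hf.1.continuous.measurable hL N M k).2 σ)
  obtain ⟨b1, b2⟩ := ctx_bounds hΦ (M := M) (C := C) rfl rfl hT hr
  set δ := X / 3 with hδ
  have hu : ∀ u ∈ Set.Icc (0 : ℝ) (π / 2), C.Err M u ≤ (3 + Ke) * √X := fun u hu => by
    refine (C.Err_le hT hr b1 b2 (δ := δ) (by positivity) (by rw [hδ, hX]; linarith) hu.1 hu.2).trans ?_
    rw [e0]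
    exact sqrt_trade hm hE0 hK hδ
  have hd := hder N M k σ _ hT hr hu
  rw [F_start hΦ hp hf hL hB hW σ] at hd
  have hend : C.F M (π / 2) - ε / 2 ≤ ((N : ℝ) + 2) * sphFree f (N + 1) M k σ := by
    have hN2 : bigN N = ((N + 1 : ℕ) : ℝ) + 1 := by unfold bigN dimN; push_cast; ring
    have : IsProbabilityMeasure (patterns M (N + 1 + 1)) := by unfold patterns; infer_instance
    set V := fun g : Fin M → Fin (N + 1 + 1) → ℝ => val (stdG (FieldIdx (N + 1 + 1))) (sphereLeaf (N + 1)).μ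
      (ham (k := k) (sphereLeaf (N + 1)) f (bigN N) σ (fun _ => 0) g) 0 (fun _ _ => 0) with hV
    set V' := fun g : Fin M → Fin (N + 1 + 1) → ℝ => val (stdG (FieldIdx (N + 1 + 1))) (C.S (π / 2)).μ
      (ham (k := k) (C.S (π / 2)) f (bigN N) σ (C.β (π / 2)) g) 0 (fun _ _ => 0) with hV'
    have iV : Integrable V (patterns M (N + 1 + 1)) :=
      integrable_valRoot (S := sphereLeaf (N + 1)) hf.1.continuous.measurable hL _ σ _
    have iV' : Integrable V' (patterns M (N + 1 + 1)) :=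
      integrable_valRoot (S := C.S (π / 2)) hf.1.continuous.measurable hL _ σ _
    have hle : ∫ g, (V' g - ε / 2) ∂patterns M (N + 1 + 1) ≤ ∫ g, V g ∂patterns M (N + 1 + 1) :=
      integral_mono (iV'.sub (integrable_const _)) iV fun g =>
        hN₁ N ((le_max_left _ _).trans hN) k f L hf.1.continuous.measurable hL σ C.ρ C.b M g
    rw [integral_sub iV' (integrable_const _), integral_const, probReal_univ, one_smul] at hle
    rw [show ((N : ℝ) + 2) = bigN N by rw [hN2]; push_cast; ring, sphFree, ← hN2, free,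
      mul_div_cancel₀ _ CavCtx.bigN_pos.ne']
    exact hle
  have hmX : mass k ≤ √X := by
    refine le_trans ?_ (sqrt_le_sqrt (by rw [hX]; linarith : mass k ≤ X))
    rw [le_sqrt hm.le hm.le, pow_two]
    exact mul_le_of_le_one_right hm.le hm1
  have hAn : A * (1 / dimN N) ≤ ε / 2 := by
    rw [mul_one_div, div_le_iff₀ hn]
    have h : 2 * A / ε ≤ N := (Nat.le_ceil _).trans (by exact_mod_cast (le_max_right _ _).trans hN)
    rw [div_le_iff₀ hε] at h
    unfold dimN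
    nlinarith
  have hcum : ∀ l, cum σ l = ∑ i ∈ Icc 1 l, σ i ^ 2 := fun l => rfl
  simp only [hcum] at hd
  have hd1 := (abs_le.1 hd).1
  show cavW W k C.b (incr C.ρ) - mass k * (∑ l ∈ Icc 1 k, (∑ i ∈ Icc 1 l, σ i ^ 2) * q l) / 2
    - A * (1 + (3 + Ke)) * √X - ε ≤ _
  nlinarith [mul_le_mul_of_nonneg_left hmX hA]

end Vale.Agent.P157.Rsb
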