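import Vale.Agent.P157.Rsb.ConsistPattern

/-!
# P157: pair observables, permutations of rows and removal of a row
-/

open MeasureTheory ProbabilityTheory Real Finset

namespace Vale.Agent.P157.Rsb.Cst

variable {N M k : ℕ} {f : ℝ → ℝ} {L B : ℝ} (hp : Pot f L B) (σ : ℕ → ℝ)

instance patterns_isProb (M n : ℕ) : IsProbabilityMeasure (patterns M n) := by
  unfold patterns; infer_instance

/-- The root average of a pair observable at branch level `r`. -/
noncomputable def pairRoot (f : ℝ → ℝ) (σ : ℕ → ℝ) (k r : ℕ) (F : Vec N → Vec N → ℝ) (g : Pat M N) : ℝ :=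
  cnd (k := k) (gam1 N) (mu1 N) (HM f σ g)
    (fun z x => cnd (gam1 N) (mu1 N) (HM f σ g) (fun _ y => F x y) r z) 0 fun _ _ => 0

include hp in
theorem pairRoot_meas {r : ℕ} {F : Pat M N → Vec N → Vec N → ℝ}
    (hF : Measurable fun p : (Pat M N × Vec N) × Vec N => F p.1.1 p.1.2 p.2) :
    Measurable fun g => pairRoot (N := N) f σ k r (F g) g := by
  have hH : Measurable fun p : ((Pat M N × Vec N) × (Fin k → Fld N)) × Vec N =>
      HM f σ p.1.1.1 p.1.2 p.2 := by
    have h : Measurable fun p : ((Pat M N × Vec N) × (Fin k → Fld N)) × Vec N =>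
        ((p.1.1.1, p.1.2), p.2) :=
      (((measurable_fst.comp measurable_fst).comp measurable_fst).prodMk
        (measurable_snd.comp measurable_fst)).prodMk measurable_snd
    have h2 := (HM_meas hp σ).comp h
    exact h2
  have h1 : Measurable fun p : ((Pat M N × Vec N) × (Fin k → Fld N)) × Vec N =>
      F p.1.1.1 p.1.1.2 p.2 := by
    have h : Measurable fun p : ((Pat M N × Vec N) × (Fin k → Fld N)) × Vec N => (p.1.1, p.2) :=
      (measurable_fst.comp measurable_fst).prodMk measurable_snd
    have h2 := hF.comp h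
    exact h2
  have hA := cnd_measurable_param (k := k) (γ := gam1 N) (μ := mu1 N)
    (H := fun p : Pat M N × Vec N => HM f σ p.1) (φ := fun p _ y => F p.1 p.2 y) hH h1 r
  have hsw : Measurable fun p : (Pat M N × (Fin k → Fld N)) × Vec N => ((p.1.1, p.2), p.1.2) :=
    ((measurable_fst.comp measurable_fst).prodMk measurable_snd).prodMk
      (measurable_snd.comp measurable_fst)
  have hB := hA.comp hsw
  have hC := cnd_measurable_param (k := k) (γ := gam1 N) (μ := mu1 N) (H := fun g : Pat M N => HM f σ g)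
    (φ := fun g z x => cnd (gam1 N) (mu1 N) (HM f σ g) (fun _ y => F g x y) r z) (HM_meas hp σ) hB 0
  have h0 : Measurable fun g : Pat M N => (g, (fun _ _ => 0 : Fin k → Fld N)) :=
    measurable_id.prodMk measurable_const
  have h2 := hC.comp h0
  exact h2

include hp in
theorem inner_bd {r : ℕ} {F : Vec N → Vec N → ℝ} (hF : Measurable (Function.uncurry F)) {A : ℝ}
    (hA : ∀ x y, |F x y| ≤ A) (g : Pat M N) :
    Bd fun (z : Fin k → Fld N) x => cnd (gam1 N) (mu1 N) (HM f σ g) (fun _ y => F x y) r z :=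
  (kerOne (k := k) hp σ g (fun _ => 0) (fun _ => by simp)).bd_two hF hA r

include hp in
theorem pairRoot_le {r : ℕ} {F : Vec N → Vec N → ℝ} (hF : Measurable (Function.uncurry F)) {A : ℝ}
    (hA : ∀ x y, |F x y| ≤ A) (g : Pat M N) : |pairRoot f σ k r F g| ≤ A := by
  have h := inner_bd (k := k) hp σ (r := r) hF hA g
  refine cnd_abs_le (HM_linB hp σ g) h.1 (fun z x => ?_) 0 _
  exact cnd_abs_le (HM_linB hp σ g) (φ := fun _ y => F x y)
    ((hF.comp (measurable_prodMk_left (x := x))).comp measurable_snd) (fun _ y => hA x y) r z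

include hp in
theorem pairRoot_integrable {r : ℕ} {F : Pat M N → Vec N → Vec N → ℝ}
    (hF : Measurable fun p : (Pat M N × Vec N) × Vec N => F p.1.1 p.1.2 p.2) {A : ℝ}
    (hA : ∀ g x y, |F g x y| ≤ A) :
    Integrable (fun g => pairRoot (N := N) f σ k r (F g) g) (patterns M (N + 1)) := by
  refine Integrable.of_bound (pairRoot_meas (k := k) hp σ hF).aestronglyMeasurable A (ae_of_all _ fun g => ?_)
  have h : Measurable fun p : Vec N × Vec N => ((g, p.1), p.2) :=
    (measurable_const.prodMk measurable_fst).prodMk measurable_snd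
  have h2 := hF.comp h
  exact pairRoot_le hp σ (F := F g) h2 (hA g) g

include hp in
/-- The two forms of a pair observable. -/
theorem gibPair_eq {r : ℕ} (hr : r ≤ k) (F : Pat M N → Vec N → Vec N → ℝ) :
    gibPair (k := k) (sphereLeaf N) f M ((N : ℝ) + 1) σ (fun _ => 0) r F
      = ∫ g, pairRoot (N := N) f σ k r (F g) g ∂patterns M (N + 1) := by
  refine integral_congr_ae (ae_of_all _ fun g => ?_)
  show cnd (k := k) (gam1 N) (mu1 N) (HM f σ g)
    (fun z _ => pairCnd (gam1 N) (mu1 N) (HM f σ g) (fun _ x _ y => F g x y) r z) 0 (fun _ _ => 0) = _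
  unfold pairRoot
  refine Eq.trans ?_ (cnd_tower (φ := fun z x => cnd (gam1 N) (mu1 N) (HM f σ g) (fun _ y => F g x y) r z)
    (HM_linB hp σ g) (Nat.zero_le r) (fun _ _ => 0))
  refine congrArg (fun φ => cnd (k := k) (gam1 N) (mu1 N) (HM f σ g) φ 0 fun _ _ => 0) ?_
  funext z _
  exact cnd_local hr z fun z' hz' x => cnd_upto (γ := gam1 N) (μ := mu1 N) (H := HM f σ g)
    (φ := fun _ y => F g x y) r z z' hz'

theorem HM_perm (g : Pat M N) (τ : Equiv.Perm (Fin M)) :
    HM (k := k) f σ (fun a => g (τ a)) = HM f σ g := by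
  funext z x
  simp only [HM_eq]
  rw [Equiv.sum_comp τ fun a => f (sdot (g a) (fl x))]

theorem integral_perm (τ : Equiv.Perm (Fin M)) (Φ : Pat M N → ℝ) :
    ∫ g, Φ (fun a => g (τ a)) ∂patterns M (N + 1) = ∫ g, Φ g ∂patterns M (N + 1) := by
  have h := measurePreserving_piCongrLeft (α := fun _ : Fin M => Fin (N + 1) → ℝ)
    (fun _ => Measure.pi fun _ : Fin (N + 1) => gaussianReal 0 1) τ.symm
  have e : ∀ g : Pat M N, MeasurableEquiv.piCongrLeft (fun _ => Fin (N + 1) → ℝ) τ.symm g
      = fun a => g (τ a) := fun g => funext fun a => by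
    obtain ⟨b, rfl⟩ := τ.symm.surjective a
    rw [MeasurableEquiv.coe_piCongrLeft, Equiv.piCongrLeft_apply_apply, Equiv.apply_symm_apply]
  have h2 := h.integral_comp' Φ
  simp only [e] at h2
  exact h2

/-- All rows have the same mean square derivative. -/
theorem row_exchange (r : ℕ) (a b : Fin M) :
    ∫ g, pairRoot (N := N) f σ k r (fun x y => pw f g a x * pw f g a y) g ∂patterns M (N + 1)
      = ∫ g, pairRoot (N := N) f σ k r (fun x y => pw f g b x * pw f g b y) g ∂patterns M (N + 1) := by
  rw [← integral_perm (Equiv.swap a b)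
    (fun g => pairRoot f σ k r (fun x y => pw f g a x * pw f g a y) g)]
  refine integral_congr_ae (ae_of_all _ fun g => ?_)
  simp only [pairRoot, HM_perm]
  simp only [pw, Equiv.swap_apply_left]

include hp in
theorem HM_drop (g : Pat (M + 1) N) (z : Fin k → Fld N) (x : Vec N) :
    |HM f σ (fun a : Fin M => g a.castSucc) z x - HM f σ g z x| ≤ |L| := by
  simp only [HM_eq]
  rw [Fin.sum_univ_castSucc (f := fun a => f (sdot (g a) (fl x)))]
  rw [abs_le]
  have := abs_le.1 ((hp.le (sdot (g (Fin.last M)) (fl x))).trans (le_abs_self L))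
  constructor <;> linarith [this.1, this.2]

theorem drop_preserving :
    MeasurePreserving (fun g : Pat (M + 1) N => fun a : Fin M => g a.castSucc)
      (patterns (M + 1) (N + 1)) (patterns M (N + 1)) := by
  have h := (measurePreserving_snd (μ := Measure.pi fun _ : Fin (N + 1) => gaussianReal 0 1)
      (ν := Measure.pi fun _ : Fin M => Measure.pi fun _ : Fin (N + 1) => gaussianReal 0 1)).comp
    (measurePreserving_piFinSuccAbove
      (fun _ : Fin (M + 1) => Measure.pi fun _ : Fin (N + 1) => gaussianReal 0 1) (Fin.last M))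
  convert h using 1
  · funext g a
    simp [Fin.init]
  all_goals rfl

include hp in
/-- Removing a row costs a bounded factor. -/
theorem pair_drop (r : ℕ) (hr : r ≤ k) {F : Vec N → Vec N → ℝ} (hF : Measurable (Function.uncurry F))
    {A : ℝ} (hA : ∀ x y, |F x y| ≤ A) (h0 : ∀ x y, 0 ≤ F x y) :
    ∫ g, pairRoot f σ k r F g ∂patterns M (N + 1)
      ≤ exp (4 * |L|) * ∫ g, pairRoot f σ k r F g ∂patterns (M + 1) (N + 1) := by
  have hFm : ∀ M', Measurable fun p : (Pat M' N × Vec N) × Vec N => F p.1.2 p.2 := fun M' => by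
    have h : Measurable fun p : (Pat M' N × Vec N) × Vec N => (p.1.2, p.2) :=
      (measurable_snd.comp measurable_fst).prodMk measurable_snd
    have h2 := hF.comp h
    exact h2
  have hint : ∀ M', Integrable (fun g : Pat M' N => pairRoot f σ k r F g) (patterns M' (N + 1)) :=
    fun M' => pairRoot_integrable (k := k) (r := r) hp σ (F := fun (_ : Pat M' N) => F) (hFm M') fun _ => hA
  have hd := drop_preserving (M := M) (N := N)
  have hmeas : Measurable fun g : Pat M N => pairRoot f σ k r F g :=
    pairRoot_meas (k := k) (r := r) hp σ (F := fun (_ : Pat M N) => F) (hFm M)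
  have e : ∫ g, pairRoot f σ k r F g ∂patterns M (N + 1)
      = ∫ g, pairRoot f σ k r F (fun a : Fin M => g a.castSucc) ∂patterns (M + 1) (N + 1) := by
    rw [← hd.map_eq, integral_map hd.measurable.aemeasurable hmeas.aestronglyMeasurable]
  rw [e, ← integral_const_mul]
  refine integral_mono (Integrable.of_bound (hmeas.comp hd.measurable).aestronglyMeasurable A
    (ae_of_all _ fun g => pairRoot_le hp σ hF hA _)) ((hint (M + 1)).const_mul _) fun g => ?_
  set g' : Pat M N := fun a => g a.castSucc
  have hH := HM_linB (k := k) hp σ g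
  have hH' := HM_linB (k := k) hp σ g'
  have hL : ∀ z x, |HM (k := k) f σ g' z x - HM f σ g z x| ≤ |L| := HM_drop hp σ g
  have hi := inner_bd (k := k) hp σ (r := r) hF hA g
  have hi' := inner_bd (k := k) hp σ (r := r) hF hA g'
  have h1 : ∀ z x, cnd (k := k) (gam1 N) (mu1 N) (HM f σ g') (fun _ y => F x y) r z
      ≤ exp (2 * |L|) * cnd (gam1 N) (mu1 N) (HM f σ g) (fun _ y => F x y) r z := fun z x =>
    cnd_tilt hH hH' (Tame.of_bdd (φ := fun _ y => F x y)
      ((hF.comp (measurable_prodMk_left (x := x))).comp measurable_snd) fun _ y => hA x y)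
      (fun _ y => h0 x y) hL hr z
  have h2 : pairRoot f σ k r F g'
      ≤ exp (2 * |L|) * cnd (k := k) (gam1 N) (mu1 N) (HM f σ g')
        (fun z x => cnd (gam1 N) (mu1 N) (HM f σ g) (fun _ y => F x y) r z) 0 (fun _ _ => 0) := by
    rw [← cnd_const_mul]
    exact cnd_mono hH' hi'.tame (hi.const_mul _).tame h1 0 _
  have h3 := cnd_tilt (γ := gam1 N) (μ := mu1 N) hH hH' hi.tame
    (fun z x => cnd_nonneg (fun _ y => h0 x y) r z) hL (Nat.zero_le k) (fun _ _ => 0)
  refine h2.trans ((mul_le_mul_of_nonneg_left h3 (exp_pos _).le).trans (le_of_eq ?_))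
  rw [← mul_assoc, ← exp_add]
  congr 2
  ring

include hp in
theorem pairRoot_one (r : ℕ) (g : Pat M N) : pairRoot (N := N) f σ k r (fun _ _ => 1) g = 1 := by
  unfold pairRoot
  simp only [cnd_const (HM_linB hp σ g)]

end Vale.Agent.P157.Rsb.Cst
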