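import Vale.Agent.P157.Rsb.ConsistRoot
import Vale.Agent.P157.Rsb.ConsistGamma

/-!
# P157: self-consistency of the sphere system
-/

open MeasureTheory ProbabilityTheory Real Finset

namespace Vale.Agent.P157.Rsb.Cst

variable {N M k : ℕ} {f : ℝ → ℝ} {L B : ℝ} (hp : Pot f L B) (σ : ℕ → ℝ)

theorem sum_fin_Icc (k : ℕ) (F : ℕ → ℝ) : ∑ l : Fin k, F ((l : ℕ) + 1) = ∑ i ∈ Icc 1 k, F i := by
  induction k with
  | zero => simp
  | succ k ih =>
    rw [Fin.sum_univ_castSucc, sum_Icc_succ_top (by omega)]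
    simp only [Fin.val_castSucc, ih, Fin.val_last]

/-- Summing the field kernels gives the cumulative kernel. -/
theorem field_sum (a : ℕ → ℝ) {j : ℕ} (hj : j ≤ k) (v : ℝ) (F : ℕ → ℝ) :
    ∑ l : Fin k, a ((l : ℕ) + 1) *
        ((if (l : ℕ) + 1 ≤ j then v else 0) - mass k * ∑ r ∈ Icc ((l : ℕ) + 1) k, F r)
      = (∑ i ∈ Icc 1 j, a i) * v - mass k * ∑ r ∈ Icc 1 k, (∑ i ∈ Icc 1 r, a i) * F r := by
  rw [sum_fin_Icc k fun l => a l * ((if l ≤ j then v else 0) - mass k * ∑ r ∈ Icc l k, F r)]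
  simp only [mul_sub, sum_sub_distrib, mul_ite, mul_zero, ← sum_filter, mul_sum, sum_mul]
  congr 1
  · exact sum_congr (Finset.ext fun i => by simp only [mem_filter, mem_Icc]; omega) fun _ _ => rfl
  · rw [sum_comm' (t' := Icc 1 k) (s' := fun r => Icc 1 r)
      (fun x y => by simp only [mem_Icc]; omega)]
    exact sum_congr rfl fun r _ => sum_congr rfl fun i _ => by ring

theorem sq_amp (N : ℕ) (σ : ℕ → ℝ) (l : Fin k) :
    amp N σ l ^ 2 = ((N : ℝ) + 1) * σ ((l : ℕ) + 1) ^ 2 := by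
  rw [amp, mul_pow, sq_sqrt (by positivity)]
  ring

theorem abs_integral_sub_le {α : Type} [MeasurableSpace α] {P : Measure α} {u v e : α → ℝ}
    (hu : Integrable u P) (hv : Integrable v P) (he : Integrable e P) (h : ∀ a, |u a - v a| ≤ e a) :
    |(∫ a, u a ∂P) - ∫ a, v a ∂P| ≤ ∫ a, e a ∂P := by
  rw [← integral_sub hu hv]
  exact (abs_integral_le_integral_abs).trans (integral_mono (hu.sub hv).abs he h)

/-- The truncation of a path beyond the top level. -/
noncomputable def clip (k : ℕ) (q : ℕ → ℝ) (r : ℕ) : ℝ := if r ≤ k then q r else 0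

theorem clip_le {q : ℕ → ℝ} (hq : IsPath k q) (r : ℕ) : |clip k q r| ≤ 1 := by
  unfold clip
  split_ifs with hr
  · have h0 : ∀ i, i ≤ k → 0 ≤ q i := by
      intro i
      induction i with
      | zero => intro _; rw [hq.1]
      | succ i ih => intro hi; exact (ih (by omega)).trans (hq.2.1 i (by omega))
    have h1 : ∀ d i, i + d = k → q i ≤ q k := by
      intro d
      induction d with
      | zero => intro i hi; rw [show i = k by omega]
      | succ d ih => intro i hi; exact (hq.2.1 i (by omega)).trans (ih (i + 1) (by omega))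
    exact abs_le.2 ⟨by linarith [h0 r hr], (h1 (k - r) r (by omega)).trans hq.2.2⟩
  · simp

theorem clip_eq (q : ℕ → ℝ) {r : ℕ} (hr : r ≤ k) : clip k q r = q r := if_pos hr

theorem vOf_clip (q : ℕ → ℝ) (j : ℕ) : vOf k (clip k q) j = vOf k q j := by
  unfold vOf
  rw [clip_eq q le_rfl]
  congr 1
  refine sum_congr rfl fun i hi => ?_
  have := (mem_Ico.1 hi).2
  rw [clip_eq q (by omega : i + 1 ≤ k), clip_eq q (by omega : i ≤ k)]

theorem card_mass_le (k lo : ℕ) : mass k * ((Icc lo k).card : ℝ) ≤ 1 := by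
  rw [Nat.card_Icc, mass, div_mul_eq_mul_div, one_mul, div_le_one (by positivity)]
  exact_mod_cast (by omega : k + 1 - lo ≤ k + 1)

theorem vOf_abs_le {q : ℕ → ℝ} (hq : ∀ r, |q r| ≤ 1) {j : ℕ} (hj : j ≤ k) : |vOf k q j| ≤ 3 := by
  rw [vOf_eq hj]
  have h1 : |mass k * ∑ r ∈ Icc (j + 1) k, q r| ≤ 1 := by
    rw [abs_mul, abs_of_nonneg mass_pos.le]
    refine (mul_le_mul_of_nonneg_left ((abs_sum_le_sum_abs _ _).trans
      (sum_le_card_nsmul _ _ 1 fun r _ => hq r)) mass_pos.le).trans ?_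
    rw [nsmul_eq_mul, mul_one]
    exact card_mass_le k _
  have h2 : |lev k (j + 1) * q j| ≤ 1 := by
    rw [abs_mul, abs_of_nonneg (lev_nonneg _)]
    exact mul_le_one₀ (lev_le_one (by omega)) (abs_nonneg _) (hq j)
  rw [abs_le] at h1 h2 ⊢
  constructor <;> linarith [h1.1, h1.2, h2.1, h2.2]

theorem coeff_le {q : ℕ → ℝ} (hq : ∀ r, |q r| ≤ 1) (j r : ℕ) : |q (min j r) - q j * q r| ≤ 2 := by
  refine (abs_sub _ _).trans ?_
  rw [abs_mul]
  linarith [hq (min j r), mul_le_one₀ (hq j) (abs_nonneg _) (hq r)]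

/-- The overlap expression of a kernel `G` seen from level `lo` on. -/
noncomputable def kform (k j lo : ℕ) (q G : ℕ → ℝ) : ℝ :=
  (if lo ≤ j then G j * vOf k q j else 0)
    - mass k * ∑ r ∈ Icc lo k, (q (min j r) - q j * q r) * G r

theorem kform_close {q G G' e : ℕ → ℝ} (hq : ∀ r, |q r| ≤ 1) {j : ℕ} (hj : j ≤ k) {D T : ℝ}
    (hD : 0 ≤ D) (hT : mass k * ∑ r ∈ Icc 0 k, e r ≤ T) (hT0 : 0 ≤ T)
    (h : ∀ r, r ≤ k → |G r - G' r| ≤ D * (e r + T)) :
    |kform k j 0 q G - kform k j 0 q G'| ≤ 3 * D * (e j + T) + 4 * D * T := by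
  have h1 : |G j * vOf k q j - G' j * vOf k q j| ≤ 3 * D * (e j + T) := by
    rw [← sub_mul, abs_mul]
    exact (mul_le_mul (h j hj) (vOf_abs_le hq hj) (abs_nonneg _) ((abs_nonneg _).trans (h j hj))).trans
      (le_of_eq (by ring))
  have h2 : |mass k * ∑ r ∈ Icc 0 k, (q (min j r) - q j * q r) * G r
      - mass k * ∑ r ∈ Icc 0 k, (q (min j r) - q j * q r) * G' r| ≤ 4 * D * T := by
    rw [← mul_sub, ← sum_sub_distrib, abs_mul, abs_of_nonneg mass_pos.le]
    refine (mul_le_mul_of_nonneg_left ((abs_sum_le_sum_abs _ _).trans (sum_le_sum fun r hr => ?_))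
      mass_pos.le).trans (b := mass k * ∑ r ∈ Icc 0 k, 2 * D * (e r + T)) ?_
    · rw [← mul_sub, abs_mul, mul_assoc 2 D]
      exact mul_le_mul (coeff_le hq j r) (h r (mem_Icc.1 hr).2) (abs_nonneg _) zero_le_two
    · rw [← mul_sum, sum_add_distrib, sum_const, nsmul_eq_mul]
      have hc := mul_le_mul_of_nonneg_right (card_mass_le k 0) hT0
      have := mul_le_mul_of_nonneg_left (add_le_add hT hc) (by positivity : (0 : ℝ) ≤ 2 * D)
      linarith
  simp only [kform, Nat.zero_le, if_true]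
  rw [abs_le] at h1 h2 ⊢
  constructor <;> linarith [h1.1, h1.2, h2.1, h2.2]

theorem dotF_meas (c : ℝ) (M : ℕ) :
    Measurable fun p : (Pat M N × Vec N) × Vec N => |sdot (fl p.1.2) (fl p.2) - c| := by
  have h : Measurable fun p : (Pat M N × Vec N) × Vec N => sdot (fl p.1.2) (fl p.2) :=
    Finset.measurable_sum _ fun i _ => ((meas_fl_coord i).comp (measurable_snd.comp measurable_fst)).mul
      ((meas_fl_coord i).comp measurable_snd)
  exact continuous_abs.measurable.comp (h.sub_const c)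

theorem sdot_fl_le (x y : Vec N) : |sdot (fl x) (fl y)| ≤ 1 := by
  rw [← sq_le_one_iff_abs_le_one]
  refine (sum_mul_sq_le_sq_mul_sq _ _ _).trans (le_of_eq ?_)
  simp only [pow_two, fl_unit, one_mul]

theorem dotF_le {c : ℝ} (hc : |c| ≤ 1) (x y : Vec N) : |(|sdot (fl x) (fl y) - c|)| ≤ 2 := by
  rw [abs_abs]
  exact (abs_sub _ _).trans (by linarith [sdot_fl_le x y])

include hp in
theorem ovErr_eq (q : ℕ → ℝ) {r : ℕ} (hr : r ≤ k) :
    ovErr f N M k σ q r = ∫ g : Pat M N,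
      pairRoot f σ k r (fun x y => |sdot (fl x) (fl y) - q r|) g ∂patterns M (N + 1) :=
  gibPair_eq hp σ hr fun _ x y => |sdot (fl x) (fl y) - q r|

variable {q : ℕ → ℝ} (hq : ∀ r, |q r| ≤ 1)

theorem ov_eq {r : ℕ} (g : Pat M N) :
    (kerOne (k := k) hp σ g q hq).ov r
      = pairRoot f σ k r (fun x y => |sdot (fl x) (fl y) - q r|) g := rfl

include hq in
theorem ov_facts {r : ℕ} (hr : r ≤ k) :
    Integrable (fun g => (kerOne (k := k) hp σ g q hq).ov r) (patterns M (N + 1)) ∧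
      ovErr f N M k σ q r = ∫ g, (kerOne (k := k) hp σ g q hq).ov r ∂patterns M (N + 1) := by
  simp only [ov_eq hp σ hq]
  exact ⟨pairRoot_integrable hp σ (dotF_meas (q r) M) (fun _ => dotF_le (hq r)), ovErr_eq hp σ q hr⟩

include hp hq in
theorem tot_facts :
    Integrable (fun g => (kerOne (k := k) hp σ g q hq).tot) (patterns M (N + 1)) ∧
      mass k * ∑ r ∈ Icc 0 k, ovErr f N M k σ q r
        = ∫ g, (kerOne (k := k) hp σ g q hq).tot ∂patterns M (N + 1) := by
  refine ⟨(integrable_finsetSum _ fun r hr => (ov_facts hp σ hq (mem_Icc.1 hr).2).1).const_mul _, ?_⟩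
  simp only [Ker.tot]
  rw [integral_const_mul, integral_finsetSum _ fun r hr => (ov_facts hp σ hq (mem_Icc.1 hr).2).1]
  exact congrArg _ (sum_congr rfl fun r hr => (ov_facts hp σ hq (mem_Icc.1 hr).2).2)

include hp hq in
theorem err_nonneg {r : ℕ} (hr : r ≤ k) : 0 ≤ ovErr f N M k σ q r := by
  rw [(ov_facts hp σ hq hr).2]
  exact integral_nonneg fun g => Ker.ov_nonneg _ r

include hp hq in
theorem err_sum_nonneg : 0 ≤ mass k * ∑ r ∈ Icc 0 k, ovErr f N M k σ q r := by
  rw [(tot_facts hp σ hq).2]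
  exact integral_nonneg fun g => Ker.tot_nonneg _

theorem sdot_pair_meas :
    Measurable fun p : (Pat M N × Vec N) × Vec N => sdot (fl p.1.2) (fl p.2) :=
  Finset.measurable_sum _ fun i _ => ((meas_fl_coord i).comp (measurable_snd.comp measurable_fst)).mul
    ((meas_fl_coord i).comp measurable_snd)

theorem pw_pair_meas (hp : Pot f L B) (a : Fin M) :
    Measurable fun p : (Pat M N × Vec N) × Vec N => pw f p.1.1 a p.1.2 * pw f p.1.1 a p.2 := by
  have h1 : Measurable fun p : (Pat M N × Vec N) × Vec N => (p.1.1, p.2) :=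
    (measurable_fst.comp measurable_fst).prodMk measurable_snd
  have h2 := ((pw_meas_par hp a).comp
    (measurable_fst (α := Pat M N × Vec N) (β := Vec N))).mul ((pw_meas_par hp a).comp h1)
  exact h2

/-- The mean square derivative of one row. -/
noncomputable def rowGam (f : ℝ → ℝ) (σ : ℕ → ℝ) (N k : ℕ) (a : Fin M) (r : ℕ) : ℝ :=
  ∫ g : Pat M N, pairRoot f σ k r (fun x y => pw f g a x * pw f g a y) g ∂patterns M (N + 1)

theorem gam_row (a : Fin M) {r : ℕ} (hr : r ≤ k) (g : Pat M N) :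
    (kerRow (k := k) hp σ g a q hq).gam r
      = pairRoot f σ k r (fun x y => pw f g a x * pw f g a y) g := by
  rw [← Ker.root_wt_W _ hr]
  refine congrArg (fun φ => cnd (k := k) (gam1 N) (mu1 N) (HM f σ g) φ 0 fun _ _ => 0) ?_
  exact funext₂ fun z x => (cnd_const_mul (pw f g a x) r z).symm

include hp hq in
theorem gam_row_facts (a : Fin M) {r : ℕ} (hr : r ≤ k) :
    Integrable (fun g => (kerRow (k := k) hp σ g a q hq).gam r) (patterns M (N + 1)) ∧
      rowGam f σ N k a r = ∫ g, (kerRow (k := k) hp σ g a q hq).gam r ∂patterns M (N + 1) := by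
  simp only [gam_row hp σ hq a hr]
  exact ⟨pairRoot_integrable hp σ (pw_pair_meas hp a) (A := B * B) (fun g x y => by
    rw [abs_mul]; exact mul_le_mul (hp.der_le _) (hp.der_le _) (abs_nonneg _) hp.nonneg), rfl⟩

theorem kval_row (a : Fin M) (j : ℕ) (g : Pat M N) :
    (kerRow (k := k) hp σ g a q hq).kval j 0
      = (kerRow (k := k) hp σ g a q hq).gam j * vOf k q j
        - mass k * ∑ r ∈ Icc 0 k, (q (min j r) - q j * q r) * (kerRow (k := k) hp σ g a q hq).gam r := by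
  simp only [Ker.kval, Nat.zero_le, if_true]
  rfl

include hp hq in
theorem row_bound (a : Fin M) {j : ℕ} (hj : j ≤ k) :
    |(∫ g : Pat M N, ∑ i, g a i * rowF hp σ q hq k a i j g ∂patterns M (N + 1))
        - kform k j 0 q (rowGam f σ N k a)|
      ≤ B ^ 2 * (9 * ovErr f N M k σ q j + 3 * (mass k * ∑ r ∈ Icc 0 k, ovErr f N M k σ q r)) := by
  obtain ⟨hi, hk, he⟩ := row_ibp hp σ q hq a hj
  have hgI := fun r (hr : r ≤ k) => gam_row_facts (N := N) (M := M) hp σ hq a hr
  have hsI : Integrable (fun g => mass k * ∑ r ∈ Icc 0 k,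
      (q (min j r) - q j * q r) * (kerRow (k := k) hp σ g a q hq).gam r) (patterns M (N + 1)) :=
    (integrable_finsetSum _ fun r hr => (hgI r (mem_Icc.1 hr).2).1.const_mul _).const_mul _
  have hv : Integrable (fun g => (kerRow (k := k) hp σ g a q hq).kval j 0) (patterns M (N + 1)) := by
    simp only [kval_row hp σ hq]
    exact ((hgI j hj).1.mul_const _).sub hsI
  have e : kform k j 0 q (rowGam f σ N k a)
      = ∫ g, (kerRow (k := k) hp σ g a q hq).kval j 0 ∂patterns M (N + 1) := by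
    simp only [kval_row hp σ hq, kform, Nat.zero_le, if_true]
    rw [integral_sub ((hgI j hj).1.mul_const _) hsI, integral_mul_const, integral_const_mul,
      integral_finsetSum _ fun r hr => (hgI r (mem_Icc.1 hr).2).1.const_mul _, ← (hgI j hj).2]
    refine congrArg (fun v => _ - mass k * v) (sum_congr rfl fun r hr => ?_)
    rw [integral_const_mul, ← (hgI r (mem_Icc.1 hr).2).2]
  obtain ⟨hoI, hoe⟩ := ov_facts (N := N) (M := M) hp σ hq hj
  obtain ⟨htI, hte⟩ := tot_facts (N := N) (M := M) (k := k) hp σ hq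
  rw [integral_finsetSum _ fun i _ => hi i, he, e, hte, hoe, ← integral_const_mul 9,
    ← integral_const_mul 3, ← integral_add (hoI.const_mul _) (htI.const_mul _), ← integral_const_mul]
  exact abs_integral_sub_le hk hv (((hoI.const_mul _).add (htI.const_mul _)).const_mul _)
    fun g => Ker.kexp_dev (kerRow (k := k) hp σ g a q hq) hj 0

include hp hq in
theorem field_bound {j : ℕ} (hj : j ≤ k)
    (hqj : q j = ∫ g : Pat M N, pairRoot f σ k j (fun x y => sdot (fl x) (fl y)) g ∂patterns M (N + 1)) :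
    |(N : ℝ) * q j - (∑ a, ∫ g : Pat M N, ∑ i, g a i * rowF hp σ q hq k a i j g ∂patterns M (N + 1))
        - ∑ l : Fin k, amp N σ l ^ 2 * kform k j ((l : ℕ) + 1) q (fun _ => 1)|
      ≤ (∑ l : Fin k, amp N σ l ^ 2) *
          (9 * ovErr f N M k σ q j + 3 * (mass k * ∑ r ∈ Icc 0 k, ovErr f N M k σ q r)) := by
  set Zf := ∑ l : Fin k, amp N σ l ^ 2 * kform k j ((l : ℕ) + 1) q (fun _ => 1) with hZf
  have hX : ∀ g : Pat M N, (kerOne (k := k) hp σ g q hq).E 0
      ((kerOne (k := k) hp σ g q hq).xM j) (fun _ _ => 0)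
      = pairRoot f σ k j (fun x y => sdot (fl x) (fl y)) g := fun g => by
    refine congrArg (fun φ => cnd (k := k) (gam1 N) (mu1 N) (HM f σ g) φ 0 fun _ _ => 0) ?_
    exact funext₂ fun z x => Ker.xM_eq _ j z x
  have hXI : Integrable (fun g : Pat M N => (N : ℝ) * pairRoot f σ k j (fun x y => sdot (fl x) (fl y)) g)
      (patterns M (N + 1)) :=
    (pairRoot_integrable hp σ sdot_pair_meas fun _ => sdot_fl_le).const_mul _
  have hrI : ∀ a, Integrable (fun g : Pat M N => ∑ i, g a i * rowF hp σ q hq k a i j g)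
      (patterns M (N + 1)) := fun a =>
    integrable_finsetSum _ fun i _ => (row_ibp hp σ q hq a hj).1 i
  have hRI := integrable_finsetSum univ fun a _ => hrI a
  have hpt : ∀ g : Pat M N, |((N : ℝ) * pairRoot f σ k j (fun x y => sdot (fl x) (fl y)) g
        - ∑ a, ∑ i, g a i * rowF hp σ q hq k a i j g) - Zf|
      ≤ (∑ l : Fin k, amp N σ l ^ 2) *
        (9 * (kerOne (k := k) hp σ g q hq).ov j + 3 * (kerOne (k := k) hp σ g q hq).tot) := fun g => by
    rw [← hX g, root_identity hp σ q hq g hj, add_sub_cancel_left, sum_mul, hZf, ← sum_sub_distrib]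
    refine (abs_sum_le_sum_abs _ _).trans (sum_le_sum fun l _ => ?_)
    rw [← mul_sub, abs_mul, abs_of_nonneg (sq_nonneg _)]
    refine mul_le_mul_of_nonneg_left ?_ (sq_nonneg _)
    have h := Ker.kexp_dev (kerOne (k := k) hp σ g q hq) hj ((l : ℕ) + 1)
    have hg1 : ∀ r, (kerOne (k := k) hp σ g q hq).gam r = 1 := fun r => by
      simp only [Ker.gam, Ker.W, Ker.E, kerOne, ker, cnd_const (HM_linB hp σ g), one_pow]
    simp only [Ker.kval, hg1] at h
    simpa [kform, kerOne, ker] using h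
  obtain ⟨hoI, hoe⟩ := ov_facts (N := N) (M := M) hp σ hq hj
  obtain ⟨htI, hte⟩ := tot_facts (N := N) (M := M) (k := k) hp σ hq
  have h := abs_integral_sub_le (v := fun _ => Zf) (hXI.sub hRI) (integrable_const Zf)
    (((hoI.const_mul 9).add (htI.const_mul 3)).const_mul _) hpt
  simp only [Pi.sub_apply, Pi.add_apply] at h
  rw [integral_sub hXI hRI, integral_const_mul, ← hqj, integral_finsetSum _ fun a _ => hrI a,
    integral_const, probReal_univ, one_smul, integral_const_mul,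
    integral_add (hoI.const_mul _) (htI.const_mul _), integral_const_mul, integral_const_mul,
    ← hoe, ← hte] at h
  exact h

include hp hq in
theorem gam_close {M' : ℕ} {CP : ℝ} (hCP : 0 ≤ CP) {G : ℕ → ℝ} {r : ℕ} (hr : r ≤ k)
    (h1 : |gibPair (k := k) (sphereLeaf N) f (M' + 1) ((N : ℝ) + 1) σ (fun _ => 0) r
          (fun g x y => deriv f (sdot (g (Fin.last M')) (fl x)) * deriv f (sdot (g (Fin.last M')) (fl y)))
        - G r| ≤ CP * (gibPair (k := k) (sphereLeaf N) f M' ((N : ℝ) + 1) σ (fun _ => 0) r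
            (fun _ x y => |sdot (fl x) (fl y) - q r|)
          + mass k * ∑ i ∈ Icc 0 k, gibPair (k := k) (sphereLeaf N) f M' ((N : ℝ) + 1) σ (fun _ => 0) i
            (fun _ x y => |sdot (fl x) (fl y) - q i|)))
    (a : Fin (M' + 1)) :
    |rowGam f σ N k a r - G r| ≤ CP * exp (4 * |L|) *
      (ovErr f N (M' + 1) k σ q r + mass k * ∑ i ∈ Icc 0 k, ovErr f N (M' + 1) k σ q i) := by
  rw [gibPair_eq hp σ hr (fun g x y =>
    deriv f (sdot (g (Fin.last M')) (fl x)) * deriv f (sdot (g (Fin.last M')) (fl y)))] at h1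
  have e1 : rowGam f σ N k a r = ∫ g : Pat (M' + 1) N, pairRoot f σ k r
      (fun x y => pw f g (Fin.last M') x * pw f g (Fin.last M') y) g ∂patterns (M' + 1) (N + 1) :=
    row_exchange σ r a (Fin.last M')
  have hm : ∀ c : ℝ, Measurable fun p : Vec N × Vec N => |sdot (fl p.1) (fl p.2) - c| := fun c => by
    have h : Measurable fun p : Vec N × Vec N => sdot (fl p.1) (fl p.2) :=
      Finset.measurable_sum _ fun i _ => ((meas_fl_coord i).comp measurable_fst).mul
        ((meas_fl_coord i).comp measurable_snd)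
    exact continuous_abs.measurable.comp (h.sub_const c)
  have hd : ∀ i, i ≤ k → gibPair (k := k) (sphereLeaf N) f M' ((N : ℝ) + 1) σ (fun _ => 0) i
      (fun _ x y => |sdot (fl x) (fl y) - q i|) ≤ exp (4 * |L|) * ovErr f N (M' + 1) k σ q i := fun i hi => by
    rw [gibPair_eq hp σ hi fun _ x y => |sdot (fl x) (fl y) - q i|, ovErr_eq hp σ q hi]
    exact pair_drop hp σ i hi (hm (q i)) (dotF_le (hq i)) fun x y => abs_nonneg _
  have hs : mass k * ∑ i ∈ Icc 0 k, gibPair (k := k) (sphereLeaf N) f M' ((N : ℝ) + 1) σ (fun _ => 0) i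
      (fun _ x y => |sdot (fl x) (fl y) - q i|)
      ≤ exp (4 * |L|) * (mass k * ∑ i ∈ Icc 0 k, ovErr f N (M' + 1) k σ q i) := by
    refine (mul_le_mul_of_nonneg_left (sum_le_sum fun i hi => hd i (mem_Icc.1 hi).2)
      mass_pos.le).trans (le_of_eq ?_)
    rw [← mul_sum, mul_left_comm]
  rw [e1]
  refine h1.trans ((mul_le_mul_of_nonneg_left (add_le_add (hd r hr) hs) hCP).trans (le_of_eq ?_))
  ring

theorem defect_congr (ρ q q' : ℕ → ℝ) (h : ∀ r, r ≤ k → q r = q' r) {j : ℕ} (hj : j ≤ k) :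
    defect k ρ q j = defect k ρ q' j := by
  have hv : vOf k q j = vOf k q' j := by
    unfold vOf
    rw [h k le_rfl]
    congr 1
    exact sum_congr rfl fun i hi => by
      rw [h i (mem_Ico.1 hi).2.le, h (i + 1) (mem_Ico.1 hi).2]
  unfold defect bOf
  rw [h j hj, hv, sum_congr rfl fun l hl => congrArg (ρ l * ·) (h l (mem_Icc.1 hl).2),
    sum_congr rfl fun l hl => congrArg (ρ l * ·) (h l ((mem_Icc.1 hl).2.trans hj))]

/-- The overlap expressions add up to the defect. -/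
theorem defect_algebra (q G ρ : ℕ → ℝ) (hq0 : q 0 = 0) {j : ℕ} (hj1 : 1 ≤ j) (hjk : j ≤ k) (t : ℝ)
    (hρ : ∀ r, 1 ≤ r → ρ r = (∑ i ∈ Icc 1 r, σ i ^ 2) + t * G r) :
    ((N : ℝ) + 1) * defect k ρ q j = q j
      + ((N : ℝ) * q j - ((N : ℝ) + 1) * t * kform k j 0 q G
        - ∑ l : Fin k, amp N σ l ^ 2 * kform k j ((l : ℕ) + 1) q (fun _ => 1)) := by
  set F : ℕ → ℝ := fun r => q (min j r) - q j * q r with hF
  have hY : kform k j 0 q G = G j * vOf k q j - mass k * ∑ r ∈ Icc 1 k, G r * F r := by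
    have hI : Ioc 0 k = Icc 1 k := Finset.ext fun r => by simp only [mem_Ioc, mem_Icc]; omega
    rw [kform, if_pos (Nat.zero_le j), ← add_sum_Ioc_eq_sum_Icc (Nat.zero_le k), hI,
      Nat.min_zero, hq0, mul_zero, sub_zero, zero_mul, zero_add]
    exact congrArg _ (congrArg _ (sum_congr rfl fun r _ => mul_comm _ _))
  have hZ : ∑ l : Fin k, amp N σ l ^ 2 * kform k j ((l : ℕ) + 1) q (fun _ => 1)
      = ((N : ℝ) + 1) * ((∑ i ∈ Icc 1 j, σ i ^ 2) * vOf k q j
        - mass k * ∑ r ∈ Icc 1 k, (∑ i ∈ Icc 1 r, σ i ^ 2) * F r) := by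
    rw [← field_sum (fun i => σ i ^ 2) hjk, mul_sum]
    refine sum_congr rfl fun l _ => ?_
    rw [sq_amp, kform, mul_assoc, one_mul]
    congr 3
    exact congrArg _ (sum_congr rfl fun r _ => mul_one _)
  have hu : ∀ G : ℕ → ℝ, ∑ r ∈ Icc 1 k, G r = ∑ r ∈ Icc 1 j, G r + ∑ r ∈ Icc (j + 1) k, G r :=
    fun G => by
    rw [← sum_union (disjoint_left.2 fun a ha hb => by simp only [mem_Icc] at ha hb; omega)]
    exact sum_congr (Finset.ext fun a => by simp only [mem_union, mem_Icc]; omega) fun _ _ => rfl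
  have s1 : ∑ r ∈ Icc 1 j, ρ r * q (min j r) = ∑ r ∈ Icc 1 j, ρ r * q r :=
    sum_congr rfl fun r hr => by rw [min_eq_right (mem_Icc.1 hr).2]
  have s2 : ∑ r ∈ Icc (j + 1) k, ρ r * q (min j r) = q j * ∑ r ∈ Icc (j + 1) k, ρ r := by
    rw [mul_sum]
    exact sum_congr rfl fun r hr => by
      rw [min_eq_left (by have := (mem_Icc.1 hr).1; omega : j ≤ r)]; ring
  have e1 : ∑ r ∈ Icc 1 k, ρ r * F r
      = ∑ r ∈ Icc 1 k, ρ r * q (min j r) - q j * ∑ r ∈ Icc 1 k, ρ r * q r := by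
    rw [mul_sum, ← sum_sub_distrib]
    exact sum_congr rfl fun r _ => by simp only [hF]; ring
  have hd : defect k ρ q j = q j + mass k * ∑ r ∈ Icc 1 k, ρ r * F r - ρ j * vOf k q j := by
    rw [defect, bOf, e1, hu (fun r => ρ r * q (min j r)), s1, s2]
    ring
  have hs : ∑ r ∈ Icc 1 k, ρ r * F r
      = ∑ r ∈ Icc 1 k, (∑ i ∈ Icc 1 r, σ i ^ 2) * F r + t * ∑ r ∈ Icc 1 k, G r * F r := by
    rw [mul_sum, ← sum_add_distrib]
    exact sum_congr rfl fun r hr => by rw [hρ r (mem_Icc.1 hr).1]; ring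
  rw [hd, hs, hρ j hj1, hY, hZ]
  ring

variable {hp σ}

/-- The estimate of the defect. -/
theorem defect_bound {CP : ℝ} {q₀ : ℕ → ℝ} (hq₀ : sphQ f N M k σ = q₀) (hpath : IsPath k q₀)
    (hPat : ∀ M' : ℕ, ∀ r ≤ k,
      |gibPair (k := k) (sphereLeaf N) f (M' + 1) ((N : ℝ) + 1) σ (fun _ => 0) r
          (fun g x y => deriv f (sdot (g (Fin.last M')) (fl x)) * deriv f (sdot (g (Fin.last M')) (fl y)))
        - gamK k f q₀ r| ≤ CP * (gibPair (k := k) (sphereLeaf N) f M' ((N : ℝ) + 1) σ (fun _ => 0) r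
            (fun _ x y => |sdot (fl x) (fl y) - q₀ r|)
          + mass k * ∑ i ∈ Icc 0 k, gibPair (k := k) (sphereLeaf N) f M' ((N : ℝ) + 1) σ (fun _ => 0) i
            (fun _ x y => |sdot (fl x) (fl y) - q₀ i|)))
    (hCP : 0 ≤ CP) (hp : Pot f L B) {j : ℕ} (hj : j ∈ Icc 1 k) :
    |defect k (rhoOf k f ((M : ℝ) / (N + 1)) σ q₀) q₀ j|
      ≤ (9 * B ^ 2 + 9 + 7 * (CP * exp (4 * |L|))) * ((M : ℝ) / (N + 1) + ∑ i ∈ Icc 1 k, σ i ^ 2) *
          (ovErr f N M k σ q₀ j + totErr f N M k σ) + 1 / ((N : ℝ) + 1) := by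
  obtain ⟨hj1, hjk⟩ := mem_Icc.1 hj
  have hq := clip_le hpath
  have hqe : ∀ r, r ≤ k → clip k q₀ r = q₀ r := fun r hr => clip_eq q₀ hr
  have herr : ∀ M' r, r ≤ k → ovErr f N M' k σ (clip k q₀) r = ovErr f N M' k σ q₀ r := fun M' r hr => by
    simp only [ovErr, hqe r hr]
  have hT : mass k * ∑ r ∈ Icc 0 k, ovErr f N M k σ (clip k q₀) r = totErr f N M k σ := by
    rw [totErr, hq₀]
    exact congrArg _ (sum_congr rfl fun r hr => herr M r (mem_Icc.1 hr).2)
  have hqj : clip k q₀ j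
      = ∫ g : Pat M N, pairRoot f σ k j (fun x y => sdot (fl x) (fl y)) g ∂patterns M (N + 1) := by
    rw [hqe j hjk, ← hq₀, sphQ, qOf, if_neg (by omega)]
    exact gibPair_eq hp σ hjk fun _ x y => sdot (fl x) (fl y)
  have hfield := field_bound (N := N) (M := M) hp σ hq hjk hqj
  have hT0 := err_sum_nonneg (N := N) (M := M) (k := k) hp σ hq
  have he0 := err_nonneg (N := N) (M := M) hp σ hq hjk
  set Y := kform k j 0 (clip k q₀) (gamK k f q₀)
  have hrowY : ∀ a, |(∫ g : Pat M N, ∑ i, g a i * rowF hp σ (clip k q₀) hq k a i j g ∂patterns M (N + 1)) - Y|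
      ≤ (9 * B ^ 2 + 7 * (CP * exp (4 * |L|))) *
        (ovErr f N M k σ (clip k q₀) j + mass k * ∑ r ∈ Icc 0 k, ovErr f N M k σ (clip k q₀) r) := by
    intro a
    have hgk : ∀ r, r ≤ k → |rowGam f σ N k a r - gamK k f q₀ r| ≤ CP * exp (4 * |L|) *
        (ovErr f N M k σ (clip k q₀) r + mass k * ∑ i ∈ Icc 0 k, ovErr f N M k σ (clip k q₀) i) := by
      intro r hr
      obtain ⟨M', rfl⟩ : ∃ M', M = M' + 1 := ⟨M - 1, by have := a.2; omega⟩
      refine gam_close (G := gamK k f q₀) hp σ hq hCP hr ?_ a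
      rw [hqe r hr, sum_congr rfl fun i hi => show gibPair (k := k) (sphereLeaf N) f M' ((N : ℝ) + 1) σ
          (fun _ => 0) i (fun _ x y => |sdot (fl x) (fl y) - clip k q₀ i|) = gibPair (k := k)
          (sphereLeaf N) f M' ((N : ℝ) + 1) σ (fun _ => 0) i (fun _ x y => |sdot (fl x) (fl y) - q₀ i|) by
        rw [hqe i (mem_Icc.1 hi).2]]
      exact hPat M' r hr
    have h1 := row_bound (N := N) (M := M) hp σ hq a hjk
    have hD : 0 ≤ CP * exp (4 * |L|) := by positivity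
    have h2 := kform_close (G := rowGam f σ N k a) (G' := gamK k f q₀)
      (e := ovErr f N M k σ (clip k q₀)) hq hjk hD le_rfl hT0 hgk
    have h3 := mul_nonneg (sq_nonneg B) hT0
    have h4 := mul_nonneg hD he0
    rw [abs_le] at h1 h2 ⊢
    constructor <;> linarith [h1.1, h1.2, h2.1, h2.2]
  rw [hT, herr M j hjk] at hfield hrowY
  rw [herr M j hjk] at he0
  rw [hT] at hT0
  have hn0 : (0 : ℝ) < (N : ℝ) + 1 := by positivity
  have halg := defect_algebra (N := N) σ (clip k q₀) (gamK k f q₀)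
    (rhoOf k f ((M : ℝ) / (N + 1)) σ q₀) (by rw [hqe 0 (Nat.zero_le k), hpath.1]) hj1 hjk
    ((M : ℝ) / (N + 1)) fun r hr => by rw [rhoOf, if_neg (by omega)]
  rw [defect_congr _ _ q₀ hqe hjk, mul_div_cancel₀ _ hn0.ne'] at halg
  have hsum := (abs_sum_le_sum_abs _ univ).trans (sum_le_card_nsmul _ _ _ fun a _ => hrowY a)
  simp only [sum_sub_distrib, sum_const, card_univ, Fintype.card_fin, nsmul_eq_mul] at hsum
  have hS : ∑ l : Fin k, amp N σ l ^ 2 = ((N : ℝ) + 1) * ∑ i ∈ Icc 1 k, σ i ^ 2 := by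
    simp only [sq_amp, ← mul_sum]
    exact congrArg _ (sum_fin_Icc k fun i => σ i ^ 2)
  rw [hS] at hfield
  set S := ∑ i ∈ Icc 1 k, σ i ^ 2
  set X := ovErr f N M k σ q₀ j + totErr f N M k σ with hX
  set K1 := 9 * B ^ 2 + 9 + 7 * (CP * exp (4 * |L|)) with hK1
  have hS0 : 0 ≤ S := sum_nonneg fun i _ => sq_nonneg _
  have hX0 : 0 ≤ X := add_nonneg he0 hT0
  have hD : 0 ≤ CP * exp (4 * |L|) := by positivity
  have hfin : |((N : ℝ) + 1) * defect k (rhoOf k f ((M : ℝ) / (N + 1)) σ q₀) q₀ j|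
      ≤ 1 + K1 * ((M : ℝ) + ((N : ℝ) + 1) * S) * X := by
    have hq1 := hq j
    have hM0 : (0 : ℝ) ≤ M := Nat.cast_nonneg M
    have p1 := mul_nonneg hM0 hX0
    have p2 := mul_nonneg (mul_nonneg hn0.le hS0) hX0
    have p3 := mul_nonneg p2 (add_nonneg (sq_nonneg B) hD)
    have p4 := mul_nonneg (mul_nonneg hn0.le hS0) hT0
    have p5 := mul_nonneg p2 (sq_nonneg B)
    have p6 := mul_nonneg p2 hD
    have p7 := mul_nonneg (mul_nonneg hn0.le hS0) he0
    rw [halg]
    rw [hX] at p1 p2 p5 p6 ⊢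
    rw [hK1]
    rw [abs_le] at hfield hsum hq1 ⊢
    constructor <;> linarith [hfield.1, hfield.2, hsum.1, hsum.2, hq1.1, hq1.2]
  rw [abs_mul, abs_of_pos hn0] at hfin
  refine le_of_mul_le_mul_left (hfin.trans (le_of_eq ?_)) hn0
  field_simp
  ring

end Vale.Agent.P157.Rsb.Cst

namespace Vale.Agent.P157.Rsb

open Cst in
/-- Self-consistency of the sphere system. -/
theorem consist (hPattern : PatternStmt) (hPath : PathStmt) : ConsistStmt := by
  intro f hf
  obtain ⟨L, B, hp⟩ := exists_pot hf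
  obtain ⟨CP, hCP, hP⟩ := hPattern f hf
  have hK : 0 ≤ 9 * B ^ 2 + 9 + 7 * (CP * exp (4 * |L|)) := by positivity
  refine ⟨9 * B ^ 2 + 9 + 7 * (CP * exp (4 * |L|)), hK, fun k _ _ => ⟨1, fun N M σ _ _ j hj => ?_⟩⟩
  have hpath := hPath f L hp.smooth.continuous.measurable hp.le N M k σ
  have h := defect_bound (N := N) (M := M) (σ := σ) (k := k) (CP := CP) rfl hpath (fun M' r hr => ?_) hCP hp hj
  · have h0 : 0 ≤ (M : ℝ) / (N + 1) := by positivity
    have hS : 0 ≤ ∑ i ∈ Finset.Icc 1 k, σ i ^ 2 := Finset.sum_nonneg fun i _ => sq_nonneg _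
    have hnn : ∀ i, i ≤ k → 0 ≤ ovErr f N M k σ (sphQ f N M k σ) i := fun i hi => by
      rw [ovErr_eq hp σ _ hi]
      exact integral_nonneg fun g => cnd_nonneg
        (fun z x => cnd_nonneg (fun _ y => abs_nonneg _) i z) 0 _
    have hT : 0 ≤ totErr f N M k σ :=
      mul_nonneg mass_pos.le (Finset.sum_nonneg fun i hi => hnn i (Finset.mem_Icc.1 hi).2)
    refine h.trans (add_le_add (mul_le_mul (mul_le_mul_of_nonneg_left (by linarith) hK) ?_
      (add_nonneg (hnn j (Finset.mem_Icc.1 hj).2) hT) ?_) le_rfl)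
    · linarith [mass_pos (k := k)]
    · exact mul_nonneg hK (by linarith)
  · obtain ⟨-, h2, -⟩ := hP (N + 1) M' k (sphereLeaf N) ((N : ℝ) + 1) σ (fun _ => 0)
      (sphQ f N M k σ) (by positivity) hpath fl_unit
    have h3 := (h2 r hr (fun _ => 1) (fun _ => 1) 1 (fun _ => (abs_one).le) (fun _ => (abs_one).le)
      measurable_const measurable_const).1
    simp only [mul_one, one_mul, one_pow] at h3
    rw [gibPair_eq (M := M') hp σ hr (fun _ _ _ => (1 : ℝ))] at h3
    simp only [pairRoot_one hp σ, integral_const, probReal_univ, one_smul, mul_one] at h3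
    exact h3

end Vale.Agent.P157.Rsb
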