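import Vale.Agent.P157.Rsb.Calc

/-!
# P157: bounded observables of a nested system
-/

open MeasureTheory ProbabilityTheory Real Finset

namespace Vale.Agent.P157.Rsb.Cst

variable {k : ℕ} {Z X P : Type} [MeasurableSpace Z] [MeasurableSpace X] [MeasurableSpace P]
  {γ : Measure Z} {μ : Measure X}

/-- Two arguments agree below level `j`. -/
def Agree (j : ℕ) (z z' : Fin k → Z) : Prop := ∀ i : Fin k, (i : ℕ) < j → z i = z' i

theorem nestCond_local (H : (Fin k → Z) → X → ℝ) (d : ℕ) :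
    ∀ {φ φ' : (Fin k → Z) → X → ℝ} (z : Fin k → Z),
      (∀ z', Agree (k - d) z z' → ∀ x, φ z' x = φ' z' x) →
        nestCond γ μ H φ d z = nestCond γ μ H φ' d z := by
  induction d with
  | zero =>
    intro φ φ' z h
    simp only [nestCond]
    rw [funext (h z fun _ _ => rfl)]
  | succ d ih =>
    intro φ φ' z h
    simp only [nestCond]
    congr 2
    funext y
    rw [ih (φ := φ) (φ' := φ') (put z (k - d - 1) y) fun z' hz' => h z' fun i hi => ?_]
    rw [← hz' i (by omega), put, if_neg (by omega)]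

/-- A conditional expectation only sees the arguments that agree below its level. -/
theorem cnd_local {H φ φ' : (Fin k → Z) → X → ℝ} {j : ℕ} (hjk : j ≤ k) (z : Fin k → Z)
    (h : ∀ z', Agree j z z' → ∀ x, φ z' x = φ' z' x) :
    cnd γ μ H φ j z = cnd γ μ H φ' j z := by
  refine nestCond_local H (k - j) z fun z' hz' => h z' fun i hi => hz' i ?_
  omega

/-- Measurable and bounded observables. -/
def Bd (φ : (Fin k → Z) → X → ℝ) : Prop :=
  Measurable (Function.uncurry φ) ∧ ∃ A, ∀ z x, |φ z x| ≤ A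

variable {φ ψ : (Fin k → Z) → X → ℝ}

theorem Bd.tame {w : Size γ} (h : Bd φ) : Tame w φ := by
  obtain ⟨hm, A, hA⟩ := h
  refine ⟨hm, |A|, abs_nonneg _, fun z x => (hA z x).trans ((le_abs_self A).trans ?_)⟩
  exact le_mul_of_one_le_right (abs_nonneg _) (one_le_exp
    (mul_nonneg (abs_nonneg _) (sum_nonneg fun i _ => w.nonneg _)))

theorem Bd.const (c : ℝ) : Bd fun (_ : Fin k → Z) (_ : X) => c :=
  ⟨measurable_const, |c|, fun _ _ => le_rfl⟩

theorem Bd.leaf {g : X → ℝ} (hg : Measurable g) {A : ℝ} (hA : ∀ x, |g x| ≤ A) :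
    Bd fun (_ : Fin k → Z) x => g x :=
  ⟨hg.comp measurable_snd, A, fun _ => hA⟩

theorem Bd.add (h : Bd φ) (h' : Bd ψ) : Bd fun z x => φ z x + ψ z x := by
  obtain ⟨hm, A, hA⟩ := h
  obtain ⟨hm', A', hA'⟩ := h'
  exact ⟨hm.add hm', A + A', fun z x => (abs_add_le _ _).trans (add_le_add (hA z x) (hA' z x))⟩

theorem Bd.sub (h : Bd φ) (h' : Bd ψ) : Bd fun z x => φ z x - ψ z x := by
  obtain ⟨hm, A, hA⟩ := h
  obtain ⟨hm', A', hA'⟩ := h'
  exact ⟨hm.sub hm', A + A', fun z x => (abs_sub _ _).trans (add_le_add (hA z x) (hA' z x))⟩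

theorem Bd.mul (h : Bd φ) (h' : Bd ψ) : Bd fun z x => φ z x * ψ z x := by
  obtain ⟨hm, A, hA⟩ := h
  obtain ⟨hm', A', hA'⟩ := h'
  refine ⟨hm.mul hm', |A| * |A'|, fun z x => ?_⟩
  rw [abs_mul]
  exact mul_le_mul ((hA z x).trans (le_abs_self _)) ((hA' z x).trans (le_abs_self _))
    (abs_nonneg _) (abs_nonneg _)

theorem Bd.const_mul (h : Bd φ) (c : ℝ) : Bd fun z x => c * φ z x := (Bd.const c).mul h

theorem Bd.abs (h : Bd φ) : Bd fun z x => |φ z x| :=
  ⟨continuous_abs.measurable.comp h.1, h.2.choose, fun z x => by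
    rw [abs_abs]; exact h.2.choose_spec z x⟩

theorem Bd.sum {ι : Type} (s : Finset ι) {φ : ι → (Fin k → Z) → X → ℝ}
    (h : ∀ i ∈ s, Bd (φ i)) : Bd fun z x => ∑ i ∈ s, φ i z x := by
  induction s using Finset.cons_induction with
  | empty => simpa using Bd.const (k := k) (Z := Z) (X := X) 0
  | cons a t ha ih =>
    simp only [sum_cons]
    exact (h a (mem_cons_self a t)).add (ih fun i hi => h i (mem_cons_of_mem hi))

theorem Bd.cnd [IsProbabilityMeasure γ] [IsFiniteMeasure μ] [NeZero μ] {w : Size γ}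
    {H : (Fin k → Z) → X → ℝ} (hH : LinB w H) (h : Bd φ) (j : ℕ) :
    Bd fun z (_ : X) => Vale.Agent.P157.Rsb.cnd γ μ H φ j z :=
  ⟨(cnd_tame hH (h.tame (w := w)) j).meas, h.2.choose, fun z _ =>
    cnd_abs_le hH h.1 h.2.choose_spec j z⟩

/-- The coefficient `1 - P ∑_{r > j} q r - m_{j+1} q j` equals the tail variable. -/
theorem vOf_eq {q : ℕ → ℝ} {j : ℕ} (hj : j ≤ k) :
    vOf k q j = 1 - mass k * ∑ r ∈ Icc (j + 1) k, q r - lev k (j + 1) * q j := by
  obtain ⟨d, rfl⟩ : ∃ d, k = j + d := ⟨k - j, by omega⟩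
  have key : ∀ K : ℕ, ∀ d j, j + d = K →
      vOf K q j = 1 - mass K * ∑ r ∈ Icc (j + 1) K, q r - lev K (j + 1) * q j := by
    intro K d
    induction d with
    | zero =>
      intro j hj
      obtain rfl : j = K := by omega
      have h1 : lev j (j + 1) = 1 := by
        rw [lev, Nat.cast_add_one, div_self (by positivity)]
      simp [vOf, h1]
    | succ d ih =>
      intro j hj
      have h1 : vOf K q j = vOf K q (j + 1) + lev K (j + 1) * (q (j + 1) - q j) := by
        rw [vOf, vOf, sum_eq_sum_Ico_succ_bot (by omega : j < K)]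
        ring
      have h2 : ∑ r ∈ Icc (j + 1) K, q r = q (j + 1) + ∑ r ∈ Icc (j + 1 + 1) K, q r := by
        rw [← Finset.add_sum_Ioc_eq_sum_Icc (by omega : j + 1 ≤ K)]
        congr 1
        exact sum_congr (Finset.ext fun r => by simp only [mem_Ioc, mem_Icc]; omega) fun _ _ => rfl
      have h3 : lev K (j + 1 + 1) = lev K (j + 1) + mass K := by
        simp only [lev, mass]; push_cast; ring
      rw [h1, ih (j + 1) (by omega), h2, h3]
      ring
  exact key _ d j rfl

end Vale.Agent.P157.Rsb.Cst
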