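import Vale.Agent.P157.Rsb.ConsistBasic

/-!
# P157: derivatives along one coordinate
-/

open MeasureTheory ProbabilityTheory Real Finset

namespace Vale.Agent.P157.Rsb.Cst

variable {k : ℕ} {Z X : Type} [MeasurableSpace Z] [MeasurableSpace X]
  {γ : Measure Z} {μ : Measure X}

/-- A change of the lower levels commutes with the recursion. -/
theorem val_comp {u : (Fin k → Z) → (Fin k → Z)} {H : (Fin k → Z) → X → ℝ} (j : ℕ)
    (hu : ∀ i, j ≤ i → ∀ z y, u (put z i y) = put (u z) i y) (z : Fin k → Z) :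
    val γ μ (fun z x => H (u z) x) j z = val γ μ H j (u z) := by
  induction j using levels_induction (k := k) generalizing z with
  | htop j hj => simp only [val_of_le hj, val_top]
  | hstep j hj hjk ih =>
    simp only [val_step hj hjk, ih fun i hi => hu i (by omega), hu (j - 1) le_rfl]

/-- The same for conditional expectations. -/
theorem cnd_comp {u : (Fin k → Z) → (Fin k → Z)} {H φ : (Fin k → Z) → X → ℝ} (j : ℕ)
    (hu : ∀ i, j ≤ i → ∀ z y, u (put z i y) = put (u z) i y) (z : Fin k → Z) :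
    cnd γ μ (fun z x => H (u z) x) (fun z x => φ (u z) x) j z = cnd γ μ H φ j (u z) := by
  induction j using levels_induction (k := k) generalizing z with
  | htop j hj => simp only [cnd_of_le hj, cnd_top]
  | hstep j hj hjk ih =>
    have hu' : ∀ i, j ≤ i → ∀ z y, u (put z i y) = put (u z) i y := fun i hi => hu i (by omega)
    simp only [cnd_step hj hjk, ih hu', val_comp (γ := γ) (μ := μ) (H := H) j hu',
      hu (j - 1) le_rfl]

/-- The derivative formula after a change of the lower levels. -/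
theorem cndDer_comp {u : (Fin k → Z) → (Fin k → Z)} {H : (Fin k → Z) → X → ℝ} (g h : X → ℝ) (j : ℕ)
    (hu : ∀ i, j ≤ i → ∀ z y, u (put z i y) = put (u z) i y) (z : Fin k → Z) :
    cndDer γ μ (fun z x => H (u z) x) (fun _ x => g x) (fun _ x => h x) (fun _ _ => 0) j z
      = cndDer γ μ H (fun _ x => g x) (fun _ x => h x) (fun _ _ => 0) j (u z) := by
  have c1 : ∀ ψ : X → ℝ, ∀ l, j ≤ l → ∀ z, cnd γ μ (fun z x => H (u z) x) (fun _ x => ψ x) l z
      = cnd γ μ H (fun _ x => ψ x) l (u z) := fun ψ l hl z =>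
    cnd_comp (φ := fun _ x => ψ x) l (fun i hi => hu i (hl.trans hi)) z
  unfold cndDer
  refine congrArg₂ (· - ·) (congrArg₂ (· - ·) (c1 _ j le_rfl z) ?_) ?_
  · refine congrArg (_ * ·) (sum_congr rfl fun l hl => ?_)
    have hjl : j ≤ l := by have := (mem_Icc.1 hl).1; omega
    simp only [c1 _ l hjl]
    exact cnd_comp (φ := fun z _ => cnd γ μ H (fun _ x => g x) l z * cnd γ μ H (fun _ x => h x) l z)
      j hu z
  · simp only [c1 _ j le_rfl z]

theorem cndDer_smul {H φ ψ : (Fin k → Z) → X → ℝ} (c : ℝ) (j : ℕ) (z : Fin k → Z) :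
    cndDer γ μ H φ (fun z x => c * ψ z x) (fun _ _ => 0) j z
      = c * cndDer γ μ H φ ψ (fun _ _ => 0) j z := by
  simp only [cndDer, zero_add, cnd_const_mul, mul_left_comm (_ : ℝ) c, mul_sub, mul_sum]

variable [IsProbabilityMeasure γ] [IsFiniteMeasure μ] [NeZero μ] {w : Size γ}

/-- The derivative formula is bounded for bounded data. -/
theorem cndDer_abs_le {H φ dH dφ : (Fin k → Z) → X → ℝ} (hH : LinB w H) (hφ : Tame w φ)
    (hdH : Tame w dH) (hdφ : Measurable (Function.uncurry dφ)) {a b c : ℝ}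
    (ha : ∀ z x, |φ z x| ≤ a) (hb : ∀ z x, |dH z x| ≤ b) (hc : ∀ z x, |dφ z x| ≤ c) {j : ℕ}
    (hjk : j ≤ k) (z : Fin k → Z) (ha0 : 0 ≤ a) (hb0 : 0 ≤ b) :
    |cndDer γ μ H φ dH dφ j z| ≤ c + 3 * (a * b) := by
  have hab : 0 ≤ a * b := mul_nonneg ha0 hb0
  have h1 : |cnd γ μ H (fun z x => dφ z x + φ z x * dH z x) j z| ≤ c + a * b :=
    cnd_abs_le hH (φ := fun z x => dφ z x + φ z x * dH z x) (hdφ.add (hφ.meas.mul hdH.meas)) (fun z x => (abs_add_le _ _).trans
      (add_le_add (hc z x) (by rw [abs_mul]; exact mul_le_mul (ha z x) (hb z x) (abs_nonneg _) ha0))) j z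
  have hp : ∀ l z, |cnd γ μ H φ l z * cnd γ μ H dH l z| ≤ a * b := fun l z => by
    rw [abs_mul]
    exact mul_le_mul (cnd_abs_le hH hφ.meas ha l z) (cnd_abs_le hH hdH.meas hb l z) (abs_nonneg _) ha0
  have h2 : |mass k * ∑ l ∈ Icc (j + 1) k,
      cnd γ μ H (fun z _ => cnd γ μ H φ l z * cnd γ μ H dH l z) j z| ≤ a * b := by
    rw [abs_mul, abs_of_nonneg mass_pos.le]
    refine (mul_le_mul_of_nonneg_left ((abs_sum_le_sum_abs _ _).trans (sum_le_card_nsmul _ _ (a * b)
      fun l _ => cnd_abs_le hH (φ := fun z _ => cnd γ μ H φ l z * cnd γ μ H dH l z)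
        (((cnd_tame hH hφ l).meas).mul (cnd_tame hH hdH l).meas)
        (fun z _ => hp l z) j z)) mass_pos.le).trans ?_
    rw [nsmul_eq_mul, ← mul_assoc, mass, Nat.card_Icc]
    refine mul_le_of_le_one_left hab ?_
    rw [div_mul_eq_mul_div, one_mul, div_le_one (by positivity)]
    exact_mod_cast (by omega : k + 1 - (j + 1) ≤ k + 1)
  have h3 : |lev k (j + 1) * (cnd γ μ H φ j z * cnd γ μ H dH j z)| ≤ a * b := by
    rw [abs_mul, abs_of_nonneg (lev_nonneg _)]
    exact mul_le_of_le_one_left (abs_nonneg _) (lev_le_one (by omega)) |>.trans (hp j z)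
  unfold cndDer
  rw [abs_le] at h1 h2 h3 ⊢
  constructor <;> linarith [h1.1, h1.2, h2.1, h2.2, h3.1, h3.2]

variable {P : Type} [MeasurableSpace P]

omit [IsProbabilityMeasure γ] [IsFiniteMeasure μ] [NeZero μ] in
theorem measurable_cndDer_par [SFinite γ] [SFinite μ] {H φ dH dφ : P → (Fin k → Z) → X → ℝ}
    (hH : Measurable fun p : (P × (Fin k → Z)) × X => H p.1.1 p.1.2 p.2)
    (hφ : Measurable fun p : (P × (Fin k → Z)) × X => φ p.1.1 p.1.2 p.2)
    (hdH : Measurable fun p : (P × (Fin k → Z)) × X => dH p.1.1 p.1.2 p.2)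
    (hdφ : Measurable fun p : (P × (Fin k → Z)) × X => dφ p.1.1 p.1.2 p.2) (j : ℕ) :
    Measurable fun p : P × (Fin k → Z) =>
      cndDer γ μ (H p.1) (φ p.1) (dH p.1) (dφ p.1) j p.2 := by
  have m : ∀ {ψ : P → (Fin k → Z) → X → ℝ},
      (Measurable fun p : (P × (Fin k → Z)) × X => ψ p.1.1 p.1.2 p.2) → ∀ l,
      Measurable fun p : P × (Fin k → Z) => cnd γ μ (H p.1) (ψ p.1) l p.2 := fun h l =>
    cnd_measurable_param hH h l
  refine ((m (ψ := fun p z x => dφ p z x + φ p z x * dH p z x) (hdφ.add (hφ.mul hdH)) j).sub ((Finset.measurable_sum _ fun l _ => ?_).const_mul _)).sub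
    (((m hφ j).mul (m hdH j)).const_mul _)
  exact m (ψ := fun p z _ => cnd γ μ (H p) (φ p) l z * cnd γ μ (H p) (dH p) l z)
    (((m hφ l).mul (m hdH l)).comp measurable_fst) j

end Vale.Agent.P157.Rsb.Cst

namespace Vale.Agent.P157.Rsb.Cst

/-- Rows of standard Gaussian vectors as one standard Gaussian family. -/
theorem curry_preserving (M n : ℕ) :
    MeasurePreserving (fun y : Fin M × Fin n → ℝ => fun a i => y (a, i))
      (stdG (Fin M × Fin n)) (patterns M n) := by
  refine ⟨by fun_prop, ?_⟩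
  have h := Measure.infinitePi_map_curry (ι := Fin M) (κ := Fin n)
    (μ := fun _ _ => gaussianReal 0 1)
  simp only [Measure.infinitePi_eq_pi] at h
  exact h

theorem curry_update {M n : ℕ} (y : Fin M × Fin n → ℝ) (a : Fin M) (i : Fin n) (t : ℝ) :
    (fun b l => Function.update y (a, i) t (b, l))
      = Function.update (fun b l => y (b, l)) a (Function.update (fun l => y (a, l)) i t) := by
  funext b l
  by_cases hb : b = a
  · subst hb
    by_cases hl : l = i
    · subst hl; simp
    · simp [hl]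
  · simp [hb]

/-- Integration by parts in one entry of the patterns. -/
theorem pattern_ibp {M n : ℕ} (a : Fin M) (i : Fin n) {F F' : (Fin M → Fin n → ℝ) → ℝ}
    (hd : ∀ g, HasDerivAt (fun t => F (Function.update g a (Function.update (g a) i t))) (F' g) (g a i))
    (hm : Measurable F) (hm' : Measurable F') {A : ℝ} (hb : ∀ g, |F g| ≤ A ∧ |F' g| ≤ A) :
    ∫ g, g a i * F g ∂patterns M n = ∫ g, F' g ∂patterns M n := by
  have hp := curry_preserving M n
  have hc : Measurable fun y : Fin M × Fin n → ℝ => fun b l => y (b, l) := hp.measurable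
  have hca : Measurable fun g : Fin M → Fin n → ℝ => g a i := by fun_prop
  have hcm : Measurable fun g : Fin M → Fin n → ℝ => g a i * F g := hca.mul hm
  rw [← hp.map_eq, integral_map hc.aemeasurable hcm.aestronglyMeasurable,
    integral_map hc.aemeasurable hm'.aestronglyMeasurable]
  refine gauss_ibp (ι := Fin M × Fin n) (a, i) (G := fun y => F fun b l => y (b, l))
    (G' := fun y => F' fun b l => y (b, l)) (fun y => ?_) (hm.comp hc) (hm'.comp hc) ⟨|A|, fun y => ?_⟩
  · simpa only [curry_update] using hd fun b l => y (b, l)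
  · have h1 : |A| ≤ |A| * exp (|A| * ∑ b, |y b|) :=
      le_mul_of_one_le_right (abs_nonneg A) (one_le_exp (by positivity))
    obtain ⟨h2, h3⟩ := hb fun b l => y (b, l)
    have := le_abs_self A
    exact ⟨by linarith, by linarith⟩

end Vale.Agent.P157.Rsb.Cst
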