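import Vale.Agent.P157.Rsb.ConsistDeriv

/-!
# P157: the kernel of the self-consistency equation

A weight `wt` on unit vectors `ξ x`.  The two expressions produced by Gaussian integration by parts
in a coordinate seen by `wt` and `ξ` equal the overlap expressions up to mean overlap deviations.
-/

open MeasureTheory ProbabilityTheory Real Finset

namespace Vale.Agent.P157.Rsb.Cst

/-- A nested system with unit vectors and a bounded weight. -/
structure Ker (k n : ℕ) (Z X : Type) [MeasurableSpace Z] [MeasurableSpace X] where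
  /-- the law of one level -/
  γ : Measure Z
  /-- the law of the leaf -/
  μ : Measure X
  [probγ : IsProbabilityMeasure γ]
  [probμ : IsProbabilityMeasure μ]
  /-- the size of one level -/
  size : Size γ
  /-- the Hamiltonian -/
  H : (Fin k → Z) → X → ℝ
  linB : LinB size H
  /-- the vector of a leaf -/
  ξ : X → Fin n → ℝ
  ξ_meas : Measurable ξ
  unit : ∀ x, ∑ i, ξ x i * ξ x i = 1
  /-- the weight -/
  wt : X → ℝ
  wt_meas : Measurable wt
  /-- the bound of the weight -/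
  B : ℝ
  wt_le : ∀ x, |wt x| ≤ B
  /-- the root -/
  z₀ : Fin k → Z
  /-- reference overlaps -/
  q : ℕ → ℝ
  q_le : ∀ r, |q r| ≤ 1

attribute [instance] Ker.probγ Ker.probμ

namespace Ker

variable {k n : ℕ} {Z X : Type} [MeasurableSpace Z] [MeasurableSpace X] (K : Ker k n Z X)

/-- The conditional expectation of the system. -/
noncomputable def E (r : ℕ) (φ : (Fin k → Z) → X → ℝ) : (Fin k → Z) → ℝ :=
  cnd K.γ K.μ K.H φ r

/-- The scalar product of two leaves. -/
def dot (x y : X) : ℝ := ∑ i, K.ξ x i * K.ξ y i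

/-- The mean vector at level `r`. -/
noncomputable def M (r : ℕ) (i : Fin n) (z : Fin k → Z) : ℝ := K.E r (fun _ x => K.ξ x i) z

/-- The weighted mean vector. -/
noncomputable def Nv (r : ℕ) (i : Fin n) (z : Fin k → Z) : ℝ :=
  K.E r (fun _ x => K.wt x * K.ξ x i) z

/-- The mean weight. -/
noncomputable def W (r : ℕ) (z : Fin k → Z) : ℝ := K.E r (fun _ x => K.wt x) z

/-- The product of a leaf with the mean vector. -/
noncomputable def xM (r : ℕ) (z : Fin k → Z) (x : X) : ℝ := ∑ i, K.ξ x i * K.M r i z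

/-- The product of a leaf with the weighted mean vector. -/
noncomputable def xN (r : ℕ) (z : Fin k → Z) (x : X) : ℝ := ∑ i, K.ξ x i * K.Nv r i z

/-- The product of two mean vectors. -/
noncomputable def MN (a b : ℕ) (z : Fin k → Z) : ℝ := ∑ i, K.M a i z * K.Nv b i z

/-- The tangential field. -/
noncomputable def G (j : ℕ) (i : Fin n) (z : Fin k → Z) (x : X) : ℝ :=
  K.M j i z - K.xM j z x * K.ξ x i

/-- The derivative of a mean coordinate along a coordinate of the tilt. -/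
noncomputable def D (j : ℕ) (b i : Fin n) (z : Fin k → Z) : ℝ :=
  cndDer K.γ K.μ K.H (fun _ x => K.ξ x b) (fun _ x => K.wt x * K.ξ x i) (fun _ _ => 0) j z

/-- The derivative of the tangential field along its own coordinate. -/
noncomputable def dG (j : ℕ) (i : Fin n) (z : Fin k → Z) (x : X) : ℝ :=
  K.D j i i z - (∑ b, K.ξ x b * K.D j b i z) * K.ξ x i

/-- The deviation of the overlap with a second leaf at branch level `r`. -/
noncomputable def dev (r : ℕ) (z : Fin k → Z) (x : X) : ℝ :=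
  K.E r (fun _ y => |K.dot x y - K.q r|) z

/-- The mean deviation. -/
noncomputable def ov (r : ℕ) : ℝ := K.E 0 (K.dev r) K.z₀

/-- The weighted sum of the mean deviations. -/
noncomputable def tot : ℝ := mass k * ∑ r ∈ Icc 0 k, K.ov r

/-- The mean square weight at level `r`. -/
noncomputable def gam (r : ℕ) : ℝ := K.E 0 (fun z _ => K.W r z ^ 2) K.z₀

/-! ### elementary properties -/

theorem B_nonneg : 0 ≤ K.B :=
  (abs_nonneg _).trans (K.wt_le (nonempty_of_isProbabilityMeasure K.μ).some)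

theorem meas_coord (i : Fin n) : Measurable fun x => K.ξ x i :=
  (measurable_pi_apply i).comp K.ξ_meas

theorem coord_le (x : X) (i : Fin n) : |K.ξ x i| ≤ 1 := by
  rw [abs_le_one_iff_mul_self_le_one, ← K.unit x]
  exact single_le_sum (f := fun i => K.ξ x i * K.ξ x i) (fun i _ => mul_self_nonneg _) (mem_univ i)

theorem dot_le (x y : X) : |K.dot x y| ≤ 1 := by
  rw [← sq_le_one_iff_abs_le_one]
  refine (sum_mul_sq_le_sq_mul_sq _ _ _).trans (le_of_eq ?_)
  simp only [sq, K.unit, one_mul]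

theorem bd_coord (i : Fin n) : Bd (fun (_ : Fin k → Z) x => K.ξ x i) :=
  Bd.leaf (K.meas_coord i) fun x => K.coord_le x i

theorem bd_wt : Bd (fun (_ : Fin k → Z) x => K.wt x) := Bd.leaf K.wt_meas K.wt_le

theorem meas_dot (x : X) : Measurable (K.dot x) :=
  Finset.measurable_sum _ fun i _ => (K.meas_coord i).const_mul _

theorem bd_dot (x : X) : Bd (fun (_ : Fin k → Z) y => K.dot x y) :=
  Bd.leaf (K.meas_dot x) fun y => K.dot_le x y

theorem bd_E {φ : (Fin k → Z) → X → ℝ} (h : Bd φ) (r : ℕ) :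
    Bd fun z (_ : X) => K.E r φ z := Bd.cnd K.linB h r

theorem bd_M (r : ℕ) (i : Fin n) : Bd fun z (_ : X) => K.M r i z := K.bd_E (K.bd_coord i) r

theorem bd_Nv (r : ℕ) (i : Fin n) : Bd fun z (_ : X) => K.Nv r i z :=
  K.bd_E (K.bd_wt.mul (K.bd_coord i)) r

theorem bd_W (r : ℕ) : Bd fun z (_ : X) => K.W r z := K.bd_E K.bd_wt r

theorem bd_xM (r : ℕ) : Bd (K.xM r) := Bd.sum _ fun i _ => (K.bd_coord i).mul (K.bd_M r i)

theorem bd_xN (r : ℕ) : Bd (K.xN r) := Bd.sum _ fun i _ => (K.bd_coord i).mul (K.bd_Nv r i)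

theorem bd_MN (a b : ℕ) : Bd fun z (_ : X) => K.MN a b z :=
  Bd.sum _ fun i _ => (K.bd_M a i).mul (K.bd_Nv b i)

theorem bd_G (j : ℕ) (i : Fin n) : Bd (K.G j i) :=
  (K.bd_M j i).sub ((K.bd_xM j).mul (K.bd_coord i))

theorem meas_dotPair : Measurable fun p : X × X => K.dot p.1 p.2 :=
  Finset.measurable_sum _ fun i _ =>
    ((K.meas_coord i).comp measurable_fst).mul ((K.meas_coord i).comp measurable_snd)

/-- A conditional expectation of an observable of two leaves is an observable. -/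
theorem bd_two {F : X → X → ℝ} (hF : Measurable (Function.uncurry F)) {A : ℝ}
    (hA : ∀ x y, |F x y| ≤ A) (r : ℕ) :
    Bd fun z x => K.E r (fun _ y => F x y) z := by
  refine ⟨?_, A, fun z x => cnd_abs_le K.linB (φ := fun _ y => F x y)
    ((hF.comp (measurable_prodMk_left (x := x))).comp measurable_snd) (fun _ y => hA x y) r z⟩
  exact (cnd_measurable_param (G := X) (γ := K.γ) (μ := K.μ) (H := fun _ => K.H)
    (φ := fun x _ y => F x y)
    (K.linB.meas.comp ((measurable_snd.comp measurable_fst).prodMk measurable_snd))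
    (hF.comp ((measurable_fst.comp measurable_fst).prodMk measurable_snd)) r).comp measurable_swap

theorem bd_dev (r : ℕ) : Bd (K.dev r) :=
  K.bd_two (A := 2) (F := fun x y => |K.dot x y - K.q r|)
    (continuous_abs.measurable.comp (K.meas_dotPair.sub_const _)) (fun x y => by
    rw [abs_abs]
    exact (abs_sub _ _).trans (by linarith [K.dot_le x y, K.q_le r])) r

/-! ### rules for `E` -/

variable {φ ψ : (Fin k → Z) → X → ℝ}

theorem E_add (h : Bd φ) (h' : Bd ψ) (r : ℕ) (z) :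
    K.E r (fun z x => φ z x + ψ z x) z = K.E r φ z + K.E r ψ z :=
  cnd_add K.linB h.tame h'.tame r z

theorem E_sub (h : Bd φ) (h' : Bd ψ) (r : ℕ) (z) :
    K.E r (fun z x => φ z x - ψ z x) z = K.E r φ z - K.E r ψ z :=
  cnd_sub K.linB h.tame h'.tame r z

theorem E_const_mul (c : ℝ) (r : ℕ) (z) :
    K.E r (fun z x => c * φ z x) z = c * K.E r φ z := cnd_const_mul c r z

theorem E_const (c : ℝ) (r : ℕ) (z) : K.E r (fun _ _ => c) z = c := cnd_const K.linB c r z

theorem E_sum {ι : Type} (s : Finset ι) {φ : ι → (Fin k → Z) → X → ℝ}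
    (h : ∀ i ∈ s, Bd (φ i)) (r : ℕ) (z) :
    K.E r (fun z x => ∑ i ∈ s, φ i z x) z = ∑ i ∈ s, K.E r (φ i) z :=
  cnd_finsum K.linB s (fun i hi => (h i hi).tame) r z

theorem E_upto (r : ℕ) (φ : (Fin k → Z) → X → ℝ) : Upto r (K.E r φ) := cnd_upto r

theorem E_pull (_ : Bd φ) {r : ℕ} {c : (Fin k → Z) → ℝ} (hc : Upto r c) (z) :
    K.E r (fun z x => c z * φ z x) z = c z * K.E r φ z :=
  cnd_pull hc z

theorem E_tower (_ : Bd φ) {j l : ℕ} (hjl : j ≤ l) (_ : l ≤ k) (z) :
    K.E j (fun z _ => K.E l φ z) z = K.E j φ z :=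
  cnd_tower K.linB hjl z

theorem E_mono (h : Bd φ) (h' : Bd ψ) (hle : ∀ z x, φ z x ≤ ψ z x) (r : ℕ) (z) :
    K.E r φ z ≤ K.E r ψ z := cnd_mono K.linB h.tame h'.tame hle r z

theorem E_abs_le (h : Bd φ) (h' : Bd ψ) (hle : ∀ z x, |φ z x| ≤ ψ z x) (r : ℕ) (z) :
    |K.E r φ z| ≤ K.E r ψ z := by
  refine abs_le.2 ⟨?_, K.E_mono h h' (fun z x => (le_abs_self _).trans (hle z x)) r z⟩
  have := K.E_mono (h'.const_mul (-1)) h (fun z x => by
    linarith [(abs_le.1 (hle z x)).1]) r z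
  rw [K.E_const_mul] at this
  linarith

theorem E_abs_le_mul (h : Bd φ) (h' : Bd ψ) {c : ℝ} (hle : ∀ z x, |φ z x| ≤ c * ψ z x) (r : ℕ) (z) :
    |K.E r φ z| ≤ c * K.E r ψ z := by
  rw [← K.E_const_mul]
  exact K.E_abs_le h (h'.const_mul c) hle r z

/-- Comparison at the root after multiplication by the weight. -/
theorem root_close (h : Bd φ) (h' : Bd ψ) {η : (Fin k → Z) → X → ℝ} (hη : Bd η)
    (hle : ∀ z x, |φ z x - ψ z x| ≤ K.B * η z x) :
    |K.E 0 (fun z x => K.wt x * φ z x) K.z₀ - K.E 0 (fun z x => K.wt x * ψ z x) K.z₀|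
      ≤ K.B ^ 2 * K.E 0 η K.z₀ := by
  rw [← K.E_sub (K.bd_wt.mul h) (K.bd_wt.mul h')]
  refine K.E_abs_le_mul ((K.bd_wt.mul h).sub (K.bd_wt.mul h')) hη (fun z x => ?_) 0 _
  rw [← mul_sub, abs_mul, sq, mul_assoc]
  exact mul_le_mul (K.wt_le x) (hle z x) (abs_nonneg _) K.B_nonneg

/-- The root average of the weight times a mean weight. -/
theorem root_wt_W {r : ℕ} (hr : r ≤ k) :
    K.E 0 (fun z x => K.wt x * K.W r z) K.z₀ = K.gam r := by
  rw [gam, ← K.E_tower (φ := fun z x => K.wt x * K.W r z) (K.bd_wt.mul (K.bd_W r)) (Nat.zero_le r) hr]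
  congr 1
  funext z _
  simp only [mul_comm (K.wt _) (K.W r _)]
  rw [K.E_pull K.bd_wt (c := K.W r) (K.E_upto r _), sq]
  rfl

/-! ### overlaps with mean vectors -/

theorem xM_eq (r : ℕ) (z) (x : X) : K.xM r z x = K.E r (fun _ y => K.dot x y) z := by
  unfold xM dot
  rw [K.E_sum univ fun i _ => (K.bd_coord i).const_mul _]
  exact sum_congr rfl fun i _ => (K.E_const_mul _ r z).symm

theorem xN_eq (r : ℕ) (z) (x : X) :
    K.xN r z x = K.E r (fun _ y => K.wt y * K.dot x y) z := by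
  unfold xN dot
  simp only [mul_sum]
  rw [K.E_sum univ fun i _ => K.bd_wt.mul ((K.bd_coord i).const_mul _)]
  refine sum_congr rfl fun i _ => ?_
  rw [Nv, ← K.E_const_mul]
  congr 1
  funext _ y
  ring

theorem xM_le (r : ℕ) (z) (x : X) : |K.xM r z x| ≤ 1 := by
  rw [K.xM_eq]
  exact cnd_abs_le K.linB (K.bd_dot x).1 (fun _ y => K.dot_le x y) r z

theorem xN_le (r : ℕ) (z) (x : X) : |K.xN r z x| ≤ K.B := by
  rw [K.xN_eq]
  refine cnd_abs_le K.linB (K.bd_wt.mul (K.bd_dot x)).1 (fun _ y => ?_) r z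
  rw [abs_mul]
  exact (mul_le_of_le_one_right (abs_nonneg _) (K.dot_le x y)).trans (K.wt_le y)

theorem W_le (r : ℕ) (z) : |K.W r z| ≤ K.B := cnd_abs_le K.linB K.bd_wt.1 (fun _ => K.wt_le) r z

theorem bd_absdev (r : ℕ) (x : X) : Bd fun (_ : Fin k → Z) y => |K.dot x y - K.q r| :=
  ((K.bd_dot x).sub (Bd.const _)).abs

theorem xM_dev (r : ℕ) (z) (x : X) : |K.xM r z x - K.q r| ≤ K.dev r z x := by
  rw [K.xM_eq, ← K.E_const (K.q r) r z, ← K.E_sub (K.bd_dot x) (Bd.const _)]
  exact K.E_abs_le ((K.bd_dot x).sub (Bd.const _)) (K.bd_absdev r x) (fun _ _ => le_rfl) r z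

theorem xN_dev (r : ℕ) (z) (x : X) :
    |K.xN r z x - K.q r * K.W r z| ≤ K.B * K.dev r z x := by
  rw [K.xN_eq, W, ← K.E_const_mul, ← K.E_sub (K.bd_wt.mul (K.bd_dot x)) (K.bd_wt.const_mul _)]
  refine K.E_abs_le_mul ((K.bd_wt.mul (K.bd_dot x)).sub (K.bd_wt.const_mul _)) (K.bd_absdev r x)
    (fun _ y => ?_) r z
  rw [mul_comm (K.q r), ← mul_sub, abs_mul]
  exact mul_le_mul_of_nonneg_right (K.wt_le y) (abs_nonneg _)

theorem MN_up {a b : ℕ} (hab : a ≤ b) (z) :
    K.MN a b z = K.E b (fun z x => K.wt x * K.xM a z x) z := by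
  unfold MN xM
  simp only [mul_sum]
  rw [K.E_sum univ fun i _ => K.bd_wt.mul ((K.bd_coord i).mul (K.bd_M a i))]
  refine sum_congr rfl fun i _ => ?_
  rw [Nv, ← K.E_pull (K.bd_wt.mul (K.bd_coord i)) (c := K.M a i) (Upto.mono hab (K.E_upto a _))]
  congr 1
  funext z x
  simp only [M]
  ring

theorem MN_down {a b : ℕ} (hba : b ≤ a) (z) :
    K.MN a b z = K.E a (fun z x => K.xN b z x) z := by
  unfold MN xN
  rw [K.E_sum univ fun i _ => (K.bd_coord i).mul (K.bd_Nv b i)]
  refine sum_congr rfl fun i _ => ?_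
  rw [M, mul_comm, ← K.E_pull (K.bd_coord i) (c := K.Nv b i) (Upto.mono hba (K.E_upto b _))]
  congr 1
  funext z x
  ring

/-- The product of two mean vectors is the overlap of the lower level times the mean weight. -/
theorem MN_dev {a b : ℕ} (ha : a ≤ k) (z) :
    |K.MN a b z - K.q (min a b) * K.W b z|
      ≤ K.B * K.E (max a b) (fun z x => K.dev (min a b) z x) z := by
  rcases le_total a b with hab | hba
  · rw [min_eq_left hab, max_eq_right hab, K.MN_up hab, W, ← K.E_const_mul,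
      ← K.E_sub (K.bd_wt.mul (K.bd_xM a)) (K.bd_wt.const_mul _)]
    refine K.E_abs_le_mul ((K.bd_wt.mul (K.bd_xM a)).sub (K.bd_wt.const_mul _)) (K.bd_dev a)
      (fun z x => ?_) b z
    rw [mul_comm (K.q a), ← mul_sub, abs_mul]
    exact mul_le_mul (K.wt_le x) (K.xM_dev a z x) (abs_nonneg _) K.B_nonneg
  · rw [min_eq_right hba, max_eq_left hba, K.MN_down hba,
      ← K.E_const (K.q b * K.W b z) a z, ← K.E_sub (K.bd_xN b) (Bd.const _)]
    have hW : Upto a (K.W b) := Upto.mono hba (K.E_upto b _)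
    rw [show K.E a (fun z' x => K.xN b z' x - K.q b * K.W b z) z
        = K.E a (fun z' x => K.xN b z' x - K.q b * K.W b z') z from
      cnd_local ha z fun z' hz' x => by rw [hW z z' hz']]
    exact K.E_abs_le_mul ((K.bd_xN b).sub ((K.bd_W b).const_mul _)) (K.bd_dev b)
      (fun z x => K.xN_dev b z x) a z

/-- The product of the two projections. -/
theorem prod_dev (a b : ℕ) (z) (x : X) :
    |K.xM a z x * K.xN b z x - K.q a * K.q b * K.W b z|
      ≤ K.B * (K.dev a z x + K.dev b z x) := by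
  have e : K.xM a z x * K.xN b z x - K.q a * K.q b * K.W b z
      = (K.xM a z x - K.q a) * K.xN b z x + K.q a * (K.xN b z x - K.q b * K.W b z) := by ring
  rw [e, mul_add]
  refine (abs_add_le _ _).trans (add_le_add ?_ ?_)
  · rw [abs_mul, mul_comm K.B]
    exact mul_le_mul (K.xM_dev a z x) (K.xN_le b z x) (abs_nonneg _)
      ((abs_nonneg _).trans (K.xM_dev a z x))
  · rw [abs_mul]
    exact (mul_le_of_le_one_left (abs_nonneg _) (K.q_le a)).trans (K.xN_dev b z x)

/-! ### the two kernel expressions -/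

theorem dev_le (r : ℕ) (z) (x : X) : 0 ≤ K.dev r z x := (abs_nonneg _).trans (K.xM_dev r z x)

theorem ov_nonneg (r : ℕ) : 0 ≤ K.ov r := by
  refine le_of_eq_of_le (K.E_const 0 0 K.z₀).symm ?_
  exact K.E_mono (Bd.const 0) (K.bd_dev r) (fun z x => K.dev_le r z x) 0 _

theorem ov_min (a b : ℕ) : K.ov (min a b) ≤ K.ov a + K.ov b := by
  rcases min_choice a b with h | h <;> rw [h] <;> linarith [K.ov_nonneg a, K.ov_nonneg b]

theorem sum_xG (j : ℕ) (z) (x : X) : ∑ i, K.ξ x i * K.G j i z x = 0 := by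
  simp only [G, mul_sub, sum_sub_distrib, ← mul_assoc, mul_comm (K.ξ x _) (K.xM j z x)]
  rw [show ∑ i, K.xM j z x * K.ξ x i * K.ξ x i = K.xM j z x by
    simp only [mul_assoc]; rw [← mul_sum, K.unit, mul_one]]
  exact sub_self _

/-- The product of the tilt with the tangential field, summed over the coordinates. -/
theorem cross_eq {j r : ℕ} (hr : r ≤ k) :
    ∑ i, K.E 0 (fun z _ => K.E r (fun z x => K.wt x * K.G j i z x) z * K.Nv r i z) K.z₀
      = K.E 0 (fun z x => K.wt x * K.MN j r z) K.z₀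
        - K.E 0 (fun z x => K.wt x * (K.xM j z x * K.xN r z x)) K.z₀ := by
  have hb : ∀ i, Bd fun z x => K.wt x * K.G j i z x * K.Nv r i z := fun i =>
    (K.bd_wt.mul (K.bd_G j i)).mul (K.bd_Nv r i)
  have h1 : ∀ i z, K.E r (fun z x => K.wt x * K.G j i z x) z * K.Nv r i z
      = K.E r (fun z x => K.wt x * K.G j i z x * K.Nv r i z) z := fun i z => by
    rw [mul_comm, ← K.E_pull (K.bd_wt.mul (K.bd_G j i)) (c := K.Nv r i) (K.E_upto r _)]
    congr 1
    funext z x
    ring
  simp only [h1]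
  rw [sum_congr rfl fun i _ => K.E_tower (hb i) (Nat.zero_le r) hr K.z₀,
    ← K.E_sum univ fun i _ => hb i, ← K.E_sub (K.bd_wt.mul (K.bd_MN j r))
      (K.bd_wt.mul ((K.bd_xM j).mul (K.bd_xN r)))]
  congr 1
  funext z x
  simp only [MN, xN, G, mul_sum, ← sum_sub_distrib]
  exact sum_congr rfl fun i _ => by ring

/-- The product term at one level. -/
theorem cross_dev {j r : ℕ} (hj : j ≤ k) (hr : r ≤ k) :
    |∑ i, K.E 0 (fun z _ => K.E r (fun z x => K.wt x * K.G j i z x) z * K.Nv r i z) K.z₀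
        - (K.q (min j r) - K.q j * K.q r) * K.gam r|
      ≤ 2 * K.B ^ 2 * (K.ov j + K.ov r) := by
  rw [K.cross_eq hr]
  have h1 := K.root_close (φ := fun z _ => K.MN j r z)
    (ψ := fun z _ => K.q (min j r) * K.W r z) (K.bd_MN j r) ((K.bd_W r).const_mul _)
    (K.bd_E (K.bd_dev (min j r)) (max j r)) (fun z x => K.MN_dev hj z)
  have h2 := K.root_close (φ := fun z x => K.xM j z x * K.xN r z x)
    (ψ := fun z _ => K.q j * K.q r * K.W r z) ((K.bd_xM j).mul (K.bd_xN r))
    ((K.bd_W r).const_mul _) ((K.bd_dev j).add (K.bd_dev r)) (fun z x => K.prod_dev j r z x)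
  have e : ∀ c, K.E 0 (fun z x => K.wt x * (c * K.W r z)) K.z₀ = c * K.gam r := fun c => by
    rw [← K.root_wt_W hr, ← K.E_const_mul]
    congr 1
    funext z x
    ring
  rw [e, K.E_tower (K.bd_dev _) (Nat.zero_le _) (max_le hj hr)] at h1
  rw [e, K.E_add (K.bd_dev j) (K.bd_dev r)] at h2
  have h3 := mul_le_mul_of_nonneg_left (K.ov_min j r) (sq_nonneg K.B)
  unfold ov at h3 ⊢
  rw [abs_le] at h1 h2 ⊢
  constructor <;> linarith [h1.1, h1.2, h2.1, h2.2]

theorem dot_sq_dev (r : ℕ) (x y : X) :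
    |K.dot x y * K.dot x y - K.q r * K.q r| ≤ 2 * |K.dot x y - K.q r| := by
  rw [show K.dot x y * K.dot x y - K.q r * K.q r
    = (K.dot x y - K.q r) * (K.dot x y + K.q r) by ring, abs_mul, mul_comm]
  exact mul_le_mul_of_nonneg_right ((abs_add_le _ _).trans
    (by linarith [K.dot_le x y, K.q_le r])) (abs_nonneg _)

/-- The quadratic form of one level seen from a leaf that branched at level `j`. -/
theorem quad_dev {j r : ℕ} (hjr : j ≤ r) (hr : r ≤ k) (z) (x : X) :
    |K.E j (fun z' _ => K.xM r z' x * K.xN r z' x) z - K.q j * K.q j * K.W j z|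
      ≤ 2 * K.B * K.dev j z x := by
  have hM : Bd fun z' (_ : X) => K.xM r z' x := Bd.sum _ fun i _ => (Bd.const _).mul (K.bd_M r i)
  have hN : Bd fun z' (_ : X) => K.xN r z' x := Bd.sum _ fun i _ => (Bd.const _).mul (K.bd_Nv r i)
  have e1 : K.q j * K.q j * K.W j z = K.E j (fun z' _ => K.q j * K.q j * K.W r z') z := by
    rw [K.E_const_mul, W, ← K.E_tower K.bd_wt hjr hr]
    rfl
  rw [e1, ← K.E_sub (hM.mul hN) ((K.bd_W r).const_mul _)]
  have hd : Bd fun (_ : Fin k → Z) y => |K.dot x y - K.q j| := K.bd_absdev j x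
  rw [dev, ← K.E_tower hd hjr hr]
  refine K.E_abs_le_mul ((hM.mul hN).sub ((K.bd_W r).const_mul _)) (K.bd_E hd r) (fun z' _ => ?_) j z
  show |K.xM r z' x * K.xN r z' x - K.q j * K.q j * K.W r z'| ≤ _
  have a1 : |K.xM r z' x - K.q j| ≤ K.E r (fun _ y => |K.dot x y - K.q j|) z' := by
    conv_lhs => rw [K.xM_eq, ← K.E_const (K.q j) r z', ← K.E_sub (K.bd_dot x) (Bd.const _)]
    exact K.E_abs_le ((K.bd_dot x).sub (Bd.const _)) hd (fun _ _ => le_rfl) r z'
  have a2 : |K.xN r z' x - K.q j * K.W r z'|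
      ≤ K.B * K.E r (fun _ y => |K.dot x y - K.q j|) z' := by
    rw [K.xN_eq, W, ← K.E_const_mul (K.q j), ← K.E_sub (K.bd_wt.mul (K.bd_dot x))
      (K.bd_wt.const_mul _)]
    refine K.E_abs_le_mul ((K.bd_wt.mul (K.bd_dot x)).sub (K.bd_wt.const_mul _)) hd
      (fun _ y => ?_) r z'
    rw [mul_comm (K.q j), ← mul_sub, abs_mul]
    exact mul_le_mul_of_nonneg_right (K.wt_le y) (abs_nonneg _)
  have e : K.xM r z' x * K.xN r z' x - K.q j * K.q j * K.W r z'
      = (K.xM r z' x - K.q j) * K.xN r z' x + K.q j * (K.xN r z' x - K.q j * K.W r z') := by ring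
  have b1 := mul_le_mul a1 (K.xN_le r z' x) (abs_nonneg _) ((abs_nonneg _).trans a1)
  have b2 := mul_le_mul (K.q_le j) a2 (abs_nonneg _) zero_le_one
  rw [e]
  refine (abs_add_le _ _).trans ?_
  rw [abs_mul, abs_mul]
  linarith

/-- The trace minus the quadratic form of the derivative. -/
theorem trace_eq (j : ℕ) (z) (x : X) :
    ∑ i, K.dG j i z x
      = (K.W j z - mass k * ∑ r ∈ Icc (j + 1) k, K.E j (fun z _ => K.MN r r z) z
          - lev k (j + 1) * K.MN j j z)
        - (K.E j (fun _ y => K.wt y * (K.dot x y * K.dot x y)) z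
          - mass k * ∑ r ∈ Icc (j + 1) k, K.E j (fun z' _ => K.xM r z' x * K.xN r z' x) z
          - lev k (j + 1) * (K.xM j z x * K.xN j z x)) := by
  have hD : ∀ b i, K.D j b i z = K.E j (fun _ y => K.ξ y b * (K.wt y * K.ξ y i)) z
      - mass k * ∑ r ∈ Icc (j + 1) k, K.E j (fun z _ => K.M r b z * K.Nv r i z) z
      - lev k (j + 1) * (K.M j b z * K.Nv j i z) := fun b i => by
    simp only [D, cndDer, zero_add]
    rfl
  set Q : (Fin n → Fin n → ℝ) → ℝ := fun c =>
    ∑ i, (c i i - (∑ b, K.ξ x b * c b i) * K.ξ x i) with hQ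
  have hdouble : ∀ (r : ℕ) (c : Fin n → Fin n → (Fin k → Z) → X → ℝ) (_ : ∀ b i, Bd (c b i)),
      ∑ i, (∑ b, K.ξ x b * K.E r (c b i) z) * K.ξ x i
        = K.E r (fun z' y => ∑ i, ∑ b, K.ξ x b * K.ξ x i * c b i z' y) z := fun r c hc => by
    rw [K.E_sum univ fun i _ => Bd.sum _ fun b _ => (hc b i).const_mul _]
    refine sum_congr rfl fun i _ => ?_
    rw [K.E_sum univ fun b _ => (hc b i).const_mul _, sum_mul]
    exact sum_congr rfl fun b _ => by rw [K.E_const_mul]; ring
  have qA : Q (fun b i => K.E j (fun _ y => K.ξ y b * (K.wt y * K.ξ y i)) z)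
      = K.W j z - K.E j (fun _ y => K.wt y * (K.dot x y * K.dot x y)) z := by
    have hb : ∀ b i, Bd fun (_ : Fin k → Z) y => K.ξ y b * (K.wt y * K.ξ y i) := fun b i =>
      (K.bd_coord b).mul (K.bd_wt.mul (K.bd_coord i))
    rw [hQ]
    simp only [sum_sub_distrib]
    rw [hdouble j _ hb, ← K.E_sum univ fun i _ => hb i i, W]
    congr 1
    · refine congrArg (fun φ => K.E j φ z) ?_
      funext _ y
      calc ∑ i, K.ξ y i * (K.wt y * K.ξ y i) = K.wt y * ∑ i, K.ξ y i * K.ξ y i := by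
            rw [mul_sum]; exact sum_congr rfl fun i _ => by ring
        _ = K.wt y := by rw [K.unit, mul_one]
    · refine congrArg (fun φ => K.E j φ z) ?_
      funext _ y
      simp only [dot, sum_mul, mul_sum]
      exact sum_congr rfl fun i _ => sum_congr rfl fun b _ => by ring
  have qC : ∀ r z', ∑ i, (∑ b, K.ξ x b * (K.M r b z' * K.Nv r i z')) * K.ξ x i
      = K.xM r z' x * K.xN r z' x := fun r z' => by
    simp only [xM, xN, sum_mul, mul_sum]
    exact sum_congr rfl fun i _ => sum_congr rfl fun b _ => by ring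
  have qB : ∀ r, Q (fun b i => K.E j (fun z _ => K.M r b z * K.Nv r i z) z)
      = K.E j (fun z _ => K.MN r r z) z
        - K.E j (fun z' _ => K.xM r z' x * K.xN r z' x) z := fun r => by
    have hb : ∀ b i, Bd fun z (_ : X) => K.M r b z * K.Nv r i z := fun b i =>
      (K.bd_M r b).mul (K.bd_Nv r i)
    rw [hQ]
    simp only [sum_sub_distrib]
    rw [hdouble j _ hb, ← K.E_sum univ fun i _ => hb i i]
    refine congrArg₂ (fun φ ψ => K.E j φ z - K.E j ψ z) rfl ?_
    funext z' _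
    rw [← qC r z']
    exact sum_congr rfl fun i _ => by rw [sum_mul]; exact sum_congr rfl fun b _ => by ring
  have hlin : ∑ i, K.dG j i z x
      = Q (fun b i => K.E j (fun _ y => K.ξ y b * (K.wt y * K.ξ y i)) z)
        - mass k * ∑ r ∈ Icc (j + 1) k, Q (fun b i => K.E j (fun z _ => K.M r b z * K.Nv r i z) z)
        - lev k (j + 1) * Q (fun b i => K.M j b z * K.Nv j i z) := by
    simp only [dG, hD, hQ, mul_sum]
    rw [sum_comm (s := Icc (j + 1) k), ← sum_sub_distrib, ← sum_sub_distrib]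
    refine sum_congr rfl fun i _ => ?_
    simp only [mul_sub, sub_mul, sum_sub_distrib, mul_sum, sum_mul]
    rw [sum_comm (s := univ) (t := Icc (j + 1) k)]
    simp only [mul_assoc, mul_left_comm (mass k), mul_left_comm (lev k (j + 1))]
    ring
  have qC' : Q (fun b i => K.M j b z * K.Nv j i z) = K.MN j j z - K.xM j z x * K.xN j z x := by
    rw [← qC j z, hQ]
    simp only [sum_sub_distrib, MN]
  rw [hlin, qA, qC', sum_congr rfl fun r _ => qB r, sum_sub_distrib]
  ring

/-- The derivative term. -/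
theorem trace_dev {j : ℕ} (hj : j ≤ k) :
    |K.E 0 (fun z x => K.wt x * ∑ i, K.dG j i z x) K.z₀ - K.gam j * vOf k K.q j|
      ≤ K.B ^ 2 * (7 * K.ov j + K.tot) := by
  have hD : ∀ b i, Bd fun z (_ : X) => K.D j b i z := fun b i =>
    (((K.bd_E ((Bd.const 0).add ((K.bd_coord b).mul (K.bd_wt.mul (K.bd_coord i)))) j).sub
      ((Bd.sum _ fun r _ => K.bd_E ((K.bd_M r b).mul (K.bd_Nv r i)) j).const_mul _))).sub
      (((K.bd_M j b).mul (K.bd_Nv j i)).const_mul _)
  have hsum : Bd fun z x => ∑ i, K.dG j i z x := Bd.sum _ fun i _ =>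
    (hD i i).sub ((Bd.sum _ fun b _ => (K.bd_coord b).mul (hD b i)).mul (K.bd_coord i))
  set ms := mass k * ∑ r ∈ Icc (j + 1) k, K.q r with hms
  have hEd : ∀ r, Bd fun z (_ : X) => K.E j (K.dev r) z := fun r => K.bd_E (K.bd_dev r) j
  set η : (Fin k → Z) → X → ℝ := fun z x => 6 * K.dev j z x + K.E j (K.dev j) z
    + mass k * ∑ r ∈ Icc (j + 1) k, K.E j (K.dev r) z with hη
  have hηb : Bd η := (((K.bd_dev j).const_mul _).add (hEd j)).add
    ((Bd.sum _ fun r _ => hEd r).const_mul _)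
  have key := K.root_close (φ := fun z x => ∑ i, K.dG j i z x)
    (ψ := fun z _ => vOf k K.q j * K.W j z) hsum ((K.bd_W j).const_mul _) hηb fun z x => by
    have hm : 0 ≤ mass k := by unfold mass; positivity
    have hl : 0 ≤ lev k (j + 1) := by unfold lev; positivity
    have hl1 : lev k (j + 1) ≤ 1 := by
      rw [lev, div_le_one (by positivity)]; exact_mod_cast Nat.succ_le_succ hj
    have hcount : mass k * (Icc (j + 1) k).card + lev k (j + 1) = 1 := by
      rw [Nat.card_Icc, mass, lev, Nat.cast_sub (by omega)]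
      field_simp
      push_cast
      ring
    have e1 : ∀ r ∈ Icc (j + 1) k, |K.E j (fun z _ => K.MN r r z) z - K.q r * K.W j z|
        ≤ K.B * K.E j (K.dev r) z := fun r hr => by
      have hjr : j ≤ r := by have := (mem_Icc.1 hr).1; omega
      have hrk := (mem_Icc.1 hr).2
      rw [W, ← K.E_tower K.bd_wt hjr hrk, ← K.E_const_mul (K.q r),
        ← K.E_sub (K.bd_MN r r) ((K.bd_E K.bd_wt r).const_mul _),
        ← K.E_tower (K.bd_dev r) hjr hrk]
      refine K.E_abs_le_mul ((K.bd_MN r r).sub ((K.bd_E K.bd_wt r).const_mul _))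
        (K.bd_E (K.bd_dev r) r) (fun z _ => ?_) j z
      simpa [W] using K.MN_dev (b := r) hrk z
    have e2 : |K.MN j j z - K.q j * K.W j z| ≤ K.B * K.E j (K.dev j) z := by
      simpa using K.MN_dev (b := j) hj z
    have e3 : |K.E j (fun _ y => K.wt y * (K.dot x y * K.dot x y)) z - K.q j * K.q j * K.W j z|
        ≤ 2 * K.B * K.dev j z x := by
      rw [W, ← K.E_const_mul, ← K.E_sub (K.bd_wt.mul ((K.bd_dot x).mul (K.bd_dot x)))
        (K.bd_wt.const_mul _)]
      refine K.E_abs_le_mul ((K.bd_wt.mul ((K.bd_dot x).mul (K.bd_dot x))).sub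
        (K.bd_wt.const_mul _)) (K.bd_absdev j x) (fun _ y => ?_) j z
      rw [mul_comm (K.q j * K.q j), ← mul_sub, abs_mul]
      have := mul_le_mul (K.wt_le y) (K.dot_sq_dev j x y) (abs_nonneg _) K.B_nonneg
      linarith
    have e4 : |K.xM j z x * K.xN j z x - K.q j * K.q j * K.W j z| ≤ 2 * K.B * K.dev j z x := by
      linarith [K.prod_dev j j z x]
    have e5 : ∀ r ∈ Icc (j + 1) k,
        |K.E j (fun z' _ => K.xM r z' x * K.xN r z' x) z - K.q j * K.q j * K.W j z|
          ≤ 2 * K.B * K.dev j z x := fun r hr =>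
      K.quad_dev (by have := (mem_Icc.1 hr).1; omega) (mem_Icc.1 hr).2 z x
    have s1 := (abs_sum_le_sum_abs _ _).trans (sum_le_sum e1)
    have s5 := (abs_sum_le_sum_abs _ _).trans (sum_le_sum e5)
    rw [sum_sub_distrib, ← sum_mul, ← mul_sum] at s1
    rw [sum_sub_distrib, sum_const, sum_const, nsmul_eq_mul, nsmul_eq_mul] at s5
    have S1 := mul_le_mul_of_nonneg_left s1 hm
    have S5 := mul_le_mul_of_nonneg_left s5 hm
    have S2 := mul_le_mul hl1 e2 (abs_nonneg _) zero_le_one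
    have S4 := mul_le_mul hl1 e4 (abs_nonneg _) zero_le_one
    have hc1 : mass k * (Icc (j + 1) k).card ≤ 1 := by linarith
    have S5' := mul_le_mul_of_nonneg_right hc1
      (mul_nonneg (mul_nonneg zero_le_two K.B_nonneg) (K.dev_le j z x))
    rw [← abs_of_nonneg hm, ← abs_mul] at S1 S5
    rw [← abs_of_nonneg hl, ← abs_mul] at S2 S4
    rw [abs_of_nonneg hm] at S1 S5
    rw [K.trace_eq, vOf_eq hj, abs_le]
    rw [abs_le] at S1 S2 S4 S5 e3
    have hz : (mass k * (Icc (j + 1) k).card + lev k (j + 1) - 1) * (K.q j * K.q j * K.W j z) = 0 := by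
      rw [hcount, sub_self, zero_mul]
    simp only [hη, mul_add]
    constructor <;>
      linarith [S1.1, S1.2, S2.1, S2.2, S4.1, S4.2, S5.1, S5.2, e3.1, e3.2, S5', hz]
  have e : K.E 0 (fun z x => K.wt x * (vOf k K.q j * K.W j z)) K.z₀ = K.gam j * vOf k K.q j := by
    rw [← K.root_wt_W hj, mul_comm _ (vOf k K.q j), ← K.E_const_mul]
    congr 1
    funext z x
    ring
  rw [e] at key
  refine key.trans (mul_le_mul_of_nonneg_left ?_ (sq_nonneg _))
  rw [hη, K.E_add (((K.bd_dev j).const_mul _).add (hEd j))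
      ((Bd.sum _ fun r _ => hEd r).const_mul _),
    K.E_add ((K.bd_dev j).const_mul _) (hEd j), K.E_const_mul, K.E_const_mul,
    K.E_sum _ fun r _ => hEd r, K.E_tower (K.bd_dev j) (Nat.zero_le j) hj]
  rw [sum_congr rfl fun r _ => K.E_tower (K.bd_dev r) (Nat.zero_le j) hj K.z₀]
  have hle : ∑ r ∈ Icc (j + 1) k, K.ov r ≤ ∑ r ∈ Icc 0 k, K.ov r :=
    sum_le_sum_of_subset_of_nonneg (Icc_subset_Icc (Nat.zero_le _) le_rfl)
      fun r _ _ => K.ov_nonneg r
  have := mul_le_mul_of_nonneg_left hle (by unfold mass; positivity : 0 ≤ mass k)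
  unfold tot
  simp only [ov] at this ⊢
  linarith

/-- The expression produced by integration by parts; the coordinate is seen from level `lo` on. -/
noncomputable def kexp (j lo : ℕ) : ℝ :=
  (if lo ≤ j then K.E 0 (fun z x => K.wt x * ∑ i, K.dG j i z x) K.z₀ else 0)
    - mass k * ∑ r ∈ Icc lo k, ∑ i,
        K.E 0 (fun z _ => K.E r (fun z x => K.wt x * K.G j i z x) z * K.Nv r i z) K.z₀

/-- Its value in overlaps. -/
noncomputable def kval (j lo : ℕ) : ℝ :=
  (if lo ≤ j then K.gam j * vOf k K.q j else 0)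
    - mass k * ∑ r ∈ Icc lo k, (K.q (min j r) - K.q j * K.q r) * K.gam r

theorem tot_nonneg : 0 ≤ K.tot := by
  refine mul_nonneg (by unfold mass; positivity) (sum_nonneg fun r _ => K.ov_nonneg r)

/-- The kernel estimate. -/
theorem kexp_dev {j : ℕ} (hj : j ≤ k) (lo : ℕ) :
    |K.kexp j lo - K.kval j lo| ≤ K.B ^ 2 * (9 * K.ov j + 3 * K.tot) := by
  have hm : 0 ≤ mass k := by unfold mass; positivity
  have hB := sq_nonneg K.B
  have h2 : |mass k * ∑ r ∈ Icc lo k, ∑ i,
        K.E 0 (fun z _ => K.E r (fun z x => K.wt x * K.G j i z x) z * K.Nv r i z) K.z₀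
      - mass k * ∑ r ∈ Icc lo k, (K.q (min j r) - K.q j * K.q r) * K.gam r|
      ≤ 2 * K.B ^ 2 * (K.ov j + K.tot) := by
    rw [← mul_sub, ← sum_sub_distrib, abs_mul, abs_of_nonneg hm]
    refine (mul_le_mul_of_nonneg_left ((abs_sum_le_sum_abs _ _).trans
      ((sum_le_sum fun r hr => K.cross_dev hj (mem_Icc.1 hr).2).trans
        (sum_le_sum_of_subset_of_nonneg (Icc_subset_Icc (Nat.zero_le lo) le_rfl) fun r _ _ =>
          mul_nonneg (by positivity) (add_nonneg (K.ov_nonneg j) (K.ov_nonneg r))))) hm).trans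
      (le_of_eq ?_)
    rw [← mul_sum, sum_add_distrib, sum_const, Nat.card_Icc, nsmul_eq_mul, tot, mass]
    push_cast
    field_simp
  have h1 : |(if lo ≤ j then K.E 0 (fun z x => K.wt x * ∑ i, K.dG j i z x) K.z₀ else 0)
      - (if lo ≤ j then K.gam j * vOf k K.q j else 0)| ≤ K.B ^ 2 * (7 * K.ov j + K.tot) := by
    split_ifs
    · exact K.trace_dev hj
    · rw [sub_self, abs_zero]
      exact mul_nonneg hB (by linarith [K.ov_nonneg j, K.tot_nonneg])
  rw [kexp, kval]
  rw [abs_le] at h1 h2 ⊢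
  constructor <;> linarith [h1.1, h1.2, h2.1, h2.2]

/-! ### crude bounds -/

theorem bd_D (j : ℕ) (b i : Fin n) : Bd fun z (_ : X) => K.D j b i z :=
  (((K.bd_E ((Bd.const 0).add ((K.bd_coord b).mul (K.bd_wt.mul (K.bd_coord i)))) j).sub
    ((Bd.sum _ fun r _ => K.bd_E ((K.bd_M r b).mul (K.bd_Nv r i)) j).const_mul _))).sub
    (((K.bd_M j b).mul (K.bd_Nv j i)).const_mul _)

theorem bd_dG (j : ℕ) (i : Fin n) : Bd (K.dG j i) :=
  (K.bd_D j i i).sub ((Bd.sum _ fun b _ => (K.bd_coord b).mul (K.bd_D j b i)).mul (K.bd_coord i))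

theorem G_le (j : ℕ) (i : Fin n) (z) (x : X) : |K.G j i z x| ≤ 2 := by
  have h1 : |K.M j i z| ≤ 1 :=
    cnd_abs_le K.linB (K.bd_coord i).1 (fun _ x => K.coord_le x i) j z
  have h2 : |K.xM j z x * K.ξ x i| ≤ 1 := by
    rw [abs_mul]
    exact mul_le_one₀ (K.xM_le j z x) (abs_nonneg _) (K.coord_le x i)
  exact (abs_sub _ _).trans (by linarith)

theorem D_le {j : ℕ} (hj : j ≤ k) (b i : Fin n) (z) : |K.D j b i z| ≤ 3 * K.B := by
  have h : ∀ y, |K.wt y * K.ξ y i| ≤ K.B := fun y => by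
    rw [abs_mul]
    exact (mul_le_of_le_one_right (abs_nonneg _) (K.coord_le y i)).trans (K.wt_le y)
  have := cndDer_abs_le (γ := K.γ) (μ := K.μ) K.linB (φ := fun _ x => K.ξ x b)
    (dH := fun _ x => K.wt x * K.ξ x i) (dφ := fun _ _ => 0) (K.bd_coord b).tame
    (K.bd_wt.mul (K.bd_coord i)).tame measurable_const (a := 1) (b := K.B) (c := 0)
    (fun _ x => K.coord_le x b) (fun _ y => h y) (fun _ _ => by simp) hj z zero_le_one K.B_nonneg
  unfold D
  linarith

theorem dG_le {j : ℕ} (hj : j ≤ k) (i : Fin n) (z) (x : X) :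
    |K.dG j i z x| ≤ 3 * K.B * (1 + n) := by
  have h : |∑ b, K.ξ x b * K.D j b i z| ≤ n * (3 * K.B) := by
    refine (abs_sum_le_sum_abs _ _).trans ((sum_le_card_nsmul _ _ (3 * K.B) fun b _ => ?_).trans
      (le_of_eq (by simp)))
    rw [abs_mul]
    exact (mul_le_of_le_one_left (abs_nonneg _) (K.coord_le x b)).trans (K.D_le hj b i z)
  have h2 : |(∑ b, K.ξ x b * K.D j b i z) * K.ξ x i| ≤ n * (3 * K.B) := by
    rw [abs_mul]
    exact (mul_le_of_le_one_right (abs_nonneg _) (K.coord_le x i)).trans h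
  exact (abs_sub _ _).trans (by linarith [K.D_le hj i i z])

end Ker

end Vale.Agent.P157.Rsb.Cst
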