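import Vale.Agent.P157.Rsb.ConsistSystem

/-!
# P157: integration by parts in the patterns and at the leaves of the sphere system
-/

open MeasureTheory ProbabilityTheory Real Finset

namespace Vale.Agent.P157.Rsb.Cst

variable {N M k : ℕ} {f : ℝ → ℝ} {L B : ℝ} (hp : Pot f L B) (σ : ℕ → ℝ) (q : ℕ → ℝ)
  (hq : ∀ r, |q r| ≤ 1)

/-- Replace one entry of the patterns. -/
def updG (a : Fin M) (i : Fin (N + 1)) (t : ℝ) (g : Pat M N) : Pat M N :=
  Function.update g a (Function.update (g a) i t)

theorem sdot_updG (g : Pat M N) (a : Fin M) (i : Fin (N + 1)) (t : ℝ) (b : Fin M) (v : Fin (N + 1) → ℝ) :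
    sdot (updG a i t g b) v = sdot (g b) v + if b = a then v i * (t - g a i) else 0 := by
  by_cases hb : b = a
  · subst hb
    rw [if_pos rfl]
    have e : ∀ i', updG b i t g b i' * v i' = g b i' * v i'
        + if i' = i then v i * (t - g b i) else 0 := fun i' => by
      by_cases hi : i' = i
      · subst hi; simp [updG]; ring
      · simp [updG, hi]
    simp only [sdot, e, sum_add_distrib, sum_ite_eq', mem_univ, if_true]
  · simp [updG, hb]

theorem pw_updG_deriv (g : Pat M N) (a : Fin M) (i : Fin (N + 1)) (t : ℝ) (b : Fin M) (x : Vec N) :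
    HasDerivAt (fun u => sdot (updG a i u g b) (fl x)) (if b = a then fl x i else 0) t := by
  simp only [sdot_updG]
  by_cases hb : b = a
  · simp only [if_pos hb]; exact hasDeriv_affine _ _ _ _
  · simp only [if_neg hb, add_zero]; exact hasDerivAt_const _ _

include hp in
theorem HM_updG_deriv (g : Pat M N) (a : Fin M) (i : Fin (N + 1)) (t : ℝ) (z : Fin k → Fld N)
    (x : Vec N) :
    HasDerivAt (fun u => HM f σ (updG a i u g) z x) (pw f (updG a i t g) a x * fl x i) t := by
  simp only [HM_eq]
  have h := HasDerivAt.fun_sum (u := univ) fun b (_ : b ∈ (univ : Finset (Fin M))) =>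
    (hp.hasDeriv _).comp t (pw_updG_deriv g a i t b x)
  simp only [mul_ite, mul_zero, sum_ite_eq', mem_univ, if_true] at h
  exact ((h.add_const _).sub_const _)

theorem meas_fl_coord (i : Fin (N + 1)) : Measurable fun x : Vec N => fl x i :=
  (measurable_pi_apply i).comp fl_meas

include hp in
theorem pw_meas_right (g : Pat M N) (a : Fin M) : Measurable (pw f g a) :=
  (pw_meas_par hp a).comp (measurable_const.prodMk measurable_id)

include hp in
theorem dH_abs_le (g : Pat M N) (a : Fin M) (i : Fin (N + 1)) (x : Vec N) :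
    |pw f g a x * fl x i| ≤ B := by
  rw [abs_mul]
  exact (mul_le_of_le_one_right (abs_nonneg _) (fl_le x i)).trans (hp.der_le _)

theorem M_deriv_row (g : Pat M N) (a : Fin M) (i b : Fin (N + 1)) (t : ℝ) {j : ℕ} (hj : j ≤ k)
    (z : Fin k → Fld N) :
    HasDerivAt (fun u => (kerRow (k := k) hp σ (updG a i u g) a q hq).M j b z)
      ((kerRow (k := k) hp σ (updG a i t g) a q hq).D j b i z) t := by
  set A := hmBound M N k L σ + B + 1
  have hA0 := hmBound_nonneg (M := M) (N := N) (k := k) (L := L) σ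
  have hB := hp.nonneg
  have F : Family (gaussSize (FieldIdx (N + 1))) (fun u z x => HM (k := k) f σ (updG a i u g) z x)
      (fun _ _ x => fl x b) (fun u _ x => pw f (updG a i u g) a x * fl x i) (fun _ _ _ => 0) t 1 := by
    refine ⟨one_pos, fun u => (HM_linB hp σ _).meas, fun u => ?_,
      fun _ => (meas_fl_coord b).comp measurable_snd, fun _ => measurable_const,
      ⟨A, by positivity, fun u _ z x => ?_⟩, fun u _ z x => HM_updG_deriv hp σ g a i u z x,
      fun u _ z x => hasDerivAt_const _ _⟩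
    · exact ((pw_meas_right hp _ a).mul (meas_fl_coord i)).comp measurable_snd
    · have ht := (gaussSize (FieldIdx (N + 1))).tot_nonneg z
      have he : 1 ≤ exp (A * (gaussSize (FieldIdx (N + 1))).tot z) :=
        one_le_exp (mul_nonneg (by positivity) ht)
      refine ⟨(HM_abs hp σ _ z x).trans (mul_le_mul_of_nonneg_right (by linarith) (by linarith)), ?_, ?_, ?_⟩
      · exact (dH_abs_le hp _ a i x).trans ((by linarith : B ≤ A).trans
          (le_mul_of_one_le_right (by positivity) he))
      · exact (fl_le x b).trans ((by linarith : (1 : ℝ) ≤ A).trans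
          (le_mul_of_one_le_right (by positivity) he))
      · rw [abs_zero]; positivity
  exact hasDerivAt_cnd (μ := mu1 N) F hj z

theorem G_deriv_row (g : Pat M N) (a : Fin M) (i : Fin (N + 1)) (t : ℝ) {j : ℕ} (hj : j ≤ k)
    (z : Fin k → Fld N) (x : Vec N) :
    HasDerivAt (fun u => (kerRow (k := k) hp σ (updG a i u g) a q hq).G j i z x)
      ((kerRow (k := k) hp σ (updG a i t g) a q hq).dG j i z x) t :=
  (M_deriv_row hp σ q hq g a i i t hj z).sub ((HasDerivAt.fun_sum (u := univ)
    fun b _ => (M_deriv_row hp σ q hq g a i b t hj z).const_mul (fl x b)).mul_const (fl x i))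

theorem M_meas_row (a : Fin M) (j : ℕ) (b : Fin (N + 1)) :
    Measurable fun p : Pat M N × (Fin k → Fld N) => (kerRow (k := k) hp σ p.1 a q hq).M j b p.2 :=
  cnd_measurable_param (γ := gam1 N) (μ := mu1 N) (H := fun g => HM f σ g)
    (φ := fun _ _ x => fl x b) (HM_meas hp σ) ((meas_fl_coord b).comp measurable_snd) j

theorem G_meas_row (a : Fin M) (j : ℕ) (i : Fin (N + 1)) :
    Measurable fun p : (Pat M N × (Fin k → Fld N)) × Vec N =>
      (kerRow (k := k) hp σ p.1.1 a q hq).G j i p.1.2 p.2 :=
  ((M_meas_row hp σ q hq a j i).comp measurable_fst).sub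
    ((Finset.measurable_sum _ fun b _ => ((meas_fl_coord b).comp measurable_snd).mul
      ((M_meas_row hp σ q hq a j b).comp measurable_fst)).mul ((meas_fl_coord i).comp measurable_snd))

include hp in
theorem pw_meas3 (a : Fin M) :
    Measurable fun p : (Pat M N × (Fin k → Fld N)) × Vec N => pw f p.1.1 a p.2 :=
  (pw_meas_par hp a).comp ((measurable_fst.comp measurable_fst).prodMk measurable_snd)

theorem D_meas_row (a : Fin M) (j : ℕ) (b i : Fin (N + 1)) :
    Measurable fun p : Pat M N × (Fin k → Fld N) => (kerRow (k := k) hp σ p.1 a q hq).D j b i p.2 :=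
  measurable_cndDer_par (γ := gam1 N) (μ := mu1 N) (H := fun g => HM f σ g)
    (φ := fun _ _ x => fl x b) (dH := fun g _ x => pw f g a x * fl x i) (dφ := fun _ _ _ => 0)
    (HM_meas hp σ) ((meas_fl_coord b).comp measurable_snd)
    ((pw_meas3 hp a).mul ((meas_fl_coord i).comp measurable_snd)) measurable_const j

theorem dG_meas_row (a : Fin M) (j : ℕ) (i : Fin (N + 1)) :
    Measurable fun p : (Pat M N × (Fin k → Fld N)) × Vec N =>
      (kerRow (k := k) hp σ p.1.1 a q hq).dG j i p.1.2 p.2 :=
  ((D_meas_row hp σ q hq a j i i).comp measurable_fst).sub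
    ((Finset.measurable_sum _ fun b _ => ((meas_fl_coord b).comp measurable_snd).mul
      ((D_meas_row hp σ q hq a j b i).comp measurable_fst)).mul ((meas_fl_coord i).comp measurable_snd))

/-- The observable of the entry in row a, column i. -/
noncomputable def rowObs (a : Fin M) (i : Fin (N + 1)) (j : ℕ) (g : Pat M N) (z : Fin k → Fld N)
    (x : Vec N) : ℝ :=
  pw f g a x * (kerRow (k := k) hp σ g a q hq).G j i z x

/-- The derivative of the observable. -/
noncomputable def rowDer (a : Fin M) (i : Fin (N + 1)) (j : ℕ) (g : Pat M N) (z : Fin k → Fld N)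
    (x : Vec N) : ℝ :=
  deriv (deriv f) (sdot (g a) (fl x)) * fl x i * (kerRow (k := k) hp σ g a q hq).G j i z x
    + pw f g a x * (kerRow (k := k) hp σ g a q hq).dG j i z x

/-- The root average of the observable. -/
noncomputable def rowF (k : ℕ) (a : Fin M) (i : Fin (N + 1)) (j : ℕ) (g : Pat M N) : ℝ :=
  cnd (k := k) (gam1 N) (mu1 N) (HM f σ g) (rowObs hp σ q hq a i j g) 0 fun _ _ => 0

/-- Its derivative. -/
noncomputable def rowF' (k : ℕ) (a : Fin M) (i : Fin (N + 1)) (j : ℕ) (g : Pat M N) : ℝ :=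
  cndDer (k := k) (gam1 N) (mu1 N) (HM f σ g) (rowObs hp σ q hq a i j g)
    (fun _ x => pw f g a x * fl x i) (rowDer hp σ q hq a i j g) 0 fun _ _ => 0

theorem rowObs_meas (a : Fin M) (i : Fin (N + 1)) (j : ℕ) :
    Measurable fun p : (Pat M N × (Fin k → Fld N)) × Vec N => rowObs hp σ q hq a i j p.1.1 p.1.2 p.2 :=
  (pw_meas3 hp a).mul (G_meas_row hp σ q hq a j i)

theorem rowDer_meas (a : Fin M) (i : Fin (N + 1)) (j : ℕ) :
    Measurable fun p : (Pat M N × (Fin k → Fld N)) × Vec N => rowDer hp σ q hq a i j p.1.1 p.1.2 p.2 :=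
  (((((hp.smooth.deriv' (n := 1)).continuous_deriv le_rfl).measurable.comp
    ((measurable_sdot_row a).comp ((measurable_fst.comp measurable_fst).prodMk measurable_snd))).mul
      ((meas_fl_coord i).comp measurable_snd)).mul (G_meas_row hp σ q hq a j i)).add
    ((pw_meas3 hp a).mul (dG_meas_row hp σ q hq a j i))

theorem rowObs_le (a : Fin M) (i : Fin (N + 1)) (j : ℕ) (g : Pat M N) (z : Fin k → Fld N) (x : Vec N) :
    |rowObs hp σ q hq a i j g z x| ≤ 2 * B := by
  rw [rowObs, abs_mul, mul_comm (2 : ℝ)]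
  exact mul_le_mul (hp.der_le _) (Ker.G_le _ j i z x) (abs_nonneg _) hp.nonneg

theorem rowDer_le (a : Fin M) (i : Fin (N + 1)) {j : ℕ} (hj : j ≤ k) (g : Pat M N) (z : Fin k → Fld N)
    (x : Vec N) :
    |rowDer hp σ q hq a i j g z x| ≤ 2 * B + B * (3 * B * (1 + (N + 1 : ℕ))) := by
  refine (abs_add_le _ _).trans (add_le_add ?_ ?_)
  · rw [abs_mul, abs_mul, mul_comm (2 : ℝ)]
    exact mul_le_mul ((mul_le_of_le_one_right (abs_nonneg _) (fl_le x i)).trans (hp.der2_le _))
      (Ker.G_le _ j i z x) (abs_nonneg _) hp.nonneg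
  · rw [abs_mul]
    exact mul_le_mul (hp.der_le _) (Ker.dG_le (kerRow (k := k) hp σ g a q hq) hj i z x)
      (abs_nonneg _) hp.nonneg

theorem rowObs_meas_right (a : Fin M) (i : Fin (N + 1)) (j : ℕ) (g : Pat M N) :
    Measurable (Function.uncurry (rowObs (k := k) hp σ q hq a i j g)) := by
  have h : Measurable fun p : (Fin k → Fld N) × Vec N => ((g, p.1), p.2) :=
    (measurable_const.prodMk measurable_fst).prodMk measurable_snd
  have h2 : Measurable ((fun p : (Pat M N × (Fin k → Fld N)) × Vec N =>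
      rowObs hp σ q hq a i j p.1.1 p.1.2 p.2) ∘
      fun p : (Fin k → Fld N) × Vec N => ((g, p.1), p.2)) := (rowObs_meas hp σ q hq a i j).comp h
  exact h2

theorem rowDer_meas_right (a : Fin M) (i : Fin (N + 1)) (j : ℕ) (g : Pat M N) :
    Measurable (Function.uncurry (rowDer (k := k) hp σ q hq a i j g)) := by
  have h : Measurable fun p : (Fin k → Fld N) × Vec N => ((g, p.1), p.2) :=
    (measurable_const.prodMk measurable_fst).prodMk measurable_snd
  have h2 : Measurable ((fun p : (Pat M N × (Fin k → Fld N)) × Vec N =>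
      rowDer hp σ q hq a i j p.1.1 p.1.2 p.2) ∘
      fun p : (Fin k → Fld N) × Vec N => ((g, p.1), p.2)) := (rowDer_meas hp σ q hq a i j).comp h
  exact h2

theorem rowF_deriv (a : Fin M) (i : Fin (N + 1)) {j : ℕ} (hj : j ≤ k) (g : Pat M N) :
    HasDerivAt (fun u => rowF hp σ q hq k a i j (updG a i u g))
      (rowF' hp σ q hq k a i j g) (g a i) := by
  set C := 2 * B + B * (3 * B * (1 + (N + 1 : ℕ))) with hC
  set A := hmBound M N k L σ + B + C
  have hA0 := hmBound_nonneg (M := M) (N := N) (k := k) (L := L) σ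
  have hB := hp.nonneg
  have hC0 : 0 ≤ B * (3 * B * (1 + (N + 1 : ℕ))) := by positivity
  have F : Family (gaussSize (FieldIdx (N + 1))) (fun u z x => HM (k := k) f σ (updG a i u g) z x)
      (fun u => rowObs hp σ q hq a i j (updG a i u g))
      (fun u _ x => pw f (updG a i u g) a x * fl x i)
      (fun u => rowDer hp σ q hq a i j (updG a i u g)) (g a i) 1 := by
    refine ⟨one_pos, fun u => (HM_linB hp σ _).meas, fun u => ?_, fun u => ?_, fun u => ?_,
      ⟨A, by positivity, fun u _ z x => ?_⟩, fun u _ z x => HM_updG_deriv hp σ g a i u z x,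
      fun u _ z x => ?_⟩
    · exact ((pw_meas_right hp _ a).mul (meas_fl_coord i)).comp measurable_snd
    · exact rowObs_meas_right hp σ q hq a i j _
    · exact rowDer_meas_right hp σ q hq a i j _
    · have ht := (gaussSize (FieldIdx (N + 1))).tot_nonneg z
      have he : 1 ≤ exp (A * (gaussSize (FieldIdx (N + 1))).tot z) :=
        one_le_exp (mul_nonneg (by positivity) ht)
      have hup : ∀ {v : ℝ}, v ≤ A → v ≤ A * exp (A * (gaussSize (FieldIdx (N + 1))).tot z) :=
        fun h => h.trans (le_mul_of_one_le_right (by positivity) he)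
      exact ⟨(HM_abs hp σ _ z x).trans (mul_le_mul_of_nonneg_right (by linarith) (by linarith)),
        (dH_abs_le hp _ a i x).trans (hup (by linarith)),
        (rowObs_le hp σ q hq a i j _ z x).trans (hup (by linarith)),
        (rowDer_le hp σ q hq a i hj _ z x).trans (hup (by linarith))⟩
    · have h1 := (hp.hasDeriv2 _).comp u (pw_updG_deriv g a i u a x)
      rw [if_pos rfl] at h1
      exact h1.mul (G_deriv_row hp σ q hq g a i u hj z x)
  have h := hasDerivAt_cnd (μ := mu1 N) F (Nat.zero_le k) (fun _ _ => 0)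
  rw [show updG a i (g a i) g = g by simp [updG]] at h
  exact h

theorem rowF_meas (a : Fin M) (i : Fin (N + 1)) (j : ℕ) : Measurable (rowF hp σ q hq k a i j) := by
  have h := cnd_measurable_param (k := k) (γ := gam1 N) (μ := mu1 N) (H := fun g : Pat M N => HM f σ g)
    (φ := rowObs hp σ q hq a i j) (HM_meas hp σ) (rowObs_meas hp σ q hq a i j) 0
  have h1 : Measurable fun g : Pat M N => (g, (fun _ _ => 0 : Fin k → Fld N)) :=
    measurable_id.prodMk measurable_const
  have h2 := h.comp h1
  exact h2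

theorem rowF'_meas (a : Fin M) (i : Fin (N + 1)) (j : ℕ) : Measurable (rowF' hp σ q hq k a i j) := by
  have hd : Measurable fun p : (Pat M N × (Fin k → Fld N)) × Vec N => pw f p.1.1 a p.2 * fl p.2 i :=
    (pw_meas3 hp a).mul ((meas_fl_coord i).comp measurable_snd)
  have h := measurable_cndDer_par (k := k) (γ := gam1 N) (μ := mu1 N) (H := fun g : Pat M N => HM f σ g)
    (φ := rowObs hp σ q hq a i j) (dH := fun g _ x => pw f g a x * fl x i)
    (dφ := rowDer hp σ q hq a i j) (HM_meas hp σ) (rowObs_meas hp σ q hq a i j)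
    hd (rowDer_meas hp σ q hq a i j) 0
  have h1 : Measurable fun g : Pat M N => (g, (fun _ _ => 0 : Fin k → Fld N)) :=
    measurable_id.prodMk measurable_const
  have h2 := h.comp h1
  exact h2

theorem row_bdd (a : Fin M) (i : Fin (N + 1)) {j : ℕ} (hj : j ≤ k) (g : Pat M N) :
    |rowF hp σ q hq k a i j g| ≤ 2 * B + B * (3 * B * (1 + (N + 1 : ℕ))) + 3 * (2 * B * B) ∧
      |rowF' hp σ q hq k a i j g| ≤ 2 * B + B * (3 * B * (1 + (N + 1 : ℕ))) + 3 * (2 * B * B) := by
  have hB := hp.nonneg
  have hT : Tame (gaussSize (FieldIdx (N + 1))) (rowObs (k := k) hp σ q hq a i j g) :=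
    Tame.of_bdd (rowObs_meas_right hp σ q hq a i j g) (rowObs_le hp σ q hq a i j g)
  refine ⟨(cnd_abs_le (HM_linB hp σ g) hT.meas (rowObs_le hp σ q hq a i j g) 0 _).trans ?_, ?_⟩
  · have : 0 ≤ B * (3 * B * (1 + (N + 1 : ℕ))) := by positivity
    nlinarith
  · exact cndDer_abs_le (HM_linB hp σ g) hT
      (Tame.of_bdd (φ := fun _ x => pw f g a x * fl x i)
        (((pw_meas_right hp g a).mul (meas_fl_coord i)).comp measurable_snd)
        (fun _ x => dH_abs_le hp g a i x))
      (rowDer_meas_right hp σ q hq a i j g) (rowObs_le hp σ q hq a i j g)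
      (fun _ x => dH_abs_le hp g a i x) (rowDer_le hp σ q hq a i hj g) (Nat.zero_le k) _
      (by positivity) hB

/-- The derivative terms of one row. -/
theorem row_sum (a : Fin M) {j : ℕ} (hj : j ≤ k) (g : Pat M N) :
    ∑ i, rowF' hp σ q hq k a i j g = (kerRow (k := k) hp σ g a q hq).kexp j 0 := by
  set K := kerRow (k := k) hp σ g a q hq with hK
  have hobs : ∀ i, Bd (rowObs (k := k) hp σ q hq a i j g) := fun i =>
    ⟨rowObs_meas_right hp σ q hq a i j g, _, rowObs_le hp σ q hq a i j g⟩
  have hder : ∀ i, Bd (rowDer (k := k) hp σ q hq a i j g) := fun i =>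
    ⟨rowDer_meas_right hp σ q hq a i j g, _, rowDer_le hp σ q hq a i hj g⟩
  have hdH : ∀ i, Bd fun (_ : Fin k → Fld N) x => K.wt x * K.ξ x i := fun i => K.bd_wt.mul (K.bd_coord i)
  have hform : ∀ i, rowF' hp σ q hq k a i j g
      = K.E 0 (fun z x => rowDer hp σ q hq a i j g z x
          + rowObs hp σ q hq a i j g z x * (K.wt x * K.ξ x i)) K.z₀
        - mass k * ∑ r ∈ Icc 0 k,
            K.E 0 (fun z _ => K.E r (fun z x => K.wt x * K.G j i z x) z * K.Nv r i z) K.z₀ := fun i => by
    have e0 : K.E 0 (fun z _ => K.E 0 (fun z x => K.wt x * K.G j i z x) z * K.Nv 0 i z) K.z₀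
        = K.E 0 (fun z x => K.wt x * K.G j i z x) K.z₀ * K.Nv 0 i K.z₀ :=
      cnd_const_fun K.linB (c := fun z => K.E 0 (fun z x => K.wt x * K.G j i z x) z * K.Nv 0 i z)
        (fun z z' h => by
          simp only [Ker.Nv, K.E_upto 0 _ z z' h]) K.z₀
    rw [← add_sum_Ioc_eq_sum_Icc (Nat.zero_le k), e0, mul_add, show Ioc 0 k = Icc (0 + 1) k from
      Finset.ext fun r => by simp only [mem_Ioc, mem_Icc]; omega]
    have hl : lev k (0 + 1) = mass k := by simp [lev, mass]
    simp only [rowF', cndDer, hl]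
    rw [sub_sub, add_comm (mass k * _) _]
    rfl
  simp only [hform, sum_sub_distrib, Ker.kexp, Nat.zero_le, if_true]
  rw [← K.E_sum univ fun i _ => (hder i).add ((hobs i).mul (hdH i)), ← mul_sum, sum_comm]
  congr 2
  funext z x
  have hx := K.sum_xG j z x
  have e : ∀ i, rowDer hp σ q hq a i j g z x + rowObs hp σ q hq a i j g z x * (K.wt x * K.ξ x i)
      = (deriv (deriv f) (sdot (g a) (fl x)) + K.wt x * K.wt x) * (K.ξ x i * K.G j i z x)
        + K.wt x * K.dG j i z x := fun i => by
    simp only [rowDer, rowObs, hK, kerRow, ker]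
    ring
  simp only [e, sum_add_distrib, ← mul_sum, hx, mul_zero, zero_add]

/-- Integration by parts in one row. -/
theorem row_ibp (a : Fin M) {j : ℕ} (hj : j ≤ k) :
    (∀ i, Integrable (fun g => g a i * rowF hp σ q hq k a i j g) (patterns M (N + 1))) ∧
      Integrable (fun g => (kerRow (k := k) hp σ g a q hq).kexp j 0) (patterns M (N + 1)) ∧
      ∑ i, ∫ g, g a i * rowF hp σ q hq k a i j g ∂patterns M (N + 1)
        = ∫ g, (kerRow (k := k) hp σ g a q hq).kexp j 0 ∂patterns M (N + 1) := by
  have : IsProbabilityMeasure (patterns M (N + 1)) := by unfold patterns; infer_instance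
  have hi' : ∀ i, Integrable (rowF' hp σ q hq k a i j) (patterns M (N + 1)) := fun i =>
    Integrable.of_bound (rowF'_meas hp σ q hq a i j).aestronglyMeasurable _
      (ae_of_all _ fun g => (row_bdd hp σ q hq a i hj g).2)
  have hi : ∀ i, Integrable (fun g => g a i * rowF hp σ q hq k a i j g) (patterns M (N + 1)) := fun i => by
    have h1 : Integrable (fun g : Pat M N => g a i) (patterns M (N + 1)) := by
      have h2 : Integrable (fun v : Fin (N + 1) → ℝ => v i) (Measure.pi fun _ => gaussianReal 0 1) :=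
        integrable_comp_eval (μ := fun _ : Fin (N + 1) => gaussianReal 0 1) (i := i) (f := id)
          IsGaussian.integrable_id
      exact integrable_comp_eval (μ := fun _ : Fin M => Measure.pi fun _ : Fin (N + 1) => gaussianReal 0 1)
        (i := a) (f := fun v : Fin (N + 1) → ℝ => v i) h2
    exact h1.mul_bdd (rowF_meas hp σ q hq a i j).aestronglyMeasurable
      (ae_of_all _ fun g => (row_bdd hp σ q hq a i hj g).1)
  have he : (fun g : Pat M N => ∑ i, rowF' hp σ q hq k a i j g)
      = fun g => (kerRow (k := k) hp σ g a q hq).kexp j 0 := funext (row_sum hp σ q hq a hj)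
  refine ⟨hi, he ▸ integrable_finsetSum _ fun i _ => hi' i, ?_⟩
  rw [← he, integral_finsetSum _ fun i _ => hi' i]
  exact sum_congr rfl fun i _ => pattern_ibp a i (fun g => rowF_deriv hp σ q hq a i hj g)
    (rowF_meas hp σ q hq a i j) (rowF'_meas hp σ q hq a i j) (fun g => row_bdd hp σ q hq a i hj g)

end Vale.Agent.P157.Rsb.Cst
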