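import Vale.Agent.P157.Rsb.ConsistPattern

/-!
# P157: rotation invariance turned into an identity at the root
-/

open MeasureTheory ProbabilityTheory Real Finset

namespace Vale.Agent.P157.Rsb.Cst

open Vale.P366

variable {N M k : ℕ} {f : ℝ → ℝ} {L B : ℝ} (hp : Pot f L B) (σ : ℕ → ℝ) (q : ℕ → ℝ)
  (hq : ∀ r, |q r| ≤ 1)

/-- The tangential part of a vector at a leaf. -/
noncomputable def tang (v : Fin (N + 1) → ℝ) (x : Vec N) (b : Fin (N + 1)) : ℝ :=
  v b - fl x b * sdot v (fl x)

/-- The observable produced by rotation invariance. -/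
noncomputable def rotObs (f : ℝ → ℝ) (σ : ℕ → ℝ) (g : Pat M N) (b : Fin (N + 1))
    (z : Fin k → Fld N) (x : Vec N) : ℝ :=
  ∑ a, pw f g a x * tang (g a) x b + ∑ l : Fin k, amp N σ l * tang (fun i => z l (.inl i)) x b

theorem hasDerivAt_sdot_line (v : Fin (N + 1) → ℝ) (y : Pt (N + 1)) (b : Fin (N + 1)) :
    HasDerivAt (fun t : ℝ => sdot v (fun i => (y + t • EuclideanSpace.single b (1 : ℝ)) i)) (v b) 0 := by
  have e : (fun t : ℝ => sdot v (fun i => (y + t • EuclideanSpace.single b (1 : ℝ)) i))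
      = fun t : ℝ => sdot v (fun i => y i) + v b * (t - 0) := by
    funext t
    simp [sdot, mul_add, sum_add_distrib, PiLp.single_apply, mul_ite, sum_ite_eq']
  rw [e]
  exact hasDeriv_affine _ _ _ _

/-- The Hamiltonian on the ambient space. -/
noncomputable def extHam (f : ℝ → ℝ) (σ : ℕ → ℝ) (g : Pat M N) (z : Fin k → Fld N) (y : Pt (N + 1)) : ℝ :=
  ∑ a, f (sdot (g a) fun i => y i)
    + ∑ l : Fin k, amp N σ l * sdot (fun i => z l (.inl i)) (fun i => y i)
    - ((N : ℝ) + 1) / 2 * ∑ l : Fin k, σ (l + 1) ^ 2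

include hp in
theorem extHam_smooth (g : Pat M N) (z : Fin k → Fld N) : ContDiff ℝ 1 (extHam f σ g z) := by
  have h1 : ∀ v : Fin (N + 1) → ℝ, ContDiff ℝ 1 fun y : Pt (N + 1) => sdot v fun i => y i :=
    fun v => ContDiff.sum fun i _ => contDiff_const.mul (contDiff_coord i)
  exact ((ContDiff.sum fun a _ => (hp.smooth.of_le (by norm_num)).comp (h1 (g a))).add
    (ContDiff.sum fun l _ => contDiff_const.mul (h1 fun i => z l (.inl i)))).sub contDiff_const

include hp in
theorem pd_extHam (g : Pat M N) (z : Fin k → Fld N) (b : Fin (N + 1)) (y : Pt (N + 1)) :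
    pd b (fun y => exp (extHam f σ g z y)) y = exp (extHam f σ g z y) *
      (∑ a, deriv f (sdot (g a) fun i => y i) * g a b + ∑ l : Fin k, amp N σ l * z l (.inl b)) := by
  have hd : DifferentiableAt ℝ (fun y => exp (extHam f σ g z y)) y :=
    (((extHam_smooth hp σ g z).differentiable one_ne_zero) y).exp
  have hl : HasDerivAt (fun t : ℝ => y + t • EuclideanSpace.single b (1 : ℝ))
      (EuclideanSpace.single b (1 : ℝ)) 0 := by
    simpa using ((hasDerivAt_id (0 : ℝ)).smul_const (EuclideanSpace.single b (1 : ℝ))).const_add y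
  have h1 : HasDerivAt (fun t : ℝ => exp (extHam f σ g z (y + t • EuclideanSpace.single b (1 : ℝ))))
      (pd b (fun y => exp (extHam f σ g z y)) y) 0 := by
    have h := hd.hasFDerivAt
    rw [show y = y + (0 : ℝ) • EuclideanSpace.single b (1 : ℝ) by simp] at h
    simpa [Function.comp_def, pd] using h.comp_hasDerivAt (0 : ℝ) hl
  have h2 := (((HasDerivAt.fun_sum (u := univ) fun a (_ : a ∈ (univ : Finset (Fin M))) =>
      (hp.hasDeriv _).comp (0 : ℝ) (hasDerivAt_sdot_line (g a) y b)).add
    (HasDerivAt.fun_sum (u := univ) fun l (_ : l ∈ (univ : Finset (Fin k))) =>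
      (hasDerivAt_sdot_line (fun i => z l (.inl i)) y b).const_mul (amp N σ l))).sub_const
    (((N : ℝ) + 1) / 2 * ∑ l : Fin k, σ (l + 1) ^ 2)).exp
  simpa [extHam] using h1.unique h2

include hp in
/-- Rotation invariance at the leaf. -/
theorem leaf_identity (g : Pat M N) (b : Fin (N + 1)) (z : Fin k → Fld N) :
    (N : ℝ) * cnd (gam1 N) (mu1 N) (HM f σ g) (fun _ x => fl x b) k z
      = cnd (gam1 N) (mu1 N) (HM f σ g) (rotObs f σ g b) k z := by
  have hH : ∀ x : Vec N, HM f σ g z x = extHam f σ g z (x.1 : Pt (N + 1)) := fun x => by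
    rw [HM_eq]; rfl
  have h := sphere_ibp N ((extHam_smooth hp σ g z).exp) b
  have e : ∀ x : Vec N, pd b (fun y => exp (extHam f σ g z y)) x.1
        - fl x b * ∑ a, fl x a * pd a (fun y => exp (extHam f σ g z y)) x.1
      = rotObs f σ g b z x * exp (HM f σ g z x) := fun x => by
    set P : Fin (N + 1) → ℝ := fun a' =>
      ∑ a, pw f g a x * g a a' + ∑ l : Fin k, amp N σ l * z l (.inl a') with hP
    have hpd : ∀ a', pd a' (fun y => exp (extHam f σ g z y)) x.1 = exp (HM f σ g z x) * P a' :=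
      fun a' => by rw [pd_extHam hp σ g z, ← hH x]; rfl
    have hsum : ∑ a', fl x a' * P a' = ∑ a, pw f g a x * sdot (g a) (fl x)
        + ∑ l : Fin k, amp N σ l * sdot (fun i => z l (.inl i)) (fl x) := by
      simp only [hP, mul_add, sum_add_distrib, mul_sum, sdot]
      congr 1
      · rw [sum_comm]
        exact sum_congr rfl fun a _ => sum_congr rfl fun i _ => by ring
      · rw [sum_comm]
        exact sum_congr rfl fun l _ => sum_congr rfl fun i _ => by ring
    have hrot : rotObs f σ g b z x = P b - fl x b * ∑ a', fl x a' * P a' := by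
      rw [hsum]
      simp only [rotObs, tang, hP, mul_sub, sum_sub_distrib, mul_add, mul_sum]
      simp only [mul_left_comm (fl x b)]
      ring
    rw [hrot, hpd b, sum_congr rfl fun a' _ => congrArg (fl x a' * ·) (hpd a'),
      sum_congr rfl fun a' _ => mul_left_comm (fl x a') _ _, ← mul_sum]
    ring
  rw [cnd_top, cnd_top, mul_div]
  congr 1
  rw [← integral_congr_ae (ae_of_all _ e)]
  refine Eq.trans ?_ h
  congr 1
  exact integral_congr_ae (ae_of_all _ fun x => congrArg (fun t => fl x b * exp t) (hH x))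

theorem sum_M_tang (K : Ker k (N + 1) (Fld N) (Vec N)) (hξ : K.ξ = fl) (j : ℕ) (z : Fin k → Fld N)
    (v : Fin (N + 1) → ℝ) (x : Vec N) :
    ∑ b, K.M j b z * tang v x b = ∑ i, v i * K.G j i z x := by
  simp only [tang, Ker.G, Ker.xM, hξ, sdot, mul_sub, sum_sub_distrib, mul_sum, sum_mul]
  congr 1
  · exact sum_congr rfl fun i _ => mul_comm _ _
  · rw [sum_comm]
    exact sum_congr rfl fun i _ => sum_congr rfl fun b _ => by ring

include hp in
theorem tame_rotObs (g : Pat M N) (b : Fin (N + 1)) :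
    Tame (gaussSize (FieldIdx (N + 1))) (rotObs (k := k) f σ g b) := by
  have hfl : ∀ i : Fin (N + 1), Tame (gaussSize (FieldIdx (N + 1))) fun (_ : Fin k → Fld N) (x : Vec N) => fl x i := fun i =>
    Tame.of_bdd ((meas_fl_coord i).comp measurable_snd) fun _ x => fl_le x i
  have hz : ∀ l i, Tame (gaussSize (FieldIdx (N + 1))) fun (z : Fin k → Fld N) (_ : Vec N) => z l (.inl i) :=
    fun l i => ⟨((measurable_pi_apply (Sum.inl i)).comp ((measurable_pi_apply l).comp measurable_fst)),
      1, zero_le_one, fun z _ => by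
        rw [one_mul, one_mul]
        exact (coord_le_tot z l (.inl i)).trans ((lt_add_one _).le.trans (add_one_le_exp _))⟩
  have ht : ∀ v : (Fin k → Fld N) → Fin (N + 1) → ℝ,
      (∀ i, Tame (gaussSize (FieldIdx (N + 1))) fun z (_ : Vec N) => v z i) →
      Tame (gaussSize (FieldIdx (N + 1))) fun z x => tang (v z) x b := fun v hv =>
    (hv b).sub ((hfl b).mul (Tame.sum univ fun i _ => (hv i).mul (hfl i)))
  exact (Tame.sum univ fun a _ => (Tame.of_bdd (φ := fun _ x => pw f g a x)
      ((pw_meas_right hp g a).comp measurable_snd) fun _ _ => hp.der_le _).mul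
      (ht (fun _ => g a) fun i => Tame.of_bdd measurable_const (B := |g a i|) fun _ _ => le_rfl)).add
    (Tame.sum univ fun l _ => (ht (fun z i => z l (.inl i)) (hz l)).const_mul _)

/-- The identity at the root for fixed patterns. -/
theorem root_identity (g : Pat M N) {j : ℕ} (hj : j ≤ k) :
    (N : ℝ) * (kerOne (k := k) hp σ g q hq).E 0 ((kerOne (k := k) hp σ g q hq).xM j) (fun _ _ => 0)
      = ∑ a, ∑ i, g a i * rowF hp σ q hq k a i j g
        + ∑ l : Fin k, amp N σ l ^ 2 * (kerOne (k := k) hp σ g q hq).kexp j ((l : ℕ) + 1) := by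
  set K := kerOne (k := k) hp σ g q hq with hK
  have hH : LinB (gaussSize (FieldIdx (N + 1))) (HM (k := k) f σ g) := HM_linB hp σ g
  have hU : ∀ b, Upto k (K.M j b) := fun b => Upto.mono hj (K.E_upto j _)
  have hT : ∀ b, Tame (gaussSize (FieldIdx (N + 1))) fun z x => K.M j b z * rotObs f σ g b z x :=
    fun b => (K.bd_M j b).tame.mul (tame_rotObs hp σ g b)
  have h1 : (N : ℝ) * K.E 0 (K.xM j) (fun _ _ => 0)
      = cnd (gam1 N) (mu1 N) (HM f σ g) (fun z x => ∑ b, K.M j b z * rotObs f σ g b z x) 0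
          (fun _ _ => 0) := by
    rw [cnd_finsum hH _ fun b _ => hT b]
    unfold Ker.xM
    rw [K.E_sum univ fun b _ => (K.bd_coord b).mul (K.bd_M j b), mul_sum]
    refine sum_congr rfl fun b _ => ?_
    rw [← cnd_tower hH (Nat.zero_le k) (fun _ _ => 0),
      ← K.E_tower ((K.bd_coord b).mul (K.bd_M j b)) (Nat.zero_le k) le_rfl, ← K.E_const_mul]
    refine congrArg (fun φ => cnd (gam1 N) (mu1 N) (HM f σ g) φ 0 fun _ _ => 0) ?_
    funext z _
    rw [cnd_pull (hU b), ← leaf_identity hp σ g b z]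
    have : K.E k (fun z x => K.ξ x b * K.M j b z) z = K.M j b z * K.E k (fun _ x => K.ξ x b) z := by
      rw [← K.E_pull (K.bd_coord b) (hU b)]
      exact congrArg (fun φ => K.E k φ z) (funext₂ fun z x => mul_comm _ _)
    rw [this, mul_left_comm]
    rfl
  have h2 : (fun z x => ∑ b, K.M j b z * rotObs f σ g b z x) = fun z x =>
      (∑ a, ∑ i, g a i * rowObs hp σ q hq a i j g z x)
        + ∑ l : Fin k, amp N σ l * ∑ i, z l (.inl i) * K.G j i z x := by
    funext z x
    simp only [rotObs, mul_add, sum_add_distrib, mul_sum]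
    congr 1
    · rw [sum_comm]
      refine sum_congr rfl fun a _ => ?_
      rw [sum_congr rfl fun b _ => mul_left_comm (K.M j b z) (pw f g a x) _, ← mul_sum,
        sum_M_tang K rfl, mul_sum]
      exact sum_congr rfl fun i _ => mul_left_comm _ _ _
    · rw [sum_comm]
      refine sum_congr rfl fun l _ => ?_
      rw [sum_congr rfl fun b _ => mul_left_comm (K.M j b z) (amp N σ l) _, ← mul_sum, ← mul_sum,
        sum_M_tang K rfl]
  have hzG : ∀ (l : Fin k) i, Tame (gaussSize (FieldIdx (N + 1))) fun z x => z l (.inl i) * K.G j i z x :=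
    fun l i => (Tame.mul (φ := fun (z : Fin k → Fld N) (_ : Vec N) => z l (.inl i))
      ⟨((measurable_pi_apply (Sum.inl i)).comp ((measurable_pi_apply l).comp measurable_fst)),
        1, zero_le_one, fun z _ => by
          rw [one_mul, one_mul]
          exact (coord_le_tot z l (.inl i)).trans ((lt_add_one _).le.trans (add_one_le_exp _))⟩
      (K.bd_G j i).tame)
  have hrow : ∀ a i, Tame (gaussSize (FieldIdx (N + 1))) (rowObs (k := k) hp σ q hq a i j g) :=
    fun a i => Tame.of_bdd (rowObs_meas_right hp σ q hq a i j g) (rowObs_le hp σ q hq a i j g)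
  rw [h1, h2, cnd_add hH (Tame.sum univ fun a _ => Tame.sum univ fun i _ => (hrow a i).const_mul _)
    (Tame.sum univ fun l _ => (Tame.sum univ fun i _ => hzG l i).const_mul _)]
  congr 1
  · rw [cnd_finsum hH _ fun a _ => Tame.sum univ fun i _ => (hrow a i).const_mul _]
    refine sum_congr rfl fun a _ => ?_
    rw [cnd_finsum hH _ fun i _ => (hrow a i).const_mul _]
    exact sum_congr rfl fun i _ => cnd_const_mul _ _ _
  · rw [cnd_finsum hH _ fun l _ => (Tame.sum univ fun i _ => hzG l i).const_mul _]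
    refine sum_congr rfl fun l _ => ?_
    rw [cnd_const_mul, cnd_finsum hH _ fun i _ => hzG l i, field_ibp hp σ q hq g l hj]
    ring

end Vale.Agent.P157.Rsb.Cst
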