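import Vale.Agent.P157.Rsb.Intf
import Vale.Agent.P366.Sphere

/-!
# P157: integration by parts on the sphere
-/

open MeasureTheory ProbabilityTheory Real Finset Metric

namespace Vale.Agent.P157.Rsb.Cst

open Vale.P366

/-- Rotation invariance in divergence form. -/
theorem sphere_ibp (N : ℕ) {G : Pt (N + 1) → ℝ} (hG : ContDiff ℝ 1 G) (b : Fin (N + 1)) :
    (N : ℝ) * ∫ x : (sphereLeaf N).X, (x.1 : Pt (N + 1)) b * G x.1 ∂(sphereLeaf N).μ
      = ∫ x : (sphereLeaf N).X,
          (pd b G x.1 - (x.1 : Pt (N + 1)) b * ∑ a, (x.1 : Pt (N + 1)) a * pd a G x.1)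
          ∂(sphereLeaf N).μ := by
  have hU : ContDiffOn ℝ 1 G Set.univ := hG.contDiffOn
  have hpd : ∀ a, Continuous (pd a G) := fun a =>
    continuousOn_univ.1 (continuousOn_pd isOpen_univ hU a)
  have hco : ∀ a : Fin (N + 1), Continuous fun x : Pt (N + 1) => x a := fun a =>
    (contDiff_coord (k := 0) a).continuous
  have hF : ∀ a, ContDiffOn ℝ 1 (fun x : Pt (N + 1) => x a * G x) Set.univ := fun a =>
    ((contDiff_coord a).mul hG).contDiffOn
  set L : Fin (N + 1) → Pt (N + 1) → ℝ := fun a x =>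
    x a * pd b (fun y => y a * G y) x - x b * pd a (fun y => y a * G y) x with hL
  have h0 : ∀ a, ∫ θ, L a (θ : Pt (N + 1)) ∂sphereMeasure (N + 1) = 0 := fun a => by
    simpa only [one_smul] using
      integral_rot isOpen_univ one_pos (fun x _ => Set.mem_univ x) (hF a) a b
  have hsum : ∀ θ : sphere (0 : Pt (N + 1)) 1, ∑ a, L a θ
      = (pd b G θ.1 - (θ.1 : Pt (N + 1)) b * ∑ a, (θ.1 : Pt (N + 1)) a * pd a G θ.1)
        - (N : ℝ) * ((θ.1 : Pt (N + 1)) b * G θ.1) := fun θ => by
    have hd : DifferentiableAt ℝ G θ.1 := (hG.differentiable one_ne_zero).differentiableAt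
    have h1 : ∑ a, (θ.1 : Pt (N + 1)) a * (θ.1 : Pt (N + 1)) a = 1 := by
      have := rsq_eq θ.1
      rw [norm_eq_of_mem_sphere θ, one_pow] at this
      exact this
    simp only [hL, pd_mul (differentiableAt_coord _) hd, pd_coord, if_true, one_mul, mul_add,
      sum_sub_distrib, sum_add_distrib, ite_mul, zero_mul, mul_ite, mul_zero, sum_ite_eq',
      mem_univ, sum_const, card_univ, Fintype.card_fin, nsmul_eq_mul]
    rw [← sum_congr rfl fun a _ => mul_assoc ((θ.1 : Pt (N + 1)) a) _ _, ← sum_mul, h1, ← mul_sum]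
    push_cast
    ring
  have hint : ∀ F : Pt (N + 1) → ℝ, Continuous F →
      Integrable (fun θ : sphere (0 : Pt (N + 1)) 1 => F θ) (sphereMeasure (N + 1)) := fun F hF' =>
    integrable_sphere (hF'.comp continuous_subtype_val)
  have hLc : ∀ a, Continuous (L a) := fun a =>
    ((hco a).mul (continuousOn_univ.1 (continuousOn_pd isOpen_univ (hF a) b))).sub
      ((hco b).mul (continuousOn_univ.1 (continuousOn_pd isOpen_univ (hF a) a)))
  have h : ∫ θ : sphere (0 : Pt (N + 1)) 1, ∑ a, L a θ ∂sphereMeasure (N + 1) = 0 := by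
    rw [integral_finsetSum _ fun a _ => hint _ (hLc a)]
    exact sum_eq_zero fun a _ => h0 a
  simp only [hsum] at h
  rw [integral_sub (hint (fun x => pd b G x - x b * ∑ a, x a * pd a G x)
      ((hpd b).sub ((hco b).mul (continuous_finsetSum _ fun a _ => (hco a).mul (hpd a)))))
    ((hint (fun x => x b * G x) ((hco b).mul hG.continuous)).const_mul _), integral_const_mul, sub_eq_zero] at h
  show (N : ℝ) * ∫ x : sphere (0 : Pt (N + 1)) 1, (x : Pt (N + 1)) b * G x
      ∂((sphereMeasure (N + 1) Set.univ)⁻¹ • sphereMeasure (N + 1)) = ∫ x : sphere (0 : Pt (N + 1)) 1,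
        (pd b G x - (x : Pt (N + 1)) b * ∑ a, (x : Pt (N + 1)) a * pd a G x)
      ∂((sphereMeasure (N + 1) Set.univ)⁻¹ • sphereMeasure (N + 1))
  rw [integral_smul_measure, integral_smul_measure, smul_eq_mul, smul_eq_mul, mul_left_comm, h]

end Vale.Agent.P157.Rsb.Cst
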