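import Vale.Agent.P157.Rsb.Intf
import Vale.Agent.P157.Rsb.ConsistKernel
import Vale.Agent.P157.Rsb.ConsistSphere

/-!
# P157: integration by parts in the sphere system
-/

open MeasureTheory ProbabilityTheory Real Finset

namespace Vale.Agent.P157.Rsb.Cst

/-- Bounds of a potential with two bounded derivatives. -/
structure Pot (f : ℝ → ℝ) (L B : ℝ) : Prop where
  smooth : ContDiff ℝ 2 f
  le : ∀ u, |f u| ≤ L
  der_le : ∀ u, |deriv f u| ≤ B
  der2_le : ∀ u, |deriv (deriv f) u| ≤ B

theorem exists_pot {f : ℝ → ℝ} (hf : Good f) : ∃ L B, Pot f L B := by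
  obtain ⟨h3, hc⟩ := hf
  have h2 : ContDiff ℝ 2 f := h3.of_le (by norm_num)
  have d1 : Continuous (deriv f) := h2.continuous_deriv (by norm_num)
  have d2 : Continuous (deriv (deriv f)) :=
    (h2.deriv' (n := 1)).continuous_deriv le_rfl
  obtain ⟨L, hL⟩ := hc.exists_bound_of_continuous h2.continuous
  obtain ⟨B₁, hB₁⟩ := hc.deriv.exists_bound_of_continuous d1
  obtain ⟨B₂, hB₂⟩ := hc.deriv.deriv.exists_bound_of_continuous d2
  exact ⟨L, max B₁ B₂, h2, hL, fun u => (hB₁ u).trans (le_max_left _ _),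
    fun u => (hB₂ u).trans (le_max_right _ _)⟩

variable {N M k : ℕ} {f : ℝ → ℝ} {L B : ℝ}

theorem Pot.nonneg (hp : Pot f L B) : 0 ≤ B := (abs_nonneg _).trans (hp.der_le 0)

theorem Pot.hasDeriv (hp : Pot f L B) (u : ℝ) : HasDerivAt f (deriv f u) u :=
  (hp.smooth.differentiable (by norm_num) u).hasDerivAt

theorem Pot.hasDeriv2 (hp : Pot f L B) (u : ℝ) : HasDerivAt (deriv f) (deriv (deriv f) u) u :=
  (((hp.smooth.deriv' (n := 1))).differentiable one_ne_zero u).hasDerivAt

/-- One level of fields. -/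
abbrev Fld (N : ℕ) := FieldIdx (N + 1) → ℝ

/-- The patterns. -/
abbrev Pat (M N : ℕ) := Fin M → Fin (N + 1) → ℝ

/-- The unit vectors. -/
abbrev Vec (N : ℕ) := (sphereLeaf N).X

/-- The coordinates of a unit vector. -/
noncomputable abbrev fl (x : Vec N) : Fin (N + 1) → ℝ := (sphereLeaf N).fld x

/-- The law of one level. -/
noncomputable abbrev gam1 (N : ℕ) : Measure (Fld N) := stdG (FieldIdx (N + 1))

/-- The law of the leaf. -/
noncomputable abbrev mu1 (N : ℕ) : Measure (Vec N) := (sphereLeaf N).μ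

/-- The Hamiltonian of the sphere system. -/
noncomputable def HM (f : ℝ → ℝ) (σ : ℕ → ℝ) (g : Pat M N) (z : Fin k → Fld N) (x : Vec N) : ℝ :=
  ham (sphereLeaf N) f ((N : ℝ) + 1) σ (fun _ => 0) g z x

/-- The amplitude of the field of level `l + 1`. -/
noncomputable def amp (N : ℕ) (σ : ℕ → ℝ) (l : Fin k) : ℝ := σ (l + 1) * √((N : ℝ) + 1)

theorem fl_unit (x : Vec N) : ∑ i, fl x i * fl x i = 1 := by
  have h : ‖(x.1 : EuclideanSpace ℝ (Fin (N + 1)))‖ = 1 := norm_eq_of_mem_sphere x
  have h2 := EuclideanSpace.real_norm_sq_eq (x.1 : EuclideanSpace ℝ (Fin (N + 1)))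
  rw [h, one_pow] at h2
  rw [h2]
  exact sum_congr rfl fun i _ => (pow_two (x.1 i)).symm

theorem fl_meas : Measurable (fl (N := N)) := (sphereLeaf N).fld_meas

theorem fl_le (x : Vec N) (i : Fin (N + 1)) : |fl x i| ≤ 1 := by
  rw [abs_le_one_iff_mul_self_le_one, ← fl_unit x]
  exact single_le_sum (f := fun i => fl x i * fl x i) (fun i _ => mul_self_nonneg _) (mem_univ i)

theorem HM_eq (σ : ℕ → ℝ) (g : Pat M N) (z : Fin k → Fld N) (x : Vec N) :
    HM f σ g z x = ∑ a, f (sdot (g a) (fl x))
      + ∑ l : Fin k, amp N σ l * sdot (fun i => z l (.inl i)) (fl x)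
      - ((N : ℝ) + 1) / 2 * ∑ l : Fin k, σ (l + 1) ^ 2 := by
  have h : sdot (fl x) (fl x) = 1 := fl_unit x
  simp only [HM, ham, zero_mul, add_zero]
  rw [h, mul_one]
  simp only [amp]
  rw [show (sphereLeaf N).det x = 0 from rfl, add_zero]
  rfl

theorem coord_le_tot (z : Fin k → Fld N) (a : Fin k) (i : FieldIdx (N + 1)) :
    |z a i| ≤ (gaussSize (FieldIdx (N + 1))).tot z := by
  refine le_trans (single_le_sum (f := fun i => |z a i|) (fun i _ => abs_nonneg _) (mem_univ i)) ?_
  exact single_le_sum (f := fun a => ∑ i, |z a i|) (fun a _ => sum_nonneg fun i _ => abs_nonneg _)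
    (mem_univ a)

theorem sdot_field_le (z : Fin k → Fld N) (a : Fin k) (x : Vec N) :
    |sdot (fun i => z a (.inl i)) (fl x)| ≤ (gaussSize (FieldIdx (N + 1))).tot z := by
  refine (abs_sum_le_sum_abs _ _).trans (le_trans (sum_le_sum fun i _ => ?_) ((?_ :
    ∑ i : Fin (N + 1), |z a (.inl i)| ≤ ∑ i, |z a i|).trans
    (single_le_sum (f := fun a => ∑ i, |z a i|) (fun a _ => sum_nonneg fun i _ => abs_nonneg _)
      (mem_univ a))))
  · rw [abs_mul]
    exact mul_le_of_le_one_right (abs_nonneg _) (fl_le x i)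
  · rw [Fintype.sum_sum_type]
    exact le_add_of_nonneg_right (sum_nonneg fun i _ => abs_nonneg _)

/-- The linear bound of the Hamiltonian, uniform in the patterns. -/
noncomputable def hmBound (M N k : ℕ) (L : ℝ) (σ : ℕ → ℝ) : ℝ :=
  M * |L| + ∑ l : Fin k, |amp N σ l| + ((N : ℝ) + 1) / 2 * ∑ l : Fin k, σ (l + 1) ^ 2

theorem hmBound_nonneg (σ : ℕ → ℝ) : 0 ≤ hmBound M N k L σ := by
  unfold hmBound; positivity

theorem HM_abs (hp : Pot f L B) (σ : ℕ → ℝ) (g : Pat M N) (z : Fin k → Fld N) (x : Vec N) :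
    |HM f σ g z x| ≤ hmBound M N k L σ * (1 + (gaussSize (FieldIdx (N + 1))).tot z) := by
  have ht := (gaussSize (FieldIdx (N + 1))).tot_nonneg z
  rw [HM_eq, hmBound]
  have h1 : |∑ a, f (sdot (g a) (fl x))| ≤ M * |L| :=
    (abs_sum_le_sum_abs _ _).trans ((sum_le_card_nsmul _ _ |L| fun a _ =>
      (hp.le _).trans (le_abs_self L)).trans (le_of_eq (by simp)))
  have h2 : |∑ l : Fin k, amp N σ l * sdot (fun i => z l (.inl i)) (fl x)|
      ≤ (∑ l : Fin k, |amp N σ l|) * (gaussSize (FieldIdx (N + 1))).tot z := by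
    rw [sum_mul]
    refine (abs_sum_le_sum_abs _ _).trans (sum_le_sum fun l _ => ?_)
    rw [abs_mul]
    exact mul_le_mul_of_nonneg_left (sdot_field_le z l x) (abs_nonneg _)
  have h3 : 0 ≤ ((N : ℝ) + 1) / 2 * ∑ l : Fin k, σ (l + 1) ^ 2 := by positivity
  have h4 : 0 ≤ (M : ℝ) * |L| := by positivity
  have h5 : 0 ≤ ∑ l : Fin k, |amp N σ l| := sum_nonneg fun _ _ => abs_nonneg _
  rw [abs_le] at h1 h2 ⊢
  constructor <;> nlinarith [h1.1, h1.2, h2.1, h2.2, mul_nonneg h4 ht, mul_nonneg h3 ht]

theorem measurable_sdot_row (a : Fin M) :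
    Measurable fun p : Pat M N × Vec N => sdot (p.1 a) (fl p.2) :=
  Finset.measurable_sum _ fun i _ => Measurable.mul
    ((measurable_pi_apply i).comp ((measurable_pi_apply a).comp measurable_fst))
    (((measurable_pi_apply i).comp fl_meas).comp measurable_snd)

theorem measurable_sdot_fld (l : Fin k) :
    Measurable fun p : (Fin k → Fld N) × Vec N => sdot (fun i => p.1 l (.inl i)) (fl p.2) :=
  Finset.measurable_sum _ fun i _ => Measurable.mul
    ((measurable_pi_apply (Sum.inl i)).comp ((measurable_pi_apply l).comp measurable_fst))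
    (((measurable_pi_apply i).comp fl_meas).comp measurable_snd)

theorem HM_meas (hp : Pot f L B) (σ : ℕ → ℝ) :
    Measurable fun p : (Pat M N × (Fin k → Fld N)) × Vec N => HM f σ p.1.1 p.1.2 p.2 := by
  have hf : Measurable f := hp.smooth.continuous.measurable
  have h1 : Measurable fun p : (Pat M N × (Fin k → Fld N)) × Vec N =>
      ∑ a, f (sdot (p.1.1 a) (fl p.2)) := Finset.measurable_sum _ fun a _ =>
    hf.comp ((measurable_sdot_row a).comp
      ((measurable_fst.comp measurable_fst).prodMk measurable_snd))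
  have h2 : Measurable fun p : (Pat M N × (Fin k → Fld N)) × Vec N =>
      ∑ l : Fin k, amp N σ l * sdot (fun i => p.1.2 l (.inl i)) (fl p.2) :=
    Finset.measurable_sum _ fun l _ => ((measurable_sdot_fld l).comp
      ((measurable_snd.comp measurable_fst).prodMk measurable_snd)).const_mul _
  simp only [HM_eq]
  exact (h1.add h2).sub_const _

theorem HM_linB (hp : Pot f L B) (σ : ℕ → ℝ) (g : Pat M N) :
    LinB (gaussSize (FieldIdx (N + 1))) (HM (k := k) f σ g) := by
  refine ⟨?_, hmBound M N k L σ, hmBound_nonneg σ, fun z x => HM_abs hp σ g z x⟩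
  have h : Measurable fun p : (Fin k → Fld N) × Vec N => ((g, p.1), p.2) :=
    (measurable_const.prodMk measurable_fst).prodMk measurable_snd
  have h2 : Measurable ((fun p : (Pat M N × (Fin k → Fld N)) × Vec N => HM f σ p.1.1 p.1.2 p.2) ∘
      fun p : (Fin k → Fld N) × Vec N => ((g, p.1), p.2)) := (HM_meas hp σ).comp h
  exact h2

/-- The derivative of the potential in row `a`. -/
noncomputable def pw (f : ℝ → ℝ) (g : Pat M N) (a : Fin M) (x : Vec N) : ℝ :=
  deriv f (sdot (g a) (fl x))

theorem pw_meas_par (hp : Pot f L B) (a : Fin M) :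
    Measurable fun p : Pat M N × Vec N => pw f p.1 a p.2 :=
  (hp.smooth.continuous_deriv (by norm_num)).measurable.comp (measurable_sdot_row a)

/-- The sphere system with a weight, as kernel data. -/
noncomputable def ker (hp : Pot f L B) (σ : ℕ → ℝ) (g : Pat M N) (wt : Vec N → ℝ) (hw : Measurable wt)
    {W : ℝ} (hW : ∀ x, |wt x| ≤ W) (q : ℕ → ℝ) (hq : ∀ r, |q r| ≤ 1) :
    Ker k (N + 1) (Fld N) (Vec N) where
  γ := gam1 N
  μ := mu1 N
  size := gaussSize (FieldIdx (N + 1))
  H := HM f σ g
  linB := HM_linB hp σ g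
  ξ := fl
  ξ_meas := fl_meas
  unit := fl_unit
  wt := wt
  wt_meas := hw
  B := W
  wt_le := hW
  z₀ := fun _ _ => 0
  q := q
  q_le := hq

/-- The system with unit weight. -/
noncomputable def kerOne (hp : Pot f L B) (σ : ℕ → ℝ) (g : Pat M N) (q : ℕ → ℝ) (hq : ∀ r, |q r| ≤ 1) :
    Ker k (N + 1) (Fld N) (Vec N) :=
  ker hp σ g (fun _ => 1) measurable_const (W := 1) (fun _ => (abs_one).le) q hq

/-- The system weighted by the derivative of the potential in row `a`. -/
noncomputable def kerRow (hp : Pot f L B) (σ : ℕ → ℝ) (g : Pat M N) (a : Fin M) (q : ℕ → ℝ)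
    (hq : ∀ r, |q r| ≤ 1) : Ker k (N + 1) (Fld N) (Vec N) :=
  ker hp σ g (pw f g a) ((pw_meas_par hp a).comp (measurable_const.prodMk measurable_id))
    (W := B) (fun _ => hp.der_le _) q hq

variable (hp : Pot f L B) (σ : ℕ → ℝ) (q : ℕ → ℝ) (hq : ∀ r, |q r| ≤ 1)

/-! ### a field coordinate -/

/-- Replace one field coordinate. -/
def updZ (a : Fin k) (i : Fin (N + 1)) (t : ℝ) (z : Fin k → Fld N) : Fin k → Fld N :=
  Function.update z a (Function.update (z a) (.inl i) t)

theorem hasDeriv_affine (A c b t : ℝ) : HasDerivAt (fun u => A + c * (u - b)) c t := by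
  simpa using (((hasDerivAt_id t).sub_const b).const_mul c).const_add A

theorem updZ_put (a : Fin k) (i : Fin (N + 1)) (t : ℝ) {l : ℕ} (hl : (a : ℕ) < l) (z : Fin k → Fld N)
    (y : Fld N) : updZ a i t (put z l y) = put (updZ a i t z) l y := by
  funext b
  by_cases hb : b = a
  · subst hb
    simp only [updZ, Function.update_self, put, show ¬ (b : ℕ) = l by omega, if_false]
  · simp only [updZ, Function.update_of_ne hb, put]

theorem HM_updZ (g : Pat M N) (a : Fin k) (i : Fin (N + 1)) (t : ℝ) (z : Fin k → Fld N) (x : Vec N) :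
    HM f σ g (updZ a i t z) x = HM f σ g z x + amp N σ a * fl x i * (t - z a (.inl i)) := by
  have h : ∀ l : Fin k, amp N σ l * sdot (fun i' => updZ a i t z l (.inl i')) (fl x)
      = amp N σ l * sdot (fun i' => z l (.inl i')) (fl x)
        + if l = a then amp N σ a * fl x i * (t - z a (.inl i)) else 0 := fun l => by
    by_cases hl : l = a
    · subst hl
      rw [if_pos rfl]
      have e : ∀ i', updZ l i t z l (.inl i') * fl x i' = z l (.inl i') * fl x i'
          + if i' = i then fl x i * (t - z l (.inl i)) else 0 := fun i' => by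
        by_cases hi : i' = i
        · subst hi; simp [updZ]; ring
        · simp [updZ, hi]
      simp only [sdot, e, sum_add_distrib, sum_ite_eq', mem_univ, if_true]
      ring
    · simp [updZ, hl]
  simp only [HM_eq, h, sum_add_distrib, sum_ite_eq', mem_univ, if_true]
  ring

theorem M_deriv_field (g : Pat M N) (a : Fin k) (i b : Fin (N + 1)) {j : ℕ} (haj : (a : ℕ) < j)
    (hj : j ≤ k) (z : Fin k → Fld N) :
    HasDerivAt (fun t => (kerOne (k := k) hp σ g q hq).M j b (updZ a i t z))
      (amp N σ a * (kerOne (k := k) hp σ g q hq).D j b i z) (z a (.inl i)) := by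
  have hu : ∀ t l, j ≤ l → ∀ z y, updZ a i t (put z l y) = put (updZ a i t z) l y :=
    fun t l hl z y => updZ_put a i t (by omega) z y
  set c := amp N σ a with hc
  set s₀ := z a (.inl i) with hs
  set A := hmBound M N k L σ + |c| * (|s₀| + 2) + |c| + 1 with hA
  have hA0 := hmBound_nonneg (M := M) (N := N) (k := k) (L := L) σ
  have F : Family (gaussSize (FieldIdx (N + 1))) (fun t z x => HM (k := k) f σ g (updZ a i t z) x)
      (fun _ _ x => fl x b) (fun _ _ x => c * fl x i) (fun _ _ _ => 0) s₀ 1 := by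
    have hb : ∀ (x : Vec N) (i : Fin (N + 1)) (z : Fin k → Fld N), |fl x i| ≤ A * exp (A *
        (gaussSize (FieldIdx (N + 1))).tot z) := fun x i z => by
      refine (fl_le x i).trans (one_le_mul_of_one_le_of_one_le ?_ ?_)
      · rw [hA]; nlinarith [abs_nonneg c, abs_nonneg s₀]
      · exact one_le_exp (mul_nonneg (by positivity) ((gaussSize _).tot_nonneg z))
    refine ⟨one_pos, fun t => ?_, fun _ => ?_, fun _ => ?_, fun _ => measurable_const,
      ⟨A, by positivity, fun t ht z x => ⟨?_, ?_, hb x b z, ?_⟩⟩, fun t _ z x => ?_,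
      fun t _ z x => hasDerivAt_const _ _⟩
    · simp only [HM_updZ]
      exact (HM_linB hp σ g).meas.add ((((measurable_pi_apply i).comp fl_meas).comp
        measurable_snd).const_mul _ |>.mul (measurable_const.sub (by fun_prop)))
    · exact (((measurable_pi_apply i).comp fl_meas).comp measurable_snd).const_mul _
    · exact ((measurable_pi_apply b).comp fl_meas).comp measurable_snd
    · rw [HM_updZ]
      have h1 := HM_abs hp σ g z x
      have h2 := coord_le_tot z a (.inl i)
      have h0 := (gaussSize (FieldIdx (N + 1))).tot_nonneg z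
      have h3 : |c * fl x i * (t - z a (.inl i))| ≤ |c| * (|s₀| + 1
          + (gaussSize (FieldIdx (N + 1))).tot z) := by
        rw [abs_mul, abs_mul]
        refine mul_le_mul (mul_le_of_le_one_right (abs_nonneg c) (fl_le x i)) ?_ (abs_nonneg _)
          (abs_nonneg c)
        have : |t| - |s₀| ≤ |t - s₀| := abs_sub_abs_le_abs_sub t s₀
        exact (abs_sub _ _).trans (by linarith)
      refine (abs_add_le _ _).trans ((add_le_add h1 h3).trans ?_)
      rw [hA]
      nlinarith [abs_nonneg c, abs_nonneg s₀, mul_nonneg (abs_nonneg c) (abs_nonneg s₀)]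
    · rw [abs_mul]
      refine le_trans (mul_le_of_le_one_right (abs_nonneg c) (fl_le x i)) ?_
      refine le_trans ?_ (le_mul_of_one_le_right (by positivity) (one_le_exp ?_))
      · rw [hA]; nlinarith [abs_nonneg c, abs_nonneg s₀]
      · exact mul_nonneg (by positivity) ((gaussSize _).tot_nonneg z)
    · rw [abs_zero]; positivity
    · simp only [HM_updZ]
      exact hasDeriv_affine _ _ _ _
  have h := hasDerivAt_cnd (μ := mu1 N) F hj z
  simp only [cndDer_smul c] at h
  rw [cndDer_comp (fun x => fl x b) (fun x => fl x i) j (hu s₀)] at h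
  rw [show updZ a i s₀ z = z by simp [updZ, hs]] at h
  have e : ∀ t, (kerOne (k := k) hp σ g q hq).M j b (updZ a i t z)
      = cnd (gam1 N) (mu1 N) (fun z x => HM f σ g (updZ a i t z) x) (fun _ x => fl x b) j z :=
    fun t => (cnd_comp (φ := fun _ x => fl x b) j (hu t) z).symm
  simp only [e]
  convert h using 2
  simp [Ker.D, kerOne, ker]

theorem G_deriv_field (g : Pat M N) (a : Fin k) (i : Fin (N + 1)) {j : ℕ} (hj : j ≤ k)
    (z : Fin k → Fld N) (x : Vec N) :
    HasDerivAt (fun t => (kerOne (k := k) hp σ g q hq).G j i (updZ a i t z) x)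
      (if (a : ℕ) < j then amp N σ a * (kerOne (k := k) hp σ g q hq).dG j i z x else 0) (z a (.inl i)) := by
  set K := kerOne (k := k) hp σ g q hq
  split_ifs with haj
  · have h := (M_deriv_field hp σ q hq g a i i haj hj z).sub ((HasDerivAt.fun_sum (u := univ)
      fun b _ => (M_deriv_field hp σ q hq g a i b haj hj z).const_mul (K.ξ x b)).mul_const (K.ξ x i))
    refine HasDerivAt.congr_deriv h ?_
    simp only [Ker.dG, K, mul_sub, mul_sum, sum_mul, mul_assoc, mul_left_comm (amp N σ a)]
  · have e : ∀ t, K.G j i (updZ a i t z) x = K.G j i z x := fun t => by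
      have hM : ∀ b, K.M j b (updZ a i t z) = K.M j b z := fun b =>
        K.E_upto j _ _ _ fun l hl => by
          have : l ≠ a := fun e => by subst e; omega
          simp [updZ, this]
      simp only [Ker.G, Ker.xM, hM]
    simp only [e]
    exact hasDerivAt_const _ _

/-- Integration by parts in a field, summed against the tangential field. -/
theorem field_ibp (g : Pat M N) (a : Fin k) {j : ℕ} (hj : j ≤ k) :
    ∑ i, cnd (gam1 N) (mu1 N) (HM f σ g) (fun z x => z a (.inl i) * (kerOne (k := k) hp σ g q hq).G j i z x)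
        0 (fun _ _ => 0)
      = amp N σ a * (kerOne (k := k) hp σ g q hq).kexp j ((a : ℕ) + 1) := by
  set K := kerOne (k := k) hp σ g q hq with hK
  set c := amp N σ a with hc
  set dφ : Fin (N + 1) → (Fin k → Fld N) → Vec N → ℝ := fun i z x =>
    if (a : ℕ) < j then c * K.dG j i z x else 0 with hdφ
  have hbdφ : ∀ i, Bd (dφ i) := fun i => by
    by_cases h : (a : ℕ) < j
    · simpa only [hdφ, if_pos h] using (K.bd_dG j i).const_mul c
    · simpa only [hdφ, if_neg h] using Bd.const 0
  have hi : ∀ i, cnd (gam1 N) (mu1 N) (HM f σ g) (fun z x => z a (.inl i) * K.G j i z x) 0 (fun _ _ => 0)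
      = K.E 0 (fun z x => dφ i z x + K.G j i z x * (c * K.ξ x i)) K.z₀
        - mass k * ∑ r ∈ Icc ((a : ℕ) + 1) k,
            K.E 0 (fun z _ => K.E r (K.G j i) z * K.E r (fun _ x => c * K.ξ x i) z) K.z₀ := fun i =>
    cnd_ibp (H := HM f σ g) (φ := K.G j i) (dH := fun _ x => c * fl x i) (dφ := dφ i) (.inl i) a
      (HM_linB hp σ g) (K.bd_G j i).tame ((K.bd_coord i).const_mul c).tame (hbdφ i).tame
      (fun z x => by
        show HasDerivAt (fun t => HM f σ g (updZ a i t z) x) (amp N σ a * fl x i) _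
        simp only [HM_updZ]
        exact hasDeriv_affine _ _ _ _)
      (fun z x => G_deriv_field hp σ q hq g a i hj z x) (Nat.zero_le _) _
  simp only [hi, sum_sub_distrib, Ker.kexp]
  rw [← K.E_sum univ fun i _ => (hbdφ i).add ((K.bd_G j i).mul ((K.bd_coord i).const_mul c)),
    ← mul_sum, sum_comm, mul_sub]
  congr 1
  · have e : (fun z x => ∑ i, (dφ i z x + K.G j i z x * (c * K.ξ x i))) = fun z x =>
        if (a : ℕ) < j then c * (K.wt x * ∑ i, K.dG j i z x) else 0 := by
      funext z x
      rw [sum_add_distrib, show ∑ i, K.G j i z x * (c * K.ξ x i) = c * ∑ i, K.ξ x i * K.G j i z x by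
        rw [mul_sum]; exact sum_congr rfl fun i _ => by ring, K.sum_xG, mul_zero, add_zero]
      simp only [hdφ]
      split_ifs with h
      · rw [← mul_sum, show K.wt x = 1 from rfl, one_mul]
      · exact sum_const_zero
    rw [e]
    by_cases h : (a : ℕ) < j
    · rw [if_pos (show (a : ℕ) + 1 ≤ j from h)]
      simp only [if_pos h, K.E_const_mul]
    · rw [if_neg (show ¬ (a : ℕ) + 1 ≤ j from h)]
      simp only [if_neg h, K.E_const, mul_zero]
  · rw [mul_left_comm]
    congr 1
    rw [mul_sum]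
    refine sum_congr rfl fun r _ => ?_
    rw [mul_sum]
    refine sum_congr rfl fun i _ => ?_
    rw [← K.E_const_mul]
    congr 1
    funext z x
    simp only [K.E_const_mul, Ker.Nv, show ∀ x, K.wt x = 1 from fun _ => rfl, one_mul]
    ring

end Vale.Agent.P157.Rsb.Cst
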