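import Vale.Agent.P157.Rsb.Intf

/-!
# P157: assembly of the variational formula on the sphere
-/

open MeasureTheory ProbabilityTheory Real Filter Topology

namespace Vale.Agent.P157.Rsb

theorem nest_zero {k : ℕ} {Z X : Type} [MeasurableSpace Z] [MeasurableSpace X] (γ : Measure Z)
    [IsProbabilityMeasure γ] (μ : Measure X) [IsProbabilityMeasure μ] (d : ℕ) :
    ∀ z : Fin k → Z, nest γ μ (fun _ _ => (0 : ℝ)) d z = 0 := by
  induction d with
  | zero => intro z; simp [nest]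
  | succ d ih => intro z; simp [nest, ih]

theorem phiK_zero (k : ℕ) (q : ℕ → ℝ) : phiK k (fun _ => 0) q = 0 :=
  nest_zero _ _ _ _

theorem entS_nonneg (hA : AlgebraStmt) {k : ℕ} {q : ℕ → ℝ} (hq : IsPath k q) (hk : q k < 1) :
    0 ≤ entS k q := by
  obtain ⟨b, -, hb, hle⟩ := hA.1 k q (fun _ => 0) hq hk fun _ => le_rfl
  simp only [dOf, fieldG, mul_zero, Finset.sum_const_zero, sub_zero, zero_div] at hb hle
  simp only [div_self hb.ne', log_one, zero_div, Finset.sum_const_zero, add_zero] at hle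
  linarith [log_le_sub_one_of_pos hb]

/-- The set of values on the grid with `k` levels. -/
noncomputable def valSet (k : ℕ) (f : ℝ → ℝ) (α : ℝ) : Set ℝ :=
  (fun q => entS k q + α * phiK k f q) '' {q | IsPath k q ∧ q k < 1}

theorem valK_eq (k : ℕ) (f : ℝ → ℝ) (α : ℝ) : valK k f α = sInf (valSet k f α) := by
  simp [valK, valSet, wFun]

theorem valSet_ok (hA : AlgebraStmt) (hP : PhiStmt) {f : ℝ → ℝ} (hf : Measurable f) {L : ℝ}
    (hL : ∀ u, |f u| ≤ L) {α : ℝ} (hα : 0 ≤ α) (k : ℕ) :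
    (valSet k f α).Nonempty ∧ BddBelow (valSet k f α) := by
  refine ⟨⟨_, ⟨fun _ => 0, ⟨⟨rfl, fun _ _ => le_rfl, zero_le_one⟩, zero_lt_one⟩, rfl⟩⟩,
    ⟨-(α * (exp (8 * L) * ∫ u, |f u| ∂gaussianReal 0 1)), ?_⟩⟩
  rintro _ ⟨q, ⟨hq, hk⟩, rfl⟩
  have hL0 : 0 ≤ L := (abs_nonneg _).trans (hL 0)
  have h := hP.2 f (fun _ => 0) L hf measurable_const hL (fun _ => by simpa using hL0) k q hq
  simp only [phiK_zero, sub_zero] at h
  have := mul_le_mul_of_nonneg_left (abs_le.1 h).1 hα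
  linarith [entS_nonneg hA hq hk]

theorem valK_lip (hA : AlgebraStmt) (hP : PhiStmt) {f h : ℝ → ℝ} (hf : Measurable f)
    (hh : Measurable h) {L : ℝ} (hfL : ∀ u, |f u| ≤ L) (hhL : ∀ u, |h u| ≤ L) {α : ℝ} (hα : 0 ≤ α)
    (k : ℕ) : |valK k f α - valK k h α| ≤ α * exp (8 * L) * ∫ u, |f u - h u| ∂gaussianReal 0 1 := by
  have key : ∀ {p r : ℝ → ℝ}, Measurable p → Measurable r → (∀ u, |p u| ≤ L) → (∀ u, |r u| ≤ L) →
      valK k p α - α * exp (8 * L) * ∫ u, |p u - r u| ∂gaussianReal 0 1 ≤ valK k r α := by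
    intro p r hp hr hpL hrL
    rw [valK_eq k r]
    refine le_csInf (valSet_ok hA hP hr hrL hα k).1 ?_
    rintro _ ⟨q, hq, rfl⟩
    have h1 : valK k p α ≤ entS k q + α * phiK k p q := by
      rw [valK_eq]; exact csInf_le (valSet_ok hA hP hp hpL hα k).2 ⟨q, hq, rfl⟩
    have h2 := mul_le_mul_of_nonneg_left (abs_le.1 (hP.2 p r L hp hr hpL hrL k q hq.1)).2 hα
    simp only
    linarith
  have h1 := key hf hh hfL hhL
  have h2 := key hh hf hhL hfL
  simp only [abs_sub_comm (h _)] at h2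
  rw [abs_le]
  constructor <;> linarith

/-- Every bounded measurable potential: the pressure converges to the limit of the grid values. -/
theorem sphere_formula (hA : AlgebraStmt) (hP : PhiStmt) (hX : ApproxStmt) (hU : UpperStmt)
    (hLo : LowerStmt) {f : ℝ → ℝ} (hf : Measurable f) {L : ℝ} (hL : ∀ u, |f u| ≤ L) {α : ℝ}
    (hα : 0 < α) : ∃ l, Tendsto (fun N => pressureSphere f α N) atTop (𝓝 l) ∧
      Tendsto (fun k => valK k f α) atTop (𝓝 l) := by
  have hclose : ∀ δ : ℝ, 0 < δ → ∃ K, ∀ k, K ≤ k →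
      ∀ᶠ N in atTop, |pressureSphere f α N - valK k f α| ≤ δ := by
    intro δ hδ
    set e := α * exp (8 * (L + 1)) with he
    have he0 : 0 < e := by positivity
    obtain ⟨h, hgood, hhL, herr⟩ := hX.1 f L (δ / 8 / e) hf hL (by positivity)
    have hfL : ∀ u, |f u| ≤ L + 1 := fun u => by linarith [hL u]
    have hh : Measurable h := hgood.1.continuous.measurable
    have herr' : e * ∫ u, |f u - h u| ∂gaussianReal 0 1 ≤ δ / 8 := by
      refine (mul_le_mul_of_nonneg_left herr he0.le).trans (le_of_eq ?_)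
      field_simp
    obtain ⟨C, hC⟩ := hU h α hgood hα
    obtain ⟨C', hC'⟩ := hLo h α hgood hα (δ / 8) (by positivity)
    have hlim : Tendsto (fun k : ℕ => √((k : ℝ) + 1)) atTop atTop :=
      tendsto_sqrt_atTop.comp (tendsto_natCast_atTop_atTop.atTop_add tendsto_const_nhds)
    have hlim' : Tendsto (fun k : ℕ => ((k : ℝ) + 1) ^ (1 / 4 : ℝ)) atTop atTop :=
      (tendsto_rpow_atTop (by norm_num)).comp (tendsto_natCast_atTop_atTop.atTop_add tendsto_const_nhds)
    obtain ⟨K, hK⟩ := eventually_atTop.1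
      (((hlim.const_div_atTop C).eventually (ge_mem_nhds (show (0 : ℝ) < δ / 8 by positivity))).and
        ((hlim'.const_div_atTop C').eventually (ge_mem_nhds (show (0 : ℝ) < δ / 8 by positivity))))
    refine ⟨K, fun k hk => ?_⟩
    filter_upwards [hC k (δ / 8) (by positivity), hC' k (δ / 8) (by positivity)] with N h1 h2
    obtain ⟨h3, h4⟩ := hK k hk
    have h5 := abs_le.1 ((hX.2 f h (L + 1) hf hh hfL hhL α N hα.le).trans herr')
    have h6 := abs_le.1 ((valK_lip hA hP hf hh hfL hhL hα.le k).trans herr')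
    rw [abs_le]
    constructor <;> linarith
  have hcs : CauchySeq fun N => pressureSphere f α N := Metric.cauchySeq_iff'.2 fun δ hδ => by
    obtain ⟨K, hK⟩ := hclose (δ / 3) (by positivity)
    obtain ⟨N₀, hN⟩ := eventually_atTop.1 (hK K le_rfl)
    refine ⟨N₀, fun N hN' => ?_⟩
    rw [Real.dist_eq, abs_lt]
    have a := abs_le.1 (hN N hN')
    have b := abs_le.1 (hN N₀ le_rfl)
    constructor <;> linarith
  obtain ⟨l, hl⟩ := cauchySeq_tendsto_of_complete hcs
  refine ⟨l, hl, Metric.tendsto_atTop.2 fun δ hδ => ?_⟩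
  obtain ⟨K, hK⟩ := hclose (δ / 2) (by positivity)
  refine ⟨K, fun k hk => ?_⟩
  rw [Real.dist_eq, abs_sub_comm]
  linarith [le_of_tendsto ((hl.sub_const (valK k f α)).abs) (hK k hk)]

end Vale.Agent.P157.Rsb
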