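import Vale.Agent.P157.Compare
import Vale.Agent.P157.Radial
import Vale.Agent.P157.Rsb.Gauss

/-!
# P157: the pressure without patterns
-/

open MeasureTheory ProbabilityTheory Real Filter Topology
open scoped RealInnerProductSpace

namespace Vale.Agent.P157.Rsb

/-- The Gaussian integral with a linear and a quadratic term on Euclidean space. -/
theorem euclid_quad {n : ℕ} {b : ℝ} (hb : 0 < b) (v : EuclideanSpace ℝ (Fin n)) :
    Integrable (fun g => exp (⟪v, g⟫ - (b - 1) * ‖g‖ ^ 2 / 2)) (stdGaussian (EuclideanSpace ℝ (Fin n))) ∧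
    ∫ g, exp (⟪v, g⟫ - (b - 1) * ‖g‖ ^ 2 / 2) ∂stdGaussian (EuclideanSpace ℝ (Fin n))
      = exp (‖v‖ ^ 2 / (2 * b) - n / 2 * log b) := by
  have hone : ∀ t : ℝ, ∫ y, exp (t * y - (b - 1) * y ^ 2 / 2) ∂gaussianReal 0 1
      = exp (t ^ 2 / (2 * b) - log b / 2) := fun t => by
    have h := gauss_quad (fun _ => 1) hb t
    simp only [one_mul, integral_const, probReal_univ, smul_eq_mul, mul_one] at h
    rw [h, exp_sub, ← Real.log_sqrt hb.le, exp_log (Real.sqrt_pos.2 hb)]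
  have hval : ∫ g, exp (⟪v, g⟫ - (b - 1) * ‖g‖ ^ 2 / 2) ∂stdGaussian (EuclideanSpace ℝ (Fin n))
      = exp (‖v‖ ^ 2 / (2 * b) - n / 2 * log b) := by
    rw [← map_pi_eq_stdGaussian, integral_map (by fun_prop) (by fun_prop)]
    have e : ∀ y : Fin n → ℝ, exp (⟪v, WithLp.toLp 2 y⟫ - (b - 1) * ‖WithLp.toLp 2 y‖ ^ 2 / 2)
        = ∏ i, exp (v i * y i - (b - 1) * y i ^ 2 / 2) := fun y => by
      rw [← exp_sum, EuclideanSpace.real_norm_sq_eq, PiLp.inner_apply, Finset.sum_sub_distrib,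
        Finset.mul_sum, Finset.sum_div]
      simp [mul_comm]
    simp only [e]
    rw [integral_fintype_prod_eq_prod (fun (i : Fin n) (y : ℝ) => exp (v i * y - (b - 1) * y ^ 2 / 2))]
    simp only [hone, ← exp_sum]
    congr 1
    rw [Finset.sum_sub_distrib, EuclideanSpace.real_norm_sq_eq, Finset.sum_div]
    simp
    ring
  exact ⟨Integrable.of_integral_ne_zero (by rw [hval]; exact (exp_pos _).ne'), hval⟩

/-- The ingredients of the radial comparison. -/
theorem radial_window {δ : ℝ} (hδ : 0 < δ) (hδ1 : δ < 1) : ∃ N₀ : ℕ, ∀ N : ℕ, N₀ ≤ N →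
    ∃ ρ : Measure ℝ, IsProbabilityMeasure ρ ∧ MeasurePreserving
      (fun z : EuclideanSpace ℝ (Fin (N + 1)) => (‖z‖⁻¹ • z, ‖z‖)) (stdGaussian _)
      ((sphereLaw _).prod ρ) ∧
      1 / 2 ≤ ρ.real {r | 0 < r ∧ (1 - δ) * (N + 1) ≤ r ^ 2 ∧ r ^ 2 ≤ (1 + δ) * (N + 1)} := by
  set r₁ := exp (-(δ / 4 * (1 + δ))) * exp (δ / 4 / (1 - δ / 2))
  set r₂ := exp (δ / 4 * (1 - δ)) * exp (-(δ / 4 / (1 + δ / 2)))
  have h1 : r₁ < 1 := by
    simp only [r₁, ← exp_add]
    rw [exp_lt_one_iff]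
    have : δ / 4 / (1 - δ / 2) < δ / 4 * (1 + δ) := by
      rw [div_lt_iff₀ (by linarith)]
      nlinarith [mul_pos (mul_pos hδ hδ) (sub_pos.2 hδ1)]
    linarith
  have h2 : r₂ < 1 := by
    simp only [r₂, ← exp_add]
    rw [exp_lt_one_iff]
    have : δ / 4 * (1 - δ) < δ / 4 / (1 + δ / 2) := by
      rw [lt_div_iff₀ (by linarith)]
      nlinarith [mul_pos (mul_pos hδ hδ) (add_pos_of_pos_of_nonneg (one_pos (α := ℝ)) hδ.le)]
    linarith
  obtain ⟨N₀, hN₀⟩ := eventually_atTop.1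
    (((tendsto_pow_atTop_nhds_zero_of_lt_one (by positivity) h1).eventually
      (ge_mem_nhds (show (0 : ℝ) < 1 / 4 by norm_num))).and
    ((tendsto_pow_atTop_nhds_zero_of_lt_one (by positivity) h2).eventually
      (ge_mem_nhds (show (0 : ℝ) < 1 / 4 by norm_num))))
  refine ⟨N₀, fun N hN => ?_⟩
  set n : ℝ := (N : ℝ) + 1 with hn
  set E := EuclideanSpace ℝ (Fin (N + 1))
  obtain ⟨ρ, hρ, hpos, hmp⟩ := polar_law E
  refine ⟨ρ, hρ, hmp, ?_⟩
  obtain ⟨p1, p2⟩ := hN₀ (N + 1) (by omega)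
  have hR : MeasurePreserving (fun z : E => ‖z‖) (stdGaussian E) ρ :=
    (MeasureTheory.measurePreserving_snd (μ := sphereLaw E) (ν := ρ)).comp hmp
  have cheb : ∀ (t c : ℝ), 0 < 1 - 2 * t →
      ρ.real {r | exp c ≤ exp (t * r ^ 2)} ≤ exp (-c - n / 2 * log (1 - 2 * t)) := by
    intro t c ht
    obtain ⟨hi, hv⟩ := euclid_quad ht (0 : E)
    have e : ∀ g : E, exp (⟪(0 : E), g⟫ - (1 - 2 * t - 1) * ‖g‖ ^ 2 / 2) = exp (t * ‖g‖ ^ 2) := fun g => by
      rw [inner_zero_left]; ring_nf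
    simp only [e] at hi hv
    have hi' : Integrable (fun r : ℝ => exp (t * r ^ 2)) ρ := (hR.integrable_comp (by fun_prop)).1 hi
    have h := mul_meas_ge_le_integral_of_nonneg (ae_of_all ρ fun r => (exp_pos (t * r ^ 2)).le) hi' (exp c)
    rw [← integral_of_preserving hR (f := fun r => exp (t * r ^ 2)) (by fun_prop), hv] at h
    simp only [norm_zero, ne_eq, OfNat.ofNat_ne_zero, not_false_eq_true, zero_pow, zero_div, zero_sub,
      Nat.cast_add, Nat.cast_one] at h
    rw [show -c - n / 2 * log (1 - 2 * t) = -(n / 2 * log (1 - 2 * t)) - c by ring, exp_sub,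
      le_div_iff₀ (exp_pos c)]
    linarith
  have hup : ρ.real {r | (1 + δ) * n < r ^ 2} ≤ 1 / 4 := by
    refine le_trans ?_ p1
    refine (measureReal_mono (s₂ := {r | exp (δ / 4 * ((1 + δ) * n)) ≤ exp (δ / 4 * r ^ 2)}) (fun r hr =>
      exp_le_exp.2 (mul_le_mul_of_nonneg_left (le_of_lt hr) (by linarith)))).trans
      ((cheb (δ / 4) _ (by linarith)).trans ?_)
    rw [show r₁ = exp (-(δ / 4 * (1 + δ)) + δ / 4 / (1 - δ / 2)) from (exp_add _ _).symm, ← exp_nat_mul,
      exp_le_exp]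
    push_cast
    rw [← hn]
    have hl : -log (1 - δ / 2) ≤ δ / 2 / (1 - δ / 2) := by
      have := one_sub_inv_le_log_of_pos (show (0 : ℝ) < 1 - δ / 2 by linarith)
      rw [show δ / 2 / (1 - δ / 2) = δ / 2 * (1 - δ / 2)⁻¹ from div_eq_mul_inv _ _]
      have e : δ / 2 * (1 - δ / 2)⁻¹ = (1 - δ / 2)⁻¹ - 1 := by
        linear_combination -(inv_mul_cancel₀ (show (1 : ℝ) - δ / 2 ≠ 0 by linarith))
      linarith
    rw [show (1 : ℝ) - 2 * (δ / 4) = 1 - δ / 2 by ring]
    nlinarith [mul_le_mul_of_nonneg_left hl (show (0 : ℝ) ≤ n / 2 by positivity),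
      show δ / 2 / (1 - δ / 2) = 2 * (δ / 4 / (1 - δ / 2)) by ring]
  have hlo : ρ.real {r | r ^ 2 < (1 - δ) * n} ≤ 1 / 4 := by
    refine le_trans ?_ p2
    refine (measureReal_mono (s₂ := {r | exp (-(δ / 4) * ((1 - δ) * n)) ≤ exp (-(δ / 4) * r ^ 2)})
      (fun r hr => exp_le_exp.2 (mul_le_mul_of_nonpos_left (le_of_lt hr) (by linarith)))).trans
      ((cheb (-(δ / 4)) _ (by linarith)).trans ?_)
    rw [show r₂ = exp (δ / 4 * (1 - δ) + -(δ / 4 / (1 + δ / 2))) from (exp_add _ _).symm, ← exp_nat_mul,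
      exp_le_exp]
    push_cast
    rw [← hn]
    have hl : δ / 2 / (1 + δ / 2) ≤ log (1 + δ / 2) := by
      have := one_sub_inv_le_log_of_pos (show (0 : ℝ) < 1 + δ / 2 by linarith)
      have e : δ / 2 / (1 + δ / 2) = 1 - (1 + δ / 2)⁻¹ := by
        field_simp
        ring
      linarith
    rw [show (1 : ℝ) - 2 * -(δ / 4) = 1 + δ / 2 by ring]
    nlinarith [mul_le_mul_of_nonneg_left hl (show (0 : ℝ) ≤ n / 2 by positivity),
      show δ / 2 / (1 + δ / 2) = 2 * (δ / 4 / (1 + δ / 2)) by ring]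
  have hneg : ρ.real {r | r ≤ 0} = 0 := by
    rw [measureReal_eq_zero_iff]
    simpa [ae_iff, not_lt] using hpos
  set G := {r : ℝ | 0 < r ∧ (1 - δ) * n ≤ r ^ 2 ∧ r ^ 2 ≤ (1 + δ) * n}
  have hsub : (Set.univ : Set ℝ) ⊆
      (G ∪ {r | r ≤ 0}) ∪ ({r | r ^ 2 < (1 - δ) * n} ∪ {r | (1 + δ) * n < r ^ 2}) := fun r _ => by
    simp only [G, Set.mem_union, Set.mem_setOf_eq]
    rcases le_or_gt r 0 with h | h
    · exact Or.inl (Or.inr h)
    rcases lt_or_ge (r ^ 2) ((1 - δ) * n) with h' | h'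
    · exact Or.inr (Or.inl h')
    rcases lt_or_ge ((1 + δ) * n) (r ^ 2) with h'' | h''
    · exact Or.inr (Or.inr h'')
    exact Or.inl (Or.inl ⟨h, h', h''⟩)
  have h := measureReal_mono (μ := ρ) hsub
  rw [probReal_univ] at h
  linarith [measureReal_union_le (μ := ρ) (G ∪ {r | r ≤ 0}) ({r | r ^ 2 < (1 - δ) * n} ∪ {r | (1 + δ) * n < r ^ 2}),
    measureReal_union_le (μ := ρ) G {r | r ≤ 0},
    measureReal_union_le (μ := ρ) {r | r ^ 2 < (1 - δ) * n} {r | (1 + δ) * n < r ^ 2}]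

/-- The exponent of the comparison. -/
theorem exponent_close {b δ R ε : ℝ} (hb : 0 < b) (hδ : 0 ≤ δ) (hδ2 : δ ≤ 1 / 2) (hbR : b ≤ |R|)
    (hδR : δ * (2 * |R| + 1) ≤ ε / 2) :
    (b / (1 - δ) - 1 + |b / (1 - δ) - 1| * δ) / 2 - log (b / (1 - δ)) / 2 + ε / 2
      ≤ (b - 1 - log b) / 2 + ε := by
  have h1δ : 0 < 1 - δ := by linarith
  set b₀ := b / (1 - δ) with hb₀d
  have hb₀ : 0 < b₀ := div_pos hb h1δ
  have hb2 : b₀ - b ≤ 2 * |R| * δ := by
    rw [hb₀d, div_sub' h1δ.ne', div_le_iff₀ h1δ]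
    have h1 : b * δ ≤ |R| * δ := mul_le_mul_of_nonneg_right hbR hδ
    nlinarith [mul_nonneg (mul_nonneg (abs_nonneg R) hδ) (show (0 : ℝ) ≤ 1 - 2 * δ by linarith)]
  have hb3 : |b₀ - 1| * δ ≤ (2 * |R| + 1) * δ := by
    refine mul_le_mul_of_nonneg_right ?_ hδ
    have : b₀ ≤ 2 * |R| := by
      rw [hb₀d, div_le_iff₀ h1δ]
      nlinarith [hbR, abs_nonneg R]
    exact abs_le.2 ⟨by linarith [abs_nonneg R], by linarith⟩
  have hb4 : log b ≤ log b₀ := log_le_log hb (by
    rw [hb₀d, le_div_iff₀ h1δ]; exact mul_le_of_le_one_right hb.le (by linarith))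
  have hin : (b₀ - 1 + |b₀ - 1| * δ) / 2 - log b₀ / 2 + ε / 2 ≤ (b - 1 - log b) / 2 + ε := by
    nlinarith [abs_nonneg R]
  exact hin

/-- The sphere integral of an exponential is at most the Gaussian formula. -/
theorem sphere_exp_le {D R ε : ℝ} (hD : 0 < D) (hε : 0 < ε) : ∃ N₀ : ℕ, ∀ N : ℕ, N₀ ≤ N →
    ∀ b, D ≤ b → b ≤ R → ∀ S : Fin (N + 1) → ℝ,
      log (∫ x, exp (√((N : ℝ) + 1) * sdot S ((sphereLeaf N).fld x)) ∂(sphereLeaf N).μ)
        ≤ sdot S S / (2 * b) + ((N : ℝ) + 1) * ((b - 1 - log b) / 2 + ε) := by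
  set δ := min (1 / 2) (ε / 2 / (2 * |R| + 1)) with hδd
  have hδ : 0 < δ := lt_min (by norm_num) (by positivity)
  have hδ2 : δ ≤ 1 / 2 := min_le_left _ _
  have hδR : δ * (2 * |R| + 1) ≤ ε / 2 := (le_div_iff₀ (by positivity)).1 (min_le_right _ _)
  obtain ⟨N₁, hN₁⟩ := radial_window hδ (by linarith)
  refine ⟨max N₁ ⌈2 * log 3 / ε⌉₊, fun N hN b hbD hbR S => ?_⟩
  set n : ℝ := (N : ℝ) + 1 with hn
  have hn0 : 0 < n := by positivity
  have hlog3 : log 3 ≤ n * (ε / 2) := by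
    have : 2 * log 3 / ε ≤ N := (Nat.le_ceil _).trans (by exact_mod_cast (le_max_right _ _).trans hN)
    rw [div_le_iff₀ hε] at this
    rw [hn]
    nlinarith
  obtain ⟨ρ, hρ, hmp, hwin⟩ := hN₁ N ((le_max_left _ _).trans hN)
  set E := EuclideanSpace ℝ (Fin (N + 1))
  set W := {r : ℝ | 0 < r ∧ (1 - δ) * n ≤ r ^ 2 ∧ r ^ 2 ≤ (1 + δ) * n} with hW
  have hb : 0 < b := hD.trans_le hbD
  have h1δ : 0 < 1 - δ := by linarith
  set b₀ := b / (1 - δ) with hb₀d
  have hb₀ : 0 < b₀ := div_pos hb h1δ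
  set v : E := (√(1 - δ))⁻¹ • WithLp.toLp 2 S with hv
  set A : ℝ → ℝ := fun r => ∫ w, exp (r * ⟪v, w⟫) ∂sphereLaw E with hA
  set R₀ := √((1 - δ) * n) with hR₀
  have hnorm : ∀ᵐ w ∂sphereLaw E, ‖w‖ = 1 := sphereLaw_norm E
  have hAi : ∀ r, Integrable (fun w => exp (r * ⟪v, w⟫)) (sphereLaw E) := fun r => by
    refine Integrable.of_bound (by fun_prop) (exp (|r| * ‖v‖)) (hnorm.mono fun w hw => ?_)
    rw [norm_eq_abs, abs_of_pos (exp_pos _), exp_le_exp]
    refine (le_abs_self _).trans ?_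
    rw [abs_mul]
    exact mul_le_mul_of_nonneg_left ((abs_real_inner_le_norm v w).trans (by rw [hw, mul_one])) (abs_nonneg r)
  have hmono : ∀ r, R₀ ≤ r → A R₀ ≤ A r + 1 := fun r hr => by
    refine (integral_mono (hAi R₀) ((hAi r).add (integrable_const 1)) fun w => ?_).trans (le_of_eq ?_)
    · simp only [Pi.add_apply]
      rcases le_total 0 ⟪v, w⟫ with h | h
      · linarith [exp_le_exp.2 (mul_le_mul_of_nonneg_right hr h)]
      · have : R₀ * ⟪v, w⟫ ≤ 0 := mul_nonpos_of_nonneg_of_nonpos (Real.sqrt_nonneg _) h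
        linarith [exp_le_one_iff.2 this, exp_pos (r * ⟪v, w⟫)]
    · simp [hA, integral_add (hAi r) (integrable_const 1)]
  -- the Gaussian integral in polar coordinates
  obtain ⟨hI, hIv⟩ := euclid_quad hb₀ v
  set F : E × ℝ → ℝ := fun p => exp (p.2 * ⟪v, p.1⟫ - (b₀ - 1) * p.2 ^ 2 / 2) with hF
  have hcomp : (fun g : E => F (‖g‖⁻¹ • g, ‖g‖)) = fun g => exp (⟪v, g⟫ - (b₀ - 1) * ‖g‖ ^ 2 / 2) := by
    funext g
    rcases eq_or_ne g 0 with rfl | hg
    · simp [hF]
    · simp only [hF]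
      rw [real_inner_smul_right, ← mul_assoc, mul_inv_cancel₀ (norm_ne_zero_iff.2 hg), one_mul]
  have hFi : Integrable F ((sphereLaw E).prod ρ) :=
    (hmp.integrable_comp (by fun_prop)).1 (by rw [Function.comp_def, hcomp]; exact hI)
  have hpol : ∫ r, exp (-(b₀ - 1) * r ^ 2 / 2) * A r ∂ρ = exp (‖v‖ ^ 2 / (2 * b₀) - n / 2 * log b₀) := by
    have h1 := integral_of_preserving hmp (f := F) (by fun_prop)
    rw [hcomp, hIv, integral_prod_symm _ hFi] at h1
    rw [show n / 2 = (↑(N + 1) : ℝ) / 2 by push_cast; rfl, h1]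
    refine integral_congr_ae (ae_of_all _ fun r => ?_)
    simp only [hA, ← integral_const_mul, hF, ← exp_add]
    exact integral_congr_ae (ae_of_all _ fun w => by ring_nf)
  have hgi : Integrable (fun r => exp (-(b₀ - 1) * r ^ 2 / 2) * A r) ρ := by
    refine hFi.integral_prod_right.congr (ae_of_all _ fun r => ?_)
    simp only [hA, ← integral_const_mul, hF, ← exp_add]
    exact integral_congr_ae (ae_of_all _ fun w => by ring_nf)
  set K := n / 2 * (b₀ - 1 + |b₀ - 1| * δ) with hK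
  have hA0 : A R₀ ≤ 1 + 2 * exp K * exp (‖v‖ ^ 2 / (2 * b₀) - n / 2 * log b₀) := by
    rcases le_or_gt (A R₀) 1 with h | h
    · linarith [show 0 ≤ 2 * exp K * exp (‖v‖ ^ 2 / (2 * b₀) - n / 2 * log b₀) by positivity]
    have hpt : ∀ r ∈ W, exp (-K) * (A R₀ - 1) ≤ exp (-(b₀ - 1) * r ^ 2 / 2) * A r := fun r hr => by
      refine mul_le_mul (exp_le_exp.2 ?_) ?_ (by linarith) (exp_pos _).le
      · have hd : |r ^ 2 - n| ≤ δ * n := abs_le.2 ⟨by nlinarith [hr.2.1], by nlinarith [hr.2.2]⟩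
        have := mul_le_mul_of_nonneg_left hd (abs_nonneg (b₀ - 1))
        rw [← abs_mul] at this
        have := le_abs_self ((b₀ - 1) * (r ^ 2 - n))
        rw [hK]
        nlinarith
      · have hr0 : R₀ ≤ r := by
          rw [hR₀, ← Real.sqrt_sq hr.1.le]
          exact Real.sqrt_le_sqrt hr.2.1
        linarith [hmono r hr0]
    have hWm : MeasurableSet W :=
      ((measurableSet_lt measurable_const measurable_id).inter
        ((measurableSet_le measurable_const (measurable_id.pow_const 2)).inter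
          (measurableSet_le (measurable_id.pow_const 2) measurable_const)))
    have h2 := setIntegral_ge_of_const_le_real hWm (measure_ne_top ρ W) hpt hgi.integrableOn
    have h3 := setIntegral_le_integral (μ := ρ) (s := W) hgi (ae_of_all _ fun r =>
      mul_nonneg (exp_pos _).le (integral_nonneg fun w => (exp_pos _).le))
    rw [hpol] at h3
    have h4 : exp (-K) * (A R₀ - 1) * (1 / 2) ≤ exp (-K) * (A R₀ - 1) * ρ.real W :=
      mul_le_mul_of_nonneg_left hwin (mul_nonneg (exp_pos _).le (by linarith))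
    have h5 := mul_le_mul_of_nonneg_left ((h4.trans h2).trans h3) (show 0 ≤ 2 * exp K by positivity)
    have e : 2 * exp K * (exp (-K) * (A R₀ - 1) * (1 / 2)) = A R₀ - 1 := by
      rw [exp_neg]; field_simp
    linarith
  -- the sphere integral
  have hsm : MeasurePreserving (Subtype.val : (sphereLeaf N).X → E) (sphereLeaf N).μ (sphereLaw E) :=
    ⟨measurable_subtype_coe, rfl⟩
  have hL : ∫ x, exp (√n * sdot S ((sphereLeaf N).fld x)) ∂(sphereLeaf N).μ = A R₀ := by
    show _ = ∫ w, exp (R₀ * ⟪v, w⟫) ∂sphereLaw E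
    rw [← integral_of_preserving hsm (f := fun w : E => exp (R₀ * ⟪v, w⟫)) (by fun_prop)]
    refine integral_congr_ae (ae_of_all _ fun x => ?_)
    simp only
    congr 1
    rw [hv, real_inner_smul_left, ← mul_assoc, hR₀, Real.sqrt_mul h1δ.le]
    have : √(1 - δ) ≠ 0 := (Real.sqrt_pos.2 h1δ).ne'
    rw [show √(1 - δ) * √n * (√(1 - δ))⁻¹ = √n by field_simp]
    congr 1
    simp only [sdot, sphereLeaf]
    rw [PiLp.inner_apply]
    simp [mul_comm]
  have hvn : ‖v‖ ^ 2 / (2 * b₀) = sdot S S / (2 * b) := by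
    rw [hv, norm_smul, mul_pow, norm_eq_abs, sq_abs, inv_pow, Real.sq_sqrt h1δ.le,
      EuclideanSpace.real_norm_sq_eq, hb₀d]
    simp only [sdot, pow_two]
    field_simp
  set c := K + (sdot S S / (2 * b) - n / 2 * log b₀) with hc
  have hss : 0 ≤ sdot S S := Finset.sum_nonneg fun i _ => mul_self_nonneg _
  have hc0 : 0 ≤ c := by
    have h1 := log_le_sub_one_of_pos hb₀
    have h2 : 0 ≤ sdot S S / (2 * b) := by positivity
    have h3 : 0 ≤ |b₀ - 1| * δ := by positivity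
    rw [hc, hK]; nlinarith
  rw [hL]
  have hApos : 0 < A R₀ := by
    have : NeZero (sphereLaw E) := ⟨IsProbabilityMeasure.ne_zero _⟩
    exact integral_exp_pos (hAi R₀)
  have h3 : A R₀ ≤ 3 * exp c := by
    rw [hvn, mul_assoc, ← exp_add] at hA0
    linarith [one_le_exp hc0]
  refine (log_le_log hApos h3).trans ?_
  rw [log_mul (by norm_num) (exp_pos _).ne', log_exp]
  have := mul_le_mul_of_nonneg_left (exponent_close hb hδ.le hδ2 (hbR.trans (le_abs_self R)) hδR) hn0.le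
  rw [← hb₀d] at this
  rw [hc, hK]
  linarith

/-- One step of the vector recursion. -/
theorem quad_step_vec {n : ℕ} {D m σ : ℝ} (hm : 0 < m) (hD : 0 < D) (hD' : 0 < D - m * σ ^ 2)
    (v : Fin n → ℝ) (C : ℝ) :
    Integrable (fun y : FieldIdx n → ℝ => exp (m * ((∑ i, (v i + σ * y (.inl i)) ^ 2) / (2 * D) + C)))
      (stdG (FieldIdx n)) ∧
    log (∫ y : FieldIdx n → ℝ, exp (m * ((∑ i, (v i + σ * y (.inl i)) ^ 2) / (2 * D) + C)) ∂stdG (FieldIdx n)) / m
      = (∑ i, v i ^ 2) / (2 * (D - m * σ ^ 2)) + (C + n / (2 * m) * log (D / (D - m * σ ^ 2))) := by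
  let F : FieldIdx n → ℝ → ℝ := fun a y => Sum.elim (fun i => exp (m * (v i + σ * y) ^ 2 / (2 * D))) (fun _ => 1) a
  have e : ∀ y : FieldIdx n → ℝ, exp (m * ((∑ i, (v i + σ * y (.inl i)) ^ 2) / (2 * D) + C))
      = exp (m * C) * ∏ a, F a (y a) := fun y => by
    simp only [Fintype.prod_sum_type, F, Sum.elim_inl, Sum.elim_inr, Finset.prod_const_one, mul_one,
      ← exp_sum, ← exp_add]
    congr 1
    rw [mul_add, add_comm, Finset.sum_div, Finset.mul_sum]
    simp only [mul_div_assoc]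
  have hi : Integrable (fun y : FieldIdx n → ℝ => ∏ a, F a (y a)) (stdG (FieldIdx n)) :=
    Integrable.fintype_prod fun a => by
      rcases a with i | u
      · exact (step_quad_one hD hD' (v i)).1
      · exact integrable_const 1
  have hv : ∫ y : FieldIdx n → ℝ, ∏ a, F a (y a) ∂stdG (FieldIdx n)
      = ∏ i : Fin n, (√(D / (D - m * σ ^ 2)) * exp (m * v i ^ 2 / (2 * (D - m * σ ^ 2)))) := by
    rw [stdG, integral_fintype_prod_eq_prod, Fintype.prod_sum_type]
    simp [F, (step_quad_one hD hD' _).2]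
  refine ⟨(hi.const_mul _).congr (ae_of_all _ fun y => (e y).symm), ?_⟩
  simp only [e, integral_const_mul, hv, Finset.prod_mul_distrib, Finset.prod_const, Finset.card_univ,
    Fintype.card_fin, ← exp_sum]
  have hq : 0 < D / (D - m * σ ^ 2) := div_pos hD hD'
  rw [log_mul (exp_pos _).ne' (by positivity),
    log_mul (pow_pos (Real.sqrt_pos.2 hq) n).ne' (exp_pos _).ne', log_exp, log_exp, Real.log_pow,
    Real.log_sqrt hq.le, ← Finset.sum_div, ← Finset.mul_sum]
  field_simp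
  ring

theorem initStmt : InitStmt := by
  intro f k B D ε hD hε
  set R := D + (k : ℝ) * B ^ 2
  obtain ⟨N₀, hN₀⟩ := sphere_exp_le (R := R) hD hε
  refine ⟨N₀, fun N hN σ b hσ hb => ?_⟩
  set n : ℝ := (N : ℝ) + 1 with hn
  have hn0 : 0 < n := by positivity
  set Δ := sq σ
  have hΔ : ∀ j, 0 ≤ Δ j := fun j => sq_nonneg _
  set r := ∑ l : Fin k, σ (l + 1) ^ 2 with hr
  have hr' : ∑ j ∈ Finset.Icc 1 k, Δ j = r := by
    rw [sum_Icc_shift, Finset.sum_range]
    rfl
  have hD0 : 0 < dOf k b Δ 0 := hb ▸ hD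
  have hbD : D ≤ b := hb ▸ (dOf_mem hΔ 0).2
  have hbR : b ≤ R := by
    have h1 := dOf_ge (b := b) hΔ (R := r) hr'.le
    have h2 : r ≤ k * B ^ 2 := by
      refine (Finset.sum_le_sum (g := fun _ => B ^ 2) fun l _ => pow_le_pow_left₀ (hσ _).1 (hσ _).2 2).trans
        (le_of_eq (by simp))
    rw [hb] at h1
    linarith
  have hpos : ∀ i, 0 < dOf k b Δ i := fun i => hD0.trans_le (dOf_mem hΔ i).1
  set S := sphereLeaf N
  set C₀ := n * ((b - 1 - log b) / 2 + ε) - n / 2 * r with hC₀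
  have key : ∀ g : Fin 0 → Fin (N + 1) → ℝ,
      val (stdG (FieldIdx (N + 1))) S.μ (ham (k := k) S f n σ (fun _ => 0) g) 0 (fun _ _ => 0)
        ≤ n * (fieldG k b Δ + ε) := by
    intro g
    set H := ham (k := k) S f n σ (fun _ => 0) g with hH
    let P : ℕ → (Fin k → FieldIdx (N + 1) → ℝ) → Fin (N + 1) → ℝ :=
      fun j z i => acc σ (fun y => y (.inl i)) j z
    have hmeas : Measurable (Function.uncurry H) := by
      show Measurable fun p : (Fin k → FieldIdx (N + 1) → ℝ) × S.X => H p.1 p.2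
      simp only [hH, ham, S, sphereLeaf, sdot, Finset.univ_eq_empty, Finset.sum_empty]
      fun_prop
    suffices h : ∀ z, val (stdG (FieldIdx (N + 1))) S.μ H 0 z
        ≤ (∑ i, P 0 z i ^ 2) / (2 * dOf k b Δ 0) + recC n k b Δ C₀ 0 by
      refine (h _).trans (le_of_eq ?_)
      simp only [P, acc_zero, recC_zero, hr', hC₀]
      simp
      ring
    refine levels_down (P := fun j => ∀ z, val (stdG (FieldIdx (N + 1))) S.μ H j z
        ≤ (∑ i, P j z i ^ 2) / (2 * dOf k b Δ j) + recC n k b Δ C₀ j) (fun z => ?_) (fun j hj ih z => ?_) 0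
      (Nat.zero_le k)
    · have hval : val (stdG (FieldIdx (N + 1))) S.μ H k z = log (∫ x, exp (H z x) ∂S.μ) := by
        simp [val, nest]
      have hHz : ∀ x, H z x = √n * sdot (fun i => P k z i) (S.fld x) + -(n / 2 * r) := by
        intro x
        have hu : sdot (S.fld x) (S.fld x) = 1 := by
          simp only [S, sphereLeaf, sdot, ← pow_two, ← EuclideanSpace.real_norm_sq_eq]
          rw [mem_sphere_zero_iff_norm.1 x.2, one_pow]
        simp only [hH, ham, hu]
        simp only [P, acc_top, sdot, Finset.univ_eq_empty, Finset.sum_empty, Finset.sum_mul,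
          Finset.mul_sum]
        simp only [S, sphereLeaf]
        rw [Finset.sum_comm]
        simp [hr, Finset.mul_sum, mul_assoc, mul_left_comm, sub_eq_add_neg]
      simp only [hval, hHz, exp_add, integral_mul_const]
      rw [log_mul ?_ (exp_pos _).ne', log_exp, dOf_self, recC_self, hC₀]
      · have := hN₀ N hN b hbD hbR fun i => P k z i
        simp only [sdot, ← pow_two] at this ⊢
        linarith
      · obtain ⟨B', hB'⟩ := S.bdd
        have : NeZero S.μ := ⟨IsProbabilityMeasure.ne_zero _⟩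
        refine (integral_exp_pos (f := fun x => √n * sdot (fun i => P k z i) (S.fld x)) ?_).ne'
        have hm : Measurable fun x : S.X => √n * sdot (fun i => P k z i) (S.fld x) := by
          have := S.fld_meas
          unfold sdot; fun_prop
        refine Integrable.of_bound hm.exp.aestronglyMeasurable (exp (√n * ∑ i, |P k z i| * B'))
          (ae_of_all _ fun x => ?_)
        rw [norm_eq_abs, abs_of_pos (exp_pos _), exp_le_exp]
        refine mul_le_mul_of_nonneg_left (Finset.sum_le_sum fun i _ => ?_) (Real.sqrt_nonneg _)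
        refine (le_abs_self _).trans ?_
        rw [abs_mul]
        exact mul_le_mul_of_nonneg_left ((hB' x).2.1 i) (abs_nonneg _)
    · have hlev := lev_pos' (k := k) (Nat.le_add_left 1 j)
      have hD' : dOf k b Δ (j + 1) - lev k (j + 1) * σ (j + 1) ^ 2 = dOf k b Δ j := (dOf_step hj).symm
      obtain ⟨hi, hv⟩ := quad_step_vec hlev (hpos (j + 1)) (hD' ▸ hpos j) (P j z) (recC n k b Δ C₀ (j + 1))
      have hle := step_le (γ := stdG (FieldIdx (N + 1))) hlev
        (V := fun y => val (stdG (FieldIdx (N + 1))) S.μ H (j + 1) (put z j y))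
        ((nest_measurable hmeas _).comp (by
          unfold put
          exact measurable_pi_lambda _ fun a => by split_ifs <;> fun_prop)) hi fun y => by
          have := ih (put z j y)
          simp only [P, acc_put _ _ _ hj] at this
          exact this
      rw [val_succ hj]
      refine hle.2.trans (le_of_eq ?_)
      rw [hv, hD', recC_step hj]
      push_cast
      rfl
  rw [sphFree, free, patterns, Measure.pi_of_empty, integral_dirac, div_le_iff₀ hn0]
  linarith [key fun a => isEmptyElim a]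

end Vale.Agent.P157.Rsb
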