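import Vale.Agent.P157.Rsb.LeafBasic

/-!
# P157: the root of a perturbed system as a function of one amplitude
-/

open MeasureTheory ProbabilityTheory Real Finset

namespace Vale.Agent.P157.Rsb.Lf

variable {n M k : ℕ} {f : ℝ → ℝ} {L : ℝ}

/-- Replace the amplitude of the level `a + 1`. -/
abbrev setAmp (σ : ℕ → ℝ) (a : Fin k) (s : ℝ) : ℕ → ℝ := Function.update σ ((a : ℕ) + 1) s

/-- The weighted tail of the mean squares at the root. -/
noncomputable def rootTail (S : Leaf n) (f : ℝ → ℝ) (N : ℝ) (σ β : ℕ → ℝ) (g : Fin M → Fin n → ℝ)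
    (k j : ℕ) : ℝ :=
  mass k * ∑ l ∈ Icc j k, cnd (k := k) (gn n) S.μ (ham S f N σ β g)
    (fun z _ => mu2 S (ham S f N σ β g) l z) 0 (fun _ _ => 0)

/-- The derivative of the Hamiltonian in one amplitude. -/
noncomputable def ampDer (S : Leaf n) (N : ℝ) (a : Fin k) (s : ℝ) (z : Fin k → FieldIdx n → ℝ)
    (x : S.X) : ℝ :=
  √N * fieldDot S a z x - N * s * sdot (S.fld x) (S.fld x)

theorem tame_mu2 (S : Leaf n) {H : (Fin k → FieldIdx n → ℝ) → S.X → ℝ} (hH : LinB (wn n) H) (l : ℕ) :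
    Tame (wn n) fun z (_ : S.X) => mu2 S H l z :=
  (Tame.sum univ fun i _ => (cnd_tame (μ := S.μ) hH (tame_fld S i) l).mul (cnd_tame (μ := S.μ) hH (tame_fld S i) l)).congr
    fun z _ => by simp only [mu2, mv, pow_two]

theorem tame_self (S : Leaf n) :
    Tame (wn n) fun (_ : Fin k → FieldIdx n → ℝ) x => sdot (S.fld x) (S.fld x) :=
  (Tame.sum univ fun i _ => (tame_fld S i).mul (tame_fld S i)).congr fun _ _ => rfl

theorem tame_ampDer (S : Leaf n) (N : ℝ) (a : Fin k) (s : ℝ) : Tame (wn n) (ampDer S N a s) :=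
  ((tame_fieldDot S a).const_mul _).sub ((tame_self S).const_mul _)

/-- Integration by parts in all coordinates of one field at the level `j`. -/
theorem cnd_fieldDot (S : Leaf n) (hm : Measurable f) (hL : ∀ u, |f u| ≤ L) (N : ℝ) (σ β : ℕ → ℝ)
    (g : Fin M → Fin n → ℝ) (a : Fin k) {j : ℕ} (hj : j ≤ a) (z : Fin k → FieldIdx n → ℝ) :
    cnd (gn n) S.μ (ham S f N σ β g) (fieldDot S a) j z
      = σ ((a : ℕ) + 1) * √N *
        (cnd (gn n) S.μ (ham S f N σ β g) (fun _ x => sdot (S.fld x) (S.fld x)) j z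
          - mass k * ∑ l ∈ Icc ((a : ℕ) + 1) k, cnd (gn n) S.μ (ham S f N σ β g)
              (fun z _ => mu2 S (ham S f N σ β g) l z) j z) := by
  have hH := ham_linB (k := k) S hm hL N σ β g
  unfold fieldDot sdot
  rw [cnd_finsum hH _ fun i _ => (tame_z S a (.inl i)).mul (tame_fld S i)]
  rw [sum_congr rfl fun i _ => field_coord_ibp S hm hL N σ β g a i i hj z, ← mul_sum, sum_sub_distrib,
    ← mul_sum, sum_comm, cnd_finsum hH _ fun i _ => (tame_fld S i).mul (tame_fld S i)]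
  congr 3
  refine sum_congr rfl fun l _ => ?_
  have h := cnd_finsum (γ := gn n) (μ := S.μ) hH univ (φ := fun i z (_ : S.X) =>
    mv S (ham S f N σ β g) l i z * mv S (ham S f N σ β g) l i z)
    (fun i _ => (cnd_tame hH (tame_fld S i) l).mul (cnd_tame hH (tame_fld S i) l)) j z
  rw [← h]
  simp only [mu2, pow_two]

/-- The derivative of the root value, after integration by parts. -/
theorem root_ampDer (S : Leaf n) (hm : Measurable f) (hL : ∀ u, |f u| ≤ L) {N : ℝ} (hN : 0 ≤ N)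
    (σ β : ℕ → ℝ) (g : Fin M → Fin n → ℝ) (a : Fin k) :
    cnd (gn n) S.μ (ham S f N σ β g) (ampDer S N a (σ ((a : ℕ) + 1))) 0 (fun _ _ => 0)
      = -(N * σ ((a : ℕ) + 1)) * rootTail S f N σ β g k ((a : ℕ) + 1) := by
  have hH := ham_linB (k := k) S hm hL N σ β g
  unfold ampDer
  rw [cnd_sub hH ((tame_fieldDot S a).const_mul _) ((tame_self S).const_mul _), cnd_const_mul,
    cnd_const_mul, cnd_fieldDot S hm hL N σ β g a (Nat.zero_le _), rootTail]
  linear_combination (σ ((a : ℕ) + 1) *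
    (cnd (gn n) S.μ (ham S f N σ β g) (fun _ x => sdot (S.fld x) (S.fld x)) 0 (fun _ _ => 0)
      - mass k * ∑ l ∈ Icc ((a : ℕ) + 1) k, cnd (gn n) S.μ (ham S f N σ β g)
          (fun z _ => mu2 S (ham S f N σ β g) l z) 0 (fun _ _ => 0))) * Real.mul_self_sqrt hN

theorem sum_setAmp (σ : ℕ → ℝ) (a : Fin k) (s : ℝ) (F : ℝ → Fin k → ℝ) :
    ∑ l : Fin k, F (setAmp σ a s ((l : ℕ) + 1)) l
      = ∑ l : Fin k, F (σ ((l : ℕ) + 1)) l + (F s a - F (σ ((a : ℕ) + 1)) a) := by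
  rw [← add_sum_erase _ _ (mem_univ a), ← add_sum_erase _ (fun l : Fin k => F (σ ((l : ℕ) + 1)) l)
    (mem_univ a), setAmp, Function.update_self, sum_congr rfl fun l hl => by
      rw [Function.update_of_ne fun h => ne_of_mem_erase hl (Fin.ext (by omega))]]
  ring

theorem ham_setAmp (S : Leaf n) (f : ℝ → ℝ) (N : ℝ) (σ β : ℕ → ℝ) (g : Fin M → Fin n → ℝ) (a : Fin k)
    (s : ℝ) (z : Fin k → FieldIdx n → ℝ) (x : S.X) :
    ham S f N (setAmp σ a s) β g z x = ham S f N σ β g z x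
      + ((s - σ ((a : ℕ) + 1)) * √N * fieldDot S a z x
        - N / 2 * (s ^ 2 - σ ((a : ℕ) + 1) ^ 2) * sdot (S.fld x) (S.fld x)) := by
  have h1 := sum_setAmp σ a s fun v l => v * √N * sdot (fun i => z l (.inl i)) (S.fld x)
    + β ((l : ℕ) + 1) * z l (.inr ()) * S.aux x
  have h2 := sum_setAmp σ a s fun v _ => v ^ 2
  simp only [ham, fieldDot]
  rw [h1, h2]
  ring

theorem ham_setAmp_deriv (S : Leaf n) (f : ℝ → ℝ) (N : ℝ) (σ β : ℕ → ℝ) (g : Fin M → Fin n → ℝ)
    (a : Fin k) (s : ℝ) (z : Fin k → FieldIdx n → ℝ) (x : S.X) :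
    HasDerivAt (fun t => ham S f N (setAmp σ a t) β g z x) (ampDer S N a s z x) s := by
  simp only [ham_setAmp]
  have h := ((((hasDerivAt_id s).sub_const (σ ((a : ℕ) + 1))).mul_const (√N)).mul_const
    (fieldDot S a z x)).sub ((((hasDerivAt_pow 2 s).sub_const (σ ((a : ℕ) + 1) ^ 2)).const_mul
      (N / 2)).mul_const (sdot (S.fld x) (S.fld x)))
  refine HasDerivAt.congr_deriv (h.const_add (ham S f N σ β g z x)) ?_
  simp only [ampDer]
  push_cast
  ring

theorem setAmp_bound (σ : ℕ → ℝ) (a : Fin k) {s R : ℝ} (hs : |s| ≤ R) (l : Fin k) :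
    |setAmp σ a s ((l : ℕ) + 1)| ≤ R + ∑ l : Fin k, |σ ((l : ℕ) + 1)| := by
  have h0 : 0 ≤ ∑ l : Fin k, |σ ((l : ℕ) + 1)| := sum_nonneg fun _ _ => abs_nonneg _
  by_cases h : l = a
  · subst h
    rw [setAmp, Function.update_self]
    linarith
  · rw [setAmp, Function.update_of_ne fun e => h (Fin.ext (by omega))]
    linarith [abs_nonneg s, single_le_sum (f := fun l : Fin k => |σ ((l : ℕ) + 1)|)
      (fun _ _ => abs_nonneg _) (mem_univ l)]

/-- The family in one amplitude with a fixed observable. -/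
theorem family_amp (S : Leaf n) (hm : Measurable f) (hL : ∀ u, |f u| ≤ L) (N : ℝ) (σ β : ℕ → ℝ)
    (g : Fin M → Fin n → ℝ) (a : Fin k) {φ : (Fin k → FieldIdx n → ℝ) → S.X → ℝ} (hφ : Tame (wn n) φ)
    (s₀ : ℝ) :
    Family (wn n) (fun s => ham (k := k) S f N (setAmp σ a s) β g) (fun _ => φ)
      (fun s => ampDer S N a s) (fun _ _ _ => 0) s₀ 1 := by
  obtain ⟨A, hA, hb⟩ := ham_bound (M := M) (k := k) S hL N β
    (|s₀| + 1 + ∑ l : Fin k, |σ ((l : ℕ) + 1)|)
  obtain ⟨A1, hA1, hb1⟩ := ((tame_fieldDot (k := k) S a).const_mul (√N)).bound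
  obtain ⟨A2, hA2, hb2⟩ := (tame_self (k := k) S).bound
  obtain ⟨A3, hA3, hb3⟩ := hφ.bound
  refine ⟨one_pos, fun s => ham_meas_right S hm N _ β g, fun s => (tame_ampDer S N a s).meas,
    fun _ => hφ.meas, fun _ => measurable_const,
    ⟨A + A1 + |N| * (|s₀| + 1) * A2 + A2 + A3, by positivity, fun s hs z x => ⟨?_, ?_, ?_, ?_⟩⟩,
    fun s _ z x => ham_setAmp_deriv S f N σ β g a s z x, fun s _ z x => hasDerivAt_const _ _⟩
  · have hs' : |s| ≤ |s₀| + 1 := by linarith [abs_sub_abs_le_abs_sub s s₀]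
    refine (hb _ (fun l => setAmp_bound σ a hs' l) g z x).trans (mul_le_mul_of_nonneg_right ?_ ?_)
    · nlinarith [mul_nonneg (mul_nonneg (abs_nonneg N) (by positivity : (0 : ℝ) ≤ |s₀| + 1)) hA2]
    · linarith [(wn n).tot_nonneg z]
  · have hs' : |s| ≤ |s₀| + 1 := by linarith [abs_sub_abs_le_abs_sub s s₀]
    set e := exp ((A + A1 + |N| * (|s₀| + 1) * A2 + A2 + A3) * (wn n).tot z)
    have hp : 0 ≤ |N| * (|s₀| + 1) * A2 := by positivity
    have e1 : exp (A1 * (wn n).tot z) ≤ e :=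
      exp_le_exp.2 (mul_le_mul_of_nonneg_right (by linarith) ((wn n).tot_nonneg z))
    have e2 : exp (A2 * (wn n).tot z) ≤ e :=
      exp_le_exp.2 (mul_le_mul_of_nonneg_right (by linarith) ((wn n).tot_nonneg z))
    have h2 : |N * s * sdot (S.fld x) (S.fld x)| ≤ |N| * (|s₀| + 1) * (A2 * e) := by
      rw [abs_mul, abs_mul]
      exact mul_le_mul (mul_le_mul_of_nonneg_left hs' (abs_nonneg N))
        ((hb2 z x).trans (mul_le_mul_of_nonneg_left e2 hA2)) (abs_nonneg _) (by positivity)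
    refine (abs_sub _ _).trans ((add_le_add ((hb1 z x).trans (mul_le_mul_of_nonneg_left e1 hA1)) h2).trans ?_)
    nlinarith [exp_pos ((A + A1 + |N| * (|s₀| + 1) * A2 + A2 + A3) * (wn n).tot z)]
  · exact Tame.mono_bound hA3 (by nlinarith [mul_nonneg (mul_nonneg (abs_nonneg N)
      (by positivity : (0 : ℝ) ≤ |s₀| + 1)) hA2]) hb3 z x
  · rw [abs_zero]; positivity

/-- The derivative of the root value in one amplitude. -/
theorem val_amp_deriv (S : Leaf n) (hm : Measurable f) (hL : ∀ u, |f u| ≤ L) {N : ℝ} (hN : 0 ≤ N)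
    (σ β : ℕ → ℝ) (g : Fin M → Fin n → ℝ) (a : Fin k) (s : ℝ) :
    HasDerivAt (fun t => val (gn n) S.μ (ham (k := k) S f N (setAmp σ a t) β g) 0 fun _ _ => 0)
      (-(N * s) * rootTail S f N (setAmp σ a s) β g k ((a : ℕ) + 1)) s := by
  have F := family_amp S hm hL N σ β g a
    (φ := fun _ _ => (0 : ℝ)) (Tame.of_bdd measurable_const (B := 0) fun _ _ => by simp) s
  have h := hasDerivAt_val (μ := S.μ) F 0 (fun _ _ => 0)
  have e : setAmp σ a s ((a : ℕ) + 1) = s := Function.update_self _ _ _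
  have h2 := root_ampDer S hm hL hN (setAmp σ a s) β g a
  rw [e] at h2
  rw [← h2]
  exact h

end Vale.Agent.P157.Rsb.Lf
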