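import Vale.Agent.P157.Rsb.SyncGen

/-!
# P157: synchronization for the sphere system
-/

open MeasureTheory ProbabilityTheory Real Finset

namespace Vale.Agent.P157.Rsb

/-- Overlaps given the branch level are deterministic, on average over amplitudes. -/
theorem sync : SyncStmt := by
  refine ⟨8, by norm_num, fun f L hm hL k η B δ T ε hη hδ hε => ?_⟩
  obtain ⟨N₀, h⟩ := Lf.sync_leaf hm hL k η B δ |T| ε hη hδ hε
  refine ⟨⌈N₀⌉₊, fun N hN M hM a ha => ?_⟩
  have hN' : N₀ ≤ (N : ℝ) + 1 := by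
    linarith [(Nat.le_ceil N₀).trans (Nat.cast_le.2 hN : (⌈N₀⌉₊ : ℝ) ≤ N)]
  refine h (N + 1) (sphereLeaf N) (sphere_unit N) ((N : ℝ) + 1) hN' M ?_ a ha
  refine hM.trans ((mul_le_mul_of_nonneg_right (le_abs_self T) (Nat.cast_nonneg N)).trans ?_)
  exact mul_le_mul_of_nonneg_left (le_add_of_nonneg_right zero_le_one) (abs_nonneg T)

end Vale.Agent.P157.Rsb
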