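import Vale.Agent.P157.Rsb.Algebra
import Vale.Agent.P157.Rsb.Approx
import Vale.Agent.P157.Rsb.Cavity
import Vale.Agent.P157.Rsb.Consist
import Vale.Agent.P157.Rsb.Deriv
import Vale.Agent.P157.Rsb.Dist
import Vale.Agent.P157.Rsb.Gauss
import Vale.Agent.P157.Rsb.Init
import Vale.Agent.P157.Rsb.Lower
import Vale.Agent.P157.Rsb.Path
import Vale.Agent.P157.Rsb.Pattern
import Vale.Agent.P157.Rsb.Phi
import Vale.Agent.P157.Rsb.Refine
import Vale.Agent.P157.Rsb.Reg
import Vale.Agent.P157.Rsb.Sync
import Vale.Agent.P157.Rsb.Upper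

/-!
# P157: the variational formula on the sphere
-/

open MeasureTheory Filter Topology

namespace Vale.Agent.P157.Rsb

/-- The pressure on the sphere converges to the infimum of the functional over all step paths. -/
theorem sphere_main {f : ℝ → ℝ} (hf : Measurable f) (hL : ∃ L, ∀ u, |f u| ≤ L) {α : ℝ} (hα : 0 < α) :
    ∃ l, Tendsto (fun N : ℕ => pressureSphere f α N) atTop (𝓝 l) ∧
      IsGLB {x | ∃ (k : ℕ) (q : ℕ → ℝ), IsPath k q ∧ q k < 1 ∧ x = entS k q + α * phiK k f q} l := by
  obtain ⟨L, hL⟩ := hL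
  obtain ⟨l, h1, h2, -⟩ := sphere_parisi algebra phiStmt approxStmt
    (upper deriv_amp sync path_sphere patternStmt initStmt phiStmt algebra (tangent deriv_amp) reg)
    (lower deriv_amp sync path_sphere patternStmt phiStmt algebra truncStmt
      (cavity phiStmt patternStmt path_sphere) (consist patternStmt path_sphere) reg dist)
    hf hL hα
  exact ⟨l, h1, h2⟩

end Vale.Agent.P157.Rsb
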