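import Vale.Agent.P157.Rsb.Slot
import Vale.Agent.P157.Rsb.Upd

/-!
# P157: functions of the levels with a slot formula for their derivative

A node `N` of level `l` is a bounded function of the levels up to `l`, built from the field `U`,
whose derivative along every family of fields is `cnd l (V * η)` with a bounded slot `η` that
vanishes where the potential does.
-/

open MeasureTheory ProbabilityTheory Real Finset

namespace Vale.Agent.P157.Rsb.Slot

variable {k : ℕ} {Z X : Type} [MeasurableSpace Z] [MeasurableSpace X]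
  {γ : Measure Z} {μ : Measure X}

/-- Joint measurability in a parameter, the levels and the leaf. -/
def JM {P : Type} [MeasurableSpace P] (F : P → (Fin k → Z) → X → ℝ) : Prop :=
  Measurable fun q : (P × (Fin k → Z)) × X => F q.1.1 q.1.2 q.2

/-- Measurable in all variables and bounded uniformly in the parameter. -/
structure PB {P : Type} [MeasurableSpace P] (F : P → (Fin k → Z) → X → ℝ) : Prop where
  meas : JM F
  bound : ∃ M, ∀ p z x, |F p z x| ≤ M

section JM

variable {P : Type} [MeasurableSpace P] {F G : P → (Fin k → Z) → X → ℝ}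

theorem JM.at' (h : JM F) (p : P) : Measurable (Function.uncurry (F p)) :=
  h.comp (f := fun q : (Fin k → Z) × X => ((p, q.1), q.2))
    ((measurable_const.prodMk measurable_fst).prodMk measurable_snd)

theorem JM.of_unit {U : (Fin k → Z) → X → ℝ} (h : Measurable (Function.uncurry U)) :
    JM fun _ : Unit => U :=
  h.comp (f := fun q : (Unit × (Fin k → Z)) × X => (q.1.2, q.2))
    ((measurable_snd.comp measurable_fst).prodMk measurable_snd)

theorem PB.leafFn {a : X → ℝ} (ha : Measurable a) {M : ℝ} (h : ∀ x, |a x| ≤ M) :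
    PB fun (_ : P) (_ : Fin k → Z) x => a x := ⟨ha.comp measurable_snd, M, fun _ _ x => h x⟩

theorem PB.mul (hF : PB F) (hG : PB G) : PB fun p z x => F p z x * G p z x := by
  obtain ⟨M, hM⟩ := hF.bound
  obtain ⟨M', hM'⟩ := hG.bound
  exact ⟨hF.meas.mul hG.meas, |M| * |M'|, fun p z x => by
    rw [abs_mul]
    exact mul_le_mul ((hM p z x).trans (le_abs_self _)) ((hM' p z x).trans (le_abs_self _))
      (abs_nonneg _) (abs_nonneg _)⟩

theorem PB.add (hF : PB F) (hG : PB G) : PB fun p z x => F p z x + G p z x := by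
  obtain ⟨M, hM⟩ := hF.bound
  obtain ⟨M', hM'⟩ := hG.bound
  exact ⟨hF.meas.add hG.meas, M + M', fun p z x =>
    (abs_add_le _ _).trans (add_le_add (hM p z x) (hM' p z x))⟩

theorem PB.const_mul (hF : PB F) (c : ℝ) : PB fun p z x => c * F p z x :=
  PB.mul (F := fun _ _ _ => c) ⟨measurable_const, |c|, fun _ _ _ => le_rfl⟩ hF

theorem PB.sub (hF : PB F) (hG : PB G) : PB fun p z x => F p z x - G p z x := by
  simpa [sub_eq_add_neg] using hF.add (hG.const_mul (-1))

theorem PB.finsum {σ : Type} (s : Finset σ) {F : σ → P → (Fin k → Z) → X → ℝ}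
    (h : ∀ i ∈ s, PB (F i)) : PB fun p z x => ∑ i ∈ s, F i p z x := by
  classical
  induction s using Finset.induction with
  | empty => simpa using (PB.leafFn (P := P) (Z := Z) (k := k) (a := fun _ : X => (0 : ℝ))
      measurable_const (M := 0) (by simp))
  | @insert i s hi ih =>
    have := (h i (mem_insert_self i s)).add (ih fun a ha => h a (mem_insert_of_mem ha))
    simpa [sum_insert hi] using this

theorem PB.tame {w : Size γ} (hF : PB F) (p : P) : Tame w (F p) := by
  obtain ⟨M, hM⟩ := hF.bound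
  exact Tame.of_bdd (hF.meas.at' p) (hM p)

end JM

variable [IsProbabilityMeasure γ] [IsFiniteMeasure μ] [NeZero μ] {w : Size γ}
  {H0 : (Fin k → Z) → X → ℝ} {f f1 f2 f3 : ℝ → ℝ} {R B : ℝ}

omit [IsProbabilityMeasure γ] [IsFiniteMeasure μ] [NeZero μ] in
theorem jm_ham1 (hH : LinB w H0) (hf : Measurable f) {P : Type} [MeasurableSpace P]
    {U : P → (Fin k → Z) → X → ℝ} (hU : JM U) : JM fun p => ham1 H0 f (U p) :=
  (hH.meas.comp (f := fun q : (P × (Fin k → Z)) × X => (q.1.2, q.2))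
    ((measurable_snd.comp measurable_fst).prodMk measurable_snd)).add (hf.comp hU)

omit [NeZero μ] in
theorem jm_cnd (hH : LinB w H0) (hf : Measurable f) {P : Type} [MeasurableSpace P]
    {U φ : P → (Fin k → Z) → X → ℝ} (hU : JM U) (hφ : JM φ) (l : ℕ) :
    JM fun p z (_ : X) => cnd γ μ (ham1 H0 f (U p)) (φ p) l z :=
  (cnd_measurable_param (γ := γ) (μ := μ) (H := fun p => ham1 H0 f (U p)) (φ := φ) (jm_ham1 hH hf hU)
    hφ l).comp measurable_fst

theorem pb_cnd (hH : LinB w H0) (hf : Cpt R B f) {P : Type} [MeasurableSpace P]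
    {U φ : P → (Fin k → Z) → X → ℝ} (hU : JM U) (hφ : PB φ) (l : ℕ) :
    PB fun p z (_ : X) => cnd γ μ (ham1 H0 f (U p)) (φ p) l z := by
  obtain ⟨M, hM⟩ := hφ.bound
  exact ⟨jm_cnd hH hf.meas hU hφ.meas l, M,
    fun p z _ => cnd_abs_le (linB_ham1 hH hf (hU.at' p)) (hφ.meas.at' p) (hM p) l z⟩

omit [IsProbabilityMeasure γ] [IsFiniteMeasure μ] [NeZero μ] in
theorem Fam.recentre {U V : ℝ → (Fin k → Z) → X → ℝ} {s₀ r : ℝ} (hU : Fam w R U V s₀ r) {s : ℝ}
    (hs : |s - s₀| < r) : Fam w R U V s (r - |s - s₀|) := by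
  have h : ∀ t, |t - s| < r - |s - s₀| → |t - s₀| < r := fun t ht => by
    have := abs_sub_le t s s₀; linarith
  obtain ⟨A, hA, hb⟩ := hU.bound
  exact ⟨by linarith, hU.measU, hU.measV, fun t ht => hU.deriv t (h t ht), A, hA,
    fun t ht => hb t (h t ht)⟩

variable (γ μ) in
/-- Bounded functions of the levels up to `l` with a slot for the derivative along fields. -/
structure Nd (w : Size γ) (H0 : (Fin k → Z) → X → ℝ) (f : ℝ → ℝ) (R : ℝ)
    (N : ((Fin k → Z) → X → ℝ) → (Fin k → Z) → ℝ)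
    (η : ((Fin k → Z) → X → ℝ) → (Fin k → Z) → X → ℝ) (l : ℕ) (M : ℝ) : Prop where
  lk : l ≤ k
  upto : ∀ U, Upto l (N U)
  meas : ∀ (P : Type) [MeasurableSpace P] (U : P → (Fin k → Z) → X → ℝ), JM U →
    JM (fun p z (_ : X) => N (U p) z) ∧ JM fun p => η (U p)
  bound : ∀ U, Measurable (Function.uncurry U) → ∀ z, |N U z| ≤ M
  slot : ∀ U, Measurable (Function.uncurry U) →
    ∀ z x, |η U z x| ≤ M ∧ (R < |U z x| → η U z x = 0)
  deriv : ∀ (U V : ℝ → (Fin k → Z) → X → ℝ) (s₀ r : ℝ), Fam w R U V s₀ r → ∀ z,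
    HasDerivAt (fun s => N (U s) z)
      (cnd γ μ (ham1 H0 f (U s₀)) (fun z x => V s₀ z x * η (U s₀) z x) l z) s₀
  shift : ∀ (a : Fin k) (T : Z → Z), (∀ z x, H0 (Function.update z a (T (z a))) x = H0 z x) →
    (a : ℕ) < l → ∀ U z, N U (Function.update z a (T (z a)))
      = N (fun z x => U (Function.update z a (T (z a))) x) z

section Facts

variable {N : ((Fin k → Z) → X → ℝ) → (Fin k → Z) → ℝ}
  {η : ((Fin k → Z) → X → ℝ) → (Fin k → Z) → X → ℝ} {l : ℕ} {M : ℝ}

theorem Nd.pbN (hN : Nd γ μ w H0 f R N η l M) {P : Type} [MeasurableSpace P]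
    {U : P → (Fin k → Z) → X → ℝ} (hU : JM U) : PB fun p z (_ : X) => N (U p) z :=
  ⟨(hN.meas P U hU).1, M, fun p z _ => hN.bound _ (hU.at' p) z⟩

theorem Nd.pbη (hN : Nd γ μ w H0 f R N η l M) {P : Type} [MeasurableSpace P]
    {U : P → (Fin k → Z) → X → ℝ} (hU : JM U) : PB fun p => η (U p) :=
  ⟨(hN.meas P U hU).2, M, fun p z x => (hN.slot _ (hU.at' p) z x).1⟩

/-- Along a family the derivative has one bound, admissible for the base Hamiltonian. -/
theorem Nd.deriv_bound (hN : Nd γ μ w H0 f R N η l M) (hH : LinB w H0) (hf : Cpt R B f)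
    {U V : ℝ → (Fin k → Z) → X → ℝ} {s₀ r : ℝ} (hU : Fam w R U V s₀ r) :
    ∃ A, 0 ≤ A ∧ ∀ s, |s - s₀| < r → ∀ z,
      Tame w (fun z x => V s z x * η (U s) z x) ∧
      |cnd γ μ (ham1 H0 f (U s)) (fun z x => V s z x * η (U s) z x) l z| ≤ A * exp (A * w.tot z) := by
  obtain ⟨A, hA, hb⟩ := hU.bound
  have hψ : Tame w fun (z : Fin k → Z) (_ : X) => |M| * A * exp (A * w.tot z) := by
    refine ⟨((w.measurable_tot.const_mul A).exp.const_mul _).comp measurable_fst,
      max A (|M| * A), le_max_of_le_left hA, fun z x => ?_⟩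
    rw [abs_of_nonneg (by positivity)]
    exact mul_le_mul (le_max_right _ _) (exp_le_exp.2 (mul_le_mul_of_nonneg_right (le_max_left _ _)
      (w.tot_nonneg z))) (exp_pos _).le (le_max_of_le_left hA)
  have hbound : ∀ s, |s - s₀| < r → ∀ z x, |V s z x * η (U s) z x| ≤ |M| * A * exp (A * w.tot z) := by
    intro s hs z x
    obtain ⟨h1, h0⟩ := hN.slot _ (hU.measU s) z x
    rcases lt_or_ge R |U s z x| with hlt | hle
    · rw [h0 hlt, mul_zero, abs_zero]; positivity
    · rw [abs_mul]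
      calc |V s z x| * |η (U s) z x| ≤ A * exp (A * w.tot z) * |M| :=
            mul_le_mul (hb s hs z x hle) (h1.trans (le_abs_self M)) (abs_nonneg _) (by positivity)
        _ = _ := by ring
  have hT : ∀ s, |s - s₀| < r → Tame w fun z x => V s z x * η (U s) z x := fun s hs => by
    obtain ⟨A', hA', hb'⟩ := hψ.bound
    exact ⟨(hU.measV s).mul ((hN.meas Unit _ (JM.of_unit (hU.measU s))).2.at' ()), A', hA',
      fun z x => (hbound s hs z x).trans ((le_abs_self _).trans (hb' z x))⟩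
  obtain ⟨hm, A1, hA1, ha1⟩ := cnd_regular (γ := γ) (μ := μ) hH hψ l
  refine ⟨exp (2 * B) * A1 + A1, by positivity, fun s hs z => ⟨hT s hs, ?_⟩⟩
  refine (cnd_unif (γ := γ) (μ := μ) hH (linB_ham1 hH hf (hU.measU s)) (L := B)
    (fun z x => by simpa [ham1] using hf.bound _) (hT s hs) hψ (hbound s hs) hN.lk z).trans ?_
  calc exp (2 * B) * cnd γ μ H0 (fun z _ => |M| * A * exp (A * w.tot z)) l z
      ≤ exp (2 * B) * (A1 * exp (A1 * w.tot z)) :=
        mul_le_mul_of_nonneg_left ((le_abs_self _).trans (ha1 z)) (exp_pos _).le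
    _ = exp (2 * B) * A1 * exp (A1 * w.tot z) := by ring
    _ ≤ _ := mul_le_mul (le_add_of_nonneg_right hA1) (exp_le_exp.2 (mul_le_mul_of_nonneg_right
        (le_add_of_nonneg_left (by positivity)) (w.tot_nonneg z))) (exp_pos _).le (by positivity)

end Facts

/-- The constant one. -/
theorem nd_one (hH : LinB w H0) (hf : Cpt R B f) :
    Nd γ μ w H0 f R (fun _ _ => 1) (fun _ _ _ => 0) 0 1 := by
  refine ⟨Nat.zero_le k, fun _ _ _ _ => rfl, fun P _ U _ => ⟨measurable_const, measurable_const⟩,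
    fun _ _ _ => by simp, fun _ _ _ _ => by simp, fun U V s₀ r hF z => ?_,
    fun a T _ ha => absurd ha (Nat.not_lt_zero _)⟩
  simp only [mul_zero]
  rw [cnd_const (linB_ham1 hH hf (hF.measU s₀))]
  exact hasDerivAt_const _ _

/-- Conditional expectations of `a x * e (U z x)`. -/
theorem nd_node (hH : LinB w H0) (hP : Pot R B f f1 f2 f3) {a : X → ℝ} (ha : Measurable a) {M : ℝ}
    (hab : ∀ x, |a x| ≤ M) {e e' : ℝ → ℝ} (he : Obs R B e e') {l : ℕ} (hl : l ≤ k) :
    Nd γ μ w H0 f R (fun U => node γ μ H0 f a e U l) (fun U => slot γ μ H0 f f1 a e e' U l) l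
      (3 * |M| * B ^ 2) := by
  have hB1 := hP.one_le
  have hB : (0 : ℝ) ≤ B := by linarith
  have hB2 : B ≤ B ^ 2 := by nlinarith
  have hM : ∀ x, |a x| ≤ |M| := fun x => (hab x).trans (le_abs_self _)
  have hφ : ∀ U : (Fin k → Z) → X → ℝ, ∀ z x, |a x * e (U z x)| ≤ |M| * B := fun U z x => by
    rw [abs_mul]; exact mul_le_mul (hM x) (he.bound _) (abs_nonneg _) (abs_nonneg _)
  have hφm : ∀ {P : Type} [MeasurableSpace P] {U : P → (Fin k → Z) → X → ℝ}, JM U →
      JM fun p z x => a x * e (U p z x) := fun hU => (ha.comp measurable_snd).mul (he.meas.comp hU)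
  have hn : ∀ U, Measurable (Function.uncurry U) → ∀ i z, |node γ μ H0 f a e U i z| ≤ |M| * B :=
    fun U hU i z => cnd_abs_le (linB_ham1 hH hP.hf hU) ((hφm (JM.of_unit hU)).at' ()) (hφ U) i z
  refine ⟨hl, fun U => cnd_upto l, fun P _ U hU => ⟨jm_cnd hH hP.hf.meas hU (hφm hU) l, ?_⟩,
    fun U hU z => ?_, fun U hU z x => ?_, fun U V s₀ r hF z => ?_, fun b T hT hb U z => ?_⟩
  · have hc : ∀ i, JM fun p z (_ : X) => node γ μ H0 f a e (U p) i z := fun i =>
      jm_cnd hH hP.hf.meas hU (hφm hU) i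
    unfold slot corr JM
    exact ((ha.comp measurable_snd).mul ((he.cpt.meas.comp hU).add
      ((he.meas.comp hU).mul (hP.hf1.meas.comp hU)))).sub
      ((((Finset.measurable_sum _ fun i _ => hc i).const_mul _).add ((hc l).const_mul _)).mul
        (hP.hf1.meas.comp hU))
  · exact (hn U hU l z).trans (by nlinarith [abs_nonneg M])
  · have hc := abs_corr_le (k := k) (fun i => hn U hU i z) hl
    constructor
    · unfold slot
      have h1 : |e' (U z x) + e (U z x) * f1 (U z x)| ≤ B + B * B := by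
        refine (abs_add_le _ _).trans (add_le_add (he.cpt.bound _) ?_)
        rw [abs_mul]; exact mul_le_mul (he.bound _) (hP.hf1.bound _) (abs_nonneg _) hB
      refine (abs_sub _ _).trans ?_
      rw [abs_mul, abs_mul]
      have k1 := mul_le_mul (hM x) h1 (abs_nonneg _) (abs_nonneg M)
      have k2 := mul_le_mul hc (hP.hf1.bound (U z x)) (abs_nonneg _) (by positivity)
      nlinarith [abs_nonneg M]
    · intro h
      simp [slot, he.cpt.zero _ h, hP.hf1.zero _ h]
  · exact hasDerivAt_node hH hP hF ha hab he hl z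
  · show cnd γ μ _ _ l _ = _
    rw [(cnd_shift b T l hb z).2]
    simp only [node, ham1, hT]
    rfl

/-- Products on one level. -/
theorem nd_mul (hH : LinB w H0) (hf : Cpt R B f)
    {N N' : ((Fin k → Z) → X → ℝ) → (Fin k → Z) → ℝ}
    {η η' : ((Fin k → Z) → X → ℝ) → (Fin k → Z) → X → ℝ} {l : ℕ} {M M' : ℝ}
    (h : Nd γ μ w H0 f R N η l M) (h' : Nd γ μ w H0 f R N' η' l M') :
    Nd γ μ w H0 f R (fun U z => N U z * N' U z) (fun U z x => N' U z * η U z x + N U z * η' U z x)
      l (2 * |M| * |M'|) := by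
  have bN : ∀ U, Measurable (Function.uncurry U) → ∀ z, |N U z| ≤ |M| ∧ |N' U z| ≤ |M'| :=
    fun U hU z => ⟨(h.bound U hU z).trans (le_abs_self _), (h'.bound U hU z).trans (le_abs_self _)⟩
  refine ⟨h.lk, fun U z z' hz => ?_,
    fun P _ U hU => ⟨(h.meas P U hU).1.mul (h'.meas P U hU).1,
      ((h'.meas P U hU).1.mul (h.meas P U hU).2).add ((h.meas P U hU).1.mul (h'.meas P U hU).2)⟩,
    fun U hU z => ?_, fun U hU z x => ?_, fun U V s₀ r hF z => ?_, fun a T hT ha U z => ?_⟩
  · show N U z * N' U z = _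
    rw [h.upto U z z' hz, h'.upto U z z' hz]
  · obtain ⟨b1, b2⟩ := bN U hU z
    rw [abs_mul]
    nlinarith [abs_nonneg (N U z), abs_nonneg (N' U z), mul_le_mul b1 b2 (abs_nonneg _) (abs_nonneg M)]
  · obtain ⟨b1, b2⟩ := bN U hU z
    obtain ⟨s1, z1⟩ := h.slot U hU z x
    obtain ⟨s2, z2⟩ := h'.slot U hU z x
    refine ⟨(abs_add_le _ _).trans ?_, fun hR => by simp [z1 hR, z2 hR]⟩
    rw [abs_mul, abs_mul]
    nlinarith [mul_le_mul b2 (s1.trans (le_abs_self M)) (abs_nonneg _) (abs_nonneg M'),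
      mul_le_mul b1 (s2.trans (le_abs_self M')) (abs_nonneg _) (abs_nonneg M)]
  · refine ((h.deriv U V s₀ r hF z).mul (h'.deriv U V s₀ r hF z)).congr_deriv ?_
    have h0 : |s₀ - s₀| < r := by simpa using hF.pos
    obtain ⟨_, -, hb⟩ := h.deriv_bound (γ := γ) (μ := μ) hH hf hF
    obtain ⟨_, -, hb'⟩ := h'.deriv_bound (γ := γ) (μ := μ) hH hf hF
    have hL := linB_ham1 hH hf (hF.measU s₀)
    have hm := hF.measU s₀
    have t1 : Tame w fun z x => N' (U s₀) z * (V s₀ z x * η (U s₀) z x) :=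
      (hb s₀ h0 z).1.mul_bdd (((h'.meas Unit _ (JM.of_unit hm)).1).at' ())
        fun z _ => h'.bound _ hm z
    have t2 : Tame w fun z x => N (U s₀) z * (V s₀ z x * η' (U s₀) z x) :=
      (hb' s₀ h0 z).1.mul_bdd (((h.meas Unit _ (JM.of_unit hm)).1).at' ())
        fun z _ => h.bound _ hm z
    have e : (fun z x => V s₀ z x * (N' (U s₀) z * η (U s₀) z x + N (U s₀) z * η' (U s₀) z x))
        = fun z x => N' (U s₀) z * (V s₀ z x * η (U s₀) z x) + N (U s₀) z * (V s₀ z x * η' (U s₀) z x) :=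
      funext₂ fun z x => by ring
    rw [e, cnd_add hL t1 t2, cnd_pull (h'.upto (U s₀)), cnd_pull (h.upto (U s₀))]
    ring
  · show N U _ * N' U _ = _
    rw [h.shift a T hT ha, h'.shift a T hT ha]

/-- Conditional expectations of a node at a lower level. -/
theorem nd_proj (hH : LinB w H0) (hP : Pot R B f f1 f2 f3)
    {N : ((Fin k → Z) → X → ℝ) → (Fin k → Z) → ℝ}
    {η : ((Fin k → Z) → X → ℝ) → (Fin k → Z) → X → ℝ} {j : ℕ} {M : ℝ}
    (h : Nd γ μ w H0 f R N η j M) {l : ℕ} (hlj : l ≤ j) :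
    Nd γ μ w H0 f R (fun U => cnd γ μ (ham1 H0 f U) (fun z _ => N U z) l)
      (fun U z x => η U z x
        + (N U z - corr k (fun i => cnd γ μ (ham1 H0 f U) (fun z _ => N U z) i z) l) * f1 (U z x))
      l (3 * |M| * B) := by
  have hB1 := hP.one_le
  have hB : (0 : ℝ) ≤ B := by linarith
  have hb : ∀ U, Measurable (Function.uncurry U) → ∀ z, |N U z| ≤ |M| := fun U hU z =>
    (h.bound U hU z).trans (le_abs_self _)
  have hc : ∀ U, Measurable (Function.uncurry U) → ∀ i z,
      |cnd γ μ (ham1 H0 f U) (fun z _ => N U z) i z| ≤ |M| := fun U hU i z =>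
    cnd_abs_le (linB_ham1 hH hP.hf hU) ((h.meas Unit _ (JM.of_unit hU)).1.at' ())
      (fun z _ => hb U hU z) i z
  have hlk : l ≤ k := hlj.trans h.lk
  refine ⟨hlk, fun U => cnd_upto l,
    fun P _ U hU => ⟨jm_cnd hH hP.hf.meas hU (h.meas P U hU).1 l, ?_⟩,
    fun U hU z => (hc U hU l z).trans (by nlinarith [abs_nonneg M]),
    fun U hU z x => ?_, fun U V s₀ r hF z => ?_, fun a T hT ha U z => ?_⟩
  · have hc := fun i => jm_cnd (γ := γ) (μ := μ) hH hP.hf.meas hU (h.meas P U hU).1 i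
    unfold corr JM
    exact (h.meas P U hU).2.add ((((h.meas P U hU).1).sub
      (((Finset.measurable_sum _ fun i _ => hc i).const_mul _).add ((hc l).const_mul _))).mul
      (hP.hf1.meas.comp hU))
  · obtain ⟨s1, z1⟩ := h.slot U hU z x
    refine ⟨(abs_add_le _ _).trans ?_, fun hR => by simp [z1 hR, hP.hf1.zero _ hR]⟩
    rw [abs_mul]
    have k1 := abs_corr_le (k := k) (fun i => hc U hU i z) hlk
    have k2 := (abs_sub _ _).trans (add_le_add (hb U hU z) k1)
    have k3 := mul_le_mul k2 (hP.hf1.bound (U z x)) (abs_nonneg _) (by positivity)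
    nlinarith [s1.trans (le_abs_self M), abs_nonneg M]
  · obtain ⟨A, hA, hder⟩ := h.deriv_bound (γ := γ) (μ := μ) hH hP.hf hF
    obtain ⟨A0, hA0, hb0⟩ := hH.bound
    obtain ⟨A2, hA2, hb2⟩ := hF.bound
    have hm := fun s => hF.measU s
    have hT : ∀ s, |s - s₀| < r → Tame w fun z x => V s z x * η (U s) z x := fun s hs => (hder s hs z).1
    have h0 : |s₀ - s₀| < r := by simpa using hF.pos
    have hNm : ∀ s, Measurable (Function.uncurry fun z (_ : X) => N (U s) z) := fun s =>
      (h.meas Unit _ (JM.of_unit (hm s))).1.at' ()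
    have hNt : ∀ s, Measurable fun q : (Fin k → Z) × X => f1 (U s q.1 q.2) * V s q.1 q.2 := fun s =>
      (hP.hf1.meas.comp (hm s)).mul (hF.measV s)
    have hdφm : ∀ s, Measurable (Function.uncurry fun z (_ : X) =>
        cnd γ μ (ham1 H0 f (U s)) (fun z x => V s z x * η (U s) z x) j z) := fun s =>
      (jm_cnd (γ := γ) (μ := μ) hH hP.hf.meas (JM.of_unit (hm s))
        (JM.of_unit (U := fun z x => V s z x * η (U s) z x) ((hF.measV s).mul ((h.meas Unit _ (JM.of_unit (hm s))).2.at' ()))) j).at' ()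
    set C := A + A0 + A2 + B * A2 + B + |M| with hC
    have hC0 : 0 ≤ C := by positivity
    have F : Family w (fun s => ham1 H0 f (U s)) (fun s z _ => N (U s) z)
        (fun s z x => f1 (U s z x) * V s z x)
        (fun s z _ => cnd γ μ (ham1 H0 f (U s)) (fun z x => V s z x * η (U s) z x) j z) s₀ r := by
      refine ⟨hF.pos, fun s => hH.meas.add (hP.hf.meas.comp (hm s)), hNt, hNm, hdφm,
        ⟨C, hC0, fun s hs z x => ?_⟩,
        fun s hs z x => ((hP.d1 _).comp s (hF.deriv s hs z x)).const_add (H0 z x),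
        fun s hs z x => h.deriv U V s _ (hF.recentre hs) z⟩
      have ht := w.tot_nonneg z
      have hE : ∀ c, c ≤ C → exp (c * w.tot z) ≤ exp (C * w.tot z) := fun c hc =>
        exp_le_exp.2 (mul_le_mul_of_nonneg_right hc ht)
      refine ⟨?_, ?_, ?_, ?_⟩
      · refine (abs_add_le _ _).trans ((add_le_add (hb0 z x) (hP.hf.bound _)).trans ?_)
        rw [hC]; nlinarith [abs_nonneg M, mul_nonneg hB hA2]
      · rcases lt_or_ge R |U s z x| with hlt | hle
        · rw [hP.hf1.zero _ hlt, zero_mul, abs_zero]; positivity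
        · rw [abs_mul]
          calc |f1 (U s z x)| * |V s z x| ≤ B * (A2 * exp (A2 * w.tot z)) :=
                mul_le_mul (hP.hf1.bound _) (hb2 s hs z x hle) (abs_nonneg _) hB
            _ = B * A2 * exp (A2 * w.tot z) := by ring
            _ ≤ _ := mul_le_mul (by rw [hC]; linarith [abs_nonneg M]) (hE _ (by rw [hC]; nlinarith [abs_nonneg M]))
                (exp_pos _).le hC0
      · exact ((hb _ (hm s) z).trans (by rw [hC]; nlinarith [mul_nonneg hB hA2])).trans
          (le_mul_of_one_le_right hC0 (one_le_exp (by positivity)))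
      · exact ((hder s hs z).2).trans (mul_le_mul (by rw [hC]; nlinarith [abs_nonneg M, mul_nonneg hB hA2])
          (hE _ (by rw [hC]; nlinarith [abs_nonneg M, mul_nonneg hB hA2])) (exp_pos _).le hC0)
    refine (hasDerivAt_cnd F hlk z).congr_deriv ?_
    have hL := linB_ham1 hH hP.hf (hm s₀)
    have hd : Tame w fun z x => f1 (U s₀ z x) * V s₀ z x := fam_tame hF h0 hP.hf1
    rw [cndDer_eq hL (M := |M|) (hNm s₀) (fun z _ => hb _ (hm s₀) z) hd (cnd_tame hL (hT s₀ h0) j) hlk z]
    set S : (Fin k → Z) → X → ℝ := fun z x =>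
      (N (U s₀) z - corr k (fun i => cnd γ μ (ham1 H0 f (U s₀)) (fun z _ => N (U s₀) z) i z) l)
        * (f1 (U s₀ z x) * V s₀ z x) with hS
    have hSt : Tame w S := by
      refine hd.mul_bdd (M := 2 * |M|) ?_ fun z _ => ?_
      · unfold corr
        exact (hNm s₀).sub (((Finset.measurable_sum _ fun i _ =>
          (jm_cnd (γ := γ) (μ := μ) hH hP.hf.meas (JM.of_unit (hm s₀)) (JM.of_unit (hNm s₀)) i).at' ()).const_mul _).add
          (((jm_cnd (γ := γ) (μ := μ) hH hP.hf.meas (JM.of_unit (hm s₀)) (JM.of_unit (hNm s₀)) l).at' ()).const_mul _))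
      · linarith [(abs_sub _ _).trans (add_le_add (hb _ (hm s₀) z)
          (abs_corr_le (k := k) (fun i => hc _ (hm s₀) i z) hlk))]
    have e : (fun z x => V s₀ z x * (η (U s₀) z x + (N (U s₀) z
          - corr k (fun i => cnd γ μ (ham1 H0 f (U s₀)) (fun z _ => N (U s₀) z) i z) l) * f1 (U s₀ z x)))
        = fun z x => V s₀ z x * η (U s₀) z x + S z x := funext₂ fun z x => by rw [hS]; ring
    rw [e, cnd_add hL (cnd_tame hL (hT s₀ h0) j) hSt, cnd_add hL (hT s₀ h0) hSt,
      cnd_tower (φ := fun z x => V s₀ z x * η (U s₀) z x) hL hlj z]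
  · show cnd γ μ _ _ l _ = _
    rw [(cnd_shift a T l ha z).2]
    simp only [ham1, hT, h.shift a T hT (ha.trans_le hlj)]
    rfl

end Vale.Agent.P157.Rsb.Slot
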