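import Vale.Agent.P157.Rsb.PhiPath
import Vale.Agent.P157.Rsb.CavSystem

/-!
# P157: the ends of the path that adds a pattern

At angle `0` the cascade is the system with one more pattern, at angle `π / 2` it is the product of
the old system and the one-pattern recursion.
-/

open MeasureTheory ProbabilityTheory Real Finset

namespace Vale.Agent.P157.Rsb.Slot

/-! ### general facts -/

section General

variable {k : ℕ} {Z X : Type} [MeasurableSpace Z] [MeasurableSpace X] {γ : Measure Z} {μ : Measure X}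
  [IsProbabilityMeasure γ] [IsFiniteMeasure μ] [NeZero μ] {w : Size γ} {H : (Fin k → Z) → X → ℝ}

/-- Two leaves branching after level `j`, seen from the root. -/
noncomputable def rootPair (γ : Measure Z) (μ : Measure X) (H : (Fin k → Z) → X → ℝ) (ψ : X → X → ℝ)
    (j : ℕ) (z₀ : Fin k → Z) : ℝ :=
  cnd γ μ H (fun z _ => pairCnd γ μ H (fun _ x _ y => ψ x y) j z) 0 z₀

theorem rootPair_eq (hH : LinB w H) (ψ : X → X → ℝ) (j : ℕ) (z₀ : Fin k → Z) :
    rootPair γ μ H ψ j z₀ = cnd γ μ H (fun z x => cnd γ μ H (fun _ y => ψ x y) j z) 0 z₀ :=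
  cnd_pair_eq hH ψ 0 j (Nat.zero_le j) z₀

theorem rootPair_mul (hH : LinB w H) (u v : X → ℝ) (j : ℕ) (z₀ : Fin k → Z) :
    rootPair γ μ H (fun x y => u x * v y) j z₀
      = cnd γ μ H (fun z _ => cnd γ μ H (fun _ x => u x) j z * cnd γ μ H (fun _ x => v x) j z) 0 z₀ := by
  rw [rootPair_eq hH]
  simp only [cnd_const_mul]
  have e : (fun (z : Fin k → Z) x => u x * cnd γ μ H (fun _ y => v y) j z)
      = fun z x => cnd γ μ H (fun _ y => v y) j z * u x := funext₂ fun z x => mul_comm _ _
  rw [e, ← cnd_tower (φ := fun z x => cnd γ μ H (fun _ y => v y) j z * u x) hH (Nat.zero_le j)]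
  congr 1
  funext z _
  rw [cnd_pull (cnd_upto j)]
  ring

end General

/-- The weight of a pair of fields. -/
noncomputable def prodSize {Z Z' : Type} [MeasurableSpace Z] [MeasurableSpace Z'] {γ : Measure Z}
    {γ' : Measure Z'} [SFinite γ] [SFinite γ'] (w : Size γ) (w' : Size γ') : Size (γ.prod γ') where
  w y := w.w y.1 + w'.w y.2
  meas := (w.meas.comp measurable_fst).add (w'.meas.comp measurable_snd)
  nonneg y := add_nonneg (w.nonneg _) (w'.nonneg _)
  int c := by
    simp only [mul_add, exp_add]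
    exact (w.int c).mul_prod (w'.int c)

variable {n k M : ℕ} (S : Leaf n) {f f1 f2 f3 : ℝ → ℝ} {R B : ℝ}

/-- The index type with the extra field. -/
abbrev PIdx (n : ℕ) := FieldIdx n ⊕ Unit

/-- The old fields. -/
def oldY (y : PIdx n → ℝ) : FieldIdx n → ℝ := fun i => y (.inl i)

/-- The old and the new field. -/
def pairY (y : PIdx n → ℝ) : (FieldIdx n → ℝ) × ℝ := (oldY y, y (.inr ()))

theorem oldY_tot (z : Fin k → PIdx n → ℝ) :
    (gaussSize (FieldIdx n)).tot (fun l => oldY (z l)) ≤ (gaussSize (PIdx n)).tot z :=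
  sum_le_sum fun l _ => by
    show ∑ i, |z l (.inl i)| ≤ ∑ i, |z l i|
    rw [Fintype.sum_sum_type (fun i : FieldIdx n ⊕ Unit => |z l i|)]
    exact le_add_of_nonneg_right (sum_nonneg (f := fun i : Unit => |z l (Sum.inr i)|) fun i _ => abs_nonneg _)

theorem measurePreserving_pairY :
    MeasurePreserving (pairY (n := n)) (stdG (PIdx n)) ((stdG (FieldIdx n)).prod (gaussianReal 0 1)) := by
  have h1 := measurePreserving_sumPiEquivProdPi (fun _ : FieldIdx n ⊕ Unit => gaussianReal 0 1)
  have h2 : MeasurePreserving (fun y : Unit → ℝ => y ()) (Measure.pi fun _ : Unit => gaussianReal 0 1)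
      (gaussianReal 0 1) := measurePreserving_eval (fun _ : Unit => gaussianReal 0 1) ()
  unfold stdG
  exact ((MeasurePreserving.id (Measure.pi fun _ : FieldIdx n => gaussianReal 0 1)).prod h2).comp h1

theorem measurePreserving_oldY :
    MeasurePreserving (oldY (n := n)) (stdG (PIdx n)) (stdG (FieldIdx n)) :=
  (measurePreserving_fst (μ := stdG (FieldIdx n)) (ν := gaussianReal 0 1)).comp measurePreserving_pairY

/-- The cascade that adds a pattern to the system with rows `g0`. -/
noncomputable def patCas (hP : Pot R B f f1 f2 f3) (N : ℝ) (σ β : ℕ → ℝ) (g0 : Fin M → Fin n → ℝ) :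
    Cas k n (PIdx n) S.X where
  i0 := .inr ()
  p := S.pat
  p_meas := S.pat_meas
  p_bdd := by
    obtain ⟨b, hb⟩ := S.bdd
    exact ⟨|b|, abs_nonneg b, fun x i => ((hb x).1 i).trans (le_abs_self b)⟩
  H0 z x := ham S f N σ β g0 (fun l => oldY (z l)) x
  H0_lin := by
    have hl := Vale.Agent.P157.Rsb.linB_ham (k := k) S hP.hf.meas hP.hf.bound N σ β g0
    obtain ⟨A, hA, hb⟩ := hl.bound
    refine ⟨hl.meas.comp (f := fun q : (Fin k → PIdx n → ℝ) × S.X => (fun l => oldY (q.1 l), q.2))
      ((measurable_pi_lambda _ fun l => measurePreserving_oldY.measurable.comp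
        ((measurable_pi_apply l).comp measurable_fst)).prodMk measurable_snd),
      A, hA, fun z x => (hb _ x).trans ?_⟩
    exact mul_le_mul_of_nonneg_left (by linarith [oldY_tot z]) hA
  H0_indep z z' h := by
    have : (fun l => oldY (z l)) = fun l => oldY (z' l) :=
      funext₂ fun l i => h l (.inl i) Sum.inl_ne_inr
    simp only [this]

variable (hP : Pot R B f f1 f2 f3) (N : ℝ) (σ β : ℕ → ℝ) (g0 : Fin M → Fin n → ℝ)

include hP in
/-- A system seen inside the cascade, forgetting the extra field and the auxiliary leaf variable. -/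
theorem old_end {M' : ℕ} (G : Fin M' → Fin n → ℝ) (j : ℕ) (z : Fin k → PIdx n → ℝ) :
    val (stdG (PIdx n)) (S.μ.prod (gaussianReal 0 1))
        (fun z x => ham S f N σ β G (fun l => oldY (z l)) x.1) j z
      = val (stdG (FieldIdx n)) S.μ (ham S f N σ β G) j (fun l => oldY (z l)) ∧
    ∀ φ, Tame (gaussSize (FieldIdx n)) φ →
      cnd (stdG (PIdx n)) (S.μ.prod (gaussianReal 0 1))
          (fun z x => ham S f N σ β G (fun l => oldY (z l)) x.1)
          (fun z x => φ (fun l => oldY (z l)) x.1) j z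
        = cnd (stdG (FieldIdx n)) S.μ (ham S f N σ β G) φ j (fun l => oldY (z l)) :=
  val_map (H := ham (k := k) S f N σ β G) measurePreserving_oldY
    (measurePreserving_fst (μ := S.μ) (ν := gaussianReal 0 1))
    (Vale.Agent.P157.Rsb.linB_ham S hP.hf.meas hP.hf.bound N σ β G) j z

include hP in
theorem ham1_start {G : Fin (M + 1) → Fin n → ℝ} (hG : (fun a : Fin M => G a.castSucc) = g0)
    {ev : ℝ} (hev : ev = 1) {cv : ℕ → ℝ} (hcv : ∀ l, cv l = 0) :
    ham1 (patCas (k := k) S hP N σ β g0).base f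
        ((patCas (k := k) S hP N σ β g0).fld ev cv (G (Fin.last M)))
      = fun z x => ham S f N σ β G (fun l => oldY (z l)) x.1 := by
  funext z x
  simp only [ham1, Cas.base, Cas.fld, patCas, hev, hcv, one_mul, zero_mul, sum_const_zero, add_zero,
    ham, ← hG, Fin.sum_univ_castSucc (n := M) (fun a => f (sdot (G a) (S.pat x.1)))]
  ring

include hP in
theorem ham1_stop {q : ℕ → ℝ} {ev : ℝ} (hev : ev = 0) {cv : ℕ → ℝ} (hcv : ∀ l, cv l = √(dq k q l))
    (g : Fin n → ℝ) :
    ham1 (patCas (k := k) S hP N σ β g0).base f ((patCas (k := k) S hP N σ β g0).fld ev cv g)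
      = fun z x => ham S f N σ β g0 (fun l => (pairY (z l)).1) x.1
          + phiH k f q (fun l => (pairY (z l)).2) x.2 := by
  funext z x
  have hk : ¬ k + 1 ≤ k := by omega
  have hs : ∀ l : Fin k, cv (l + 1) = √(q (l + 1) - q l) := fun l => by
    rw [hcv, dq, if_pos (by omega : (l : ℕ) + 1 ≤ k), Nat.add_sub_cancel]
  simp only [ham1, Cas.base, Cas.fld, patCas, hev, zero_mul, zero_add, hs]
  rw [hcv, dq, if_neg hk]
  rfl

include hP in
/-- The product of the old system and the one-pattern recursion, seen inside the cascade. -/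
theorem split_end (q : ℕ → ℝ) (j : ℕ) (z : Fin k → PIdx n → ℝ) :
    val (stdG (PIdx n)) (S.μ.prod (gaussianReal 0 1))
        (fun z x => ham S f N σ β g0 (fun l => (pairY (z l)).1) x.1
          + phiH k f q (fun l => (pairY (z l)).2) x.2) j z
      = val (stdG (FieldIdx n)) S.μ (ham S f N σ β g0) j (fun l => (pairY (z l)).1)
        + val (gaussianReal 0 1) (gaussianReal 0 1) (phiH k f q) j (fun l => (pairY (z l)).2) ∧
    ∀ φ ψ, Tame (gaussSize (FieldIdx n)) φ → Tame lineSize ψ →
      cnd (stdG (PIdx n)) (S.μ.prod (gaussianReal 0 1))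
          (fun z x => ham S f N σ β g0 (fun l => (pairY (z l)).1) x.1
            + phiH k f q (fun l => (pairY (z l)).2) x.2)
          (fun z x => φ (fun l => (pairY (z l)).1) x.1 * ψ (fun l => (pairY (z l)).2) x.2) j z
        = cnd (stdG (FieldIdx n)) S.μ (ham S f N σ β g0) φ j (fun l => (pairY (z l)).1)
          * cnd (gaussianReal 0 1) (gaussianReal 0 1) (phiH k f q) ψ j (fun l => (pairY (z l)).2) := by
  have hH := Vale.Agent.P157.Rsb.linB_ham (k := k) S hP.hf.meas hP.hf.bound N σ β g0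
  have hK := phiH_linB (k := k) hP.hf.meas hP.hf.bound q
  set W := prodSize (gaussSize (FieldIdx n)) lineSize with hW
  have ht : ∀ z : Fin k → (FieldIdx n → ℝ) × ℝ,
      W.tot z = (gaussSize (FieldIdx n)).tot (fun l => (z l).1) + lineSize.tot (fun l => (z l).2) :=
    fun z => by simp only [Size.tot, hW, prodSize, sum_add_distrib]
  have mh : ∀ {φ : (Fin k → FieldIdx n → ℝ) → S.X → ℝ}, Measurable (Function.uncurry φ) →
      Measurable fun p : (Fin k → (FieldIdx n → ℝ) × ℝ) × (S.X × ℝ) => φ (fun l => (p.1 l).1) p.2.1 :=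
    fun hφ => hφ.comp (f := fun p : (Fin k → (FieldIdx n → ℝ) × ℝ) × (S.X × ℝ) =>
      (fun l => (p.1 l).1, p.2.1)) (by fun_prop)
  have mk : ∀ {ψ : (Fin k → ℝ) → ℝ → ℝ}, Measurable (Function.uncurry ψ) →
      Measurable fun p : (Fin k → (FieldIdx n → ℝ) × ℝ) × (S.X × ℝ) => ψ (fun l => (p.1 l).2) p.2.2 :=
    fun hψ => hψ.comp (f := fun p : (Fin k → (FieldIdx n → ℝ) × ℝ) × (S.X × ℝ) =>
      (fun l => (p.1 l).2, p.2.2)) (by fun_prop)
  obtain ⟨A, hA, ha⟩ := hH.bound
  obtain ⟨A', hA', ha'⟩ := hK.bound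
  have hsum : LinB W fun z (x : S.X × ℝ) => ham S f N σ β g0 (fun l => (z l).1) x.1
      + phiH k f q (fun l => (z l).2) x.2 := by
    refine ⟨(mh hH.meas).add (mk hK.meas), A + A', by positivity, fun z x => (abs_add_le _ _).trans
      ((add_le_add (ha _ _) (ha' _ _)).trans ?_)⟩
    have t1 := Size.tot_nonneg (gaussSize (FieldIdx n)) fun l => (z l).1
    have t2 := Size.tot_nonneg lineSize fun l => (z l).2
    rw [ht]
    nlinarith
  have hm := fun j z => val_map (γ' := stdG (PIdx n)) (μ' := S.μ.prod (gaussianReal 0 1))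
    measurePreserving_pairY (MeasurePreserving.id (S.μ.prod (gaussianReal 0 1))) hsum j z
  refine ⟨(hm j z).1.trans (val_prod hH hK j _).1, fun φ ψ hφ hψ => ?_⟩
  refine ((hm j z).2 (fun z x => φ (fun l => (z l).1) x.1 * ψ (fun l => (z l).2) x.2) ?_).trans
    ((val_prod hH hK j _).2 φ ψ)
  obtain ⟨C, hC, hc⟩ := hφ.bound
  obtain ⟨C', hC', hc'⟩ := hψ.bound
  refine ⟨(mh hφ.meas).mul (mk hψ.meas), max (C + C') (C * C'), le_max_of_le_left (by positivity),
    fun z x => ?_⟩
  have t1 := Size.tot_nonneg (gaussSize (FieldIdx n)) fun l => (z l).1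
  have t2 := Size.tot_nonneg lineSize fun l => (z l).2
  rw [abs_mul, ht]
  calc _ ≤ C * exp (C * _) * (C' * exp (C' * _)) :=
        mul_le_mul (hc _ _) (hc' _ _) (abs_nonneg _) (by positivity)
    _ = C * C' * exp (C * (gaussSize (FieldIdx n)).tot (fun l => (z l).1)
          + C' * lineSize.tot (fun l => (z l).2)) := by rw [exp_add]; ring
    _ ≤ _ := mul_le_mul (le_max_right _ _) (exp_le_exp.2 (by
        nlinarith [le_max_left (C + C') (C * C')])) (exp_pos _).le (le_max_of_le_left (by positivity))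

variable {q : ℕ → ℝ}

include hP in
theorem start_val {G : Fin (M + 1) → Fin n → ℝ} (hG : (fun a : Fin M => G a.castSucc) = g0) :
    val (stdG (PIdx n)) (S.μ.prod (gaussianReal 0 1))
        (ham1 (patCas (k := k) S hP N σ β g0).base f
          (pU (patCas (k := k) S hP N σ β g0) 1 (fun _ => 0) (dq k q) 0 (G (Fin.last M)))) 0 (fun _ _ => 0)
      = val (stdG (FieldIdx n)) S.μ (ham (k := k) S f N σ β G) 0 (fun _ _ => 0) := by
  unfold pU
  rw [ham1_start S hP N σ β g0 hG (by simp) fun l => by simp [amp_zero]]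
  exact (old_end S hP N σ β G 0 _).1

include hP in
theorem start_pair {G : Fin (M + 1) → Fin n → ℝ} (hG : (fun a : Fin M => G a.castSucc) = g0)
    {e : ℝ → ℝ} (hem : Measurable e) {Be : ℝ} (heb : ∀ u, |e u| ≤ Be) {a a' : S.X → ℝ}
    (ha : Measurable a) (ha' : Measurable a') {R0 : ℝ} (hab : ∀ x, |a x| ≤ R0) (hab' : ∀ x, |a' x| ≤ R0)
    (j : ℕ) :
    ecnd S.μ (patCas (k := k) S hP N σ β g0) f
        (pU (patCas (k := k) S hP N σ β g0) 1 (fun _ => 0) (dq k q) 0 (G (Fin.last M))) (fun z _ =>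
      node (stdG (PIdx n)) (S.μ.prod (gaussianReal 0 1)) (patCas (k := k) S hP N σ β g0).base f
          (fun x => a x.1) e
          (pU (patCas (k := k) S hP N σ β g0) 1 (fun _ => 0) (dq k q) 0 (G (Fin.last M))) j z
        * node (stdG (PIdx n)) (S.μ.prod (gaussianReal 0 1)) (patCas (k := k) S hP N σ β g0).base f
          (fun x => a' x.1) e
          (pU (patCas (k := k) S hP N σ β g0) 1 (fun _ => 0) (dq k q) 0 (G (Fin.last M))) j z)
        0 (fun _ _ => 0)
      = rootPair (stdG (FieldIdx n)) S.μ (ham (k := k) S f N σ β G)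
          (fun x y => a x * e (sdot (G (Fin.last M)) (S.pat x))
            * (a' y * e (sdot (G (Fin.last M)) (S.pat y)))) j (fun _ _ => 0) := by
  have hL := Vale.Agent.P157.Rsb.linB_ham (k := k) S hP.hf.meas hP.hf.bound N σ β G
  have hsd : Measurable fun x : S.X => sdot (G (Fin.last M)) (S.pat x) :=
    Vale.Agent.P157.Rsb.measurable_sdot measurable_const S.pat_meas
  have hT : ∀ {a : S.X → ℝ}, Measurable a → (∀ x, |a x| ≤ R0) → Tame (gaussSize (FieldIdx n))
      fun (_ : Fin k → FieldIdx n → ℝ) x => a x * e (sdot (G (Fin.last M)) (S.pat x)) := fun ha hab =>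
    Tame.of_bdd ((ha.mul (hem.comp hsd)).comp measurable_snd) (B := |R0| * Be) fun _ x => by
      rw [abs_mul]
      exact mul_le_mul ((hab x).trans (le_abs_self _)) (heb _) (abs_nonneg _) (abs_nonneg _)
  rw [rootPair_mul hL]
  unfold ecnd node pU
  rw [ham1_start S hP N σ β g0 hG (by simp) fun l => by simp [amp_zero]]
  have hfl : ∀ z x, (patCas (k := k) S hP N σ β g0).fld (1 * cos 0) (amp (fun _ => 0) (dq k q) 0)
      (G (Fin.last M)) z x = sdot (G (Fin.last M)) (S.pat x.1) := fun z x => by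
    simp [Cas.fld, amp_zero, patCas]
  simp only [hfl]
  have hn : ∀ {a : S.X → ℝ}, Measurable a → (∀ x, |a x| ≤ R0) → ∀ z,
      cnd (stdG (PIdx n)) (S.μ.prod (gaussianReal 0 1))
          (fun z x => ham S f N σ β G (fun l => oldY (z l)) x.1)
          (fun _ x => a x.1 * e (sdot (G (Fin.last M)) (S.pat x.1))) j z
        = cnd (stdG (FieldIdx n)) S.μ (ham S f N σ β G)
          (fun _ x => a x * e (sdot (G (Fin.last M)) (S.pat x))) j (fun l => oldY (z l)) :=
    fun ha hab z => (old_end S hP N σ β G j z).2 _ (hT ha hab)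
  simp only [hn ha hab, hn ha' hab']
  exact (old_end S hP N σ β G 0 _).2 (fun z _ => cnd (stdG (FieldIdx n)) S.μ (ham S f N σ β G)
      (fun _ x => a x * e (sdot (G (Fin.last M)) (S.pat x))) j z
    * cnd (stdG (FieldIdx n)) S.μ (ham S f N σ β G)
      (fun _ x => a' x * e (sdot (G (Fin.last M)) (S.pat x))) j z)
    ((cnd_tame hL (hT ha hab) j).mul (cnd_tame hL (hT ha' hab') j))

include hP in
theorem stop_val (g : Fin n → ℝ) :
    val (stdG (PIdx n)) (S.μ.prod (gaussianReal 0 1))
        (ham1 (patCas (k := k) S hP N σ β g0).base f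
          (pU (patCas (k := k) S hP N σ β g0) 1 (fun _ => 0) (dq k q) (π / 2) g)) 0 (fun _ _ => 0)
      = val (stdG (FieldIdx n)) S.μ (ham (k := k) S f N σ β g0) 0 (fun _ _ => 0) + phiK k f q := by
  unfold pU
  rw [ham1_stop (q := q) S hP N σ β g0 (by simp) (fun l => amp_end) g]
  exact (split_end S hP N σ β g0 q 0 _).1

include hP in
theorem stop_pair (g : Fin n → ℝ) {e : ℝ → ℝ} (hem : Measurable e) {Be : ℝ} (heb : ∀ u, |e u| ≤ Be)
    {a a' : S.X → ℝ} (ha : Measurable a) (ha' : Measurable a') {R0 : ℝ} (hab : ∀ x, |a x| ≤ R0)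
    (hab' : ∀ x, |a' x| ≤ R0) (j : ℕ) :
    ecnd S.μ (patCas (k := k) S hP N σ β g0) f
        (pU (patCas (k := k) S hP N σ β g0) 1 (fun _ => 0) (dq k q) (π / 2) g) (fun z _ =>
      node (stdG (PIdx n)) (S.μ.prod (gaussianReal 0 1)) (patCas (k := k) S hP N σ β g0).base f
          (fun x => a x.1) e (pU (patCas (k := k) S hP N σ β g0) 1 (fun _ => 0) (dq k q) (π / 2) g) j z
        * node (stdG (PIdx n)) (S.μ.prod (gaussianReal 0 1)) (patCas (k := k) S hP N σ β g0).base f
          (fun x => a' x.1) e (pU (patCas (k := k) S hP N σ β g0) 1 (fun _ => 0) (dq k q) (π / 2) g) j z)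
        0 (fun _ _ => 0)
      = rootPair (stdG (FieldIdx n)) S.μ (ham (k := k) S f N σ β g0) (fun x y => a x * a' y) j
          (fun _ _ => 0)
        * cnd (gaussianReal 0 1) (gaussianReal 0 1) (phiH k f q)
          (fun z _ => cnd (gaussianReal 0 1) (gaussianReal 0 1) (phiH k f q) (phiH k e q) j z ^ 2) 0
          (fun _ => 0) := by
  have hL := Vale.Agent.P157.Rsb.linB_ham (k := k) S hP.hf.meas hP.hf.bound N σ β g0
  have hK := phiH_linB (k := k) hP.hf.meas hP.hf.bound q
  rw [rootPair_mul hL]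
  unfold ecnd node pU
  have hfl : ∀ z x, (patCas (k := k) S hP N σ β g0).fld (1 * cos (π / 2))
      (amp (fun _ => 0) (dq k q) (π / 2)) g z x
      = ∑ l : Fin k, √(q (l + 1) - q l) * (pairY (z l)).2 + √(1 - q k) * x.2 := fun z x => by
    have hk : ¬ k + 1 ≤ k := by omega
    simp only [Cas.fld, patCas, cos_pi_div_two, mul_zero, zero_mul, zero_add, amp_end, dq, if_neg hk]
    congr 1
    exact sum_congr rfl fun l _ => by
      rw [if_pos (by omega : (l : ℕ) + 1 ≤ k), Nat.add_sub_cancel]; rfl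
  rw [ham1_stop (q := q) S hP N σ β g0 (by simp) (fun l => amp_end) g]
  have hTa : ∀ {a : S.X → ℝ}, Measurable a → (∀ x, |a x| ≤ R0) →
      Tame (gaussSize (FieldIdx n)) fun (_ : Fin k → FieldIdx n → ℝ) x => a x := fun ha hab =>
    Tame.of_bdd (ha.comp measurable_snd) fun _ x => hab x
  have hTe : Tame lineSize (phiH k e q) := Tame.of_bdd (phiH_meas hem q) fun z x => heb _
  simp only [hfl]
  have hn : ∀ {a : S.X → ℝ}, Measurable a → (∀ x, |a x| ≤ R0) → ∀ z,
      cnd (stdG (PIdx n)) (S.μ.prod (gaussianReal 0 1))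
          (fun z x => ham S f N σ β g0 (fun l => (pairY (z l)).1) x.1
            + phiH k f q (fun l => (pairY (z l)).2) x.2)
          (fun z x => a x.1 * e (∑ l : Fin k, √(q (l + 1) - q l) * (pairY (z l)).2 + √(1 - q k) * x.2)) j z
        = cnd (stdG (FieldIdx n)) S.μ (ham S f N σ β g0) (fun _ x => a x) j (fun l => (pairY (z l)).1)
          * cnd (gaussianReal 0 1) (gaussianReal 0 1) (phiH k f q) (phiH k e q) j
            (fun l => (pairY (z l)).2) :=
    fun {a} ha hab z => (split_end S hP N σ β g0 q j z).2 (fun _ x => a x) (phiH k e q) (hTa ha hab) hTe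
  simp only [hn ha hab, hn ha' hab']
  have e2 : (fun (z : Fin k → PIdx n → ℝ) (_ : S.X × ℝ) =>
      cnd (stdG (FieldIdx n)) S.μ (ham S f N σ β g0) (fun _ x => a x) j (fun l => (pairY (z l)).1)
          * cnd (gaussianReal 0 1) (gaussianReal 0 1) (phiH k f q) (phiH k e q) j (fun l => (pairY (z l)).2)
        * (cnd (stdG (FieldIdx n)) S.μ (ham S f N σ β g0) (fun _ x => a' x) j (fun l => (pairY (z l)).1)
          * cnd (gaussianReal 0 1) (gaussianReal 0 1) (phiH k f q) (phiH k e q) j
            (fun l => (pairY (z l)).2)))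
      = fun z _ =>
        cnd (stdG (FieldIdx n)) S.μ (ham S f N σ β g0) (fun _ x => a x) j (fun l => (pairY (z l)).1)
          * cnd (stdG (FieldIdx n)) S.μ (ham S f N σ β g0) (fun _ x => a' x) j (fun l => (pairY (z l)).1)
        * cnd (gaussianReal 0 1) (gaussianReal 0 1) (phiH k f q) (phiH k e q) j
            (fun l => (pairY (z l)).2) ^ 2 := funext₂ fun z _ => by ring
  rw [e2]
  exact (split_end S hP N σ β g0 q 0 _).2
    (fun z _ => cnd (stdG (FieldIdx n)) S.μ (ham S f N σ β g0) (fun _ x => a x) j z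
      * cnd (stdG (FieldIdx n)) S.μ (ham S f N σ β g0) (fun _ x => a' x) j z)
    (fun z _ => cnd (gaussianReal 0 1) (gaussianReal 0 1) (phiH k f q) (phiH k e q) j z ^ 2)
    ((cnd_tame hL (hTa ha hab) j).mul (cnd_tame hL (hTa ha' hab') j))
    (((cnd_tame hK hTe j).mul (cnd_tame hK hTe j)).congr fun z x => (pow_two _).symm)

include hP in
/-- The error of the cascade is the overlap error of the old system. -/
theorem berr_old (hq : IsPath k q) {l : ℕ} (hl : l ≤ k) :
    berr S.μ (patCas (k := k) S hP N σ β g0) 1 (fun _ => 0) (dq k q) l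
      = rootPair (stdG (FieldIdx n)) S.μ (ham (k := k) S f N σ β g0)
          (fun x y => |sdot (S.pat x) (S.pat y) - q l|) l (fun _ _ => 0) := by
  have hL := Vale.Agent.P157.Rsb.linB_ham (k := k) S hP.hf.meas hP.hf.bound N σ β g0
  rw [rootPair_eq hL]
  unfold berr bpair
  have hb : (patCas (k := k) S hP N σ β g0).base = fun z x => ham S f N σ β g0 (fun l => oldY (z l)) x.1 :=
    rfl
  have hk : ∀ x y, |kq (patCas (k := k) S hP N σ β g0) 1 (fun _ => 0) (dq k q) l x y|
      = |sdot (S.pat x) (S.pat y) - q l| := fun x y => by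
    simp only [kq, sub_zero, sum_dq hq hl, one_pow, one_mul]
    exact abs_sub_comm _ _
  simp only [hb, hk]
  obtain ⟨b, hb'⟩ := S.bdd
  have hm : Measurable fun p : S.X × S.X => |sdot (S.pat p.1) (S.pat p.2) - q l| :=
    ((Vale.Agent.P157.Rsb.measurable_sdot (S.pat_meas.comp measurable_fst)
      (S.pat_meas.comp measurable_snd)).sub_const _).abs
  have hbd : ∀ x y, |(|sdot (S.pat x) (S.pat y) - q l|)| ≤ |b| * |b| * n + |q l| := fun x y => by
    rw [abs_abs]
    refine (abs_sub _ _).trans (add_le_add ?_ le_rfl)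
    refine (abs_sum_le_sum_abs _ _).trans ((sum_le_sum (g := fun _ => |b| * |b|) fun i _ => ?_).trans_eq
      (by simp [mul_comm]))
    rw [abs_mul]
    exact mul_le_mul (((hb' x).1 i).trans (le_abs_self b)) (((hb' y).1 i).trans (le_abs_self b))
      (abs_nonneg _) (abs_nonneg _)
  have hT : ∀ x, Tame (gaussSize (FieldIdx n))
      fun (_ : Fin k → FieldIdx n → ℝ) y => |sdot (S.pat x) (S.pat y) - q l| := fun x =>
    Tame.of_bdd (hm.comp (f := fun p : (Fin k → FieldIdx n → ℝ) × S.X => (x, p.2)) (by fun_prop))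
      fun _ y => hbd x y
  simp only [fun (z : Fin k → PIdx n → ℝ) x => (old_end S hP N σ β g0 l z).2 _ (hT x)]
  refine (old_end S hP N σ β g0 0 (fun _ _ => 0)).2
    (fun z x => cnd (stdG (FieldIdx n)) S.μ (ham S f N σ β g0)
      (fun _ y => |sdot (S.pat x) (S.pat y) - q l|) l z)
    (Tame.of_bdd ?_ fun z x => cnd_abs_le (φ := fun _ y => |sdot (S.pat x) (S.pat y) - q l|) hL
      (hm.comp (f := fun p : (Fin k → FieldIdx n → ℝ) × S.X => (x, p.2)) (by fun_prop))
      (fun _ y => hbd x y) l z)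
  exact (cnd_measurable_param (G := S.X) (γ := stdG (FieldIdx n)) (μ := S.μ)
    (H := fun _ => ham S f N σ β g0) (φ := fun x _ y => |sdot (S.pat x) (S.pat y) - q l|)
    (hL.meas.comp (f := fun p : (S.X × (Fin k → FieldIdx n → ℝ)) × S.X => (p.1.2, p.2)) (by fun_prop))
    (hm.comp (f := fun p : (S.X × (Fin k → FieldIdx n → ℝ)) × S.X => (p.1.1, p.2)) (by fun_prop)) l).comp
    measurable_swap

end Vale.Agent.P157.Rsb.Slot
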