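import Vale.Agent.P157.Rsb.Variation
import Vale.Agent.P157.Rsb.Intf

/-!
# P157: the one-pattern recursion as a cascade

The increments of a path are the level variances; between two paths the derivative of the one-pattern
functional is the sum of the increments of the path against `Γ`.
-/

open MeasureTheory ProbabilityTheory Real Finset

namespace Vale.Agent.P157.Rsb.Slot

/-- The level variances of a path; the last one is the leaf. -/
def dq (k : ℕ) (q : ℕ → ℝ) (l : ℕ) : ℝ := if l ≤ k then q l - q (l - 1) else 1 - q k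

theorem dq_nonneg {k : ℕ} {q : ℕ → ℝ} (h : IsPath k q) (l : ℕ) : 0 ≤ dq k q l := by
  unfold dq
  split_ifs with hl
  · rcases Nat.eq_zero_or_pos l with h0 | h0
    · simp [h0]
    · have := h.2.1 (l - 1) (by omega)
      rw [show l - 1 + 1 = l by omega] at this
      linarith
  · linarith [h.2.2]

theorem sum_dq {k : ℕ} {q : ℕ → ℝ} (h : IsPath k q) {l : ℕ} (hl : l ≤ k) :
    ∑ a ∈ range l, dq k q (a + 1) = q l := by
  induction l with
  | zero => simp [h.1]
  | succ l ih => rw [sum_range_succ, ih (by omega)]; simp [dq, hl]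

theorem sum_dq_all {k : ℕ} {q : ℕ → ℝ} (h : IsPath k q) : ∑ a ∈ range (k + 1), dq k q (a + 1) = 1 := by
  rw [sum_range_succ, sum_dq h le_rfl]
  simp [dq]

/-- The one-pattern Hamiltonian of a path. -/
noncomputable def phiH (k : ℕ) (f : ℝ → ℝ) (q : ℕ → ℝ) (z : Fin k → ℝ) (x : ℝ) : ℝ :=
  f (∑ l : Fin k, √(q (l + 1) - q l) * z l + √(1 - q k) * x)

theorem phiK_def (k : ℕ) (f : ℝ → ℝ) (q : ℕ → ℝ) :
    phiK k f q = val (gaussianReal 0 1) (gaussianReal 0 1) (phiH k f q) 0 fun _ => 0 := rfl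

theorem gamK_def (k : ℕ) (f : ℝ → ℝ) (q : ℕ → ℝ) (j : ℕ) :
    gamK k f q j = cnd (gaussianReal 0 1) (gaussianReal 0 1) (phiH k f q)
      (fun z _ => cnd (gaussianReal 0 1) (gaussianReal 0 1) (phiH k f q) (phiH k (deriv f) q) j z ^ 2) 0
      fun _ => 0 := rfl

theorem phiH_meas {k : ℕ} {h : ℝ → ℝ} (hm : Measurable h) (q : ℕ → ℝ) :
    Measurable (Function.uncurry (phiH k h q)) :=
  hm.comp ((Finset.measurable_sum _ fun l _ =>
    (((measurable_pi_apply l).comp measurable_fst).const_mul _)).add (measurable_snd.const_mul _))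

theorem phiH_linB {k : ℕ} {f : ℝ → ℝ} (hm : Measurable f) {L : ℝ} (hb : ∀ u, |f u| ≤ L) (q : ℕ → ℝ) :
    LinB lineSize (phiH k f q) :=
  ⟨phiH_meas hm q, |L|, abs_nonneg L, fun z x => ((hb _).trans (le_abs_self L)).trans
    (le_mul_of_one_le_right (abs_nonneg L) (le_add_of_nonneg_right (Size.tot_nonneg _ z)))⟩

/-- `Γ` is nonnegative, bounded and monotone in the level. -/
theorem gam_props {k : ℕ} {Z X : Type} [MeasurableSpace Z] [MeasurableSpace X] {γ : Measure Z}
    {μ : Measure X} [IsProbabilityMeasure γ] [IsFiniteMeasure μ] [NeZero μ] {w : Size γ}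
    {H d : (Fin k → Z) → X → ℝ} (hH : LinB w H) (hd : Measurable (Function.uncurry d)) {B : ℝ}
    (hb : ∀ z x, |d z x| ≤ B) (j : ℕ) (z : Fin k → Z) :
    0 ≤ cnd γ μ H (fun z _ => cnd γ μ H d j z ^ 2) 0 z ∧
    cnd γ μ H (fun z _ => cnd γ μ H d j z ^ 2) 0 z ≤ B ^ 2 ∧
    cnd γ μ H (fun z _ => cnd γ μ H d j z ^ 2) 0 z
      ≤ cnd γ μ H (fun z _ => cnd γ μ H d (j + 1) z ^ 2) 0 z := by
  have hT : Tame w d := Tame.of_bdd hd hb
  have hsq : ∀ i, Tame w fun z (_ : X) => cnd γ μ H d i z ^ 2 := fun i =>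
    ((cnd_tame hH hT i).mul (cnd_tame hH hT i)).congr fun z x => (pow_two _).symm
  refine ⟨cnd_nonneg (fun _ _ => sq_nonneg _) _ _, ?_, ?_⟩
  · calc _ ≤ cnd γ μ H (fun _ _ => B ^ 2) 0 z :=
          cnd_mono hH (hsq j) (Tame.of_bdd measurable_const (B := |B ^ 2|) fun _ _ => le_rfl)
            (fun z x => sq_le_sq.2 ((cnd_abs_le hH hd hb j z).trans (le_abs_self B))) 0 z
      _ = _ := cnd_const hH _ _ _
  · calc _ ≤ cnd γ μ H (fun z _ => cnd γ μ H (fun z _ => cnd γ μ H d (j + 1) z ^ 2) j z) 0 z :=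
          cnd_mono hH (hsq j) (cnd_tame hH (hsq (j + 1)) j) (fun z _ => by
            rw [← cnd_tower (φ := d) hH (Nat.le_succ j) z]
            exact cnd_sq_le hH (cnd_tame hH hT (j + 1)) j z) 0 z
      _ = _ := cnd_tower hH (Nat.zero_le j) z

/-- The cascade without row and without base Hamiltonian. -/
def phiCas (k : ℕ) : Cas k 0 Unit Unit where
  i0 := ()
  p _ := Fin.elim0
  p_meas := measurable_const
  p_bdd := ⟨0, le_rfl, fun _ i => i.elim0⟩
  H0 _ _ := 0
  H0_lin := ⟨measurable_const, 0, le_rfl, fun _ _ => by simp⟩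
  H0_indep _ _ _ := rfl

variable {k : ℕ}

/-- The cascade at an end of the path is the one-pattern recursion. -/
theorem phi_end {f : ℝ → ℝ} (hm : Measurable f) {L : ℝ} (hb : ∀ u, |f u| ≤ L) {cv : ℕ → ℝ} {q : ℕ → ℝ}
    (hcv : ∀ l, cv l = √(dq k q l)) {ev : ℝ} (g : Fin 0 → ℝ) (j : ℕ) (z : Fin k → Unit → ℝ) :
    val (stdG Unit) ((Measure.dirac ()).prod (gaussianReal 0 1))
        (ham1 (phiCas k).base f ((phiCas k).fld ev cv g)) j z
      = val (gaussianReal 0 1) (gaussianReal 0 1) (phiH k f q) j (fun l => z l ()) ∧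
    ∀ φ, Tame lineSize φ → ecnd (Measure.dirac ()) (phiCas k) f ((phiCas k).fld ev cv g)
        (fun z x => φ (fun l => z l ()) x.2) j z
      = cnd (gaussianReal 0 1) (gaussianReal 0 1) (phiH k f q) φ j (fun l => z l ()) := by
  have hF : MeasurePreserving (fun y : Unit → ℝ => y ()) (stdG Unit) (gaussianReal 0 1) := by
    unfold stdG
    exact measurePreserving_eval (fun _ : Unit => gaussianReal 0 1) ()
  have hG : MeasurePreserving (Prod.snd : Unit × ℝ → ℝ) ((Measure.dirac ()).prod (gaussianReal 0 1))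
      (gaussianReal 0 1) := measurePreserving_snd
  have hfl : ∀ z x, (phiCas k).fld ev cv g z x
      = ∑ l : Fin k, √(q (l + 1) - q l) * z l () + √(1 - q k) * x.2 := fun z x => by
    simp only [Cas.fld, phiCas, sdot, univ_eq_empty, sum_empty, mul_zero, zero_add, hcv, dq]
    have : ¬ k + 1 ≤ k := by omega
    simp only [if_neg this, Nat.add_sub_cancel]
    congr 1
    exact sum_congr rfl fun l _ => by rw [if_pos (by omega : (l : ℕ) + 1 ≤ k)]
  have e : ham1 (phiCas k).base f ((phiCas k).fld ev cv g)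
      = fun z x => phiH k f q (fun l => z l ()) x.2 := by
    funext z x
    simp only [ham1, hfl]
    simp only [phiH, Cas.base, phiCas, zero_add]
  unfold ecnd
  rw [e]
  exact val_map (H := phiH k f q) hF hG (phiH_linB hm hb q) j z

variable {f f1 f2 f3 : ℝ → ℝ} {R B : ℝ}

/-- `Γ` on the path. -/
noncomputable def pGam (k : ℕ) (f f1 : ℝ → ℝ) (q q' : ℕ → ℝ) (θ : ℝ) (l : ℕ) : ℝ :=
  ecnd (Measure.dirac ()) (phiCas k) f (pU (phiCas k) 0 (dq k q) (dq k q') θ Fin.elim0)
    (fun z _ => ecnd (Measure.dirac ()) (phiCas k) f (pU (phiCas k) 0 (dq k q) (dq k q') θ Fin.elim0)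
      (fun z x => f1 (pU (phiCas k) 0 (dq k q) (dq k q') θ Fin.elim0 z x)) l z ^ 2) 0 (fun _ _ => 0)

theorem pGam_props (hP : Pot R B f f1 f2 f3) {B1 : ℝ} (hb : ∀ u, |f1 u| ≤ B1) (q q' : ℕ → ℝ) (θ : ℝ)
    (l : ℕ) : 0 ≤ pGam k f f1 q q' θ l ∧ pGam k f f1 q q' θ l ≤ B1 ^ 2 ∧
      pGam k f f1 q q' θ l ≤ pGam k f f1 q q' θ (l + 1) :=
  gam_props (d := fun z x => f1 (pU (phiCas k) 0 (dq k q) (dq k q') θ Fin.elim0 z x))
    (linB_ham1 (phiCas k).base_lin hP.hf ((pU_jm (phiCas k) 0 _ _ θ).at' _))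
    (hP.hf1.meas.comp ((pU_jm (phiCas k) 0 _ _ θ).at' Fin.elim0)) (fun _ _ => hb _) l _

theorem pVal_ends (hP : Pot R B f f1 f2 f3) (q q' : ℕ → ℝ) :
    pVal (Measure.dirac ()) (phiCas k) 0 (dq k q) (dq k q') f 0 = phiK k f q ∧
    pVal (Measure.dirac ()) (phiCas k) 0 (dq k q) (dq k q') f (π / 2) = phiK k f q' := by
  constructor
  · simp only [pVal, pU, phiK_def]
    refine (integral_congr_ae (ae_of_all _ fun g => (phi_end (q := q) hP.hf.meas hP.hf.bound
      (cv := amp (dq k q) (dq k q') 0) (fun l => amp_zero) g 0 fun _ _ => 0).1)).trans ?_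
    rw [integral_const, probReal_univ, one_smul]
  · simp only [pVal, pU, phiK_def]
    refine (integral_congr_ae (ae_of_all _ fun g => (phi_end (q := q') hP.hf.meas hP.hf.bound
      (cv := amp (dq k q) (dq k q') (π / 2)) (fun l => amp_end) g 0 fun _ _ => 0).1)).trans ?_
    rw [integral_const, probReal_univ, one_smul]

/-- The derivative of the one-pattern functional along the path. -/
theorem phi_deriv (hP : Pot R B f f1 f2 f3) {q q' : ℕ → ℝ} (hq : IsPath k q) (hq' : IsPath k q') {θ : ℝ}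
    (h0 : 0 < θ) (h1 : θ < π / 2) :
    HasDerivAt (pVal (Measure.dirac ()) (phiCas k) 0 (dq k q) (dq k q') f)
      (-(mass k * ∑ l ∈ Icc 0 k, cos θ * sin θ * (q' l - q l) * pGam k f f1 q q' θ l)) θ := by
  set D := dq k q with hDdef
  set D' := dq k q' with hD'def
  have hD : ∀ l, 0 ≤ D l := dq_nonneg hq
  have hD' : ∀ l, 0 ≤ D' l := dq_nonneg hq'
  have hd := hasDerivAt_root (μ0 := Measure.dirac ()) (phiCas k) 0 D D' hP.hf hD hD' h0 h1
    (V := fun θ g => val (stdG Unit) ((Measure.dirac ()).prod (gaussianReal 0 1))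
      (ham1 (phiCas k).base f (pU (phiCas k) 0 D D' θ g)) 0 (fun _ _ => 0))
    (fun θ => val_measurable_param_at (P := Fin 0 → ℝ)
      (H := fun g => ham1 (phiCas k).base f (pU (phiCas k) 0 D D' θ g))
      (jm_ham1 (phiCas k).base_lin hP.hf.meas (pU_jm (phiCas k) 0 D D' θ)) 0 _)
    (Mv := |val (stdG Unit) ((Measure.dirac ()).prod (gaussianReal 0 1)) (phiCas k).base 0
      (fun _ _ => 0)| + B) (fun θ g => by
      have h := val_close (γ := stdG Unit) (μ := (Measure.dirac ()).prod (gaussianReal 0 1))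
        (phiCas k).base_lin (linB_ham1 (phiCas k).base_lin hP.hf ((pU_jm (phiCas k) 0 D D' θ).at' g))
        (L := B) (fun z x => by simpa [ham1] using hP.hf.bound _) 0 (fun _ _ => 0)
      linarith [abs_sub_abs_le_abs_sub (val (stdG Unit) ((Measure.dirac ()).prod (gaussianReal 0 1))
        (ham1 (phiCas k).base f (pU (phiCas k) 0 D D' θ g)) 0 (fun _ _ => 0))
        (val (stdG Unit) ((Measure.dirac ()).prod (gaussianReal 0 1)) (phiCas k).base 0 (fun _ _ => 0))])
    (φ := fun θ g z x => f1 (pU (phiCas k) 0 D D' θ g z x))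
    (fun θ => ⟨pb_comp (pU_jm (phiCas k) 0 D D' θ) hP.hf1, fun g z x h => hP.hf1.zero _ h⟩) (M := B)
    (fun θ g z x => hP.hf1.bound _) (fun g s r hF => hasDerivAt_val_fam (phiCas k) hP hF 0 _)
  refine hd.congr_deriv ?_
  have hc : 0 < cos θ := cos_pos_of_mem_Ioo ⟨by linarith [pi_pos], h1⟩
  have hs : 0 < sin θ := sin_pos_of_pos_of_lt_pi h0 (by linarith [pi_pos])
  have one := nd_one (γ := stdG Unit) (μ := (Measure.dirac ()).prod (gaussianReal 0 1))
    (phiCas k).base_lin hP.hf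
  have key : vel (Measure.dirac ()) (phiCas k) 0 D D' f θ (fun g z x => f1 (pU (phiCas k) 0 D D' θ g z x))
      = ∫ g, ecnd (Measure.dirac ()) (phiCas k) f (pU (phiCas k) 0 D D' θ g)
          (mix (Measure.dirac ()) (phiCas k) f f1 (fun _ => 1) f1 0 0 (0 * cos θ) (-(0 * sin θ))
            (amp D D' θ) (damp D D' θ) (pU (phiCas k) 0 D D' θ g) (fun _ => 1) (fun _ => 1)
            (fun _ _ => 0) (fun _ _ => 0)) 0 (fun _ _ => 0) ∂stdG (Fin 0) := by
    refine Eq.trans ?_ (integral_velocity (phiCas k) hP one one hP.hf1 hP.hf2 hP.d2 (b := fun _ => 1)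
      measurable_const (Mb := 1) (fun _ => by simp) (0 * cos θ) (-(0 * sin θ)) (amp D D' θ) (damp D D' θ)
      (fun x => by
        simp only [hDdef, hD'def, zero_mul, neg_zero, zero_add, damp_amp (dq_nonneg hq) (dq_nonneg hq') hc hs,
          ← mul_sum, sum_sub_distrib, sum_dq_all hq, sum_dq_all hq', sub_self, mul_zero])
      (fun h0 => by simp [damp, h0]) (fun _ _ => 0))
    simp only [vel, obs, one_mul, mul_one]
    rfl
  rw [key]
  have step : ∀ g : Fin 0 → ℝ, ecnd (Measure.dirac ()) (phiCas k) f (pU (phiCas k) 0 D D' θ g)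
      (mix (Measure.dirac ()) (phiCas k) f f1 (fun _ => 1) f1 0 0 (0 * cos θ) (-(0 * sin θ))
        (amp D D' θ) (damp D D' θ) (pU (phiCas k) 0 D D' θ g) (fun _ => 1) (fun _ => 1)
        (fun _ _ => 0) (fun _ _ => 0)) 0 (fun _ _ => 0)
      = -(mass k * ∑ l ∈ Icc 0 k, cos θ * sin θ * (q' l - q l) * pGam k f f1 q q' θ l) := by
    intro g
    rw [Subsingleton.elim g Fin.elim0]
    set U := pU (phiCas k) 0 D D' θ Fin.elim0 with hU
    have hUm : Measurable (Function.uncurry U) := (pU_jm (phiCas k) 0 D D' θ).at' _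
    have hJ : JM fun _ : Unit => U := JM.of_unit hUm
    have hL := linB_ham1 (phiCas k).base_lin hP.hf hUm
    set A := fun l z => ecnd (Measure.dirac ()) (phiCas k) f U (fun z x => f1 (U z x)) l z with hA
    have hker : ∀ l ≤ k, ∀ z x, cker (Measure.dirac ()) (phiCas k) f (0 * cos θ) (-(0 * sin θ))
        (amp D D' θ) (damp D D' θ) U (fun z y => f1 (U z y)) l z x
        = cos θ * sin θ * (q' l - q l) * A l z := by
      intro l hl z x
      have e : ∀ y, (phiCas k).ker (0 * cos θ) (-(0 * sin θ)) (amp D D' θ) (damp D D' θ) l x.1 y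
          = cos θ * sin θ * (q' l - q l) := fun y => by
        simp only [Cas.ker, hDdef, hD'def, zero_mul, neg_zero, zero_add,
          damp_amp (dq_nonneg hq) (dq_nonneg hq') hc hs, ← mul_sum, sum_sub_distrib, sum_dq hq hl, sum_dq hq' hl]
      simp only [cker, hA, e]
      exact cnd_const_mul _ l z
    have hzero : ∀ l z x, cker (Measure.dirac ()) (phiCas k) f (0 * cos θ) (-(0 * sin θ))
        (amp D D' θ) (damp D D' θ) U (fun _ _ => 0) l z x = 0 := fun l z x => by
      simp only [cker, ecnd, mul_zero]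
      exact cnd_const hL 0 l z
    have hm : (mix (Measure.dirac ()) (phiCas k) f f1 (fun _ => 1) f1 0 0 (0 * cos θ) (-(0 * sin θ))
        (amp D D' θ) (damp D D' θ) U (fun _ => 1) (fun _ => 1) (fun _ _ => 0) (fun _ _ => 0))
        = fun z x => (-mass k) * ∑ l ∈ Icc 0 k,
            cos θ * sin θ * (q' l - q l) * (A l z * f1 (U z x)) := by
      funext z x
      simp only [mix, hzero, one_mul, mul_one, zero_add, zero_sub]
      rw [sum_congr rfl fun l hl => hker l (mem_Icc.1 hl).2 z x]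
      simp only [mul_sum, mul_neg, neg_mul, ← sum_neg_distrib]
      exact sum_congr rfl fun l _ => by ring
    have pf : PB fun (_ : Unit) z x => f1 (U z x) := pb_comp hJ hP.hf1
    have pA : ∀ l, PB fun (_ : Unit) z (_ : Unit × ℝ) => A l z := fun l =>
      pb_cnd (phiCas k).base_lin hP.hf hJ pf l
    rw [hm]
    simp only [ecnd]
    rw [cnd_const_mul, cnd_finsum hL (Icc 0 k) fun l _ => (((pA l).mul pf).const_mul _).tame ()]
    simp only [cnd_const_mul, neg_mul, pGam, hA, ecnd, ← hU, ← hDdef, ← hD'def]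
    congr 2
    refine sum_congr rfl fun l _ => ?_
    congr 1
    rw [← cnd_tower (φ := fun z x => cnd (stdG Unit) ((Measure.dirac ()).prod (gaussianReal 0 1))
      (ham1 (phiCas k).base f U) (fun z x => f1 (U z x)) l z * f1 (U z x)) hL (Nat.zero_le l)]
    congr 1
    funext z _
    rw [cnd_pull (cnd_upto l), pow_two]
  rw [integral_congr_ae (ae_of_all _ step), integral_const, probReal_univ, one_smul]

end Vale.Agent.P157.Rsb.Slot
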