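import Vale.Agent.P157.Rsb.CalcDeriv

/-!
# P157: derivatives of conditional expectations written in one slot

Along a family of leaf fields `U s` with derivative `V`, the conditional expectation at level `l` of
an observable of the leaf has derivative `cnd l (V * slot)` with a bounded slot.
-/

open MeasureTheory ProbabilityTheory Real Finset

namespace Vale.Agent.P157.Rsb.Slot

/-- Measurable, bounded by `B`, zero outside `[-R, R]`. -/
structure Cpt (R B : ℝ) (h : ℝ → ℝ) : Prop where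
  meas : Measurable h
  bound : ∀ u, |h u| ≤ B
  zero : ∀ u, R < |u| → h u = 0

/-- A potential with two derivatives, all of compact support. -/
structure Pot (R B : ℝ) (f f1 f2 f3 : ℝ → ℝ) : Prop where
  hf : Cpt R B f
  hf1 : Cpt R B f1
  hf2 : Cpt R B f2
  hf3 : Cpt R B f3
  one_le : 1 ≤ B
  d1 : ∀ u, HasDerivAt f (f1 u) u
  d2 : ∀ u, HasDerivAt f1 (f2 u) u
  d3 : ∀ u, HasDerivAt f2 (f3 u) u

theorem exists_pot {f : ℝ → ℝ} (hf : ContDiff ℝ 3 f) (hs : HasCompactSupport f) :
    ∃ R B, Pot R B f (deriv f) (deriv (deriv f)) (deriv (deriv (deriv f))) := by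
  have h1 : ContDiff ℝ 2 (deriv f) := by
    simpa using hf.iterate_deriv' 2 1
  have h2 : ContDiff ℝ 1 (deriv (deriv f)) := by
    simpa using h1.iterate_deriv' 1 1
  have c3 : Continuous (deriv (deriv (deriv f))) := h2.continuous_deriv le_rfl
  have s1 : HasCompactSupport (deriv f) := hs.deriv
  have s2 : HasCompactSupport (deriv (deriv f)) := s1.deriv
  have s3 : HasCompactSupport (deriv (deriv (deriv f))) := s2.deriv
  have key : ∀ {h : ℝ → ℝ}, Continuous h → HasCompactSupport h →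
      ∃ R B, ∀ R' B', R ≤ R' → B ≤ B' → Cpt R' B' h := by
    intro h hc hh
    obtain ⟨R, hR⟩ := hh.isCompact.isBounded.subset_closedBall (0 : ℝ)
    obtain ⟨B, hB⟩ := hh.exists_bound_of_continuous hc
    refine ⟨R, B, fun R' B' hR' hB' => ⟨hc.measurable, fun u => (hB u).trans hB', fun u hu => ?_⟩⟩
    apply image_eq_zero_of_notMem_tsupport
    intro hm
    have := hR hm
    simp only [Metric.mem_closedBall, dist_zero_right, Real.norm_eq_abs] at this
    linarith
  obtain ⟨R0, B0, p0⟩ := key hf.continuous hs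
  obtain ⟨R1, B1, p1⟩ := key h1.continuous s1
  obtain ⟨R2, B2, p2⟩ := key h2.continuous s2
  obtain ⟨R3, B3, p3⟩ := key c3 s3
  refine ⟨max (max R0 R1) (max R2 R3), max 1 (max (max B0 B1) (max B2 B3)),
    p0 _ _ (by simp) (by simp), p1 _ _ (by simp) (by simp), p2 _ _ (by simp) (by simp),
    p3 _ _ (by simp) (by simp), le_max_left _ _, fun u => ?_, fun u => ?_, fun u => ?_⟩
  · exact (hf.differentiable (by norm_num) u).hasDerivAt
  · exact (h1.differentiable (by norm_num) u).hasDerivAt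
  · exact (h2.differentiable (by norm_num) u).hasDerivAt

/-- A bounded observable of the field with a derivative of compact support. -/
structure Obs (R B : ℝ) (e e' : ℝ → ℝ) : Prop where
  meas : Measurable e
  bound : ∀ u, |e u| ≤ B
  der : ∀ u, HasDerivAt e (e' u) u
  cpt : Cpt R B e'

variable {k : ℕ} {Z X : Type} [MeasurableSpace Z] [MeasurableSpace X]
  {γ : Measure Z} {μ : Measure X}

/-- A base Hamiltonian plus a potential of a leaf field. -/
def ham1 (H0 : (Fin k → Z) → X → ℝ) (f : ℝ → ℝ) (U : (Fin k → Z) → X → ℝ) :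
    (Fin k → Z) → X → ℝ := fun z x => H0 z x + f (U z x)

/-- A family of leaf fields with derivative `V`, controlled where the potential lives. -/
structure Fam (w : Size γ) (R : ℝ) (U V : ℝ → (Fin k → Z) → X → ℝ) (s₀ r : ℝ) : Prop where
  pos : 0 < r
  measU : ∀ s, Measurable (Function.uncurry (U s))
  measV : ∀ s, Measurable (Function.uncurry (V s))
  deriv : ∀ s, |s - s₀| < r → ∀ z x, HasDerivAt (fun t => U t z x) (V s z x) s
  bound : ∃ A, 0 ≤ A ∧ ∀ s, |s - s₀| < r → ∀ z x, |U s z x| ≤ R → |V s z x| ≤ A * exp (A * w.tot z)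

variable (γ μ) in
/-- The conditional expectation of `a x * e (U z x)`. -/
noncomputable def node (H0 : (Fin k → Z) → X → ℝ) (f : ℝ → ℝ) (a : X → ℝ) (e : ℝ → ℝ)
    (U : (Fin k → Z) → X → ℝ) (l : ℕ) (z : Fin k → Z) : ℝ :=
  cnd γ μ (ham1 H0 f U) (fun z x => a x * e (U z x)) l z

/-- The coefficient of `V` in the derivative formula at level `l`. -/
noncomputable def corr (k : ℕ) (c : ℕ → ℝ) (l : ℕ) : ℝ :=
  mass k * ∑ i ∈ Icc (l + 1) k, c i + lev k (l + 1) * c l

variable (γ μ) in
/-- The slot of `node`. -/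
noncomputable def slot (H0 : (Fin k → Z) → X → ℝ) (f f1 : ℝ → ℝ) (a : X → ℝ) (e e' : ℝ → ℝ)
    (U : (Fin k → Z) → X → ℝ) (l : ℕ) (z : Fin k → Z) (x : X) : ℝ :=
  a x * (e' (U z x) + e (U z x) * f1 (U z x))
    - corr k (fun i => node γ μ H0 f a e U i z) l * f1 (U z x)

theorem abs_corr_le {c : ℕ → ℝ} {M : ℝ} (hc : ∀ i, |c i| ≤ M) {l : ℕ} (hl : l ≤ k) :
    |corr k c l| ≤ M := by
  have hM : 0 ≤ M := (abs_nonneg _).trans (hc 0)
  have hm : 0 ≤ mass k := by unfold mass; positivity
  have hl0 : 0 ≤ lev k (l + 1) := by unfold lev; positivity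
  calc |corr k c l| ≤ |mass k * ∑ i ∈ Icc (l + 1) k, c i| + |lev k (l + 1) * c l| := abs_add_le _ _
    _ ≤ mass k * ∑ i ∈ Icc (l + 1) k, M + lev k (l + 1) * M := by
        rw [abs_mul, abs_mul, abs_of_nonneg hm, abs_of_nonneg hl0]
        gcongr
        · exact (abs_sum_le_sum_abs _ _).trans (sum_le_sum fun i _ => hc i)
        · exact hc l
    _ = M := by
        rw [sum_const, Nat.card_Icc, nsmul_eq_mul]
        simp only [mass, lev]
        rw [show k + 1 - (l + 1) = k - l by omega, Nat.cast_sub hl]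
        push_cast
        field_simp
        ring

variable [IsProbabilityMeasure γ] [IsFiniteMeasure μ] [NeZero μ] {w : Size γ}
  {H H0 : (Fin k → Z) → X → ℝ} {f f1 f2 f3 : ℝ → ℝ} {R B : ℝ}

theorem _root_.Vale.Agent.P157.Rsb.Tame.mul_bdd {φ ψ : (Fin k → Z) → X → ℝ} (hφ : Tame w φ)
    (hm : Measurable (Function.uncurry ψ)) {M : ℝ} (h : ∀ z x, |ψ z x| ≤ M) :
    Tame w fun z x => ψ z x * φ z x := by
  obtain ⟨A, hA, hb⟩ := hφ.bound
  refine ⟨hm.mul hφ.meas, max A (|M| * A), le_max_of_le_left hA, fun z x => ?_⟩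
  have ht : 0 ≤ w.tot z := sum_nonneg fun i _ => w.nonneg _
  calc |ψ z x * φ z x| = |ψ z x| * |φ z x| := abs_mul _ _
    _ ≤ |M| * (A * exp (A * w.tot z)) :=
        mul_le_mul ((h z x).trans (le_abs_self M)) (hb z x) (abs_nonneg _) (abs_nonneg _)
    _ ≤ max A (|M| * A) * exp (max A (|M| * A) * w.tot z) := by
        rw [← mul_assoc]
        gcongr
        · exact le_max_right _ _
        · exact le_max_left _ _

theorem linB_ham1 (hH : LinB w H0) (hP : Cpt R B f) {U : (Fin k → Z) → X → ℝ}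
    (hU : Measurable (Function.uncurry U)) : LinB w (ham1 H0 f U) := by
  obtain ⟨A, hA, hb⟩ := hH.bound
  have hB : 0 ≤ B := (abs_nonneg _).trans (hP.bound 0)
  refine ⟨hH.meas.add (hP.meas.comp hU), A + B, by positivity, fun z x => ?_⟩
  have ht : 0 ≤ w.tot z := sum_nonneg fun i _ => w.nonneg _
  have h1 := hb z x
  have h2 := hP.bound (U z x)
  have h3 := abs_add_le (H0 z x) (f (U z x))
  show |H0 z x + f (U z x)| ≤ _
  nlinarith [mul_nonneg hB ht]

/-- The derivative formula as a single conditional expectation. -/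
theorem cndDer_eq (hH : LinB w H) {φ dH dφ : (Fin k → Z) → X → ℝ} {M : ℝ}
    (hφm : Measurable (Function.uncurry φ)) (hφb : ∀ z x, |φ z x| ≤ M) (hdH : Tame w dH)
    (hdφ : Tame w dφ) {l : ℕ} (hl : l ≤ k) (z : Fin k → Z) :
    cndDer γ μ H φ dH dφ l z = cnd γ μ H (fun z x => dφ z x + (φ z x
      - corr k (fun i => cnd γ μ H φ i z) l) * dH z x) l z := by
  have hφ : Tame w φ := Tame.of_bdd hφm hφb
  have hn : ∀ i, Measurable (Function.uncurry fun z (_ : X) => cnd γ μ H φ i z) := fun i =>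
    (cnd_tame hH hφ i).meas
  have hi : ∀ i, Tame w fun z x => cnd γ μ H φ i z * dH z x := fun i =>
    hdH.mul_bdd (hn i) fun z _ => cnd_abs_le hH hφm hφb i z
  have t1 : Tame w fun z x => dφ z x + φ z x * dH z x := hdφ.add (hdH.mul_bdd hφm hφb)
  have fold : ∀ i, l ≤ i → i ≤ k →
      cnd γ μ H (fun z _ => cnd γ μ H φ i z * cnd γ μ H dH i z) l z
        = cnd γ μ H (fun z x => cnd γ μ H φ i z * dH z x) l z := by
    intro i hli hik
    rw [← cnd_tower (φ := fun z x => cnd γ μ H φ i z * dH z x) hH hli z]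
    congr 1
    funext z' x'
    exact (cnd_pull (cnd_upto i) z').symm
  have hs : cnd γ μ H (fun z x => ∑ i ∈ Icc (l + 1) k, cnd γ μ H φ i z * dH z x) l z
      = ∑ i ∈ Icc (l + 1) k, cnd γ μ H (fun z x => cnd γ μ H φ i z * dH z x) l z :=
    cnd_finsum hH _ (fun i _ => hi i) l z
  have hsT : Tame w fun z x => ∑ i ∈ Icc (l + 1) k, cnd γ μ H φ i z * dH z x := by
    have : (fun z x => ∑ i ∈ Icc (l + 1) k, cnd γ μ H φ i z * dH z x)
        = fun z x => (∑ i ∈ Icc (l + 1) k, cnd γ μ H φ i z) * dH z x := by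
      funext z x; rw [sum_mul]
    rw [this]
    exact hdH.mul_bdd (M := ∑ _i ∈ Icc (l + 1) k, M)
      (Finset.measurable_sum _ fun i _ => hn i)
      fun z _ => (abs_sum_le_sum_abs _ _).trans (sum_le_sum fun i _ => cnd_abs_le hH hφm hφb i z)
  have e : (fun z x => dφ z x + (φ z x - corr k (fun i => cnd γ μ H φ i z) l) * dH z x)
      = fun z x => (dφ z x + φ z x * dH z x
          + (-mass k) * ∑ i ∈ Icc (l + 1) k, cnd γ μ H φ i z * dH z x)
          + (-lev k (l + 1)) * (cnd γ μ H φ l z * dH z x) := by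
    funext z x
    simp only [corr]
    rw [← sum_mul]
    ring
  have m1 : Tame w fun z x => (-mass k) * ∑ i ∈ Icc (l + 1) k, cnd γ μ H φ i z * dH z x :=
    hsT.mul_bdd (ψ := fun _ _ => -mass k) measurable_const (M := |mass k|) fun _ _ => by simp
  have m2 : Tame w fun z x => (-lev k (l + 1)) * (cnd γ μ H φ l z * dH z x) :=
    (hi l).mul_bdd (ψ := fun _ _ => -lev k (l + 1)) measurable_const (M := |lev k (l + 1)|)
      fun _ _ => by simp
  rw [e, cnd_add hH (t1.add m1) m2, cnd_add hH t1 m1, cnd_const_mul, cnd_const_mul, hs,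
    cnd_pull (cnd_upto l), cndDer]
  rw [sum_congr rfl fun i h => fold i (by simp at h; omega) (by simp at h; omega)]
  ring

variable {U V : ℝ → (Fin k → Z) → X → ℝ} {s₀ r : ℝ}

theorem fam_tame (hU : Fam w R U V s₀ r) {s : ℝ} (hs : |s - s₀| < r) {h : ℝ → ℝ}
    (hh : Cpt R B h) : Tame w fun z x => h (U s z x) * V s z x := by
  obtain ⟨A, hA, hb⟩ := hU.bound
  have hB : 0 ≤ B := (abs_nonneg _).trans (hh.bound 0)
  refine ⟨(hh.meas.comp (hU.measU s)).mul (hU.measV s), max A (B * A), le_max_of_le_left hA,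
    fun z x => ?_⟩
  have ht : 0 ≤ w.tot z := sum_nonneg fun i _ => w.nonneg _
  rcases lt_or_ge R |U s z x| with hlt | hle
  · rw [hh.zero _ hlt]; simp; positivity
  calc |h (U s z x) * V s z x| = |h (U s z x)| * |V s z x| := abs_mul _ _
    _ ≤ B * (A * exp (A * w.tot z)) :=
        mul_le_mul (hh.bound _) (hb s hs z x hle) (abs_nonneg _) hB
    _ ≤ max A (B * A) * exp (max A (B * A) * w.tot z) := by
        rw [← mul_assoc]
        gcongr
        · exact le_max_right _ _
        · exact le_max_left _ _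

/-- The derivative of a node along a family of fields. -/
theorem hasDerivAt_node (hH : LinB w H0) (hP : Pot R B f f1 f2 f3) (hU : Fam w R U V s₀ r)
    {a : X → ℝ} (ha : Measurable a) {M : ℝ} (hab : ∀ x, |a x| ≤ M) {e e' : ℝ → ℝ}
    (he : Obs R B e e') {l : ℕ} (hl : l ≤ k) (z : Fin k → Z) :
    HasDerivAt (fun s => node γ μ H0 f a e (U s) l z)
      (cnd γ μ (ham1 H0 f (U s₀))
        (fun z x => V s₀ z x * slot γ μ H0 f f1 a e e' (U s₀) l z x) l z) s₀ := by
  have hB : 0 ≤ B := le_trans zero_le_one hP.one_le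
  have hM : ∀ x, |a x| ≤ |M| := fun x => (hab x).trans (le_abs_self _)
  have ha2 : Measurable fun p : (Fin k → Z) × X => a p.2 := ha.comp measurable_snd
  have h0 : |s₀ - s₀| < r := by simpa using hU.pos
  obtain ⟨A0, hA0, hb0⟩ := hH.bound
  obtain ⟨A, hA, hb⟩ := hU.bound
  set C := (1 + |M|) * (B + 1) * (A + A0 + B + 1) with hC
  have hCA : A ≤ C := by rw [hC]; nlinarith [abs_nonneg M, mul_nonneg hB (abs_nonneg M)]
  have F : Family w (fun s => ham1 H0 f (U s)) (fun s z x => a x * e (U s z x))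
      (fun s z x => f1 (U s z x) * V s z x) (fun s z x => a x * (e' (U s z x) * V s z x)) s₀ r := by
    refine ⟨hU.pos, fun s => hH.meas.add (hP.hf.meas.comp (hU.measU s)),
      fun s => (hP.hf1.meas.comp (hU.measU s)).mul (hU.measV s),
      fun s => ha2.mul (he.meas.comp (hU.measU s)),
      fun s => ha2.mul ((he.cpt.meas.comp (hU.measU s)).mul (hU.measV s)),
      ⟨C, by positivity, fun s hs z x => ?_⟩,
      fun s hs z x => ((hP.d1 _).comp s (hU.deriv s hs z x)).const_add (H0 z x),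
      fun s hs z x => ((he.der _).comp s (hU.deriv s hs z x)).const_mul (a x)⟩
    have ht : 0 ≤ w.tot z := sum_nonneg fun i _ => w.nonneg _
    have hE : 1 ≤ exp (C * w.tot z) := one_le_exp (by positivity)
    have hbig : ∀ {h : ℝ → ℝ}, Cpt R B h → |h (U s z x) * V s z x| ≤ B * A * exp (C * w.tot z) := by
      intro h hh
      rcases lt_or_ge R |U s z x| with hlt | hle
      · rw [hh.zero _ hlt]; simp; positivity
      calc |h (U s z x) * V s z x| = |h (U s z x)| * |V s z x| := abs_mul _ _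
        _ ≤ B * (A * exp (A * w.tot z)) :=
            mul_le_mul (hh.bound _) (hb s hs z x hle) (abs_nonneg _) hB
        _ ≤ B * A * exp (C * w.tot z) := by rw [← mul_assoc]; gcongr
    have hCB : B * A ≤ C ∧ A0 + B ≤ C ∧ |M| * B ≤ C ∧ |M| * (B * A) ≤ C := by
      rw [hC]
      refine ⟨?_, ?_, ?_, ?_⟩ <;>
        nlinarith [abs_nonneg M, mul_nonneg hB hA, mul_nonneg hB hA0, mul_nonneg (abs_nonneg M) hB,
          mul_nonneg (abs_nonneg M) (mul_nonneg hB hA),
          mul_nonneg (abs_nonneg M) (mul_nonneg hB hA0), mul_nonneg (abs_nonneg M) hA,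
          mul_nonneg (abs_nonneg M) hA0, mul_nonneg hB hB]
    refine ⟨?_, (hbig hP.hf1).trans (by gcongr; exact hCB.1), ?_, ?_⟩
    · refine (abs_add_le _ _).trans ((add_le_add (hb0 z x) (hP.hf.bound _)).trans ?_)
      nlinarith [hCB.2.1, mul_nonneg hB ht]
    · rw [abs_mul]
      exact ((mul_le_mul (hM x) (he.bound _) (abs_nonneg _) (abs_nonneg _)).trans hCB.2.2.1).trans
        (le_mul_of_one_le_right (by positivity) hE)
    · rw [abs_mul]
      refine (mul_le_mul (hM x) (hbig he.cpt) (abs_nonneg _) (abs_nonneg _)).trans ?_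
      rw [← mul_assoc]
      gcongr
      exact hCB.2.2.2
  refine (hasDerivAt_cnd F hl z).congr_deriv ?_
  rw [cndDer_eq (linB_ham1 hH hP.hf (hU.measU s₀)) (M := |M| * B)
    (show Measurable (Function.uncurry fun z x => a x * e (U s₀ z x)) from
      ha2.mul (he.meas.comp (hU.measU s₀)))
    (fun z x => by rw [abs_mul]; exact mul_le_mul (hM x) (he.bound _) (abs_nonneg _) (abs_nonneg _))
    (fam_tame hU h0 hP.hf1)
    ((fam_tame hU h0 he.cpt).mul_bdd (ψ := fun _ x => a x) ha2 fun _ x => hab x) hl z]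
  congr 1
  funext z' x'
  simp only [slot, node]
  ring

end Vale.Agent.P157.Rsb.Slot
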