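import Vale.Agent.P157.Rsb.SyncCov

/-!
# P157: overlaps at a branch level, given the patterns

The overlap of two leaves that branch at level `j` is close to a deterministic number when the
increment of the path and the fluctuation of the field energies are small.
-/

open MeasureTheory ProbabilityTheory Real Finset

namespace Vale.Agent.P157.Rsb.Lf

variable {n M k : ℕ} {f : ℝ → ℝ} {L : ℝ}

theorem tame_const_fun (S : Leaf n) (c : ℝ) :
    Tame (wn n) fun (_ : Fin k → FieldIdx n → ℝ) (_ : S.X) => c :=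
  Tame.of_bdd measurable_const (B := |c|) fun _ _ => le_rfl

theorem meas_dot (S : Leaf n) : Measurable fun p : S.X × S.X => sdot (S.fld p.1) (S.fld p.2) :=
  Finset.measurable_sum _ fun i _ =>
    ((meas_fld S i).comp measurable_fst).mul ((meas_fld S i).comp measurable_snd)

theorem abs_dot_le (S : Leaf n) (hu : ∀ x, sdot (S.fld x) (S.fld x) = 1) (x y : S.X) :
    |sdot (S.fld x) (S.fld y)| ≤ 1 := by
  rw [← sq_le_one_iff_abs_le_one]
  refine (sum_mul_sq_le_sq_mul_sq _ _ _).trans (le_of_eq ?_)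
  have hx := hu x
  have hy := hu y
  simp only [sdot] at hx hy
  simp only [pow_two, hx, hy, one_mul]

/-- The expectation of a function of the second leaf is an observable of the first. -/
theorem tame_inner (S : Leaf n) {H : (Fin k → FieldIdx n → ℝ) → S.X → ℝ} (hH : LinB (wn n) H)
    {F : S.X → S.X → ℝ} (hF : Measurable (Function.uncurry F)) {A : ℝ} (hA : ∀ x y, |F x y| ≤ A)
    (j : ℕ) (z : Fin k → FieldIdx n → ℝ) :
    Tame (wn n) fun (_ : Fin k → FieldIdx n → ℝ) x => cnd (gn n) S.μ H (fun _ y => F x y) j z := by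
  have h1 : Measurable fun p : (S.X × (Fin k → FieldIdx n → ℝ)) × S.X => H p.1.2 p.2 :=
    hH.meas.comp ((measurable_snd.comp measurable_fst).prodMk measurable_snd)
  have h2 : Measurable fun p : (S.X × (Fin k → FieldIdx n → ℝ)) × S.X => F p.1.1 p.2 :=
    hF.comp ((measurable_fst.comp measurable_fst).prodMk measurable_snd)
  have h3 := cnd_measurable_param_at (γ := gn n) (μ := S.μ) (H := fun _ : S.X => H)
    (φ := fun x _ y => F x y) h1 h2 j z
  exact Tame.of_bdd (h3.comp measurable_snd) (B := A) fun _ x =>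
    cnd_abs_le (φ := fun _ y => F x y) hH ((hF.comp (measurable_prodMk_left (x := x))).comp measurable_snd)
      (fun _ y => hA x y) j z

theorem abs_le_half_sq {r : ℝ} (hr : 0 < r) (t : ℝ) : |t| ≤ r / 2 * t ^ 2 + 1 / (2 * r) := by
  have h : 0 ≤ (r * |t| - 1) ^ 2 / (2 * r) := by positivity
  have e : (r * |t| - 1) ^ 2 / (2 * r) = r / 2 * t ^ 2 + 1 / (2 * r) - |t| := by
    rw [← sq_abs t]; field_simp; ring
  linarith

/-- The second moment of the overlap at a branch level. -/
theorem dot_second (S : Leaf n) {H : (Fin k → FieldIdx n → ℝ) → S.X → ℝ} (hH : LinB (wn n) H) (j : ℕ)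
    (z : Fin k → FieldIdx n → ℝ) :
    cnd (gn n) S.μ H (fun _ x => cnd (gn n) S.μ H
        (fun _ y => (sdot (S.fld x) (S.fld y) - mu2 S H j z) ^ 2) j z) j z
      = sqn (cov S H j z) + 2 * ∑ b, ∑ i, cov S H j z b i * (mv S H j b z * mv S H j i z) := by
  set μ := mu2 S H j z with hμ
  have hxy : ∀ b i, Tame (wn n) fun (_ : Fin k → FieldIdx n → ℝ) x => S.fld x b * S.fld x i :=
    fun b i => (tame_fld S b).mul (tame_fld S i)
  have hdd : ∀ x : S.X, Tame (wn n) fun (_ : Fin k → FieldIdx n → ℝ) y =>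
      ∑ b, ∑ i, S.fld x b * S.fld x i * (S.fld y b * S.fld y i) := fun x =>
    Tame.sum univ fun b _ => Tame.sum univ fun i _ => (hxy b i).const_mul _
  have h1 : ∀ x : S.X, cnd (gn n) S.μ H (fun _ y => (sdot (S.fld x) (S.fld y) - μ) ^ 2) j z
      = (∑ b, ∑ i, S.fld x b * S.fld x i * mom2 S H j z b i)
        - (∑ b, 2 * μ * mv S H j b z * S.fld x b - μ ^ 2) := fun x => by
    have e : (fun (_ : Fin k → FieldIdx n → ℝ) y => (sdot (S.fld x) (S.fld y) - μ) ^ 2)
        = fun _ y => (∑ b, ∑ i, S.fld x b * S.fld x i * (S.fld y b * S.fld y i))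
          - (∑ b, 2 * μ * S.fld x b * S.fld y b - μ ^ 2) := funext₂ fun _ y => by
      simp only [sdot, sub_sq, pow_two (∑ i, S.fld x i * S.fld y i), sum_mul_sum]
      rw [show ∑ b, 2 * μ * S.fld x b * S.fld y b = 2 * (∑ i, S.fld x i * S.fld y i) * μ by
        rw [mul_sum, sum_mul]; exact sum_congr rfl fun b _ => by ring]
      rw [sum_congr rfl fun b _ => sum_congr rfl fun i _ =>
        show S.fld x b * S.fld y b * (S.fld x i * S.fld y i)
          = S.fld x b * S.fld x i * (S.fld y b * S.fld y i) by ring]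
      ring
    rw [e, cnd_sub hH (hdd x) ((Tame.sum univ fun b _ => (tame_fld S b).const_mul _).sub
        (tame_const_fun S _)),
      cnd_sub hH (Tame.sum univ fun b _ => (tame_fld S b).const_mul _) (tame_const_fun S _),
      cnd_const hH, cnd_finsum hH _ fun b _ => Tame.sum univ fun i _ => (hxy b i).const_mul _,
      cnd_finsum hH _ fun b _ => (tame_fld S b).const_mul _]
    congr 1
    · refine sum_congr rfl fun b _ => ?_
      rw [cnd_finsum hH _ fun i _ => (hxy b i).const_mul _]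
      exact sum_congr rfl fun i _ => cnd_const_mul _ _ _
    · congr 1
      refine sum_congr rfl fun b _ => ?_
      rw [cnd_const_mul]
      simp only [mv]
      ring
  simp only [h1]
  have hmm : ∀ b i, Tame (wn n) fun (_ : Fin k → FieldIdx n → ℝ) x =>
      S.fld x b * S.fld x i * mom2 S H j z b i := fun b i => (hxy b i).mul (tame_const_fun S _)
  rw [cnd_sub hH (Tame.sum univ fun b _ => Tame.sum univ fun i _ => hmm b i)
      ((Tame.sum univ fun b _ => (tame_fld S b).const_mul _).sub (tame_const_fun S _)),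
    cnd_sub hH (Tame.sum univ fun b _ => (tame_fld S b).const_mul _) (tame_const_fun S _), cnd_const hH,
    cnd_finsum hH _ fun b _ => (tame_fld S b).const_mul _,
    cnd_finsum hH _ fun b _ => Tame.sum univ fun i _ => hmm b i]
  have e2 : ∀ b, cnd (gn n) S.μ H (fun _ x => ∑ i, S.fld x b * S.fld x i * mom2 S H j z b i) j z
      = ∑ i, mom2 S H j z b i * mom2 S H j z b i := fun b => by
    rw [cnd_finsum hH _ fun i _ => hmm b i]
    refine sum_congr rfl fun i _ => ?_
    rw [show (fun (_ : Fin k → FieldIdx n → ℝ) x => S.fld x b * S.fld x i * mom2 S H j z b i)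
      = fun _ x => mom2 S H j z b i * (S.fld x b * S.fld x i) from funext₂ fun _ x => mul_comm _ _,
      cnd_const_mul]
    rfl
  simp only [e2, cnd_const_mul]
  have e3 : ∑ b, 2 * μ * mv S H j b z * mv S H j b z = 2 * μ * μ := by
    rw [sum_congr rfl fun b _ => show 2 * μ * mv S H j b z * mv S H j b z = 2 * μ * mv S H j b z ^ 2 by
      ring, ← mul_sum]
    rfl
  have e4 : ∑ b, ∑ i, mom2 S H j z b i * mom2 S H j z b i = sqn (cov S H j z)
      + 2 * ∑ b, ∑ i, cov S H j z b i * (mv S H j b z * mv S H j i z) + μ ^ 2 := by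
    rw [hμ, mu2, pow_two (∑ i, mv S H j i z ^ 2), sum_mul_sum]
    simp only [sqn, mul_sum, ← sum_add_distrib]
    exact sum_congr rfl fun b _ => sum_congr rfl fun i _ => by simp only [cov]; ring
  simp only [mv] at e3 ⊢
  rw [e4, e3]
  simp only [mv]
  ring

/-- The covariance is small when the increment is. -/
theorem cov_le (S : Leaf n) (hu : ∀ x, sdot (S.fld x) (S.fld x) = 1) (hm : Measurable f)
    (hL : ∀ u, |f u| ≤ L) {N : ℝ} (σ β : ℕ → ℝ) (g : Fin M → Fin n → ℝ) (a : Fin k)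
    (hc : 0 < σ ((a : ℕ) + 1) * √N) (z : Fin k → FieldIdx n → ℝ) :
    √(sqn (cov S (ham S f N σ β g) a z))
      ≤ (cnd (gn n) S.μ (ham S f N σ β g)
          (fun z _ => mu2 S (ham S f N σ β g) ((a : ℕ) + 1) z) a z - mu2 S (ham S f N σ β g) a z)
        + 1 / (lev k ((a : ℕ) + 1) * (σ ((a : ℕ) + 1) * √N)) := by
  set H := ham (k := k) S f N σ β g
  have hH : LinB (wn n) H := ham_linB S hm hL N σ β g
  set m := lev k ((a : ℕ) + 1)
  have hm0 : 0 < m := lev_pos (by omega)
  set c := σ ((a : ℕ) + 1) * √N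
  set d := cnd (gn n) S.μ H (fun z _ => mu2 S H ((a : ℕ) + 1) z) a z - mu2 S H a z
  have hX : √(sqn (xmat S H a z)) ≤ m * d + √d / c := xmat_le S hu hm hL σ β g a hc z
  set C := cov S H a z with hC
  have h1 : m * sqn C ≤ √(sqn C) * √(sqn (xmat S H a z)) := by
    have hb : ∀ A : Fin n → Fin n → ℝ, Tame (wn n) fun (_ : Fin k → FieldIdx n → ℝ) x =>
        ∑ b, ∑ i, A b i * ((S.fld x b - mv S H a b z) * (S.fld x i - mv S H a i z)) := fun A =>
      Tame.sum univ fun b _ => Tame.sum univ fun i _ =>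
        (((tame_fld S b).sub (tame_const_fun S _)).mul ((tame_fld S i).sub (tame_const_fun S _))).const_mul _
    have h2 := cnd_mono (μ := S.μ) hH ((hb C).const_mul m) (hb (xmat S H a z)) (fun _ x => by
      have h := xmat_ge S hH (a : ℕ) z (fun b => S.fld x b - mv S H a b z) a.2.le
      rw [← hC] at h
      simp only [mul_comm (C _ _), mul_comm (xmat S H a z _ _)]
      exact h) (a : ℕ) z
    rw [cnd_const_mul, cnd_centered S hH (a : ℕ) z C, cnd_centered S hH (a : ℕ) z] at h2
    refine le_trans (le_of_eq ?_) (h2.trans ?_)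
    · simp only [sqn, pow_two, ← hC]
    · simp only [← hC]
      refine (le_abs_self _).trans ((mat_cs _ C).trans (le_of_eq (mul_comm _ _)))
  have hd1 : d ≤ 1 := by
    have h := cnd_mono (μ := S.μ) hH (tame_mu2 S hH ((a : ℕ) + 1)) (tame_const_fun S 1)
      (fun z _ => mu2_le_one S hu hH _ z) (a : ℕ) z
    rw [cnd_const hH] at h
    have : 0 ≤ mu2 S H a z := sum_nonneg fun i _ => sq_nonneg _
    linarith
  have hs : √d ≤ 1 := Real.sqrt_le_one.2 hd1
  have hd0 : 0 ≤ d := sub_nonneg.2 (mu2_le S hH (Nat.le_succ _) z)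
  rcases eq_or_lt_of_le (sqrt_nonneg (sqn C)) with h0 | h0
  · rw [← h0]; positivity
  · have h3 : m * √(sqn C) ≤ √(sqn (xmat S H a z)) := by
      refine le_of_mul_le_mul_left ?_ h0
      calc √(sqn C) * (m * √(sqn C)) = m * (√(sqn C) * √(sqn C)) := by ring
        _ = m * sqn C := by rw [Real.mul_self_sqrt (sqn_nonneg C)]
        _ ≤ _ := h1
    have h4 : m * √(sqn C) ≤ m * d + 1 / c :=
      h3.trans (hX.trans (add_le_add le_rfl (div_le_div_of_nonneg_right hs hc.le)))
    refine le_of_mul_le_mul_left (h4.trans (le_of_eq ?_)) hm0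
    field_simp

/-- The overlap of two leaves at a branch level is close to the mean square. -/
theorem branch_dev (S : Leaf n) (hu : ∀ x, sdot (S.fld x) (S.fld x) = 1) (hm : Measurable f)
    (hL : ∀ u, |f u| ≤ L) {N : ℝ} (σ β : ℕ → ℝ) (g : Fin M → Fin n → ℝ) (a : Fin k)
    (hc : 0 < σ ((a : ℕ) + 1) * √N) {r : ℝ} (hr : 0 < r) (q : ℝ) (z : Fin k → FieldIdx n → ℝ) :
    pairCnd (gn n) S.μ (ham S f N σ β g) (fun _ x _ y => |sdot (S.fld x) (S.fld y) - q|) a z
      ≤ 3 * r / 2 * ((cnd (gn n) S.μ (ham S f N σ β g)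
            (fun z _ => mu2 S (ham S f N σ β g) ((a : ℕ) + 1) z) a z - mu2 S (ham S f N σ β g) a z)
          + 1 / (lev k ((a : ℕ) + 1) * (σ ((a : ℕ) + 1) * √N)))
        + 1 / (2 * r) + |mu2 S (ham S f N σ β g) a z - q| := by
  set H := ham (k := k) S f N σ β g
  have hH : LinB (wn n) H := ham_linB S hm hL N σ β g
  set μ := mu2 S H a z with hμ
  have hd := meas_dot S
  have hab : Measurable fun p : S.X × S.X => |sdot (S.fld p.1) (S.fld p.2) - q| :=
    continuous_abs.measurable.comp (hd.sub_const q)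
  have hsq : Measurable fun p : S.X × S.X => (sdot (S.fld p.1) (S.fld p.2) - μ) ^ 2 :=
    (hd.sub_const μ).pow_const 2
  have hbd : ∀ (c : ℝ) x y, |sdot (S.fld x) (S.fld y) - c| ≤ 1 + |c| := fun c x y =>
    (abs_sub _ _).trans (by linarith [abs_dot_le S hu x y])
  have hsb : ∀ x y, |(sdot (S.fld x) (S.fld y) - μ) ^ 2| ≤ (1 + |μ|) ^ 2 := fun x y => by
    rw [abs_pow]; exact pow_le_pow_left₀ (abs_nonneg _) (hbd μ x y) 2
  have hI : Tame (wn n) fun (_ : Fin k → FieldIdx n → ℝ) x =>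
      cnd (gn n) S.μ H (fun _ y => |sdot (S.fld x) (S.fld y) - q|) (a : ℕ) z :=
    tame_inner S hH (F := fun x y => |sdot (S.fld x) (S.fld y) - q|) hab
      (fun x y => (abs_abs _).trans_le (hbd q x y)) _ z
  have hQ : Tame (wn n) fun (_ : Fin k → FieldIdx n → ℝ) x =>
      cnd (gn n) S.μ H (fun _ y => (sdot (S.fld x) (S.fld y) - μ) ^ 2) (a : ℕ) z :=
    tame_inner S hH (F := fun x y => (sdot (S.fld x) (S.fld y) - μ) ^ 2) hsq hsb _ z
  have hpt : ∀ x, cnd (gn n) S.μ H (fun _ y => |sdot (S.fld x) (S.fld y) - q|) (a : ℕ) z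
      ≤ r / 2 * cnd (gn n) S.μ H (fun _ y => (sdot (S.fld x) (S.fld y) - μ) ^ 2) (a : ℕ) z
        + (1 / (2 * r) + |μ - q|) := fun x => by
    have t1 : Tame (wn n) fun (_ : Fin k → FieldIdx n → ℝ) y => |sdot (S.fld x) (S.fld y) - q| :=
      Tame.of_bdd ((hab.comp (measurable_prodMk_left (x := x))).comp measurable_snd)
        fun _ y => (abs_abs _).trans_le (hbd q x y)
    have t2 : Tame (wn n) fun (_ : Fin k → FieldIdx n → ℝ) y => (sdot (S.fld x) (S.fld y) - μ) ^ 2 :=
      Tame.of_bdd ((hsq.comp (measurable_prodMk_left (x := x))).comp measurable_snd) fun _ y => hsb x y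
    rw [← cnd_const (μ := S.μ) hH (1 / (2 * r) + |μ - q|) (a : ℕ) z, ← cnd_const_mul,
      ← cnd_add hH (t2.const_mul _) (tame_const_fun S _)]
    refine cnd_mono hH t1 ((t2.const_mul _).add (tame_const_fun S _)) (fun _ y => ?_) _ z
    have h1 := abs_le_half_sq hr (sdot (S.fld x) (S.fld y) - μ)
    linarith [abs_sub_le (sdot (S.fld x) (S.fld y)) μ q]
  refine (cnd_mono hH hI ((hQ.const_mul _).add (tame_const_fun S _)) (fun _ x => hpt x) _ z).trans ?_
  rw [cnd_add hH (hQ.const_mul _) (tame_const_fun S _), cnd_const hH, cnd_const_mul,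
    dot_second S hH (a : ℕ) z]
  have h1 := cov_le_one S hu hH (a : ℕ) z
  have h2 := cov_le S hu hm hL σ β g a hc z
  have h3 : sqn (cov S H a z) ≤ √(sqn (cov S H a z)) := by
    conv_lhs => rw [← Real.mul_self_sqrt (sqn_nonneg _)]
    exact mul_le_of_le_one_left (sqrt_nonneg _) h1
  have h4 : ∑ b, ∑ i, cov S H a z b i * (mv S H a b z * mv S H a i z) ≤ √(sqn (cov S H a z)) := by
    refine (le_abs_self _).trans ((mat_cs _ fun b i => mv S H a b z * mv S H a i z).trans ?_)
    rw [sqn_outer, sqrt_sq (sum_nonneg fun i _ => sq_nonneg _)]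
    exact mul_le_of_le_one_right (sqrt_nonneg _) (mean_sq_le_one S hu hH _ z)
  have h5 := mul_le_mul_of_nonneg_left
    (show sqn (cov S H a z) + 2 * ∑ b, ∑ i, cov S H a z b i * (mv S H a b z * mv S H a i z)
      ≤ 3 * ((cnd (gn n) S.μ H (fun z _ => mu2 S H ((a : ℕ) + 1) z) a z - μ)
          + 1 / (lev k ((a : ℕ) + 1) * (σ ((a : ℕ) + 1) * √N))) by linarith)
    (by positivity : 0 ≤ r / 2)
  linarith

/-- The weighted tail of the mean squares given the levels up to `a`. -/
noncomputable def condTail (S : Leaf n) (H : (Fin k → FieldIdx n → ℝ) → S.X → ℝ) (j : ℕ)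
    (z : Fin k → FieldIdx n → ℝ) : ℝ :=
  mass k * ∑ l ∈ Icc (j + 1) k, cnd (gn n) S.μ H (fun z _ => mu2 S H l z) j z

/-- The fluctuation of the energy of one field. -/
noncomputable def devObs (S : Leaf n) (N c : ℝ) (a : Fin k) (z : Fin k → FieldIdx n → ℝ) (x : S.X) : ℝ :=
  |(√N)⁻¹ * fieldDot S a z x - c|

theorem tame_devObs (S : Leaf n) (N c : ℝ) (a : Fin k) : Tame (wn n) (devObs S N c a) := by
  obtain ⟨hm, A, hA, hb⟩ := ((tame_fieldDot (k := k) S a).const_mul (√N)⁻¹).sub (tame_const_fun S c)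
  exact ⟨continuous_abs.measurable.comp hm, A, hA, fun z x => (abs_abs _).trans_le (hb z x)⟩

/-- The tail given the levels up to `a` is close to `τ` when the field energy is. -/
theorem condTail_dev (S : Leaf n) (hu : ∀ x, sdot (S.fld x) (S.fld x) = 1) (hm : Measurable f)
    (hL : ∀ u, |f u| ≤ L) {N : ℝ} (hN : 0 < N) (σ β : ℕ → ℝ) (g : Fin M → Fin n → ℝ) (a : Fin k)
    (hσ : 0 < σ ((a : ℕ) + 1)) (τ : ℝ) (z : Fin k → FieldIdx n → ℝ) :
    |condTail S (ham S f N σ β g) a z - τ|
      ≤ (σ ((a : ℕ) + 1))⁻¹ * cnd (gn n) S.μ (ham S f N σ β g)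
          (devObs S N (σ ((a : ℕ) + 1) * (1 - τ)) a) a z := by
  set H := ham (k := k) S f N σ β g
  have hH : LinB (wn n) H := ham_linB S hm hL N σ β g
  set s := σ ((a : ℕ) + 1)
  have h1 : cnd (gn n) S.μ H (fun z x => (√N)⁻¹ * fieldDot S a z x - s * (1 - τ)) a z
      = s * (τ - condTail S H a z) := by
    rw [cnd_sub hH ((tame_fieldDot S a).const_mul _) (tame_const_fun S _), cnd_const hH, cnd_const_mul,
      cnd_fieldDot S hm hL N σ β g a le_rfl z]
    simp only [hu, cnd_const (ham_linB S hm hL N σ β g), condTail]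
    have : (√N)⁻¹ * √N = 1 := inv_mul_cancel₀ (Real.sqrt_pos.2 hN).ne'
    linear_combination (s * (1 - mass k * ∑ l ∈ Icc ((a : ℕ) + 1) k,
      cnd (gn n) S.μ H (fun z _ => mu2 S H l z) a z)) * this
  rw [le_inv_mul_iff₀ hσ]
  have h2 : |cnd (gn n) S.μ H (fun z x => (√N)⁻¹ * fieldDot S a z x - s * (1 - τ)) a z|
      ≤ cnd (gn n) S.μ H (devObs S N (s * (1 - τ)) a) a z := by
    have ht : Tame (wn n) fun (z : Fin k → FieldIdx n → ℝ) x =>
        (√N)⁻¹ * fieldDot S a z x - s * (1 - τ) :=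
      ((tame_fieldDot S a).const_mul _).sub (tame_const_fun S _)
    refine abs_le.2 ⟨?_, cnd_mono hH ht (tame_devObs S N _ a) (fun z x => le_abs_self _) _ z⟩
    have := cnd_mono (μ := S.μ) hH ((tame_devObs S N (s * (1 - τ)) a).const_mul (-1)) ht
      (fun z x => by unfold devObs; linarith [neg_abs_le ((√N)⁻¹ * fieldDot S a z x - s * (1 - τ))]) (a : ℕ) z
    rw [cnd_const_mul] at this
    linarith
  rwa [h1, abs_mul, abs_of_pos hσ, abs_sub_comm] at h2

/-- The next increment of the mean squares from two conditional tails. -/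
theorem inc_eq_tails (S : Leaf n) {H : (Fin k → FieldIdx n → ℝ) → S.X → ℝ} (hH : LinB (wn n) H) {j : ℕ}
    (hj : j < k) (z : Fin k → FieldIdx n → ℝ) :
    mass k * cnd (gn n) S.μ H (fun z _ => mu2 S H (j + 1) z) j z
      = condTail S H j z - cnd (gn n) S.μ H (fun z _ => condTail S H (j + 1) z) j z := by
  have ht : ∀ l, Tame (wn n) fun z (_ : S.X) => cnd (gn n) S.μ H (fun z _ => mu2 S H l z) (j + 1) z :=
    fun l => cnd_tame hH (tame_mu2 S hH l) (j + 1)
  simp only [condTail]
  rw [cnd_const_mul, cnd_finsum hH _ fun l _ => ht l,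
    sum_congr rfl fun l _ => cnd_tower (φ := fun z _ => mu2 S H l z) hH (Nat.le_succ j) z,
    ← mul_sub]
  congr 1
  rw [← add_sum_Ioc_eq_sum_Icc (show j + 1 ≤ k from hj),
    show Ioc (j + 1) k = Icc (j + 1 + 1) k from Finset.ext fun l => by simp only [mem_Ioc, mem_Icc]; omega]
  ring

end Vale.Agent.P157.Rsb.Lf
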