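import Vale.Agent.P157.Rsb.Path

/-!
# P157: the covariance at a branch level

Gaussian integration by parts in the field of level `j + 1`, given the levels up to `j`, bounds the
covariance of the leaf vector by the increment of its mean square.
-/

open MeasureTheory ProbabilityTheory Real Finset

namespace Vale.Agent.P157.Rsb.Lf

variable {n M k : ℕ} {f : ℝ → ℝ} {L : ℝ}

/-- The second moment at a level. -/
noncomputable def mom2 (S : Leaf n) (H : (Fin k → FieldIdx n → ℝ) → S.X → ℝ) (j : ℕ)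
    (z : Fin k → FieldIdx n → ℝ) (b i : Fin n) : ℝ :=
  cnd (gn n) S.μ H (fun _ x => S.fld x b * S.fld x i) j z

/-- The covariance at a level. -/
noncomputable def cov (S : Leaf n) (H : (Fin k → FieldIdx n → ℝ) → S.X → ℝ) (j : ℕ)
    (z : Fin k → FieldIdx n → ℝ) (b i : Fin n) : ℝ :=
  mom2 S H j z b i - mv S H j b z * mv S H j i z

/-- The derivative matrix at a level. -/
noncomputable def xmat (S : Leaf n) (H : (Fin k → FieldIdx n → ℝ) → S.X → ℝ) (j : ℕ)
    (z : Fin k → FieldIdx n → ℝ) (b i : Fin n) : ℝ :=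
  mom2 S H j z b i
    - mass k * ∑ l ∈ Icc (j + 1) k, cnd (gn n) S.μ H (fun z _ => mv S H l b z * mv S H l i z) j z
    - lev k (j + 1) * (mv S H j b z * mv S H j i z)

/-- The sum of the squares of the entries. -/
noncomputable def sqn (A : Fin n → Fin n → ℝ) : ℝ := ∑ b, ∑ i, A b i ^ 2

theorem sqn_nonneg (A : Fin n → Fin n → ℝ) : 0 ≤ sqn A :=
  sum_nonneg fun _ _ => sum_nonneg fun _ _ => sq_nonneg _

/-- Cauchy-Schwarz for two matrices. -/
theorem mat_cs (A B : Fin n → Fin n → ℝ) :
    |∑ b, ∑ i, A b i * B b i| ≤ √(sqn A) * √(sqn B) := by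
  rw [← sqrt_mul (sqn_nonneg A), ← sqrt_sq_eq_abs]
  refine sqrt_le_sqrt ?_
  simp only [sqn]
  rw [← Fintype.sum_prod_type', ← Fintype.sum_prod_type', ← Fintype.sum_prod_type']
  exact sum_mul_sq_le_sq_mul_sq _ _ _

theorem sqn_outer (u : Fin n → ℝ) : sqn (fun b i => u b * u i) = (∑ b, u b ^ 2) ^ 2 := by
  simp only [sqn, mul_pow, pow_two (∑ b, u b ^ 2), sum_mul_sum]

/-- The trace of a cube is at most the cube of the norm. -/
theorem triple_le (A : Fin n → Fin n → ℝ) :
    |∑ b, ∑ l, A b l * ∑ i, A b i * A i l| ≤ √(sqn A) ^ 3 := by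
  refine (mat_cs A fun b l => ∑ i, A b i * A i l).trans ?_
  rw [pow_succ, mul_comm (√(sqn A) ^ 2)]
  refine mul_le_mul_of_nonneg_left (sqrt_le_iff.2 ⟨sq_nonneg _, ?_⟩) (sqrt_nonneg _)
  rw [sq_sqrt (sqn_nonneg A)]
  refine (sum_le_sum fun b _ => sum_le_sum fun l _ => sum_mul_sq_le_sq_mul_sq _ _ _).trans (le_of_eq ?_)
  simp only [sqn, ← mul_sum, ← sum_mul, pow_two]
  rw [sum_comm (f := fun l i => A i l * A i l)]

/-- The quadratic inequality behind the bound. -/
theorem le_of_quadratic {F c d m : ℝ} (hF : 0 ≤ F) (hc : 0 < c) (hd : 0 ≤ d) (hm : 0 ≤ m)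
    (h : (c * F ^ 2) ^ 2 ≤ d * (F ^ 2 + m * c ^ 2 * F ^ 3)) : F ≤ m * d + √d / c := by
  by_contra hlt
  rw [not_le] at hlt
  have h0 : 0 ≤ √d / c := by positivity
  have hmd : 0 ≤ m * d := mul_nonneg hm hd
  have hF0 : 0 < F := lt_of_le_of_lt (add_nonneg hmd h0) hlt
  have h1 : c ^ 2 * F ^ 2 ≤ d + m * d * c ^ 2 * F := by
    refine le_of_mul_le_mul_left ?_ (pow_pos hF0 2)
    calc F ^ 2 * (c ^ 2 * F ^ 2) = (c * F ^ 2) ^ 2 := by ring
      _ ≤ d * (F ^ 2 + m * c ^ 2 * F ^ 3) := h
      _ = F ^ 2 * (d + m * d * c ^ 2 * F) := by ring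
  have h3 : √d < c * (F - m * d) := by
    have h4 : √d / c < F - m * d := by linarith
    rw [div_lt_iff₀ hc] at h4
    linarith
  have h5 : √d * √d = d := Real.mul_self_sqrt hd
  nlinarith [mul_lt_mul'' h3 h3 (sqrt_nonneg d) (sqrt_nonneg d),
    mul_nonneg hmd (le_of_lt (lt_of_le_of_lt (sqrt_nonneg d) h3)), mul_pos hc hc]

section Branch

variable (S : Leaf n) (hu : ∀ x, sdot (S.fld x) (S.fld x) = 1)
  {H : (Fin k → FieldIdx n → ℝ) → S.X → ℝ} (hH : LinB (wn n) H) (j : ℕ)
  (z : Fin k → FieldIdx n → ℝ)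

theorem sum_fld_sq (hu : ∀ x, sdot (S.fld x) (S.fld x) = 1) (x : S.X) : ∑ i, S.fld x i ^ 2 = 1 := by
  rw [← hu x]; simp only [sdot, pow_two]

include hH in
/-- Expectation of a bilinear form in the centred leaf vector. -/
theorem cnd_centered (A : Fin n → Fin n → ℝ) :
    cnd (gn n) S.μ H
        (fun _ x => ∑ b, ∑ i, A b i * ((S.fld x b - mv S H j b z) * (S.fld x i - mv S H j i z))) j z
      = ∑ b, ∑ i, A b i * cov S H j z b i := by
  have hc : ∀ c : ℝ, Tame (wn n) fun (_ : Fin k → FieldIdx n → ℝ) (_ : S.X) => c := fun c =>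
    Tame.of_bdd measurable_const (B := |c|) fun _ _ => le_rfl
  have ht : ∀ b, Tame (wn n) fun (_ : Fin k → FieldIdx n → ℝ) x => S.fld x b - mv S H j b z := fun b =>
    (tame_fld S b).sub (hc _)
  rw [cnd_finsum hH _ fun b _ => Tame.sum univ fun i _ => ((ht b).mul (ht i)).const_mul _]
  refine sum_congr rfl fun b _ => ?_
  rw [cnd_finsum hH _ fun i _ => ((ht b).mul (ht i)).const_mul _]
  refine sum_congr rfl fun i _ => ?_
  rw [cnd_const_mul]
  congr 1
  have e : (fun (_ : Fin k → FieldIdx n → ℝ) x => (S.fld x b - mv S H j b z) * (S.fld x i - mv S H j i z))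
      = fun _ x => (S.fld x b * S.fld x i - mv S H j b z * S.fld x i)
          - (mv S H j i z * S.fld x b - mv S H j b z * mv S H j i z) :=
    funext₂ fun _ x => by ring
  rw [e, cnd_sub hH (((tame_fld S b).mul (tame_fld S i)).sub ((tame_fld S i).const_mul _))
      (((tame_fld S b).const_mul _).sub (hc _)),
    cnd_sub hH ((tame_fld S b).mul (tame_fld S i)) ((tame_fld S i).const_mul _),
    cnd_sub hH ((tame_fld S b).const_mul _) (hc _), cnd_const_mul, cnd_const_mul, cnd_const hH]
  simp only [cov, mom2, mv]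
  ring

include hH in
/-- Expansion of a quadratic form in the mean vectors. -/
theorem quad_expand (u : Fin n → ℝ) {l : ℕ} :
    cnd (gn n) S.μ H (fun _ x => ∑ b, u b * S.fld x b) l z = ∑ b, u b * mv S H l b z := by
  rw [cnd_finsum hH _ fun b _ => (tame_fld S b).const_mul _]
  exact sum_congr rfl fun b _ => cnd_const_mul _ _ _

include hH in
/-- The derivative matrix dominates the covariance. -/
theorem xmat_ge (u : Fin n → ℝ) (hjk : j ≤ k) :
    lev k (j + 1) * ∑ b, ∑ i, u b * u i * cov S H j z b i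
      ≤ ∑ b, ∑ i, u b * u i * xmat S H j z b i := by
  have hφ : Tame (wn n) fun (_ : Fin k → FieldIdx n → ℝ) x => ∑ b, u b * S.fld x b :=
    Tame.sum univ fun b _ => (tame_fld S b).const_mul _
  have h := cndDer_self_ge (μ := S.μ) hH hφ hjk z
  have e1 : cnd (gn n) S.μ H (fun _ x => (∑ b, u b * S.fld x b) ^ 2) j z
      = ∑ b, ∑ i, u b * u i * mom2 S H j z b i := by
    have e : (fun (_ : Fin k → FieldIdx n → ℝ) x => (∑ b, u b * S.fld x b) ^ 2)
        = fun _ x => ∑ b, ∑ i, u b * u i * (S.fld x b * S.fld x i) := funext₂ fun _ x => by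
      rw [pow_two, sum_mul_sum]
      exact sum_congr rfl fun b _ => sum_congr rfl fun i _ => by ring
    rw [e, cnd_finsum hH _ fun b _ => Tame.sum univ fun i _ =>
      ((tame_fld S b).mul (tame_fld S i)).const_mul _]
    refine sum_congr rfl fun b _ => ?_
    rw [cnd_finsum hH _ fun i _ => ((tame_fld S b).mul (tame_fld S i)).const_mul _]
    exact sum_congr rfl fun i _ => cnd_const_mul _ _ _
  have e2 : ∀ l, cnd (gn n) S.μ H (fun z _ => cnd (gn n) S.μ H (fun _ x => ∑ b, u b * S.fld x b) l z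
        * cnd (gn n) S.μ H (fun _ x => ∑ b, u b * S.fld x b) l z) j z
      = ∑ b, ∑ i, u b * u i * cnd (gn n) S.μ H (fun z _ => mv S H l b z * mv S H l i z) j z := fun l => by
    have hm : ∀ b i, Tame (wn n) fun z (_ : S.X) => mv S H l b z * mv S H l i z := fun b i =>
      (cnd_tame hH (tame_fld S b) l).mul (cnd_tame hH (tame_fld S i) l)
    have e : (fun z (_ : S.X) => cnd (gn n) S.μ H (fun _ x => ∑ b, u b * S.fld x b) l z
        * cnd (gn n) S.μ H (fun _ x => ∑ b, u b * S.fld x b) l z)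
        = fun z _ => ∑ b, ∑ i, u b * u i * (mv S H l b z * mv S H l i z) := funext₂ fun z _ => by
      rw [quad_expand S hH z u, sum_mul_sum]
      exact sum_congr rfl fun b _ => sum_congr rfl fun i _ => by ring
    rw [e, cnd_finsum hH _ fun b _ => Tame.sum univ fun i _ => (hm b i).const_mul _]
    refine sum_congr rfl fun b _ => ?_
    rw [cnd_finsum hH _ fun i _ => (hm b i).const_mul _]
    exact sum_congr rfl fun i _ => cnd_const_mul _ _ _
  have e3 : cnd (gn n) S.μ H (fun _ x => ∑ b, u b * S.fld x b) j z ^ 2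
      = ∑ b, ∑ i, u b * u i * (mv S H j b z * mv S H j i z) := by
    rw [quad_expand S hH z u, pow_two, sum_mul_sum]
    exact sum_congr rfl fun b _ => sum_congr rfl fun i _ => by ring
  unfold cndDer at h
  simp only [zero_add, ← pow_two, e1, e3] at h
  simp only [pow_two] at h
  simp only [e2] at h
  simp only [cov, xmat, mul_sub, sum_sub_distrib, mul_sum] at h ⊢
  rw [sum_comm (s := Icc (j + 1) k)] at h
  simp only [sum_comm (s := Icc (j + 1) k), mul_left_comm (lev k (j + 1)),
    mul_left_comm (mass k)] at h ⊢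
  linarith

include hu hH in
theorem mean_sq_le_one : ∑ i, mv S H j i z ^ 2 ≤ 1 := mu2_le_one S hu hH j z

include hu hH in
/-- The norm of the covariance is at most one. -/
theorem cov_le_one : √(sqn (cov S H j z)) ≤ 1 := by
  set C := cov S H j z with hC
  set M' := fun i => mv S H j i z
  have hc : Tame (wn n) fun (_ : Fin k → FieldIdx n → ℝ) (_ : S.X) => ∑ i, M' i ^ 2 :=
    Tame.of_bdd measurable_const (B := |∑ i, M' i ^ 2|) fun _ _ => le_rfl
  have hb : ∀ b i, Tame (wn n) fun (_ : Fin k → FieldIdx n → ℝ) x =>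
      C b i * ((S.fld x b - M' b) * (S.fld x i - M' i)) := fun b i =>
    (((tame_fld S b).sub (Tame.of_bdd measurable_const (B := |M' b|) fun _ _ => le_rfl)).mul
      ((tame_fld S i).sub (Tame.of_bdd measurable_const (B := |M' i|) fun _ _ => le_rfl))).const_mul _
  have hv : ∀ i, Tame (wn n) fun (_ : Fin k → FieldIdx n → ℝ) x => (S.fld x i - M' i) ^ 2 := fun i =>
    (((tame_fld S i).sub (Tame.of_bdd measurable_const (B := |M' i|) fun _ _ => le_rfl)).mul
      ((tame_fld S i).sub (Tame.of_bdd measurable_const (B := |M' i|) fun _ _ => le_rfl))).congr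
      fun _ _ => (pow_two _).symm
  have h1 : sqn C ≤ √(sqn C) * cnd (gn n) S.μ H (fun _ x => ∑ i, (S.fld x i - M' i) ^ 2) j z := by
    have e : sqn C = cnd (gn n) S.μ H
        (fun _ x => ∑ b, ∑ i, C b i * ((S.fld x b - M' b) * (S.fld x i - M' i))) j z := by
      rw [cnd_centered S hH j z C]
      simp only [sqn, pow_two, ← hC]
    conv_lhs => rw [e]
    rw [← cnd_const_mul]
    refine cnd_mono hH (Tame.sum univ fun b _ => Tame.sum univ fun i _ => hb b i)
      ((Tame.sum univ fun i _ => hv i).const_mul _) (fun _ x => ?_) j z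
    refine (le_abs_self _).trans ((mat_cs C fun b i => (S.fld x b - M' b) * (S.fld x i - M' i)).trans
      (le_of_eq ?_))
    rw [sqn_outer, sqrt_sq (sum_nonneg fun i _ => sq_nonneg _)]
  have h2 : cnd (gn n) S.μ H (fun _ x => ∑ i, (S.fld x i - M' i) ^ 2) j z = 1 - ∑ i, M' i ^ 2 := by
    have e : (fun (_ : Fin k → FieldIdx n → ℝ) x => ∑ i, (S.fld x i - M' i) ^ 2)
        = fun _ x => (1 + ∑ i, M' i ^ 2) - ∑ i, (2 * M' i) * S.fld x i := funext₂ fun _ x => by
      rw [← sum_fld_sq S hu x, ← sum_add_distrib, ← sum_sub_distrib]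
      exact sum_congr rfl fun i _ => by ring
    rw [e, cnd_sub hH (Tame.of_bdd measurable_const (B := |1 + ∑ i, M' i ^ 2|) fun _ _ => le_rfl)
      (Tame.sum univ fun i _ => (tame_fld S i).const_mul _), cnd_const hH,
      cnd_finsum hH _ fun i _ => (tame_fld S i).const_mul _]
    simp only [cnd_const_mul]
    rw [show (1 : ℝ) - ∑ i, M' i ^ 2 = (1 + ∑ i, M' i ^ 2) - ∑ i, 2 * M' i * M' i by
      have : ∑ i, 2 * M' i * M' i = 2 * ∑ i, M' i ^ 2 := by
        rw [mul_sum]; exact sum_congr rfl fun i _ => by ring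
      linarith]
    rfl
  rw [h2] at h1
  rcases eq_or_lt_of_le (sqrt_nonneg (sqn C)) with h0 | h0
  · rw [← h0]; exact zero_le_one
  · have h3 := Real.mul_self_sqrt (sqn_nonneg C)
    have h4 : 0 ≤ ∑ i, M' i ^ 2 := sum_nonneg fun i _ => sq_nonneg _
    nlinarith

end Branch

/-- The derivative matrix is small when the increment is. -/
theorem xmat_le (S : Leaf n) (hu : ∀ x, sdot (S.fld x) (S.fld x) = 1) (hm : Measurable f)
    (hL : ∀ u, |f u| ≤ L) {N : ℝ} (σ β : ℕ → ℝ) (g : Fin M → Fin n → ℝ) (a : Fin k)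
    (hc : 0 < σ ((a : ℕ) + 1) * √N) (z : Fin k → FieldIdx n → ℝ) :
    √(sqn (xmat S (ham S f N σ β g) a z))
      ≤ lev k ((a : ℕ) + 1) * (cnd (gn n) S.μ (ham S f N σ β g)
          (fun z _ => mu2 S (ham S f N σ β g) ((a : ℕ) + 1) z) a z - mu2 S (ham S f N σ β g) a z)
        + √(cnd (gn n) S.μ (ham S f N σ β g)
          (fun z _ => mu2 S (ham S f N σ β g) ((a : ℕ) + 1) z) a z - mu2 S (ham S f N σ β g) a z)
          / (σ ((a : ℕ) + 1) * √N) := by
  set H := ham (k := k) S f N σ β g with hHdef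
  set j := (a : ℕ) with hjdef
  have hH : LinB (wn n) H := ham_linB S hm hL N σ β g
  have hjk : j < k := a.2
  set c := σ (j + 1) * √N with hcdef
  set m := lev k (j + 1) with hmdef
  set X := xmat S H j z with hXdef
  set M' := fun b => mv S H j b z with hM'
  set μc := fun i => c * m * M' i with hμc
  have hconst : ∀ c : ℝ, Tame (wn n) fun (_ : Fin k → FieldIdx n → ℝ) (_ : S.X) => c := fun c =>
    Tame.of_bdd measurable_const (B := |c|) fun _ _ => le_rfl
  have hmass : mass k * (((k + 1 - (j + 1) : ℕ)) : ℝ) = 1 - m := by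
    rw [hmdef, Nat.cast_sub (by omega)]; unfold mass lev; push_cast; field_simp
  -- first moments
  have I1 : ∀ i b, cnd (gn n) S.μ H (fun z x => z a (.inl i) * S.fld x b) j z
      = c * (X b i + m * (M' b * M' i)) := fun i b => by
    rw [field_coord_ibp S hm hL N σ β g a i b le_rfl z]
    simp only [hXdef, xmat, mom2, hM', ← hHdef, ← hjdef, ← hmdef, ← hcdef]
    ring
  have I3 : ∀ i, cnd (gn n) S.μ H (fun z _ => z a (.inl i)) j z = μc i := fun i => by
    have h := cnd_ibp (μ := S.μ) (H := H) (φ := fun _ _ => (1 : ℝ)) (dH := fun _ x => c * S.fld x i)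
      (dφ := fun _ _ => 0) (.inl i) a hH (hconst 1) ((tame_fld S i).const_mul c) (hconst 0)
      (fun z x => ham_upd_deriv S f N σ β g a i z x) (fun z x => hasDerivAt_const _ _) le_rfl z
    simp only [mul_one, one_mul, zero_add, cnd_const hH, cnd_const_mul] at h
    rw [h, sum_congr rfl fun l hl => by
      rw [cnd_tower hH (by have := (mem_Icc.1 hl).1; omega : j ≤ l)], sum_const, Nat.card_Icc,
      nsmul_eq_mul, ← mul_assoc, hmass]
    simp only [hμc, hM', mv]
    ring
  -- second moments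
  have I2 : ∀ i l, cnd (gn n) S.μ H (fun z _ => z a (.inl i) * z a (.inl l)) j z
      = (if i = l then 1 else 0) + m * c * (c * (X i l + m * (M' i * M' l))) := fun i l => by
    have hd : Tame (wn n) fun (_ : Fin k → FieldIdx n → ℝ) (_ : S.X) => if i = l then (1 : ℝ) else 0 :=
      hconst _
    have h := cnd_ibp (μ := S.μ) (H := H) (φ := fun z _ => z a (.inl l)) (dH := fun _ x => c * S.fld x i)
      (dφ := fun _ _ => if i = l then (1 : ℝ) else 0) (.inl i) a hH (tame_z S a (.inl l))
      ((tame_fld S i).const_mul c) hd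
      (fun z x => ham_upd_deriv S f N σ β g a i z x) (fun z x => by
        by_cases hil : i = l
        · subst hil
          simp only [Function.update_self, if_true]
          exact hasDerivAt_id _
        · simp only [if_neg hil, Function.update_self,
            Function.update_of_ne (show (Sum.inl l : FieldIdx n) ≠ .inl i by simpa using Ne.symm hil)]
          exact hasDerivAt_const _ _) le_rfl z
    rw [h, cnd_add hH hd ((tame_z S a (.inl l)).mul ((tame_fld S i).const_mul c)), cnd_const hH]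
    have hup : ∀ r, j + 1 ≤ r → ∀ z', cnd (gn n) S.μ H (fun z _ => z a (.inl l)) r z' = z' a (.inl l) :=
      fun r hr z' => cnd_const_fun hH (c := fun z : Fin k → FieldIdx n → ℝ => z a (.inl l))
        (fun z z' h => congrFun (h a (by omega)) _) z'
    have e : ∀ r ∈ Icc (j + 1) k, cnd (gn n) S.μ H (fun z _ =>
        cnd (gn n) S.μ H (fun z _ => z a (.inl l)) r z * cnd (gn n) S.μ H (fun _ x => c * S.fld x i) r z) j z
        = cnd (gn n) S.μ H (fun z x => z a (.inl l) * (c * S.fld x i)) j z := fun r hr => by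
      have hr1 := (mem_Icc.1 hr).1
      rw [← cnd_tower (φ := fun (z : Fin k → FieldIdx n → ℝ) x => z a (.inl l) * (c * S.fld x i)) hH (show j ≤ r by omega)]
      refine congrArg (fun φ => cnd (gn n) S.μ H φ j z) (funext₂ fun z' _ => ?_)
      rw [hup r hr1 z', cnd_pull (c := fun z : Fin k → FieldIdx n → ℝ => z a (.inl l)) (fun z z' h => congrFun (h a (by omega)) _) z']
    rw [sum_congr rfl e, sum_const, Nat.card_Icc, nsmul_eq_mul, ← mul_assoc, hmass]
    have e2 : cnd (gn n) S.μ H (fun z x => z a (.inl l) * (c * S.fld x i)) j z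
        = c * (c * (X i l + m * (M' i * M' l))) := by
      rw [← I1 l i, ← cnd_const_mul]
      exact congrArg (fun φ => cnd (gn n) S.μ H φ j z) (funext₂ fun z x => by ring)
    rw [e2]
    ring
  -- the two vectors
  set F := sqn X
  set d := cnd (gn n) S.μ H (fun z _ => mu2 S H (j + 1) z) j z - mu2 S H j z with hd
  have tmv : ∀ b, Tame (wn n) fun (z : Fin k → FieldIdx n → ℝ) (_ : S.X) => mv S H (j + 1) b z := fun b =>
    cnd_tame hH (tame_fld S b) (j + 1)
  have tu : ∀ b, Tame (wn n) fun (z : Fin k → FieldIdx n → ℝ) (_ : S.X) => mv S H (j + 1) b z - M' b := fun b =>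
    (tmv b).sub (hconst _)
  have tξ : ∀ i, Tame (wn n) fun (z : Fin k → FieldIdx n → ℝ) (_ : S.X) => z a (.inl i) - μc i := fun i =>
    (tame_z S a (.inl i)).sub (hconst _)
  have tv : ∀ b, Tame (wn n) fun (z : Fin k → FieldIdx n → ℝ) (_ : S.X) => ∑ i, X b i * (z a (.inl i) - μc i) := fun b =>
    Tame.sum univ fun i _ => (tξ i).const_mul _
  have Euu : cnd (gn n) S.μ H (fun z _ => ∑ b, (mv S H (j + 1) b z - M' b) ^ 2) j z = d := by
    have e : (fun (z : Fin k → FieldIdx n → ℝ) (_ : S.X) => ∑ b, (mv S H (j + 1) b z - M' b) ^ 2)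
        = fun z' _ => (mu2 S H (j + 1) z' + mu2 S H j z) - ∑ b, (2 * M' b) * mv S H (j + 1) b z' :=
      funext₂ fun z _ => by
        simp only [mu2, hM']
        rw [← sum_add_distrib, ← sum_sub_distrib]
        exact sum_congr rfl fun b _ => by ring
    rw [e, cnd_sub hH ((tame_mu2 S hH (j + 1)).add (hconst _))
      (Tame.sum univ fun b _ => (tmv b).const_mul _),
      cnd_add hH (tame_mu2 S hH (j + 1)) (hconst _), cnd_const hH,
      cnd_finsum hH _ fun b _ => (tmv b).const_mul _]
    simp only [cnd_const_mul, mv, cnd_tower hH (Nat.le_succ j), hd]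
    have : ∑ b, 2 * M' b * M' b = 2 * mu2 S H j z := by
      simp only [mu2, hM', mul_sum]; exact sum_congr rfl fun b _ => by ring
    simp only [hM', mv] at this ⊢
    linarith
  have Euv : cnd (gn n) S.μ H (fun z _ => ∑ b, (mv S H (j + 1) b z - M' b) *
      ∑ i, X b i * (z a (.inl i) - μc i)) j z = c * F := by
    have hx : ∀ b i, cnd (gn n) S.μ H (fun z _ => (mv S H (j + 1) b z - M' b) * (z a (.inl i) - μc i)) j z
        = c * X b i := fun b i => by
      have e : (fun (z : Fin k → FieldIdx n → ℝ) (_ : S.X) => (mv S H (j + 1) b z - M' b) * (z a (.inl i) - μc i))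
          = fun z _ => (z a (.inl i) * mv S H (j + 1) b z - μc i * mv S H (j + 1) b z)
            - (M' b * z a (.inl i) - M' b * μc i) := funext₂ fun z _ => by ring
      rw [e, cnd_sub hH (((tame_z S a (.inl i)).mul (tmv b)).sub
          ((tmv b).const_mul _))
          (((tame_z S a (.inl i)).const_mul _).sub (hconst _)),
        cnd_sub hH ((tame_z S a (.inl i)).mul (tmv b))
          ((tmv b).const_mul _),
        cnd_sub hH ((tame_z S a (.inl i)).const_mul _) (hconst _), cnd_const_mul, cnd_const_mul,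
        cnd_const hH, I3 i]
      have e1 : cnd (gn n) S.μ H (fun z _ => z a (.inl i) * mv S H (j + 1) b z) j z
          = c * (X b i + m * (M' b * M' i)) := by
        rw [← I1 i b, ← cnd_tower (φ := fun (z : Fin k → FieldIdx n → ℝ) x => z a (.inl i) * S.fld x b) hH (Nat.le_succ j)]
        refine congrArg (fun φ => cnd (gn n) S.μ H φ j z) (funext₂ fun z' _ => ?_)
        exact (cnd_pull (c := fun z : Fin k → FieldIdx n → ℝ => z a (.inl i)) (fun z z' h => congrFun (h a (by omega)) _) z').symm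
      rw [e1]
      simp only [mv, cnd_tower hH (Nat.le_succ j), hμc, hM']
      ring
    simp only [mul_sum]
    rw [cnd_finsum hH _ fun b _ => Tame.sum univ fun i _ => (tu b).mul ((tξ i).const_mul _)]
    simp only [F, sqn, mul_sum]
    refine sum_congr rfl fun b _ => ?_
    rw [cnd_finsum hH _ fun i _ => (tu b).mul ((tξ i).const_mul _)]
    refine sum_congr rfl fun i _ => ?_
    rw [show c * X b i ^ 2 = X b i * (c * X b i) by ring, ← hx b i, ← cnd_const_mul]
    exact congrArg (fun φ => cnd (gn n) S.μ H φ j z) (funext₂ fun z x => by ring)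
  have Evv : cnd (gn n) S.μ H (fun z _ => ∑ b, (∑ i, X b i * (z a (.inl i) - μc i)) ^ 2) j z
      = F + m * c ^ 2 * ∑ b, ∑ l, X b l * ∑ i, X b i * X i l := by
    have hx : ∀ i l, cnd (gn n) S.μ H (fun z _ => (z a (.inl i) - μc i) * (z a (.inl l) - μc l)) j z
        = (if i = l then 1 else 0) + m * c ^ 2 * X i l := fun i l => by
      have e : (fun (z : Fin k → FieldIdx n → ℝ) (_ : S.X) => (z a (.inl i) - μc i) * (z a (.inl l) - μc l))
          = fun z _ => (z a (.inl i) * z a (.inl l) - μc l * z a (.inl i))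
            - (μc i * z a (.inl l) - μc i * μc l) := funext₂ fun z _ => by ring
      rw [e, cnd_sub hH (((tame_z S a (.inl i)).mul (tame_z S a (.inl l))).sub
          ((tame_z S a (.inl i)).const_mul _)) (((tame_z S a (.inl l)).const_mul _).sub (hconst _)),
        cnd_sub hH ((tame_z S a (.inl i)).mul (tame_z S a (.inl l))) ((tame_z S a (.inl i)).const_mul _),
        cnd_sub hH ((tame_z S a (.inl l)).const_mul _) (hconst _), cnd_const_mul, cnd_const_mul,
        cnd_const hH, I3 i, I3 l, I2 i l]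
      simp only [hμc]
      ring
    have e : (fun (z : Fin k → FieldIdx n → ℝ) (_ : S.X) => ∑ b, (∑ i, X b i * (z a (.inl i) - μc i)) ^ 2)
        = fun z _ => ∑ b, ∑ l, ∑ i, X b l * X b i * ((z a (.inl i) - μc i) * (z a (.inl l) - μc l)) :=
      funext₂ fun z _ => sum_congr rfl fun b _ => by
        rw [pow_two, sum_mul_sum]
        exact sum_congr rfl fun l _ => sum_congr rfl fun i _ => by ring
    rw [e, cnd_finsum hH _ fun b _ => Tame.sum univ fun l _ => Tame.sum univ fun i _ =>
      ((tξ i).mul (tξ l)).const_mul _]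
    simp only [F, sqn, mul_sum, ← sum_add_distrib]
    refine sum_congr rfl fun b _ => ?_
    rw [cnd_finsum hH _ fun l _ => Tame.sum univ fun i _ => ((tξ i).mul (tξ l)).const_mul _]
    refine sum_congr rfl fun l _ => ?_
    rw [cnd_finsum hH _ fun i _ => ((tξ i).mul (tξ l)).const_mul _]
    simp only [cnd_const_mul, hx, mul_add, sum_add_distrib, mul_ite, mul_one, mul_zero, sum_ite_eq',
      mem_univ, if_true, pow_two]
    exact congrArg _ (sum_congr rfl fun i _ => by ring)
  -- the discriminant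
  set V := F + m * c ^ 2 * ∑ b, ∑ l, X b l * ∑ i, X b i * X i l
  have hdis : (c * F) ^ 2 ≤ d * V := by
    have hq : ∀ s : ℝ, 0 ≤ d * (s * s) + (-2 * (c * F)) * s + V := fun s => by
      have h0 := cnd_nonneg (γ := gn n) (μ := S.μ) (H := H) (φ := fun z _ =>
        ∑ b, (s * (mv S H (j + 1) b z - M' b) - ∑ i, X b i * (z a (.inl i) - μc i)) ^ 2)
        (fun z _ => sum_nonneg fun b _ => sq_nonneg _) j z
      have e : (fun (z : Fin k → FieldIdx n → ℝ) (_ : S.X) =>
          ∑ b, (s * (mv S H (j + 1) b z - M' b) - ∑ i, X b i * (z a (.inl i) - μc i)) ^ 2)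
          = fun z _ => (s ^ 2 * ∑ b, (mv S H (j + 1) b z - M' b) ^ 2
            + (-2 * s) * ∑ b, (mv S H (j + 1) b z - M' b) * ∑ i, X b i * (z a (.inl i) - μc i))
            + ∑ b, (∑ i, X b i * (z a (.inl i) - μc i)) ^ 2 := funext₂ fun z _ => by
        rw [mul_sum, mul_sum, ← sum_add_distrib, ← sum_add_distrib]
        exact sum_congr rfl fun b _ => by ring
      have t1 : Tame (wn n) fun (z : Fin k → FieldIdx n → ℝ) (_ : S.X) => ∑ b, (mv S H (j + 1) b z - M' b) ^ 2 :=
        Tame.sum univ fun b _ => ((tu b).mul (tu b)).congr fun _ _ => (pow_two _).symm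
      have t2 : Tame (wn n) fun (z : Fin k → FieldIdx n → ℝ) (_ : S.X) =>
          ∑ b, (mv S H (j + 1) b z - M' b) * ∑ i, X b i * (z a (.inl i) - μc i) :=
        Tame.sum univ fun b _ => (tu b).mul (tv b)
      have t3 : Tame (wn n) fun (z : Fin k → FieldIdx n → ℝ) (_ : S.X) => ∑ b, (∑ i, X b i * (z a (.inl i) - μc i)) ^ 2 :=
        Tame.sum univ fun b _ => ((tv b).mul (tv b)).congr fun _ _ => (pow_two _).symm
      rw [e, cnd_add hH ((t1.const_mul _).add (t2.const_mul _)) t3,
        cnd_add hH (t1.const_mul _) (t2.const_mul _), cnd_const_mul, cnd_const_mul, Euu, Euv, Evv] at h0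
      linarith
    have := discrim_le_zero hq
    rw [discrim] at this
    linarith
  have hd0 : 0 ≤ d := sub_nonneg.2 (mu2_le S hH (Nat.le_succ j) z)
  refine le_of_quadratic (sqrt_nonneg _) hc hd0 (lev_nonneg _) ?_
  rw [sq_sqrt (sqn_nonneg X)]
  refine hdis.trans (mul_le_mul_of_nonneg_left (add_le_add le_rfl ?_) hd0)
  exact mul_le_mul_of_nonneg_left ((le_abs_self _).trans (triple_le X))
    (mul_nonneg (lev_nonneg _) (sq_nonneg c))

end Vale.Agent.P157.Rsb.Lf
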