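import Vale.Agent.P157.Rsb.SyncBranch
import Vale.Agent.P157.Rsb.Reg

/-!
# P157: overlaps at all branch levels from the fluctuations of the field energies

After averaging over the patterns the increments telescope along the path, so the error is at most
`8 / √(k + 1)`, a term of order `N ^ (-1 / 2)` and the mean fluctuations of the field energies.
-/

open MeasureTheory ProbabilityTheory Real Finset

namespace Vale.Agent.P157.Rsb.Lf

variable {n M k : ℕ} {f : ℝ → ℝ} {L : ℝ}

/-- The energy fluctuation of the level `j + 1` against its predicted mean; zero beyond the levels. -/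
noncomputable def devAt (S : Leaf n) (N : ℝ) (σ τ : ℕ → ℝ) (k j : ℕ) :
    (Fin k → FieldIdx n → ℝ) → S.X → ℝ :=
  if h : j < k then devObs S N (σ (j + 1) * (1 - τ (j + 1))) ⟨j, h⟩ else fun _ _ => 0

theorem tame_devAt (S : Leaf n) (N : ℝ) (σ τ : ℕ → ℝ) (j : ℕ) :
    Tame (wn n) (devAt S N σ τ k j) := by
  unfold devAt
  split_ifs
  · exact tame_devObs S N _ _
  · exact tame_const_fun S 0

theorem devAt_nonneg (S : Leaf n) (N : ℝ) (σ τ : ℕ → ℝ) (j : ℕ) (z : Fin k → FieldIdx n → ℝ)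
    (x : S.X) : 0 ≤ devAt S N σ τ k j z x := by
  unfold devAt devObs
  split_ifs
  · exact abs_nonneg _
  · exact le_rfl

/-- The mean fluctuation of the energy of the level `j + 1` around its mean. -/
noncomputable def fluct (S : Leaf n) (f : ℝ → ℝ) (M k : ℕ) (N : ℝ) (σ β : ℕ → ℝ) (j : ℕ) : ℝ :=
  gib (k := k) S f M N σ β fun _ => devAt S N σ (tail k (qOf S f M k N σ β)) k j

theorem fluct_nonneg (S : Leaf n) (f : ℝ → ℝ) (M k : ℕ) (N : ℝ) (σ β : ℕ → ℝ) (j : ℕ) :
    0 ≤ fluct S f M k N σ β j :=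
  integral_nonneg fun _ => cnd_nonneg (fun z x => devAt_nonneg S N σ _ j z x) _ _

/-- Root expectations of a fixed observable are integrable in the patterns. -/
theorem root_integrable (S : Leaf n) (hm : Measurable f) (hL : ∀ u, |f u| ≤ L) (N : ℝ) (σ β : ℕ → ℝ)
    {φ : (Fin k → FieldIdx n → ℝ) → S.X → ℝ} (hφ : Tame (wn n) φ) :
    Integrable (fun g => cnd (gn n) S.μ (ham S f N σ β g) φ 0 fun _ _ => 0) (patterns M n) := by
  obtain ⟨A, hA, hb⟩ := ham_bound (M := M) (k := k) S hL N β (∑ l : Fin k, |σ ((l : ℕ) + 1)|)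
  obtain ⟨D, hD, hd⟩ := hφ.bound
  obtain ⟨A', -, hA'⟩ := cnd_bound_unif (k := k) (μ := S.μ) (wn n) (show 0 ≤ A + D by positivity)
  refine Integrable.of_bound (cnd_measurable_param_at (φ := fun _ => φ) (ham_meas S hm N σ β) ?_ 0
    _).aestronglyMeasurable (A' * exp (A' * (wn n).tot fun (_ : Fin k) _ => 0))
    (ae_of_all _ fun g => (Real.norm_eq_abs _).trans_le (hA' _ _ (ham_meas_right S hm N σ β g) hφ.meas
      (fun z x => (hb σ (fun l => single_le_sum (f := fun l : Fin k => |σ ((l : ℕ) + 1)|)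
        (fun _ _ => abs_nonneg _) (mem_univ l)) g z x).trans (mul_le_mul_of_nonneg_right (by linarith)
        (by linarith [(wn n).tot_nonneg z])))
      (fun z x => Tame.mono_bound hD (by linarith) hd z x) 0 _))
  exact hφ.meas.comp ((measurable_snd.comp measurable_fst).prodMk measurable_snd)

theorem tail_step (q : ℕ → ℝ) {j : ℕ} (hj : j ≤ k) :
    mass k * q j = tail k q j - tail k q (j + 1) := by
  rw [tail, tail, ← add_sum_Ioc_eq_sum_Icc hj,
    show Ioc j k = Icc (j + 1) k from Finset.ext fun l => by simp only [mem_Ioc, mem_Icc]; omega]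
  ring

theorem tail_dev (S : Leaf n) (hu : ∀ x, sdot (S.fld x) (S.fld x) = 1) (hm : Measurable f)
    (hL : ∀ u, |f u| ≤ L) {N : ℝ} (hN : 0 < N) (σ β : ℕ → ℝ) {η : ℝ} (hη : 0 < η)
    (hσ : ∀ l : Fin k, η ≤ σ ((l : ℕ) + 1)) (g : Fin M → Fin n → ℝ) (q : ℕ → ℝ) {j : ℕ} (hj : j ≤ k)
    (z : Fin k → FieldIdx n → ℝ) :
    |condTail S (ham S f N σ β g) j z - tail k q (j + 1)|
      ≤ η⁻¹ * cnd (gn n) S.μ (ham S f N σ β g) (devAt S N σ (tail k q) k j) j z := by
  rcases lt_or_eq_of_le hj with h | rfl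
  · have h0 := condTail_dev S hu hm hL hN σ β g ⟨j, h⟩ (hη.trans_le (hσ ⟨j, h⟩)) (tail k q (j + 1)) z
    refine h0.trans ?_
    rw [devAt, dif_pos h]
    exact mul_le_mul_of_nonneg_right (inv_anti₀ hη (hσ ⟨j, h⟩))
      (cnd_nonneg (fun z x => abs_nonneg _) _ _)
  · have e : Icc (j + 1) j = ∅ := Icc_eq_empty (by omega)
    simp only [condTail, tail, e, sum_empty, mul_zero, sub_zero, abs_zero]
    exact mul_nonneg (inv_nonneg.2 hη.le) (cnd_nonneg (fun z x => devAt_nonneg S N σ _ j z x) _ _)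

theorem tame_pairCnd (S : Leaf n) {H : (Fin k → FieldIdx n → ℝ) → S.X → ℝ} (hH : LinB (wn n) H)
    {ψ : S.X → S.X → ℝ} (hψm : Measurable (Function.uncurry ψ)) {B : ℝ} (hψ : ∀ x y, |ψ x y| ≤ B)
    (j : ℕ) :
    Tame (wn n) fun z (_ : S.X) => pairCnd (gn n) S.μ H (fun _ x _ y => ψ x y) j z := by
  have hP := measurable_pairCnd (Q := Unit) (γ := gn n) (μ := S.μ) (H := fun _ => H) (Ψ := fun _ => ψ)
    (hH.meas.comp ((measurable_snd.comp measurable_fst).prodMk measurable_snd))
    (hψm.comp (measurable_snd : Measurable (Prod.snd : Unit × S.X × S.X → S.X × S.X))) j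
  refine Tame.of_bdd (hP.comp (f := fun p : (Fin k → FieldIdx n → ℝ) × S.X => ((), p.1)) (by fun_prop))
    (B := B) fun z _ => ?_
  exact cnd_abs_le hH (tame_inner S hH hψm hψ j z).meas
    (fun _ x => cnd_abs_le (φ := fun _ y => ψ x y) hH
      ((hψm.comp (measurable_prodMk_left (x := x))).comp measurable_snd) (fun _ y => hψ x y) j z) j z

/-- The error at one branch level given the levels up to it. -/
theorem level_err (S : Leaf n) (hu : ∀ x, sdot (S.fld x) (S.fld x) = 1) (hm : Measurable f)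
    (hL : ∀ u, |f u| ≤ L) {N : ℝ} (hN : 0 < N) (σ β : ℕ → ℝ) {η : ℝ} (hη : 0 < η)
    (hσ : ∀ l : Fin k, η ≤ σ ((l : ℕ) + 1)) (g : Fin M → Fin n → ℝ) {r : ℝ} (hr : 0 < r)
    (q : ℕ → ℝ) {j : ℕ} (hj : j < k) (hq : q j ≤ q (j + 1)) (z : Fin k → FieldIdx n → ℝ) :
    pairCnd (gn n) S.μ (ham S f N σ β g) (fun _ x _ y => |sdot (S.fld x) (S.fld y) - q j|) j z
      ≤ (3 * r / 2 + 1) * (cnd (gn n) S.μ (ham S f N σ β g)
            (fun z _ => mu2 S (ham S f N σ β g) (j + 1) z) j z - mu2 S (ham S f N σ β g) j z)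
        + ((3 * r / 2) * (((k : ℝ) + 1) / (η * √N)) + 1 / (2 * r) + (q (j + 1) - q j))
        + ((k : ℝ) + 1) / η * (cnd (gn n) S.μ (ham S f N σ β g) (devAt S N σ (tail k q) k j) j z
            + cnd (gn n) S.μ (ham S f N σ β g) (devAt S N σ (tail k q) k (j + 1)) j z) := by
  set H := ham (k := k) S f N σ β g with hHdef
  have hH : LinB (wn n) H := ham_linB S hm hL N σ β g
  have hs : η ≤ σ (j + 1) := hσ ⟨j, hj⟩
  have hsN : 0 < √N := Real.sqrt_pos.2 hN
  have hb := branch_dev S hu hm hL σ β g ⟨j, hj⟩ (mul_pos (hη.trans_le hs) hsN) hr (q j) z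
  simp only [← hHdef] at hb
  have hlev : 1 / (lev k (j + 1) * (σ (j + 1) * √N)) ≤ ((k : ℝ) + 1) / (η * √N) := by
    have hl : 1 / ((k : ℝ) + 1) ≤ lev k (j + 1) := by
      unfold lev
      gcongr
      exact_mod_cast Nat.le_add_left 1 j
    refine (one_div_le_one_div_of_le (by positivity) (mul_le_mul hl
      (mul_le_mul_of_nonneg_right hs hsN.le) (by positivity) (lev_nonneg _))).trans (le_of_eq ?_)
    field_simp
  set U := cnd (gn n) S.μ H (fun z _ => mu2 S H (j + 1) z) j z
  set μ := mu2 S H j z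
  have hd0 : 0 ≤ U - μ := sub_nonneg.2 (mu2_le S hH (Nat.le_succ _) z)
  have hU : mass k * (U - q (j + 1)) = (condTail S H j z - tail k q (j + 1))
      - (cnd (gn n) S.μ H (fun z _ => condTail S H (j + 1) z) j z - tail k q (j + 2)) := by
    rw [mul_sub, inc_eq_tails S hH hj z, tail_step q (show j + 1 ≤ k from hj)]
    ring
  have h1 := tail_dev S hu hm hL hN σ β hη hσ g q hj.le z
  simp only [← hHdef] at h1
  have hct : Tame (wn n) fun z (_ : S.X) => condTail S H (j + 1) z := by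
    unfold condTail
    exact (Tame.sum _ fun l _ => cnd_tame hH (tame_mu2 S hH l) (j + 1)).const_mul _
  have h2 : |cnd (gn n) S.μ H (fun z _ => condTail S H (j + 1) z) j z - tail k q (j + 2)|
      ≤ η⁻¹ * cnd (gn n) S.μ H (devAt S N σ (tail k q) k (j + 1)) j z := by
    have hd := tame_devAt (k := k) S N σ (tail k q) (j + 1)
    have hE : Tame (wn n) fun z (_ : S.X) =>
        η⁻¹ * cnd (gn n) S.μ H (devAt S N σ (tail k q) k (j + 1)) (j + 1) z :=
      (cnd_tame hH hd (j + 1)).const_mul _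
    have ht : Tame (wn n) fun z (_ : S.X) => condTail S H (j + 1) z - tail k q (j + 2) :=
      hct.sub (tame_const_fun S _)
    have hp := fun z' => abs_le.1 (tail_dev S hu hm hL hN σ β hη hσ g q (show j + 1 ≤ k from hj) z')
    simp only [← hHdef] at hp
    have up := cnd_mono (μ := S.μ) hH ht hE (fun z' _ => (hp z').2) j z
    have lo := cnd_mono (μ := S.μ) hH hE.neg ht (fun z' _ => (hp z').1) j z
    rw [cnd_sub hH hct (tame_const_fun S _), cnd_const hH, cnd_const_mul,
      cnd_tower hH (Nat.le_succ j)] at up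
    rw [cnd_sub hH hct (tame_const_fun S _), cnd_const hH] at lo
    simp only [← neg_mul] at lo
    rw [cnd_const_mul, cnd_tower hH (Nat.le_succ j)] at lo
    rw [abs_le]
    constructor <;> linarith
  have hmass : |U - q (j + 1)| = ((k : ℝ) + 1) * |mass k * (U - q (j + 1))| := by
    rw [abs_mul, abs_of_pos mass_pos]; unfold mass; field_simp
  have h4 : |U - q (j + 1)| ≤ ((k : ℝ) + 1) / η *
      (cnd (gn n) S.μ H (devAt S N σ (tail k q) k j) j z
        + cnd (gn n) S.μ H (devAt S N σ (tail k q) k (j + 1)) j z) := by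
    rw [hmass, hU, div_eq_mul_inv, mul_assoc, mul_add]
    exact mul_le_mul_of_nonneg_left ((abs_sub _ _).trans (add_le_add h1 h2)) (by positivity)
  have h3 : |μ - q j| ≤ (U - μ) + |U - q (j + 1)| + (q (j + 1) - q j) := by
    rw [abs_le]
    constructor <;> linarith [le_abs_self (U - q (j + 1)), neg_abs_le (U - q (j + 1))]
  have h5 := mul_le_mul_of_nonneg_left hlev (by positivity : 0 ≤ 3 * r / 2)
  linarith

/-- The mean error at one branch level. -/
theorem gib_err (S : Leaf n) (hu : ∀ x, sdot (S.fld x) (S.fld x) = 1) (hm : Measurable f)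
    (hL : ∀ u, |f u| ≤ L) {N : ℝ} (hN : 0 < N) (σ β : ℕ → ℝ) {η : ℝ} (hη : 0 < η)
    (hσ : ∀ l : Fin k, η ≤ σ ((l : ℕ) + 1)) {r : ℝ} (hr : 0 < r) {j : ℕ} (hj0 : 1 ≤ j) (hj : j < k) :
    gibPair (k := k) S f M N σ β j
        (fun _ x y => |sdot (S.fld x) (S.fld y) - qOf S f M k N σ β j|)
      ≤ (3 * r / 2 + 2) * (qOf S f M k N σ β (j + 1) - qOf S f M k N σ β j)
        + ((3 * r / 2) * (((k : ℝ) + 1) / (η * √N)) + 1 / (2 * r))
        + ((k : ℝ) + 1) / η * (fluct S f M k N σ β j + fluct S f M k N σ β (j + 1)) := by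
  set q := qOf S f M k N σ β with hq
  have hpath : IsPath k q := isPath_qOf S hu hm hL N σ β
  have hqj : q j ≤ q (j + 1) := hpath.2.1 j hj
  set c := (3 * r / 2) * (((k : ℝ) + 1) / (η * √N)) + 1 / (2 * r) + (q (j + 1) - q j) with hc
  have hψ : Measurable fun p : S.X × S.X => |sdot (S.fld p.1) (S.fld p.2) - q j| :=
    continuous_abs.measurable.comp ((meas_dot S).sub_const _)
  have hbd : ∀ x y, |(|sdot (S.fld x) (S.fld y) - q j|)| ≤ 1 + |q j| := fun x y =>
    (abs_abs _).trans_le ((abs_sub _ _).trans (by linarith [abs_dot_le S hu x y]))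
  set d := fun i => fun g : Fin M → Fin n → ℝ =>
    cnd (gn n) S.μ (ham (k := k) S f N σ β g) (devAt S N σ (tail k q) k i) 0 fun _ _ => 0
  set m := fun l => fun g : Fin M → Fin n → ℝ =>
    cnd (gn n) S.μ (ham (k := k) S f N σ β g) (fun z _ => mu2 S (ham S f N σ β g) l z) 0 fun _ _ => 0
  have hg : ∀ g : Fin M → Fin n → ℝ, cnd (gn n) S.μ (ham (k := k) S f N σ β g)
      (fun z _ => pairCnd (gn n) S.μ (ham S f N σ β g)
        (fun _ x _ y => |sdot (S.fld x) (S.fld y) - q j|) j z) 0 (fun _ _ => 0)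
      ≤ (3 * r / 2 + 1) * (m (j + 1) g - m j g) + c + ((k : ℝ) + 1) / η * (d j g + d (j + 1) g) :=
    fun g => by
    set H := ham (k := k) S f N σ β g with hHdef
    have hH : LinB (wn n) H := ham_linB S hm hL N σ β g
    have t1 : Tame (wn n) fun z (_ : S.X) =>
        cnd (gn n) S.μ H (fun z _ => mu2 S H (j + 1) z) j z := cnd_tame hH (tame_mu2 S hH _) j
    have t2 := fun i => cnd_tame (μ := S.μ) hH (tame_devAt (k := k) S N σ (tail k q) i) j
    have h := cnd_mono (μ := S.μ) hH (tame_pairCnd S hH (ψ := fun x y => |sdot (S.fld x) (S.fld y) - q j|) hψ hbd j)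
      ((((t1.sub (tame_mu2 S hH j)).const_mul _).add (tame_const_fun S c)).add
        (((t2 j).add (t2 (j + 1))).const_mul _))
      (fun z _ => level_err S hu hm hL hN σ β hη hσ g hr q hj hqj z) 0 fun _ _ => 0
    refine h.trans (le_of_eq ?_)
    rw [cnd_add hH (((t1.sub (tame_mu2 S hH j)).const_mul _).add (tame_const_fun S c))
        (((t2 j).add (t2 (j + 1))).const_mul _),
      cnd_add hH ((t1.sub (tame_mu2 S hH j)).const_mul _) (tame_const_fun S c), cnd_const hH,
      cnd_const_mul, cnd_const_mul, cnd_sub hH t1 (tame_mu2 S hH j), cnd_add hH (t2 j) (t2 (j + 1)),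
      cnd_tower hH (Nat.zero_le j), cnd_tower hH (Nat.zero_le j), cnd_tower hH (Nat.zero_le j)]
  have hd : ∀ i, Integrable (d i) (patterns M n) := fun i =>
    root_integrable S hm hL N σ β (tame_devAt S N σ _ i)
  have hmi : ∀ l, Integrable (m l) (patterns M n) := fun l => root_mu2_integrable S hm hL N σ β l
  have hpm : Measurable fun g : Fin M → Fin n → ℝ => cnd (gn n) S.μ (ham (k := k) S f N σ β g)
      (fun z _ => pairCnd (gn n) S.μ (ham S f N σ β g)
        (fun _ x _ y => |sdot (S.fld x) (S.fld y) - q j|) j z) 0 (fun _ _ => 0) :=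
    measurable_root_pair (γ := gn n) (μ := S.μ) (H := fun g => ham (k := k) S f N σ β g)
      (Ψ := fun _ x y => |sdot (S.fld x) (S.fld y) - q j|) (ham_meas S hm N σ β)
      (hψ.comp measurable_snd) j _
  have hpi := Integrable.of_bound (μ := patterns M n) hpm.aestronglyMeasurable (1 + |q j|)
    (ae_of_all _ fun g => (Real.norm_eq_abs _).trans_le
      (abs_root_pair_le (ψ := fun x y => |sdot (S.fld x) (S.fld y) - q j|) (ham_linB S hm hL N σ β g) hψ hbd j _))
  have hA := ((hmi (j + 1)).sub (hmi j)).const_mul (3 * r / 2 + 1)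
  have hB := ((hd j).add (hd (j + 1))).const_mul (((k : ℝ) + 1) / η)
  refine (integral_mono hpi ((hA.add (integrable_const c)).add hB) hg).trans (le_of_eq ?_)
  simp only [Pi.add_apply]
  rw [integral_add, integral_add, integral_const, probReal_univ, one_smul, integral_const_mul,
    integral_const_mul]
  · simp only [Pi.add_apply, Pi.sub_apply]
    rw [integral_sub (hmi (j + 1)) (hmi j), integral_add (hd j) (hd (j + 1))]
    simp only [m, d, fluct, gib, ← hq]
    rw [← qOf_eq S hm hL N σ β (show j + 1 ≠ 0 by omega),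
      ← qOf_eq S hm hL N σ β (show j ≠ 0 by omega), hc, hq]
    ring
  · exact hA
  · exact integrable_const _
  · exact hA.add (integrable_const c)
  · exact hB

theorem gib_err_top (S : Leaf n) (hu : ∀ x, sdot (S.fld x) (S.fld x) = 1) (hm : Measurable f)
    (hL : ∀ u, |f u| ≤ L) (N : ℝ) (σ β : ℕ → ℝ) (j : ℕ) {c : ℝ} (hc : |c| ≤ 1) :
    gibPair (k := k) S f M N σ β j (fun _ x y => |sdot (S.fld x) (S.fld y) - c|) ≤ 2 := by
  rw [gibPair, gib]
  refine (le_abs_self _).trans ((Real.norm_eq_abs _).symm.trans_le ((norm_integral_le_of_norm_le_const (μ := patterns M n) (C := (2 : ℝ))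
    (ae_of_all _ fun g => ?_)).trans (by rw [probReal_univ, mul_one])))
  exact (Real.norm_eq_abs _).trans_le (abs_root_pair_le (ham_linB S hm hL N σ β g)
    (ψ := fun x y => |sdot (S.fld x) (S.fld y) - c|)
    (continuous_abs.measurable.comp ((meas_dot S).sub_const _))
    (fun x y => (abs_abs _).trans_le ((abs_sub _ _).trans (by linarith [abs_dot_le S hu x y]))) j _)

/-- The total error from the fluctuations of the field energies. -/
theorem tot_le (S : Leaf n) (hu : ∀ x, sdot (S.fld x) (S.fld x) = 1) (hm : Measurable f)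
    (hL : ∀ u, |f u| ≤ L) {N : ℝ} (hN : 0 < N) (σ β : ℕ → ℝ) {η : ℝ} (hη : 0 < η)
    (hσ : ∀ l : Fin k, η ≤ σ ((l : ℕ) + 1)) :
    mass k * ∑ j ∈ Icc 0 k, gibPair (k := k) S f M N σ β j
        (fun _ x y => |sdot (S.fld x) (S.fld y) - qOf S f M k N σ β j|)
      ≤ 8 / √((k : ℝ) + 1) + 3 / 2 * √((k : ℝ) + 1) * ((k : ℝ) + 1) / (η * √N)
        + 2 / η * ∑ j ∈ range k, fluct S f M k N σ β j := by
  set r := √((k : ℝ) + 1) with hr
  have hr0 : 0 < r := Real.sqrt_pos.2 (by positivity)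
  have hr1 : 1 ≤ r := Real.one_le_sqrt.2 (by linarith [show (0 : ℝ) ≤ k from Nat.cast_nonneg k])
  have hrr : r * r = (k : ℝ) + 1 := Real.mul_self_sqrt (by positivity)
  set q := qOf S f M k N σ β with hq
  set F := fun j => fluct S f M k N σ β j
  set e := fun j => gibPair (k := k) S f M N σ β j (fun _ x y => |sdot (S.fld x) (S.fld y) - q j|)
  have hp : IsPath k q := isPath_qOf S hu hm hL N σ β
  have hF : ∀ j, 0 ≤ F j := fluct_nonneg S f M k N σ β
  set cN := (3 * r / 2) * (((k : ℝ) + 1) / (η * √N)) + 1 / (2 * r)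
  have hc0 : 0 ≤ cN := by positivity
  have hk1 : (0 : ℝ) ≤ ((k : ℝ) + 1) / η := by positivity
  have hmem : ∀ j ≤ k, |q j| ≤ 1 := fun j hj => by
    obtain ⟨h0, h1⟩ := path_mem hp hj
    rwa [abs_of_nonneg h0]
  have hb : ∀ j ∈ range k, e j ≤ (3 * r / 2 + 2) * (q (j + 1) - q j) + cN
      + ((k : ℝ) + 1) / η * (F j + F (j + 1)) + if j = 0 then 2 else 0 := fun j hj => by
    rw [mem_range] at hj
    rcases Nat.eq_zero_or_pos j with rfl | h0
    · have := gib_err_top S hu hm hL N σ β 0 (hmem 0 (Nat.zero_le _)) (M := M) (k := k)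
      rw [if_pos rfl]
      have h1 := mul_nonneg (by positivity : (0 : ℝ) ≤ 3 * r / 2 + 2) (sub_nonneg.2 (hp.2.1 0 hj))
      have h2 := mul_nonneg hk1 (add_nonneg (hF 0) (hF (0 + 1)))
      linarith
    · rw [if_neg (by omega), add_zero]
      exact gib_err S hu hm hL hN σ β hη hσ hr0 h0 hj
  have hlast : e k ≤ 2 := gib_err_top S hu hm hL N σ β k (hmem k le_rfl)
  have hsum : ∑ j ∈ Icc 0 k, e j ≤ 4 + (3 * r / 2 + 2) * 1 + (k : ℝ) * cN
      + 2 * (((k : ℝ) + 1) / η) * ∑ j ∈ range k, F j := by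
    rw [show Icc 0 k = insert k (range k) from Finset.ext fun l => by
      simp only [mem_insert, mem_range, mem_Icc]; omega, sum_insert (by simp)]
    refine (add_le_add hlast (sum_le_sum hb)).trans ?_
    rw [sum_add_distrib, sum_add_distrib, sum_add_distrib, ← mul_sum, sum_range_sub, sum_const,
      card_range, nsmul_eq_mul, ← mul_sum, sum_ite_eq', sum_add_distrib]
    have h1 : (3 * r / 2 + 2) * (q k - q 0) ≤ (3 * r / 2 + 2) * 1 :=
      mul_le_mul_of_nonneg_left (by rw [hp.1, sub_zero]; exact hp.2.2) (by positivity)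
    have h2 : ∑ j ∈ range k, F (j + 1) ≤ ∑ j ∈ range k, F j := by
      have ha := sum_range_succ' F k
      have hb' := sum_range_succ F k
      have hFk : F k = 0 := by
        simp only [F, fluct, gib, devAt, dif_neg (lt_irrefl k)]
        refine integral_eq_zero_of_ae (ae_of_all _ fun g => ?_)
        exact cnd_const (ham_linB S hm hL N σ β g) 0 0 _
      linarith [hF 0]
    have h3 := mul_le_mul_of_nonneg_left h2 hk1
    split_ifs <;> linarith
  refine (mul_le_mul_of_nonneg_left hsum mass_pos.le).trans ?_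
  have hmass : mass k = 1 / (r * r) := by rw [mass, hrr]
  have h1 : mass k * (k : ℝ) * cN ≤ cN :=
    mul_le_of_le_one_left hc0 (by rw [mass, one_div_mul_eq_div, div_le_one (by positivity)]; linarith)
  have h3 : mass k * (2 * (((k : ℝ) + 1) / η)) = 2 / η := by unfold mass; field_simp
  have h4 : mass k * (4 + (3 * r / 2 + 2) * 1) + 1 / (2 * r) ≤ 8 / r := by
    rw [hmass]
    field_simp
    nlinarith
  have h5 : 3 / 2 * r * ((k : ℝ) + 1) / (η * √N) = (3 * r / 2) * (((k : ℝ) + 1) / (η * √N)) := by ring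
  rw [h5]
  have hcN : cN = (3 * r / 2) * (((k : ℝ) + 1) / (η * √N)) + 1 / (2 * r) := rfl
  simp only [F] at h3 ⊢
  rw [mul_add, mul_add, ← mul_assoc (mass k) (k : ℝ) cN,
    ← mul_assoc (mass k) (2 * (((k : ℝ) + 1) / η)), h3]
  linarith

end Vale.Agent.P157.Rsb.Lf
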